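import Crest.Agent.R188.Defs2
import Crest.Agent.R183.Cohen

/-!
# rid 188, file `AppA`: approximate monic equations

Prefix helper lemmas with `aa_`.
-/

set_option autoImplicit false

open IsLocalRing Crest.Agent.R183

namespace Crest.Agent.R188

open MvPowerSeries

variable {C : Type} [CommRing C] [IsLocalRing C] [IsNoetherianRing C] [IsAdicComplete (maximalIdeal C) C] {d n : ℕ}

theorem aa_eval {A B : Type} [CommRing A] [CommRing B] (Φ : A →+* B) (x : B) {J : Ideal A}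
    {H : Polynomial A} (h : ∀ j, H.coeff j ∈ J) : Polynomial.eval₂ Φ x H ∈ J.map Φ := by
  rw [Polynomial.eval₂_eq_sum, Polynomial.sum_def]
  exact Ideal.sum_mem _ fun j _ => Ideal.mul_mem_right _ _ (Ideal.mem_map_of_mem _ (h j))

omit [IsNoetherianRing C] [IsAdicComplete (maximalIdeal C) C] in
theorem aa_idl_le : idl (X : Fin d → MvPowerSeries (Fin d) C) ≤ maximalIdeal _ := by
  rw [ps_maximal]; exact le_sup_right

omit [IsNoetherianRing C] [IsAdicComplete (maximalIdeal C) C] in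
theorem aa_trunc (K : ℕ) {F : Polynomial (MvPowerSeries (Fin n) C)} (hF : F.Monic) :
    ∃ G : Polynomial (MvPolynomial (Fin n) C), G.Monic ∧ G.natDegree = F.natDegree ∧
      ∀ j, (G.map MvPolynomial.coeToMvPowerSeries.ringHom - F).coeff j ∈ idl X ^ K := by
  classical
  have : Nontrivial (MvPowerSeries (Fin n) C ⧸ idl (X : Fin n → MvPowerSeries (Fin n) C) ^ (K + 1)) :=
    Ideal.Quotient.nontrivial_iff.2 fun h => (maximalIdeal.isMaximal _).ne_top
      (top_le_iff.1 (h.ge.trans ((Ideal.pow_le_self K.succ_ne_zero).trans aa_idl_le)))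
  have hs : Function.Surjective ((Ideal.Quotient.mk (idl (X : Fin n → MvPowerSeries (Fin n) C) ^ (K + 1))).comp
      (MvPolynomial.coeToMvPowerSeries.ringHom : MvPolynomial (Fin n) C →+* MvPowerSeries (Fin n) C)) := by
    intro y
    obtain ⟨φ, rfl⟩ := Ideal.Quotient.mk_surjective y
    refine ⟨MvPowerSeries.trunc' C (Finsupp.equivFunOnFinite.symm fun _ => K + 1) φ, ?_⟩
    rw [RingHom.comp_apply, Ideal.Quotient.eq]
    refine ps_mem_idl_pow _ _ fun β hβ => ?_
    rw [map_sub, MvPolynomial.coeToMvPowerSeries.ringHom_apply, MvPolynomial.coeff_coe,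
      MvPowerSeries.coeff_trunc', if_pos, sub_self]
    exact fun i => (Finsupp.le_degree i β).trans hβ.le
  obtain ⟨G, h1, h2, h3⟩ := Polynomial.lifts_and_natDegree_eq_and_monic
    ((Polynomial.mem_lifts _).2 (Polynomial.map_surjective _ hs _)) (hF.map (Ideal.Quotient.mk _))
  refine ⟨G, h3, h2.trans (hF.natDegree_map _), fun j => Ideal.pow_le_pow_right K.le_succ ?_⟩
  rw [← Ideal.Quotient.eq_zero_iff_mem, ← Polynomial.coeff_map, Polynomial.map_sub,
    Polynomial.map_map, h1, sub_self, Polynomial.coeff_zero]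

/-- If `𝔟 ≠ ⊤`, the ring `A / 𝔟` is finite over `C⟦Y⟧`, `Y ↦ t` (`ch_base`, `complete_quot`, `ps_complete`).  Take
monic equations of the `X i`, multiply by powers of the variable to get a common degree, and truncate the lower
coefficients below degree `K` (`MvPowerSeries.trunc'`/`ps_mem_idl_pow`). -/
theorem app_base (𝔟 : Ideal (MvPowerSeries (Fin d) C)) (t : Fin n → MvPowerSeries (Fin d) C)
    (ht : ∀ j, t j ∈ maximalIdeal (MvPowerSeries (Fin d) C)) {c : ℕ}
    (hc : maximalIdeal (MvPowerSeries (Fin d) C) ^ c ≤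
      𝔟 ⊔ (maximalIdeal C).map (MvPowerSeries.C : C →+* MvPowerSeries (Fin d) C) ⊔ idl t) :
    ∃ N : ℕ, 0 < N ∧ ∀ K : ℕ, ∃ G : Fin d → Polynomial (MvPolynomial (Fin n) C), ∀ i,
      (G i).Monic ∧ (G i).natDegree = N ∧
      Polynomial.eval₂ (MvPolynomial.eval₂Hom (MvPowerSeries.C : C →+* MvPowerSeries (Fin d) C) t) (X i) (G i) ∈
        𝔟 ⊔ idl t ^ K := by
  by_cases h𝔟 : 𝔟 = ⊤
  · exact ⟨1, one_pos, fun K => ⟨fun _ => Polynomial.X, fun i =>
      ⟨Polynomial.monic_X, Polynomial.natDegree_X, by simp [h𝔟]⟩⟩⟩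
  have : Nontrivial (MvPowerSeries (Fin d) C ⧸ 𝔟) := Ideal.Quotient.nontrivial_iff.2 h𝔟
  have : IsLocalRing (MvPowerSeries (Fin d) C ⧸ 𝔟) :=
    IsLocalRing.of_surjective' (Ideal.Quotient.mk 𝔟) Ideal.Quotient.mk_surjective
  have := ps_complete C d
  have := complete_quot 𝔟
  have hm := IsLocalRing.map_maximalIdeal_of_surjective (Ideal.Quotient.mk 𝔟)
    Ideal.Quotient.mk_surjective
  obtain ⟨Φ, hC, hX, hfin, -, -⟩ := ch_base (d := n) ((Ideal.Quotient.mk 𝔟).comp MvPowerSeries.C)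
    (fun b => by
      obtain ⟨g, rfl⟩ := Ideal.Quotient.mk_surjective b
      refine ⟨constantCoeff g, ?_⟩
      rw [RingHom.comp_apply, ← map_sub, ← hm]
      refine Ideal.mem_map_of_mem _ (aa_idl_le (pow_one (idl (X : Fin d → MvPowerSeries (Fin d) C)) ▸
        ps_mem_idl_pow 1 _ fun β hβ => ?_))
      obtain rfl : β = 0 := (Finsupp.degree_eq_zero_iff β).1 (by omega)
      simp)
    (x := fun j => Ideal.Quotient.mk 𝔟 (t j))
    (by
      rw [← Ideal.map_map, ← hm, ps_maximal]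
      exact Ideal.map_mono le_sup_left)
    (fun j => hm ▸ Ideal.mem_map_of_mem _ (ht j)) (c := c)
    (by
      rw [← hm, ← Ideal.map_pow]
      refine (Ideal.map_mono hc).trans_eq ?_
      rw [Ideal.map_sup, Ideal.map_sup, Ideal.map_quotient_self, bot_sup_eq, Ideal.map_map,
        rg2_idl_map])
  choose F F1 F2 using fun i => hfin.to_isIntegral (Ideal.Quotient.mk 𝔟 (X i))
  refine ⟨∑ i, (F i).natDegree + 1, Nat.succ_pos _, fun K => ?_⟩
  have hle : ∀ i, (F i).natDegree ≤ ∑ i, (F i).natDegree + 1 := fun i =>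
    (Finset.single_le_sum (f := fun i => (F i).natDegree) (fun _ _ => Nat.zero_le _)
      (Finset.mem_univ i)).trans (Nat.le_succ _)
  choose G G1 G2 G3 using fun i => aa_trunc K ((F1 i).mul
    (Polynomial.monic_X_pow (∑ i, (F i).natDegree + 1 - (F i).natDegree)))
  refine ⟨G, fun i => ⟨G1 i, ?_, ?_⟩⟩
  · rw [G2, (F1 i).natDegree_mul (Polynomial.monic_X_pow _), Polynomial.natDegree_X_pow,
      Nat.add_sub_cancel' (hle i)]
  have e : (Ideal.Quotient.mk 𝔟).comp (MvPolynomial.eval₂Hom MvPowerSeries.C t) =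
      Φ.comp MvPolynomial.coeToMvPowerSeries.ringHom :=
    MvPolynomial.ringHom_ext (fun w => by simp [hC]) fun j => by simp [hX]
  have e2 : (idl t ^ K).map (Ideal.Quotient.mk 𝔟) = (idl X ^ K).map Φ := by
    rw [Ideal.map_pow, Ideal.map_pow, ← rg2_idl_map, ← rg2_idl_map]
    simp only [hX]
  rw [sup_comm, ← Ideal.mem_quotient_iff_mem_sup, Polynomial.hom_eval₂, e, e2,
    ← Polynomial.eval₂_map]
  have h := aa_eval Φ (Ideal.Quotient.mk 𝔟 (X i)) (G3 i)
  rwa [Polynomial.eval₂_sub, Polynomial.eval₂_mul, F2, zero_mul, sub_zero] at h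

/-- Reduce the coefficients along `res` and push the equations along `a0`. -/
theorem appU_of {k : Type} [Field k] (res : C →+* k) (m : Mdl k d) (a0 : MvPowerSeries (Fin d) C →+* m.E)
    (hX : ∀ i, a0 (X i) = m.x i) (hC : ∀ w, a0 (MvPowerSeries.C w) = algebraMap k _ (res w)) {σ1 σ2 : m.E}
    (𝔟 : Ideal (MvPowerSeries (Fin d) C)) (h𝔟 : ∀ g ∈ 𝔟, a0 g ∈ Ideal.span {m.U, σ1, σ2})
    (t : Fin n → MvPowerSeries (Fin d) C) (ht : ∀ j, t j ∈ idl (X : Fin d → MvPowerSeries (Fin d) C)) {c : ℕ}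
    (hc : maximalIdeal (MvPowerSeries (Fin d) C) ^ c ≤
      𝔟 ⊔ (maximalIdeal C).map (MvPowerSeries.C : C →+* MvPowerSeries (Fin d) C) ⊔ idl t) :
    AppU m n σ1 σ2 := by
  obtain ⟨N, hN, h⟩ := app_base 𝔟 t (fun j => aa_idl_le (ht j)) hc
  refine ⟨N, fun K => ?_⟩
  obtain ⟨G, hG⟩ := h K
  have e1 : (idl X).map a0 = idl m.x := by
    rw [← rg2_idl_map]; simp only [hX]
  refine ⟨⟨fun j => a0 (t j), fun j => Ideal.mem_sup_left (e1 ▸ Ideal.mem_map_of_mem _ (ht j)), N, hN,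
    fun i => (G i).map (MvPolynomial.map res), fun i => Polynomial.natDegree_map_le.trans (hG i).2.1.le,
    fun i => ?_⟩, rfl, fun i => ?_⟩
  · rw [Polynomial.coeff_map, ← (hG i).2.1, (hG i).1.coeff_natDegree, map_one, map_one]
  have e : (MvPolynomial.aeval fun j => a0 (t j) : MvPolynomial (Fin n) k →ₐ[k] m.E).toRingHom.comp
      (MvPolynomial.map res) = a0.comp (MvPolynomial.eval₂Hom MvPowerSeries.C t) :=
    MvPolynomial.ringHom_ext (fun w => by simp [hC]) fun j => by simp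
  simp only [PD.val]
  rw [Polynomial.eval₂_map, e, ← hX, ← Polynomial.hom_eval₂]
  refine (?_ : (𝔟 ⊔ idl t ^ K).map a0 ≤ _) (Ideal.mem_map_of_mem _ (hG i).2.2)
  rw [Ideal.map_sup, Ideal.map_pow, ← rg2_idl_map]
  exact sup_le_sup_right (Ideal.map_le_iff_le_comap.2 h𝔟) _

end Crest.Agent.R188
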