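import Crest.Agent.R188.TorB

/-!
# rid 188, file `Dev`: dévissage for additive functions

Prefix helper lemmas with `dv_`.
-/

set_option autoImplicit false

open IsLocalRing Crest.Agent.R183

namespace Crest.Agent.R188

variable {R : Type} [CommRing R] [IsNoetherianRing R] {I : Ideal R} (φ : AddFn R I) {M Y : Type}
  [AddCommGroup M] [Module R M] [Module.Finite R M] [AddCommGroup Y] [Module R Y] [Module.Finite R Y]

omit [IsNoetherianRing R] [Module.Finite R M] in
theorem AddFn.zero [Subsingleton M] : φ.φ M = 0 := by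
  have := φ.add M M M 0 0 ⟨0, fun _ _ _ => Subsingleton.elim _ _⟩ (Function.injective_of_subsingleton _)
    (Function.surjective_to_subsingleton _) fun x => ⟨fun _ => ⟨x, Subsingleton.elim _ _⟩, fun _ => rfl⟩
  omega

omit [IsNoetherianRing R] [Module.Finite R Y] in
theorem AddFn.congr (hM : Kil I M) (e : M ≃ₗ[R] Y) : φ.φ M = φ.φ Y := by
  have := φ.add PUnit M Y 0 e.toLinearMap hM (Function.injective_of_subsingleton _) e.surjective
    fun x => ⟨fun h => ⟨0, (e.map_eq_zero_iff.1 h).symm⟩, by rintro ⟨_, rfl⟩; exact map_zero e⟩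
  rw [this, φ.zero, zero_add]

omit [IsNoetherianRing R] [Module.Finite R M] in
theorem dv_kil_pi (hM : Kil I M) (ι : Type) : Kil I (ι → M) := by
  obtain ⟨k, hk⟩ := hM
  exact ⟨k, fun y hy w => funext fun a => hk y hy (w a)⟩

theorem dv_count {α : Type} [DecidableEq α] (F : α → ℤ) (a : α) (l : List α) (h : ∀ b ∈ l, b ≠ a → F b = 0) :
    (l.map F).sum = l.count a * F a := by
  induction l with
  | nil => simp
  | cons b l ih =>
    rw [List.map_cons, List.sum_cons, ih fun c hc => h c (List.mem_cons_of_mem _ hc)]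
    by_cases hb : b = a
    · subst hb
      rw [List.count_cons_self]
      push_cast
      ring
    · rw [List.count_cons_of_ne hb, h b List.mem_cons_self hb, zero_add]

omit [IsNoetherianRing R] in
theorem AddFn.pi (hM : Kil I M) (ι : Type) [Fintype ι] : φ.φ (ι → M) = Fintype.card ι * φ.φ M := by
  have key : ∀ n : ℕ, φ.φ (Fin n → M) = n * φ.φ M := by
    intro n
    induction n with
    | zero => rw [φ.zero]; simp
    | succ n ih =>
      have e := (Fin.consLinearEquiv R fun _ : Fin (n + 1) => M).symm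
      rw [φ.congr (dv_kil_pi hM _) e, φ.add M (M × (Fin n → M)) (Fin n → M) (LinearMap.inl R _ _)
        (LinearMap.snd R _ _) ((dv_kil_pi hM _).of_surjective e.toLinearMap e.surjective)
        LinearMap.inl_injective Prod.snd_surjective Function.Exact.inl_snd, ih]
      push_cast
      ring
  rw [φ.congr (dv_kil_pi hM ι) (LinearEquiv.funCongrLeft R M (Fintype.equivFin ι).symm), key]

/-- The prime filtration (`IsNoetherianRing.induction_on_isQuotientEquivQuotientPrime`): there is a list of primes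
containing `I` and the annihilator, with `φ M` the sum of the values, and below every prime containing the
annihilator there is a prime of the list (if `a` kills `M'` and `b` kills `M''` then `a b` kills `M`). -/
theorem AddFn.exists_list (hM : Kil I M) : ∃ l : List (Ideal R),
    (∀ P ∈ l, P.IsPrime ∧ I ≤ P ∧ Module.annihilator R M ≤ P) ∧ φ.φ M = (l.map fun P => φ.φ (R ⧸ P)).sum ∧
      ∀ P0 : Ideal R, P0.IsPrime → Module.annihilator R M ≤ P0 → ∃ P ∈ l, P ≤ P0 := by
  revert hM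
  induction ‹Module.Finite R M› using
    IsNoetherianRing.induction_on_isQuotientEquivQuotientPrime R with
  | subsingleton N =>
    refine fun _ => ⟨[], by simp, φ.zero, fun P0 h1 h2 => absurd ?_ h1.ne_top⟩
    rw [eq_top_iff]
    exact le_trans (fun x _ => Module.mem_annihilator.2 fun _ => Subsingleton.elim _ _) h2
  | quotient N p e =>
    intro hN
    have h1 : Module.annihilator R N = p.1 := by rw [e.annihilator_eq, Ideal.annihilator_quotient]
    obtain ⟨k, hk⟩ := id hN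
    refine ⟨[p.1], ?_, by simpa using φ.congr hN e, fun P0 _ h => ⟨p.1, by simp, h1 ▸ h⟩⟩
    intro P hP
    obtain rfl := List.mem_singleton.1 hP
    refine ⟨p.2, p.2.le_of_pow_le (n := k) ?_, h1.le⟩
    rw [← h1]
    exact fun y hy => Module.mem_annihilator.2 (hk y hy)
  | exact N₁ N₂ N₃ f g hf hg hfg h₁ h₃ =>
    intro hN
    obtain ⟨l₁, a1, a2, a3⟩ := h₁ (hN.of_injective f hf)
    obtain ⟨l₃, b1, b2, b3⟩ := h₃ (hN.of_surjective g hg)
    refine ⟨l₁ ++ l₃, fun P hP => ?_, ?_, fun P0 h0 h => ?_⟩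
    · rcases List.mem_append.1 hP with hP | hP
      · exact ⟨(a1 P hP).1, (a1 P hP).2.1, (f.annihilator_le_of_injective hf).trans (a1 P hP).2.2⟩
      · exact ⟨(b1 P hP).1, (b1 P hP).2.1, (g.annihilator_le_of_surjective hg).trans (b1 P hP).2.2⟩
    · rw [List.map_append, List.sum_append, ← a2, ← b2]
      exact φ.add N₁ N₂ N₃ f g hN hf hg hfg
    · have : Module.annihilator R N₁ * Module.annihilator R N₃ ≤ P0 := by
        refine le_trans (Ideal.mul_le.2 fun x hx y hy => Module.mem_annihilator.2 fun w => ?_) h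
        obtain ⟨v, hv⟩ := (hfg (y • w)).1 (by rw [map_smul, Module.mem_annihilator.1 hy])
        rw [mul_smul, ← hv, ← map_smul, Module.mem_annihilator.1 hx, map_zero]
      rcases h0.mul_le.1 this with h' | h'
      · obtain ⟨P, c1, c2⟩ := a3 P0 h0 h'
        exact ⟨P, List.mem_append_left _ c1, c2⟩
      · obtain ⟨P, c1, c2⟩ := b3 P0 h0 h'
        exact ⟨P, List.mem_append_right _ c1, c2⟩

theorem AddFn.eq_zero (hM : Kil I M)
    (h : ∀ P : Ideal R, P.IsPrime → I ≤ P → Module.annihilator R M ≤ P → φ.φ (R ⧸ P) = 0) : φ.φ M = 0 := by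
  obtain ⟨l, a1, a2, -⟩ := φ.exists_list hM
  rw [a2]
  refine List.sum_eq_zero fun x hx => ?_
  obtain ⟨P, hP, rfl⟩ := List.mem_map.1 hx
  exact h P (a1 P hP).1 (a1 P hP).2.1 (a1 P hP).2.2

theorem AddFn.nonneg (hM : Kil I M)
    (h : ∀ P : Ideal R, P.IsPrime → I ≤ P → Module.annihilator R M ≤ P → 0 ≤ φ.φ (R ⧸ P)) : 0 ≤ φ.φ M := by
  obtain ⟨l, a1, a2, -⟩ := φ.exists_list hM
  rw [a2]
  refine List.sum_nonneg fun x hx => ?_
  obtain ⟨P, hP, rfl⟩ := List.mem_map.1 hx
  exact h P (a1 P hP).1 (a1 P hP).2.1 (a1 P hP).2.2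

theorem AddFn.pos (hM : Kil I M)
    (h : ∀ P : Ideal R, P.IsPrime → I ≤ P → Module.annihilator R M ≤ P → 0 ≤ φ.φ (R ⧸ P))
    {P0 : Ideal R} (hP0 : P0.IsPrime) (h0 : Module.annihilator R M ≤ P0)
    (h1 : ∀ P : Ideal R, P.IsPrime → Module.annihilator R M ≤ P → P ≤ P0 → 0 < φ.φ (R ⧸ P)) : 0 < φ.φ M := by
  obtain ⟨l, a1, a2, a3⟩ := φ.exists_list hM
  obtain ⟨P, hP, hP'⟩ := a3 P0 hP0 h0
  rw [a2]
  refine (h1 P (a1 P hP).1 (a1 P hP).2.2 hP').trans_le
    (List.single_le_sum (fun x hx => ?_) _ (List.mem_map.2 ⟨P, hP, rfl⟩))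
  obtain ⟨P, hP, rfl⟩ := List.mem_map.1 hx
  exact h P (a1 P hP).1 (a1 P hP).2.1 (a1 P hP).2.2

/-- Only one prime counts. -/
theorem AddFn.mult (hM : Kil I M) (P0 : Ideal R) (hP0 : P0.IsPrime)
    (h : ∀ P : Ideal R, P.IsPrime → I ≤ P → Module.annihilator R M ≤ P → P ≠ P0 → φ.φ (R ⧸ P) = 0) :
    ∃ l : ℕ, φ.φ M = l * φ.φ (R ⧸ P0) ∧ (Module.annihilator R M ≤ P0 →
      (∀ P : Ideal R, P.IsPrime → Module.annihilator R M ≤ P → P ≤ P0 → P = P0) → 0 < l) := by
  classical
  obtain ⟨l, a1, a2, a3⟩ := φ.exists_list hM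
  refine ⟨l.count P0, ?_, fun h0 h1 => ?_⟩
  · rw [a2]
    exact dv_count _ P0 l fun P hP => h P (a1 P hP).1 (a1 P hP).2.1 (a1 P hP).2.2
  · obtain ⟨P, hP, hP'⟩ := a3 P0 hP0 h0
    rw [List.count_pos_iff, ← h1 P (a1 P hP).1 (a1 P hP).2.2 hP']
    exact hP

/-- An isomorphism up to `g`-power torsion. -/
theorem AddFn.eq_of_isog (hM : Kil I M) (hY : Kil I Y) (f : M →ₗ[R] Y) (g : R) (N : ℕ)
    (hk : ∀ w, f w = 0 → g ^ N • w = 0) (hc : ∀ y, g ^ N • y ∈ LinearMap.range f)
    (h : ∀ P : Ideal R, P.IsPrime → I ≤ P → g ∈ P → φ.φ (R ⧸ P) = 0) : φ.φ M = φ.φ Y := by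
  have a1 := φ.add (LinearMap.ker f) M (LinearMap.range f) (LinearMap.ker f).subtype f.rangeRestrict hM
    (Submodule.injective_subtype _) f.surjective_rangeRestrict (by
      rw [LinearMap.exact_iff, LinearMap.ker_rangeRestrict, Submodule.range_subtype])
  have a2 := φ.add (LinearMap.range f) Y (Y ⧸ LinearMap.range f) (LinearMap.range f).subtype
    (LinearMap.range f).mkQ hY (Submodule.injective_subtype _) (Submodule.mkQ_surjective _)
    (LinearMap.exact_subtype_mkQ _)
  have a3 : φ.φ (LinearMap.ker f) = 0 := by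
    refine φ.eq_zero (hM.of_injective _ (Submodule.injective_subtype _)) fun P hP h1 h2 =>
      h P hP h1 (hP.mem_of_pow_mem N (h2 (Module.mem_annihilator.2 fun w => Subtype.ext (hk w w.2))))
  have a4 : φ.φ (Y ⧸ LinearMap.range f) = 0 := by
    refine φ.eq_zero (hY.of_surjective _ (Submodule.mkQ_surjective _)) fun P hP h1 h2 =>
      h P hP h1 (hP.mem_of_pow_mem N (h2 (Module.mem_annihilator.2 fun w => ?_)))
    obtain ⟨y, rfl⟩ := Submodule.Quotient.mk_surjective _ w
    rw [← Submodule.Quotient.mk_smul, Submodule.Quotient.mk_eq_zero]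
    exact hc y
  omega

/-- A prime that strictly contains a prime of dimension `≤ a` has dimension `< a`. -/
theorem dim_lt_of_lt {P P' : Ideal R} [P.IsPrime] [P'.IsPrime] (h : P < P') {a : ℕ}
    (ha : ringKrullDim (R ⧸ P) ≤ a) : ringKrullDim (R ⧸ P') < a := by
  obtain ⟨r, hr1, hr2⟩ := SetLike.exists_of_lt h
  have h1 := (ringKrullDim_succ_le_of_surjective (Ideal.Quotient.factor h.le)
    (Ideal.Quotient.factor_surjective h.le) (r := Ideal.Quotient.mk P r)
    (mem_nonZeroDivisors_of_ne_zero fun e => hr2 (Ideal.Quotient.eq_zero_iff_mem.1 e))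
    (by rw [Ideal.Quotient.factor_mk]; exact Ideal.Quotient.eq_zero_iff_mem.2 hr1)).trans ha
  generalize ringKrullDim (R ⧸ P') = x at h1
  induction x using WithBot.recBotCoe with
  | bot => exact WithBot.bot_lt_coe _
  | coe x =>
    have h2 : x + 1 ≤ (a : ℕ∞) := WithBot.coe_le_coe.1 h1
    have h3 : x ≠ ⊤ := by
      rintro rfl
      simp at h2
    exact WithBot.coe_lt_coe.2 ((ENat.add_one_le_iff h3).1 h2)

omit [IsNoetherianRing R] in
theorem dim_quot_anti {J J' : Ideal R} (h : J ≤ J') : ringKrullDim (R ⧸ J') ≤ ringKrullDim (R ⧸ J) := by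
  exact ringKrullDim_le_of_surjective (Ideal.Quotient.factor h) (Ideal.Quotient.factor_surjective h)

/-- Both modules are supported on one prime `P0` up to lower dimension, and `Y` really is. -/
theorem clPos_of_prime {a : ℕ} (hM : Kil I M) (hY : Kil I Y) (P0 : Ideal R) (hP0 : P0.IsPrime)
    (h : ∀ P : Ideal R, P.IsPrime → I ≤ P → P ≠ P0 → ringKrullDim (R ⧸ P) < a)
    (h0 : Module.annihilator R Y ≤ P0) (h1 : ∀ P : Ideal R, P.IsPrime → Module.annihilator R Y ≤ P → P0 ≤ P) :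
    ClPos I a M Y := by
  intro φ hφ hpos
  obtain ⟨l, a1, -⟩ := φ.mult hM P0 hP0 fun P hP h2 _ h3 => hφ P hP h2 (h P hP h2 h3)
  obtain ⟨l', b1, b2⟩ := φ.mult hY P0 hP0 fun P hP h2 _ h3 => hφ P hP h2 (h P hP h2 h3)
  have b3 := b2 h0 fun P hP h2 h3 => le_antisymm h3 (h1 P hP h2)
  rw [a1] at hpos
  rw [b1]
  exact mul_pos (by exact_mod_cast b3) (pos_of_mul_pos_right hpos (Int.natCast_nonneg l))

theorem clVan_of_prime {a : ℕ} (hM : Kil I M) (hY : Kil I Y) (P0 : Ideal R) (hP0 : P0.IsPrime)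
    (h : ∀ P : Ideal R, P.IsPrime → I ≤ P → P ≠ P0 → ringKrullDim (R ⧸ P) < a)
    (h0 : Module.annihilator R M ≤ P0) (h1 : ∀ P : Ideal R, P.IsPrime → Module.annihilator R M ≤ P → P0 ≤ P) :
    ClVan I a M Y := by
  intro φ hφ hz
  obtain ⟨l, a1, a2⟩ := φ.mult hM P0 hP0 fun P hP h2 _ h3 => hφ P hP h2 (h P hP h2 h3)
  obtain ⟨l', b1, -⟩ := φ.mult hY P0 hP0 fun P hP h2 _ h3 => hφ P hP h2 (h P hP h2 h3)
  have a3 := a2 h0 fun P hP h2 h3 => le_antisymm h3 (h1 P hP h2)
  rw [a1, mul_eq_zero] at hz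
  rw [b1, hz.resolve_left (by exact_mod_cast a3.ne'), mul_zero]

end Crest.Agent.R188
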