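import Crest.Agent.R188.Defs2
import Crest.Agent.R188.Dev
import Crest.Agent.R183.Grow
import Crest.Agent.R169.DimInt

/-!
# rid 188, file `Avoid`: prime avoidance and dimension bookkeeping

Prefix helper lemmas with `av_`.
-/

set_option autoImplicit false

open IsLocalRing Crest.Agent.R183

namespace Crest.Agent.R188

variable {A : Type} [CommRing A] [IsNoetherianRing A]

omit [IsNoetherianRing A] in
theorem av_chain {I : Ideal A} (l : LTSeries (PrimeSpectrum A)) (h : I ≤ l.head.asIdeal) :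
    (l.length : WithBot ℕ∞) ≤ ringKrullDim (A ⧸ I) := by
  rw [ringKrullDim_quotient]
  let l' : LTSeries (PrimeSpectrum.zeroLocus (R := A) I) :=
    { length := l.length
      toFun := fun i => ⟨l i, fun a ha => (l.head_le i) (h ha)⟩
      step := fun i => l.step i }
  exact Order.LTSeries.length_le_krullDim l'

omit [IsNoetherianRing A] in
theorem av_le_of_chain {I : Ideal A} {n : WithBot ℕ∞}
    (h : ∀ l : LTSeries (PrimeSpectrum A), I ≤ l.head.asIdeal → (l.length : WithBot ℕ∞) ≤ n) :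
    ringKrullDim (A ⧸ I) ≤ n := by
  rw [ringKrullDim_quotient]
  refine iSup_le fun l => ?_
  exact h (l.map Subtype.val (Subtype.strictMono_coe _)) fun a ha => l.head.2 ha

theorem av_lt_succ {x : WithBot ℕ∞} {n : ℕ} : x < (n + 1 : ℕ) ↔ x ≤ n := by
  induction x using WithBot.recBotCoe with
  | bot => exact ⟨fun _ => bot_le, fun _ => WithBot.bot_lt_coe _⟩
  | coe x =>
    induction x using ENat.recTopCoe with
    | top =>
      refine ⟨fun h => absurd (WithBot.coe_lt_coe.1 h) not_top_lt, fun h => ?_⟩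
      exact absurd (top_le_iff.1 (WithBot.coe_le_coe.1 h)) (ENat.natCast_ne_top n)
    | coe x =>
      refine ⟨fun h => ?_, fun h => ?_⟩
      · have h1 : (x : ℕ∞) < ((n + 1 : ℕ) : ℕ∞) := WithBot.coe_lt_coe.1 h
        have h2 : x ≤ n := Nat.le_of_lt_succ (by exact_mod_cast h1)
        exact WithBot.coe_le_coe.2 (by exact_mod_cast h2)
      · have h1 : (x : ℕ∞) ≤ (n : ℕ∞) := WithBot.coe_le_coe.1 h
        have h2 : x < n + 1 := Nat.lt_succ_of_le (by exact_mod_cast h1)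
        exact WithBot.coe_lt_coe.2 (by exact_mod_cast h2)

theorem av_lt_zero {x : WithBot ℕ∞} (h : x < (0 : ℕ)) : x = ⊥ := by
  induction x using WithBot.recBotCoe with
  | bot => rfl
  | coe x => exact absurd (WithBot.coe_lt_coe.1 h) (by simp)

theorem av_lt_of_succ_le {x : WithBot ℕ∞} {a : ℕ} (h1 : x + 1 ≤ a) : x < a := by
  induction x using WithBot.recBotCoe with
  | bot => exact WithBot.bot_lt_coe _
  | coe x =>
    have h2 : x + 1 ≤ (a : ℕ∞) := WithBot.coe_le_coe.1 h1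
    have h3 : x ≠ ⊤ := by
      rintro rfl
      simp at h2
    exact WithBot.coe_lt_coe.2 ((ENat.add_one_le_iff h3).1 h2)

omit [IsNoetherianRing A] in
theorem av_dim_top : ringKrullDim (A ⧸ (⊤ : Ideal A)) = ⊥ := ringKrullDim_eq_bot_of_subsingleton

omit [IsNoetherianRing A] in
theorem av_nonneg {I : Ideal A} (hI : I ≠ ⊤) : ¬ ringKrullDim (A ⧸ I) < (0 : ℕ) := by
  have : Nontrivial (A ⧸ I) := Ideal.Quotient.nontrivial_iff.2 hI
  exact not_lt.2 ringKrullDim_nonneg_of_nontrivial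

omit [IsNoetherianRing A] in
theorem av_avoid {S : Set (Ideal A)} (hS : S.Finite) (hp : ∀ q ∈ S, q.IsPrime) (J : Ideal A)
    (h : ∀ q ∈ S, ¬ J ≤ q) : ∃ y ∈ J, ∀ q ∈ S, y ∉ q := by
  obtain ⟨b, hb, H⟩ := davis hS.toFinset (fun q hq => hp q (hS.mem_toFinset.1 hq)) 0 J
    fun q hq hle => h q (hS.mem_toFinset.1 hq) (le_sup_right.trans hle)
  exact ⟨b, hb, fun q hq => by simpa using H q (hS.mem_toFinset.2 hq)⟩

omit [IsNoetherianRing A] in
theorem av_idl_cons {c : ℕ} (y : A) (f : Fin c → A) :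
    idl (Fin.cons y f : Fin (c + 1) → A) = Ideal.span {y} ⊔ idl f := by
  rw [idl, idl, Fin.range_cons, Ideal.span_insert]

omit [IsNoetherianRing A] in
theorem av_idl_zero (f : Fin 0 → A) : idl f = ⊥ :=
  le_bot_iff.1 (ln_idl_le fun i => i.elim0)

omit [IsNoetherianRing A] in
theorem av_dim_comap {B : Type} [CommRing B] (f : A →+* B) (hf : f.IsIntegral) (J : Ideal B) :
    ringKrullDim (B ⧸ J) = ringKrullDim (A ⧸ J.comap f) := by
  let _ : Algebra (A ⧸ J.comap f) (B ⧸ J) := (Ideal.quotientMap J f le_rfl).toAlgebra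
  have : Algebra.IsIntegral (A ⧸ J.comap f) (B ⧸ J) := ⟨hf.quotient (I := J)⟩
  exact R169.ringKrullDim_eq_of_isIntegral Ideal.quotientMap_injective

omit [IsNoetherianRing A] in
theorem dim_le_of_primes {I : Ideal A} {n : WithBot ℕ∞}
    (h : ∀ P : Ideal A, P.IsPrime → I ≤ P → ringKrullDim (A ⧸ P) ≤ n) : ringKrullDim (A ⧸ I) ≤ n := by
  exact av_le_of_chain fun l hl => (av_chain l le_rfl).trans (h _ l.head.2 hl)

theorem dim_lt_of_primes {I : Ideal A} {n : ℕ}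
    (h : ∀ P : Ideal A, P.IsPrime → I ≤ P → ringKrullDim (A ⧸ P) < n) : ringKrullDim (A ⧸ I) < n := by
  cases n with
  | zero =>
    have := dim_le_of_primes (n := ⊥) fun P hP hle => (av_lt_zero (h P hP hle)).le
    exact lt_of_le_of_lt this (WithBot.bot_lt_coe _)
  | succ n => exact av_lt_succ.2 (dim_le_of_primes fun P hP hle => av_lt_succ.1 (h P hP hle))

theorem lt_succ_iff_le {x : WithBot ℕ∞} {n : ℕ} : x < (n + 1 : ℕ) ↔ x ≤ n := by
  exact av_lt_succ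

/-- Induct on `c`: choose the next element in `P` outside all primes that are minimal over some
`I i ⊔ idl f` and do not contain `P` (`Ideal.subset_union_prime`, `dim_lt_of_lt`). -/
theorem avoid_many {ι : Type} [Finite ι] (P : Ideal A) (I : ι → Ideal A) (n : ι → ℕ)
    (h : ∀ i, ringKrullDim (A ⧸ I i) ≤ n i) (c : ℕ) : ∃ f : Fin c → A, (∀ l, f l ∈ P) ∧
      ∀ i (𝔭 : Ideal A), 𝔭.IsPrime → I i ⊔ idl f ≤ 𝔭 → ¬ P ≤ 𝔭 →
        ∃ e : ℕ, ringKrullDim (A ⧸ 𝔭) ≤ e ∧ e + c ≤ n i := by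
  induction c with
  | zero =>
    exact ⟨Fin.elim0, fun l => l.elim0, fun i 𝔭 _ hle _ =>
      ⟨n i, (dim_quot_anti (le_sup_left.trans hle)).trans (h i), le_rfl⟩⟩
  | succ c ih =>
    obtain ⟨f, hf, H⟩ := ih
    have hS : {q : Ideal A | (∃ i, q ∈ (I i ⊔ idl f).minimalPrimes) ∧ ¬ P ≤ q}.Finite := by
      refine (Set.finite_iUnion fun i => (I i ⊔ idl f).finite_minimalPrimes_of_isNoetherianRing).subset ?_
      rintro q ⟨⟨i, hi⟩, -⟩
      exact Set.mem_iUnion.2 ⟨i, hi⟩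
    obtain ⟨y, hy, hyS⟩ := av_avoid hS (fun q hq => by obtain ⟨⟨i, hi⟩, -⟩ := hq; exact hi.1.1) P
      fun q hq => hq.2
    refine ⟨Fin.cons y f, fun l => Fin.cases hy hf l, fun i 𝔭 h𝔭 hle hP => ?_⟩
    rw [av_idl_cons] at hle
    have h1 : I i ⊔ idl f ≤ 𝔭 := sup_le (le_sup_left.trans hle) (le_sup_right.trans (le_sup_right.trans hle))
    have h2 : y ∈ 𝔭 := (le_sup_left.trans (le_sup_right.trans hle)) (Ideal.mem_span_singleton_self y)
    obtain ⟨q, hq, hq𝔭⟩ := Ideal.exists_minimalPrimes_le h1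
    have hqP : ¬ P ≤ q := fun e => hP (e.trans hq𝔭)
    have := hq.1.1
    obtain ⟨e, he, he'⟩ := H i q hq.1.1 hq.1.2 hqP
    have hlt : q < 𝔭 := lt_of_le_of_ne hq𝔭 fun e => hyS q ⟨⟨i, hq⟩, hqP⟩ (e ▸ h2)
    have h3 := dim_lt_of_lt hlt he
    cases e with
    | zero => exact absurd h3 (av_nonneg h𝔭.ne_top)
    | succ e => exact ⟨e, av_lt_succ.1 h3, by omega⟩

/-- `P` is minimal over `𝔣` by `dim_lt_of_lt`, so `h0 P^N ≤ 𝔣` with `h0 ∉ P` (localise, or
`Ideal.exists_mul_pow_le`-style argument with the radical of `𝔣 A_P`); multiply `h0` by an element of `𝔵 \ P`.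
Take `w ∈ P^N ⊓ 𝔵` outside the other minimal primes of `𝔣` that have dimension `a`. -/
theorem exists_hw {𝔣 P 𝔵 : Ideal A} [P.IsPrime] {a : ℕ} (hle : 𝔣 ≤ P) (h1 : ringKrullDim (A ⧸ 𝔣) ≤ a)
    (h2 : ¬ ringKrullDim (A ⧸ P) < a)
    (h3 : ∀ 𝔭 : Ideal A, 𝔭.IsPrime → 𝔣 ≤ 𝔭 → 𝔵 ≤ 𝔭 → ringKrullDim (A ⧸ 𝔭) < a) :
    ∃ (h w : A) (N : ℕ), h ∈ 𝔵 ∧ w ∈ 𝔵 ∧ h ∉ P ∧ P ^ N ≤ col 𝔣 h ∧ h * w ∈ 𝔣 ∧
      ringKrullDim (A ⧸ (𝔣 ⊔ Ideal.span {h, w})) < a := by
  have hP : P.IsPrime := inferInstance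
  have hdim : ∀ q : Ideal A, 𝔣 ≤ q → ringKrullDim (A ⧸ q) ≤ a := fun q hq => (dim_quot_anti hq).trans h1
  have hmin : P ∈ 𝔣.minimalPrimes := by
    obtain ⟨q, hq, hqP⟩ := Ideal.exists_minimalPrimes_le hle
    have := hq.1.1
    rcases hqP.lt_or_eq with h | h
    · exact absurd (dim_lt_of_lt h (hdim q hq.1.2)) h2
    · exact h ▸ hq
  have hfin := 𝔣.finite_minimalPrimes_of_isNoetherianRing
  have hS : {q : Ideal A | q ∈ 𝔣.minimalPrimes ∧ q ≠ P}.Finite := hfin.subset fun q hq => hq.1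
  obtain ⟨g, hg, hgP⟩ : ∃ g : A, (∀ q ∈ 𝔣.minimalPrimes, q ≠ P → g ∈ q) ∧ g ∉ P := by
    have : ¬ hS.toFinset.inf id ≤ P := by
      rw [hP.inf_le']
      rintro ⟨q, hq, hqP⟩
      obtain ⟨hq1, hq2⟩ := hS.mem_toFinset.1 hq
      exact hq2 (le_antisymm hqP (hmin.2 hq1.1 hqP))
    obtain ⟨g, hg1, hg2⟩ := SetLike.not_le_iff_exists.1 this
    refine ⟨g, fun q hq hq' => ?_, hg2⟩
    exact (Finset.inf_le (f := id) (hS.mem_toFinset.2 ⟨hq, hq'⟩) : _ ≤ q) hg1
  have hrad : Ideal.span {g} * P ≤ 𝔣.radical := by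
    rw [← Ideal.sInf_minimalPrimes]
    refine le_sInf fun q hq => ?_
    by_cases e : q = P
    · rw [e]
      exact Ideal.mul_le_right
    · exact Ideal.mul_le_left.trans ((Ideal.span_singleton_le_iff_mem _).2 (hg q hq e))
  obtain ⟨N, hN⟩ := Ideal.exists_pow_le_of_le_radical_of_fg hrad (IsNoetherian.noetherian _)
  rw [mul_pow, Ideal.span_singleton_pow] at hN
  have hx : ¬ 𝔵 ≤ P := fun e => h2 (h3 P hP hle e)
  obtain ⟨x, hx1, hx2⟩ := SetLike.not_le_iff_exists.1 hx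
  have hcol : P ^ N ≤ col 𝔣 (x * g ^ N) := fun y hy => by
    rw [mem_col, mul_assoc]
    exact Ideal.mul_mem_left _ _ (hN (Ideal.mul_mem_mul (Ideal.mem_span_singleton_self _) hy))
  have hT : {q : Ideal A | q ∈ 𝔣.minimalPrimes ∧ q ≠ P ∧ ¬ ringKrullDim (A ⧸ q) < a}.Finite :=
    hfin.subset fun q hq => hq.1
  obtain ⟨w, hw, hwT⟩ := av_avoid hT (fun q hq => hq.1.1.1) (P ^ N ⊓ 𝔵) fun q hq e => by
    have hq' : q.IsPrime := hq.1.1.1
    rcases hq'.inf_le.1 e with e | e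
    · have e' : P ≤ q := Ideal.IsPrime.le_of_pow_le e
      exact hq.2.1 (le_antisymm (hq.1.2 hmin.1 e') e')
    · exact hq.2.2 (h3 q hq' hq.1.1.2 e)
  have hh : x * g ^ N ∉ P := fun e => (hP.mem_or_mem e).elim hx2 fun e' => hgP (hP.mem_of_pow_mem N e')
  refine ⟨x * g ^ N, w, N, Ideal.mul_mem_right _ _ hx1, hw.2, hh, hcol, mem_col.1 (hcol hw.1), ?_⟩
  refine dim_lt_of_primes fun 𝔭 h𝔭 h𝔭le => ?_
  obtain ⟨q, hq, hq𝔭⟩ := Ideal.exists_minimalPrimes_le (le_sup_left.trans h𝔭le)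
  have := hq.1.1
  rcases hq𝔭.lt_or_eq with h | h
  · exact dim_lt_of_lt h (hdim q hq.1.2)
  · subst h
    by_contra hc
    have a1 : x * g ^ N ∈ q := (le_sup_right.trans h𝔭le) (Ideal.subset_span (by simp))
    have a2 : w ∈ q := (le_sup_right.trans h𝔭le) (Ideal.subset_span (by simp))
    exact hwT q ⟨hq, fun e => hh (e ▸ a1), hc⟩ a2

/-- Take `N` where the chain `col 𝔟 (ϖ^N)` stabilises; then `ϖ` is regular modulo it, so it lies in no minimal
prime of it. -/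
theorem dim_sat (𝔟 : Ideal A) (ϖ : A) {n : ℕ} (h : ringKrullDim (A ⧸ 𝔟) ≤ n) :
    ∃ N : ℕ, ringKrullDim (A ⧸ (col 𝔟 (ϖ ^ N) ⊔ Ideal.span {ϖ})) < n := by
  have hmono : Monotone fun N : ℕ => col 𝔟 (ϖ ^ N) := monotone_nat_of_le_succ fun N y hy => by
    rw [mem_col] at hy ⊢
    rw [pow_succ', mul_assoc]
    exact Ideal.mul_mem_left _ _ hy
  obtain ⟨N, hN⟩ := monotone_stabilizes_iff_noetherian.2 (inferInstance : IsNoetherian A A) ⟨_, hmono⟩
  have hN1 : col 𝔟 (ϖ ^ N) = col 𝔟 (ϖ ^ (N + 1)) := hN (N + 1) (Nat.le_succ N)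
  have hle : 𝔟 ≤ col 𝔟 (ϖ ^ N) := fun y hy => Ideal.mul_mem_left _ _ hy
  refine ⟨N, av_lt_of_succ_le ?_⟩
  have h0 : col 𝔟 (ϖ ^ N) ≤ col 𝔟 (ϖ ^ N) ⊔ Ideal.span {ϖ} := le_sup_left
  refine (ringKrullDim_succ_le_of_surjective (Ideal.Quotient.factor h0)
    (Ideal.Quotient.factor_surjective h0) (r := Ideal.Quotient.mk _ ϖ) ?_ ?_).trans ((dim_quot_anti hle).trans h)
  · refine mem_nonZeroDivisors_iff_left.2 fun y hy => ?_
    obtain ⟨y, rfl⟩ := Ideal.Quotient.mk_surjective y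
    rw [← map_mul, Ideal.Quotient.eq_zero_iff_mem, mem_col, ← mul_assoc, ← pow_succ] at hy
    rw [Ideal.Quotient.eq_zero_iff_mem, hN1]
    exact hy
  · rw [Ideal.Quotient.factor_mk]
    exact Ideal.Quotient.eq_zero_iff_mem.2 (Ideal.mem_sup_right (Ideal.mem_span_singleton_self ϖ))

omit [IsNoetherianRing A] in
/-- `ringKrullDim_eq_of_isIntegral` for `A / comap → B / J`. -/
theorem dim_map_le_of_finite {B : Type} [CommRing B] (f : A →+* B) (hf : f.Finite) (I : Ideal A) :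
    ringKrullDim (B ⧸ I.map f) ≤ ringKrullDim (A ⧸ I) := by
  rw [av_dim_comap f hf.to_isIntegral]
  exact ringKrullDim_le_of_surjective (Ideal.Quotient.factor Ideal.le_comap_map)
    (Ideal.Quotient.factor_surjective _)

omit [IsNoetherianRing A] in
theorem dim_map_of_surj {B : Type} [CommRing B] (f : A →+* B) (hf : Function.Surjective f) {I : Ideal A}
    (hI : RingHom.ker f ≤ I) : ringKrullDim (B ⧸ I.map f) = ringKrullDim (A ⧸ I) := by
  rw [av_dim_comap f (RingHom.isIntegral_of_surjective f hf), Ideal.comap_map_of_surjective f hf,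
    ← RingHom.ker_eq_comap_bot, sup_eq_left.2 hI]

variable [IsLocalRing A]

theorem prim_of_dim {I J : Ideal A} (h : ringKrullDim (A ⧸ (I ⊔ J)) ≤ (0 : ℕ)) : Prim I J := by
  by_cases hI : I ⊔ J = ⊤
  · exact ⟨0, by rw [hI]; exact le_top⟩
  · obtain ⟨x, c, -, hc⟩ := gw_lift_sop hI h
    rw [av_idl_zero, bot_sup_eq] at hc
    exact ⟨c, hc⟩

theorem dim_le_of_pow_le {I : Ideal A} {n c : ℕ} {t : Fin n → A} (ht : ∀ j, t j ∈ maximalIdeal A)
    (h : maximalIdeal A ^ c ≤ I ⊔ idl t) : ringKrullDim (A ⧸ I) ≤ n := by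
  by_cases hI : I = ⊤
  · rw [hI, av_dim_top]
    exact bot_le
  have : Nontrivial (A ⧸ I) := Ideal.Quotient.nontrivial_iff.2 hI
  have : IsLocalRing (A ⧸ I) := IsLocalRing.of_surjective' _ Ideal.Quotient.mk_surjective
  have hm := map_maximalIdeal_of_surjective (Ideal.Quotient.mk I) Ideal.Quotient.mk_surjective
  refine dim_le_of_sop (x := fun j => Ideal.Quotient.mk I (t j))
    ⟨fun j => hm ▸ Ideal.mem_map_of_mem _ (ht j), c, ?_⟩
  rw [← hm, ← Ideal.map_pow, ← idl_map]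
  refine (Ideal.map_mono h).trans ?_
  rw [Ideal.map_sup, Ideal.map_quotient_self, bot_sup_eq]

theorem Prim.dim {I J : Ideal A} (h : Prim I J) : ringKrullDim (A ⧸ (I ⊔ J)) ≤ (0 : ℕ) := by
  obtain ⟨c, hc⟩ := h
  exact dim_le_of_pow_le (t := Fin.elim0) (fun j => j.elim0) (hc.trans le_sup_left)

omit [IsNoetherianRing A] in
theorem Prim.mono {I J I' J' : Ideal A} (h : Prim I J) (h1 : I ≤ I') (h2 : J ≤ J') : Prim I' J' := by
  obtain ⟨c, hc⟩ := h
  exact ⟨c, hc.trans (sup_le_sup h1 h2)⟩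

omit [IsNoetherianRing A] in
theorem Prim.map {B : Type} [CommRing B] [IsLocalRing B] {I J : Ideal A} (h : Prim I J) (f : A →+* B) {c : ℕ}
    (hc : maximalIdeal B ^ c ≤ (maximalIdeal A).map f) : Prim (I.map f) (J.map f) := by
  obtain ⟨c', hc'⟩ := h
  refine ⟨c * c', ?_⟩
  rw [pow_mul, ← Ideal.map_sup]
  refine (Ideal.pow_right_mono hc c').trans ?_
  rw [← Ideal.map_pow]
  exact Ideal.map_mono hc'

/-- `gw_lift_sop`, then move the parameters into `𝔵` modulo `I`. -/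
theorem exists_sop_mod {I 𝔵 : Ideal A} {n : ℕ} (h : ringKrullDim (A ⧸ I) ≤ n) (h𝔵 : maximalIdeal A ≤ I ⊔ 𝔵) :
    ∃ (t : Fin n → A) (c : ℕ), (∀ j, t j ∈ 𝔵) ∧ maximalIdeal A ^ c ≤ I ⊔ idl t := by
  by_cases hI : I = ⊤
  · exact ⟨0, 0, fun _ => zero_mem _, by rw [hI]; exact le_sup_of_le_left le_top⟩
  obtain ⟨x, c, hx, hc⟩ := gw_lift_sop hI h
  choose a ha t ht e using fun i => Submodule.mem_sup.1 (h𝔵 (hx i))
  refine ⟨t, c, ht, hc.trans (sup_le (ln_idl_le fun i => ?_) le_sup_left)⟩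
  rw [← e i]
  exact add_mem (Ideal.mem_sup_left (ha i)) (Ideal.mem_sup_right (Ideal.subset_span ⟨i, rfl⟩))

theorem dim_le_succ {I : Ideal A} {y : A} (hy : y ∈ maximalIdeal A) {n : ℕ}
    (h : ringKrullDim (A ⧸ (I ⊔ Ideal.span {y})) < n) : ringKrullDim (A ⧸ I) ≤ n := by
  by_cases hI : I = ⊤
  · rw [hI, av_dim_top]
    exact bot_le
  cases n with
  | zero =>
    refine absurd h (av_nonneg fun e => (maximalIdeal.isMaximal A).ne_top (top_le_iff.1 ?_))
    rw [← e]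
    exact sup_le (le_maximalIdeal hI) ((Ideal.span_singleton_le_iff_mem _).2 hy)
  | succ n =>
    obtain ⟨t, c, ht, hc⟩ := exists_sop_mod (𝔵 := maximalIdeal A) (av_lt_succ.1 h) le_sup_right
    refine dim_le_of_pow_le (c := c) (t := Fin.cons y t) (fun j => Fin.cases hy ht j) ?_
    rw [av_idl_cons, ← sup_assoc]
    exact hc

/-- `A / I → B / I B` is flat and local with zero-dimensional fibre; see `completion_dim` in `R183/PS.lean`
(`Ideal.height_eq_height_add_of_liesOver_of_hasGoingDown`). -/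
theorem dim_map_of_flat {B : Type} [CommRing B] [IsLocalRing B] [IsNoetherianRing B] (f : A →+* B) [IsLocalHom f]
    (hf : f.Flat) {c : ℕ} (hc : maximalIdeal B ^ c ≤ (maximalIdeal A).map f) (I : Ideal A) :
    ringKrullDim (B ⧸ I.map f) = ringKrullDim (A ⧸ I) := by
  refine le_antisymm ?_ ?_
  · by_cases hI : I = ⊤
    · rw [hI, Ideal.map_top, av_dim_top]
      exact bot_le
    have : Nontrivial (A ⧸ I) := Ideal.Quotient.nontrivial_iff.2 hI
    have : IsLocalRing (A ⧸ I) := IsLocalRing.of_surjective' _ Ideal.Quotient.mk_surjective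
    obtain ⟨n, hn⟩ := exists_dim_eq (A ⧸ I)
    obtain ⟨t, c', ht, hc'⟩ := exists_sop_mod (𝔵 := maximalIdeal A) hn.le le_sup_right
    rw [hn]
    refine dim_le_of_pow_le (c := c * c') (t := fun j => f (t j)) (fun j => map_nonunit f _ (ht j)) ?_
    rw [pow_mul, ← idl_map, ← Ideal.map_sup]
    refine (Ideal.pow_right_mono hc c').trans ?_
    rw [← Ideal.map_pow]
    exact Ideal.map_mono hc'
  · let _ : Algebra A B := f.toAlgebra
    have : Module.Flat A B := hf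
    have : IsLocalHom (algebraMap A B) := ‹IsLocalHom f›
    refine av_le_of_chain fun l hl => ?_
    obtain ⟨Q, -, hQ, hQ'⟩ := Ideal.exists_ideal_le_liesOver_of_le (p := l.last.asIdeal) (q := maximalIdeal A)
      (maximalIdeal B) (le_maximalIdeal l.last.2.ne_top)
    obtain ⟨L, hL, -, hL'⟩ := Ideal.exists_ltSeries_of_hasGoingDown l Q
    rw [← hL]
    refine av_chain L (Ideal.map_le_iff_le_comap.2 ?_)
    have h1 : PrimeSpectrum.comap (algebraMap A B) L.head ∈ l.toList := by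
      rw [← hL']
      exact List.mem_map_of_mem (RelSeries.mem_toList.2 L.head_mem)
    obtain ⟨i, hi⟩ := RelSeries.mem_def.1 (RelSeries.mem_toList.1 h1)
    have h2 := l.head_le i
    rw [hi] at h2
    exact hl.trans h2

theorem exists_prime_dim {I : Ideal A} {n : ℕ} (h : ringKrullDim (A ⧸ I) = n) :
    ∃ P : Ideal A, P.IsPrime ∧ I ≤ P ∧ ringKrullDim (A ⧸ P) = n := by
  by_contra hc
  refine absurd h (ne_of_lt (dim_lt_of_primes fun P hP hle => ?_))
  exact lt_of_le_of_ne ((dim_quot_anti hle).trans h.le) fun e => hc ⟨P, hP, hle, e⟩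

theorem exists_dim_prime (P : Ideal A) [P.IsPrime] : ∃ n : ℕ, ringKrullDim (A ⧸ P) = n := by
  have : IsLocalRing (A ⧸ P) := IsLocalRing.of_surjective' _ Ideal.Quotient.mk_surjective
  exact exists_dim_eq (A ⧸ P)

end Crest.Agent.R188
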