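import Crest.Agent.R188.TorB

/-!
# rid 188, file `BC`: flat base change

Prefix helper lemmas with `bc_`.
-/

set_option autoImplicit false

open IsLocalRing Crest.Agent.R183

namespace Crest.Agent.R188

open Matrix TensorProduct

variable {R R' : Type} [CommRing R] [IsLocalRing R] [CommRing R'] [IsLocalRing R']

section aux

variable {A B : Type} [CommRing A] [CommRing B] [Algebra A B]

theorem bc_exact [Module.Flat A B] {P0 P1 P2 : Type} [AddCommGroup P0] [Module A P0] [AddCommGroup P1]
    [Module A P1] [AddCommGroup P2] [Module A P2] {v : P0 →ₗ[A] P1} {u : P1 →ₗ[A] P2}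
    (h : Function.Exact v u) : Function.Exact (v.baseChange B) (u.baseChange B) :=
  Module.Flat.lTensor_exact B h

theorem bc_inj [Module.Flat A B] {P0 P1 : Type} [AddCommGroup P0] [Module A P0] [AddCommGroup P1]
    [Module A P1] {v : P0 →ₗ[A] P1} (h : Function.Injective v) : Function.Injective (v.baseChange B) :=
  Module.Flat.lTensor_preserves_injective_linearMap (M := B) v h

theorem bc_surj {P0 P1 : Type} [AddCommGroup P0] [Module A P0] [AddCommGroup P1]
    [Module A P1] {v : P0 →ₗ[A] P1} (h : Function.Surjective v) : Function.Surjective (v.baseChange B) :=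
  LinearMap.lTensor_surjective B h

theorem bc_comp_apply {P0 P1 P2 : Type} [AddCommGroup P0] [Module A P0] [AddCommGroup P1]
    [Module A P1] [AddCommGroup P2] [Module A P2] (v : P0 →ₗ[A] P1) (u : P1 →ₗ[A] P2) (x : B ⊗[A] P0) :
    (u ∘ₗ v).baseChange B x = u.baseChange B (v.baseChange B x) := by
  rw [LinearMap.baseChange_comp]; rfl

theorem bc_prod_eq_zero {P P1 P2 : Type} [AddCommGroup P] [Module A P] [AddCommGroup P1]
    [Module A P1] [AddCommGroup P2] [Module A P2] (u1 : P →ₗ[A] P1) (u2 : P →ₗ[A] P2) (x : B ⊗[A] P) :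
    (u1.prod u2).baseChange B x = 0 ↔ u1.baseChange B x = 0 ∧ u2.baseChange B x = 0 := by
  constructor
  · intro h
    constructor
    · have : u1 = LinearMap.fst A P1 P2 ∘ₗ u1.prod u2 := rfl
      rw [this, bc_comp_apply, h, map_zero]
    · have : u2 = LinearMap.snd A P1 P2 ∘ₗ u1.prod u2 := rfl
      rw [this, bc_comp_apply, h, map_zero]
  · rintro ⟨h1, h2⟩
    have : u1.prod u2 = LinearMap.inl A P1 P2 ∘ₗ u1 + LinearMap.inr A P1 P2 ∘ₗ u2 := by
      ext x <;> simp
    rw [this, LinearMap.baseChange_add, LinearMap.add_apply, bc_comp_apply, bc_comp_apply, h1, h2, map_zero,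
      map_zero, add_zero]

/-- The homology of an honest complex as `ker / range`. -/
theorem bc_hon_h {n : ℕ} {P : Type} [AddCommGroup P] [Module A P] (C : Cx A n P) (i : ℕ) :
    (hon C).h i = sql A (LinearMap.ker (C.D.prod (LinearMap.id - C.p i)))
      (LinearMap.range (C.D ∘ₗ C.p (i + 1))) := by
  have hZ : (hon C).Z i = LinearMap.ker (C.D.prod (LinearMap.id - C.p i)) := by
    ext x
    simp only [VCx.Z, hon, Submodule.mem_inf, LinearMap.mem_eqLocus, Submodule.mem_comap, Submodule.mem_bot,
      LinearMap.mem_ker, LinearMap.prod_apply, Function.prod, Prod.mk_eq_zero, LinearMap.sub_apply, LinearMap.id_apply,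
      sub_eq_zero]
    exact ⟨fun h => ⟨h.2, h.1.symm⟩, fun h => ⟨h.2.symm, h.1⟩⟩
  unfold VCx.h
  rw [hZ]
  apply sql_congr
  ext x
  simp only [VCx.N, hon, sup_bot_eq, Submodule.mem_inf, LinearMap.mem_ker, LinearMap.prod_apply, Function.prod,
    Prod.mk_eq_zero, LinearMap.sub_apply, LinearMap.id_apply, sub_eq_zero, LinearMap.mem_range,
    LinearMap.comp_apply]
  constructor
  · rintro ⟨h, y, hy⟩
    refine ⟨h, y, ?_⟩
    have := LinearMap.congr_fun (C.D_p i) y
    simp only [Module.End.mul_apply] at this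
    rw [this, hy, ← h.2]
  · rintro ⟨h, y, hy⟩
    exact ⟨h, _, hy⟩

theorem bc_uv {n : ℕ} {P : Type} [AddCommGroup P] [Module A P] (C : Cx A n P) (i : ℕ) :
    (C.D.prod (LinearMap.id - C.p i)) ∘ₗ (C.D ∘ₗ C.p (i + 1)) = 0 := by
  refine LinearMap.ext fun y => ?_
  have h1 := LinearMap.congr_fun C.D_sq (C.p (i + 1) y)
  have h2 := LinearMap.congr_fun (C.D_p i) y
  have h3 := LinearMap.congr_fun (C.p_mul i i) (C.D y)
  simp only [Module.End.mul_apply, LinearMap.zero_apply, if_true] at h1 h2 h3
  simp only [LinearMap.comp_apply, LinearMap.prod_apply, Function.prod, LinearMap.zero_apply, Prod.mk_eq_zero,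
    LinearMap.sub_apply, LinearMap.id_apply, sub_eq_zero]
  exact ⟨h1, by rw [h2, h3]⟩

theorem bc_abs {n : ℕ} {P P' : Type} [AddCommGroup P] [Module A P] [AddCommGroup P'] [Module B P']
    (C : Cx A n P) (C' : Cx B n P') (e : B ⊗[A] P ≃ₗ[B] P') (hD : ∀ x, e (C.D.baseChange B x) = C'.D (e x))
    (hp : ∀ j x, e ((C.p j).baseChange B x) = C'.p j (e x)) (i : ℕ) :
    (hon C').h i = sql B (LinearMap.ker ((C.D.prod (LinearMap.id - C.p i)).baseChange B))
      (LinearMap.range ((C.D ∘ₗ C.p (i + 1)).baseChange B)) := by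
  have e1 : LinearMap.ker (C'.D.prod (LinearMap.id - C'.p i)) =
      (LinearMap.ker ((C.D.prod (LinearMap.id - C.p i)).baseChange B)).map e.toLinearMap := by
    ext w
    obtain ⟨x, rfl⟩ := e.surjective w
    rw [Submodule.mem_map_equiv, e.symm_apply_apply, LinearMap.mem_ker, LinearMap.mem_ker, bc_prod_eq_zero,
      LinearMap.baseChange_sub, LinearMap.baseChange_id]
    simp only [LinearMap.prod_apply, Function.prod, Prod.mk_eq_zero, LinearMap.sub_apply, LinearMap.id_apply]
    rw [← hD, ← hp, ← map_sub, e.map_eq_zero_iff, e.map_eq_zero_iff]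
  have e2 : (LinearMap.range (C'.D ∘ₗ C'.p (i + 1))).comap e.toLinearMap =
      LinearMap.range ((C.D ∘ₗ C.p (i + 1)).baseChange B) := by
    ext x
    simp only [Submodule.mem_comap, LinearMap.mem_range, LinearMap.comp_apply, LinearEquiv.coe_coe,
      bc_comp_apply]
    constructor
    · rintro ⟨w, hw⟩
      obtain ⟨y, rfl⟩ := e.surjective w
      refine ⟨y, e.injective ?_⟩
      rw [hD, hp]
      exact hw
    · rintro ⟨y, rfl⟩
      exact ⟨e y, by rw [hD, hp]⟩
  rw [bc_hon_h, e1, sql_map, e2]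

theorem bc_scalar_D {ι : Type} [Fintype ι] [DecidableEq ι] (D : Matrix ι ι A) (x : B ⊗[A] (ι → A)) :
    piScalarRight A B B ι (D.mulVecLin.baseChange B x) =
      (D.map (algebraMap A B)).mulVec (piScalarRight A B B ι x) := by
  induction x using TensorProduct.induction_on with
  | zero => simp
  | add x y hx hy => rw [map_add, map_add, hx, hy, map_add, Matrix.mulVec_add]
  | tmul b w =>
    ext a
    simp only [LinearMap.baseChange_tmul, piScalarRight_apply, piScalarRightHom_tmul, Matrix.mulVecLin_apply,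
      Matrix.mulVec, dotProduct, Matrix.map_apply, Finset.sum_smul]
    refine Finset.sum_congr rfl fun j _ => ?_
    rw [mul_smul, Algebra.smul_def]

theorem bc_pi_D {ι M : Type} [Fintype ι] [DecidableEq ι] [AddCommGroup M] [Module A M] (D : Matrix ι ι A)
    (x : B ⊗[A] (ι → M)) :
    piRight A B B (fun _ : ι => M) ((mact A D M).baseChange B x) =
      mact B (D.map (algebraMap A B)) (B ⊗[A] M) (piRight A B B (fun _ : ι => M) x) := by
  induction x using TensorProduct.induction_on with
  | zero => simp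
  | add x y hx hy => rw [map_add, map_add, hx, hy, map_add, map_add]
  | tmul b w =>
    ext a
    simp only [LinearMap.baseChange_tmul, piRight_apply, piRightHom_tmul, mact_apply, Matrix.map_apply,
      TensorProduct.tmul_sum]
    refine Finset.sum_congr rfl fun j _ => ?_
    rw [algebraMap_smul, TensorProduct.tmul_smul]

theorem bc_pi_p {ι M : Type} [Fintype ι] [DecidableEq ι] [AddCommGroup M] [Module A M] (deg : ι → ℕ) (i : ℕ)
    (x : B ⊗[A] (ι → M)) :
    piRight A B B (fun _ : ι => M) ((prj A deg M i).baseChange B x) =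
      prj B deg (B ⊗[A] M) i (piRight A B B (fun _ : ι => M) x) := by
  induction x using TensorProduct.induction_on with
  | zero => simp
  | add x y hx hy => rw [map_add, map_add, hx, hy, map_add, map_add]
  | tmul b w =>
    ext a
    simp only [LinearMap.baseChange_tmul, piRight_apply, piRightHom_tmul, prj_apply]
    split_ifs <;> simp

end aux

/-- Induct on the length; `R' ⊗ (R / 𝔪) = R' / 𝔪 R'`. -/
theorem length_baseChange [Algebra R R'] [Module.Flat R R'] (Y : Type) [AddCommGroup Y] [Module R Y]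
    (hY : IsFiniteLength R Y) :
    Module.length R' (R' ⊗[R] Y) =
      colen R' ((maximalIdeal R).map (algebraMap R R')) * Module.length R Y := by
  induction hY with
  | of_subsingleton =>
    rw [Module.length_eq_zero, Module.length_eq_zero (R := R), mul_zero]
  | @of_simple_quotient M _ _ N hs _ ih =>
    obtain ⟨m, hm, ⟨e⟩⟩ := isSimpleModule_iff_quot_maximal.mp hs
    obtain rfl := eq_maximalIdeal hm
    have h1 := Module.length_eq_add_of_exact N.subtype N.mkQ N.injective_subtype N.mkQ_surjective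
      (LinearMap.exact_subtype_mkQ N)
    have h2 := Module.length_eq_add_of_exact (N.subtype.baseChange R') (N.mkQ.baseChange R')
      (bc_inj N.injective_subtype) (bc_surj N.mkQ_surjective) (bc_exact (LinearMap.exact_subtype_mkQ N))
    have h3 : Module.length R' (R' ⊗[R] (M ⧸ N)) = colen R' ((maximalIdeal R).map (algebraMap R R')) := by
      rw [(e.baseChange R R' _ _).length_eq,
        ← (Algebra.TensorProduct.quotIdealMapEquivTensorQuot R' (maximalIdeal R)).toLinearEquiv.length_eq]
    rw [h2, h1, ih, h3, Module.length_eq_one R (M ⧸ N), mul_add, mul_one]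

omit [IsLocalRing R] [IsLocalRing R'] in
/-- `ker (1 ⊗ u) / range (1 ⊗ v) = R' ⊗ (ker u / range v)` for flat `R'`. -/
theorem sql_baseChange [Algebra R R'] [Module.Flat R R'] {P0 P1 P2 : Type} [AddCommGroup P0] [Module R P0]
    [AddCommGroup P1] [Module R P1] [AddCommGroup P2] [Module R P2] (v : P0 →ₗ[R] P1) (u : P1 →ₗ[R] P2)
    (h : u ∘ₗ v = 0) :
    sql R' (LinearMap.ker (u.baseChange R')) (LinearMap.range (v.baseChange R')) =
      Module.length R' (R' ⊗[R] (LinearMap.ker u ⧸ (LinearMap.range v).submoduleOf (LinearMap.ker u))) := by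
  set K := LinearMap.ker u with hK
  set B := (LinearMap.range v).submoduleOf K with hB
  have hv : ∀ x, v x ∈ K := fun x => LinearMap.congr_fun h x
  let v' : P0 →ₗ[R] K := v.codRestrict K hv
  have hv' : K.subtype ∘ₗ v' = v := rfl
  have e1 : LinearMap.ker (u.baseChange R') = (⊤ : Submodule R' (R' ⊗[R] K)).map (K.subtype.baseChange R') := by
    rw [Submodule.map_top]
    exact LinearMap.exact_iff.1 (bc_exact (B := R') u.exact_subtype_ker_map)
  have hex : Function.Exact v' B.mkQ := by
    rw [LinearMap.exact_iff, Submodule.ker_mkQ]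
    ext x
    simp only [hB, Submodule.submoduleOf, Submodule.mem_comap, LinearMap.mem_range, Submodule.subtype_apply]
    constructor
    · rintro ⟨y, hy⟩
      exact ⟨y, Subtype.ext hy⟩
    · rintro ⟨y, hy⟩
      exact ⟨y, congrArg Subtype.val hy⟩
  have e2 : (LinearMap.range (v.baseChange R')).comap (K.subtype.baseChange R') =
      LinearMap.ker (B.mkQ.baseChange R') := by
    rw [LinearMap.exact_iff.1 (bc_exact (B := R') hex)]
    ext x
    simp only [Submodule.mem_comap, LinearMap.mem_range]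
    constructor
    · rintro ⟨y, hy⟩
      refine ⟨y, bc_inj (B := R') K.injective_subtype ?_⟩
      rw [← bc_comp_apply, hv', hy]
    · rintro ⟨y, rfl⟩
      exact ⟨y, by rw [← bc_comp_apply, hv']⟩
  rw [e1, sql_map, e2, sql_top]
  exact (LinearMap.quotKerEquivOfSurjective _ (bc_surj B.mkQ_surjective)).length_eq

omit [IsLocalRing R] [IsLocalRing R'] in
/-- Exactness of `R^ι → R^ι → R^ι × N` is preserved by a flat base change. -/
theorem MC.Res.baseChange [Algebra R R'] [Module.Flat R R'] {n : ℕ} {F : MC R n} {N : Type} [AddCommGroup N]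
    [Module R N] {ε : (F.ι → R) →ₗ[R] N} (hF : F.Res ε) :
    ∃ ε' : ((F.map (algebraMap R R')).ι → R') →ₗ[R'] R' ⊗[R] N, (F.map (algebraMap R R')).Res ε' := by
  let e := piScalarRight R R' R' F.ι
  have hD : ∀ x, e (F.D.mulVecLin.baseChange R' x) = (F.D.map (algebraMap R R')).mulVec (e x) :=
    bc_scalar_D F.D
  refine ⟨ε.baseChange R' ∘ₗ e.symm.toLinearMap, ?_, ?_, ?_, ?_⟩
  · exact (bc_surj hF.surj).comp e.symm.surjective
  · intro w
    obtain ⟨x, rfl⟩ := e.surjective w
    have h0 : ε ∘ₗ F.D.mulVecLin = 0 := LinearMap.ext fun y => hF.εD y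
    change ε.baseChange R' (e.symm ((F.D.map (algebraMap R R')).mulVec (e x))) = 0
    rw [← hD, e.symm_apply_apply, ← bc_comp_apply, h0]
    simp
  · intro w hw
    change ε.baseChange R' (e.symm w) = 0
    have : w = ∑ a : F.ι, Pi.single a (w a) := (Finset.univ_sum_single w).symm
    rw [this, map_sum, map_sum]
    refine Finset.sum_eq_zero fun a _ => ?_
    rw [piScalarRight_symm_single, LinearMap.baseChange_tmul]
    by_cases ha : F.deg a = 0
    · rw [hw a ha, TensorProduct.zero_tmul]
    · rw [hF.ε0 (Pi.single a 1) fun b hb => Pi.single_eq_of_ne (fun h : b = a => ha (h ▸ hb)) _,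
        TensorProduct.tmul_zero]
  · intro w h1 h2
    obtain ⟨x, rfl⟩ := e.surjective w
    change (F.D.map (algebraMap R R')).mulVec (e x) = 0 at h1
    change ε.baseChange R' (e.symm (e x)) = 0 at h2
    rw [e.symm_apply_apply] at h2
    rw [← hD, e.map_eq_zero_iff] at h1
    have hex : Function.Exact F.D.mulVecLin (F.D.mulVecLin.prod ε) := by
      intro y
      simp only [LinearMap.prod_apply, Function.prod, Prod.mk_eq_zero, Matrix.mulVecLin_apply, Set.mem_range]
      constructor
      · rintro ⟨h3, h4⟩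
        exact hF.exact y h3 h4
      · rintro ⟨z, rfl⟩
        exact ⟨by rw [Matrix.mulVec_mulVec, F.sq, Matrix.zero_mulVec], hF.εD z⟩
    obtain ⟨y, hy⟩ := (bc_exact (B := R') hex x).1 ((bc_prod_eq_zero _ _ x).2 ⟨h1, h2⟩)
    exact ⟨e y, by rw [← hy, hD]; rfl⟩

/-- Apply `sql_baseChange` to `v = D ∘ p (i+1)` and `u = (D, 1 - p i)`; `R' ⊗ (ι → M) = ι → R' ⊗ M`
(`TensorProduct.piRight`). -/
theorem tl_baseChange [Algebra R R'] [Module.Flat R R'] {n : ℕ} (F : MC R n) (M : Type) [AddCommGroup M]
    [Module R M] (i : ℕ) (h : F.tl M i ≠ ⊤) :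
    (F.map (algebraMap R R')).tl (R' ⊗[R] M) i =
      colen R' ((maximalIdeal R).map (algebraMap R R')) * F.tl M i := by
  unfold MC.tl at h ⊢
  rw [bc_hon_h] at h
  rw [bc_hon_h (F.cx R M)]
  have h2 := sql_baseChange (R' := R') _ _ (bc_uv (F.cx R M) i)
  rw [length_baseChange _ (Module.length_ne_top_iff.1 h)] at h2
  refine Eq.trans ?_ h2
  exact bc_abs (F.cx R M) ((F.map (algebraMap R R')).cx R' (R' ⊗[R] M)) (piRight R R' R' (fun _ : F.ι => M))
    (bc_pi_D F.D) (bc_pi_p F.deg) i

/-- `R' ⊗ (R / I) = R' / I R'` (`Algebra.TensorProduct.quotIdealMapEquivTensorQuot` or similar). -/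
theorem chi_bc [IsNoetherianRing R] [IsNoetherianRing R'] {d : ℕ} (h : RegL R d) (f : R →+* R') [IsLocalHom f]
    (hf : f.Flat) {c : ℕ} (hc : maximalIdeal R' ^ c ≤ (maximalIdeal R).map f) :
    ∃ ρ : ℕ, 0 < ρ ∧ ∀ I J : Ideal R, Prim I J →
      chi R' d (R' ⧸ I.map f) (R' ⧸ J.map f) = ρ * chi R d (R ⧸ I) (R ⧸ J) := by
  let : Algebra R R' := f.toAlgebra
  have : Module.Flat R R' := hf
  have hfa : algebraMap R R' = f := rfl
  have hfin : colen R' ((maximalIdeal R).map f) ≠ ⊤ := by
    refine ne_top_of_le_ne_top (gw_colen_pow (R := R') c) ?_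
    exact colen_anti hc
  have hpos : colen R' ((maximalIdeal R).map f) ≠ 0 := by
    have : Nontrivial (R' ⧸ (maximalIdeal R).map f) :=
      Ideal.Quotient.nontrivial_iff.2 (map_maximalIdeal_lt_top f).ne
    exact (Module.length_pos (R := R') (M := R' ⧸ (maximalIdeal R).map f)).ne'
  refine ⟨(colen R' ((maximalIdeal R).map f)).toNat, ?_, fun I J hIJ => ?_⟩
  · exact Nat.pos_of_ne_zero fun h0 => by
      rcases ENat.toNat_eq_zero.1 h0 with h1 | h1
      · exact hpos h1
      · exact hfin h1
  obtain ⟨F, ε, hF⟩ := exists_res h (R ⧸ J)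
  obtain ⟨ε', hF'⟩ := hF.baseChange (R' := R')
  refine (chi_congr (Algebra.TensorProduct.quotIdealMapEquivTensorQuot R' I).toLinearEquiv
    (Algebra.TensorProduct.quotIdealMapEquivTensorQuot R' J).toLinearEquiv).trans ?_
  unfold chi
  rw [Finset.mul_sum]
  refine Finset.sum_congr rfl fun i _ => ?_
  have hne : tor R i (R ⧸ I) (R ⧸ J) ≠ ⊤ :=
    tor_ne_top h (Kil.quot (c := 1) (pow_one I).le) (Kil.quot (c := 1) (pow_one J).le) hIJ i
  rw [tor_eq_tl hF] at hne
  rw [tor_eq_tl hF', tor_eq_tl hF, tl_baseChange F _ i hne, ENat.toNat_mul, hfa]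
  push_cast
  ring

end Crest.Agent.R188
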