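import Crest.Agent.R188.Sq

/-!
# rid 188, file `Bock`: levels and the Bockstein formula

Prefix helper lemmas with `bk_`.
-/

set_option autoImplicit false

open IsLocalRing Crest.Agent.R183

namespace Crest.Agent.R188

variable {O : Type} [CommRing O] {n : ℕ} (G : MC O n) (S : Type) [CommRing S] [Algebra S O] {s t : O} {c : ℕ}

theorem bk_mem {ι : Type} {j J : ℕ} {w : ι → O} :
    w ∈ piI S ι (lev s t c j J) ↔ ∃ u v : ι → O, w = t ^ (j * c) • u + s ^ J • v := by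
  simp only [mem_piI, lev, Ideal.mem_span_pair]
  constructor
  · intro h
    choose u v h using h
    exact ⟨u, v, funext fun a => by simp [← h a, mul_comm]⟩
  · rintro ⟨u, v, rfl⟩ a
    exact ⟨u a, v a, by simp [mul_comm]⟩

theorem bk_D (o : O) (w : G.ι → O) : (G.cx S O).D (o • w) = o • (G.cx S O).D w := by
  ext a
  simp only [MC.cx, mact_apply, Pi.smul_apply, smul_eq_mul, Finset.mul_sum]
  exact Finset.sum_congr rfl fun b _ => by ring

theorem bk_p (o : O) (i : ℕ) (w : G.ι → O) : (G.cx S O).p i (o • w) = o • (G.cx S O).p i w := by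
  ext a
  simp only [MC.cx, prj_apply, Pi.smul_apply, smul_eq_mul]
  split_ifs <;> simp

theorem bk_DD (w : G.ι → O) : (G.cx S O).D ((G.cx S O).D w) = 0 :=
  LinearMap.congr_fun (G.cx S O).D_sq w

theorem bk_up {ι : Type} {j J : ℕ} (k : ℕ) {w : ι → O} (h : w ∈ piI S ι (lev s t c j J)) :
    s ^ k • w ∈ piI S ι (lev s t c j (J + k)) := by
  obtain ⟨u, v, rfl⟩ := (bk_mem S).1 h
  exact (bk_mem S).2 ⟨s ^ k • u, v, by module⟩

theorem bk_P1 {N : ℕ} (h : TOK s t c N) {ι : Type} {j J k : ℕ} (hJ : J + k ≤ N) {w : ι → O}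
    (hw : s ^ k • w ∈ piI S ι (lev s t c j (J + k))) : w ∈ piI S ι (lev s t c j J) :=
  (mem_piI S).2 fun a => h.P1 j k J (w a) hJ ((mem_piI S).1 hw a)

theorem bk_mono {ι : Type} {j J : ℕ} (k : ℕ) {w : ι → O} (h : w ∈ piI S ι (lev s t c j (J + k))) :
    w ∈ piI S ι (lev s t c j J) := by
  obtain ⟨u, v, rfl⟩ := (bk_mem S).1 h
  exact (bk_mem S).2 ⟨u, s ^ k • v, by module⟩

theorem bk_f {N : ℕ} (h : TOK s t c N) (ι : Type) (j : ℕ) {J k : ℕ} (hJ : J + k ≤ N) :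
    (piI S ι (lev s t c j (J + k))).comap (smu S ι (s ^ k)) = piI S ι (lev s t c j J) :=
  Submodule.ext fun _ => ⟨bk_P1 S h hJ, bk_up S k⟩

theorem bk_g (ι : Type) (j J k : ℕ) : (piI S ι (lev s t c j k)).comap LinearMap.id =
    LinearMap.range (smu S ι (s ^ k)) ⊔ piI S ι (lev s t c j (J + k)) := by
  ext w
  rw [Submodule.comap_id, Submodule.mem_sup, bk_mem]
  constructor
  · rintro ⟨u, v, rfl⟩
    exact ⟨_, ⟨v, rfl⟩, t ^ (j * c) • u, (bk_mem S).2 ⟨u, 0, by simp⟩, add_comm _ _⟩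
  · rintro ⟨_, ⟨v, rfl⟩, z, hz, rfl⟩
    obtain ⟨u, v', rfl⟩ := (bk_mem S).1 hz
    exact ⟨u, v + s ^ J • v', by rw [smu_apply]; module⟩

/-- `0 → level J → level (J + k) → level k → 0`; the first map is `s^k`, the second the identity. -/
theorem lvl_ses {N J k : ℕ} (h : TOK s t c N) (hJ : J + k ≤ N) (h1 : (G.lvl S s t c J).OK)
    (h2 : (G.lvl S s t c (J + k)).OK) (h3 : (G.lvl S s t c k).OK) :
    VSES (G.lvl S s t c J) (G.lvl S s t c (J + k)) (G.lvl S s t c k) (smu S G.ι (s ^ k)) LinearMap.id := by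
  exact ⟨h1, h2, h3, ⟨fun x => (bk_D G S _ x).symm, fun i x => (bk_p G S _ i x).symm⟩, ⟨fun _ => rfl, fun _ _ => rfl⟩,
    bk_f S h _ 1 hJ, bk_f S h _ 2 hJ, bk_f S h _ 3 hJ, Function.surjective_id, bk_g S _ 1 J k, bk_g S _ 2 J k,
    bk_g S _ 3 J k⟩

/-- At level `0` all ideals are `⊤`. -/
theorem lvl_zero (i : ℕ) : (G.lvl S s t c 0).h i = 0 := by
  exact (sql_eq_zero_iff _ _).2 fun w _ => Submodule.mem_sup_right ((bk_mem S).2 ⟨0, w, by simp⟩)

theorem lvl_h_le {N r : ℕ} (h : TOK s t c N) (hr : r ≤ N) (ok : ∀ J ≤ r, (G.lvl S s t c J).OK) (i : ℕ)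
    {J : ℕ} (hJ : J ≤ r) : (G.lvl S s t c J).h i ≤ J * (G.lvl S s t c 1).h i := by
  induction J with
  | zero => simp [lvl_zero]
  | succ J ih =>
    refine ((lvl_ses G S h (hJ.trans hr) (ok J (by omega)) (ok _ hJ) (ok 1 (by omega))).h_le i).trans ?_
    rw [Nat.cast_succ, add_mul, one_mul]
    gcongr
    exact ih (by omega)

theorem bk_NK (m : ℕ) : (G.lvl S s t c 1).N ≤ (G.lvl S s t c (m + 1)).N.comap (smu S G.ι (s ^ m)) := by
  intro x hx
  obtain ⟨y, hy⟩ := (VCx.mem_N _ _).1 hx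
  refine (VCx.mem_N _ _).2 ⟨s ^ m • y, ?_⟩
  have := bk_up S m hy
  rw [add_comm, smul_sub] at this
  exact (congrArg (fun z => s ^ m • x - z ∈ piI S G.ι (lev s t c 1 (m + 1))) (bk_D G S _ y)).mpr this

theorem bk_ZZ (m i : ℕ) : (G.lvl S s t c (m + 1)).Z i ≤ (G.lvl S s t c 1).Z i := by
  intro x hx
  obtain ⟨h1, h2⟩ := (VCx.mem_Z _ _ _).1 hx
  rw [add_comm] at h2
  exact (VCx.mem_Z _ _ _).2 ⟨h1, bk_mono S m h2⟩

/-- The elements of the kernel of `s^m` lift to level `m + 1`. -/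
theorem bk_lift {m : ℕ} (h : TOK s t c (m + 1 + m)) (ok : ∀ J ≤ m + 1, (G.lvl S s t c J).OK) (i : ℕ) {x : G.ι → O}
    (hx : x ∈ (G.lvl S s t c 1).Z i) (hN : s ^ m • x ∈ (G.lvl S s t c (m + 1)).N) :
    ∃ x' ∈ (G.lvl S s t c (m + 1)).Z i, x - x' ∈ (G.lvl S s t c 1).N := by
  obtain ⟨h1, h2⟩ := (VCx.mem_Z _ _ _).1 hx
  change (G.cx S O).p i x = x at h1
  have h3 : (G.cx S O).D (s ^ m • x) ∈ piI S G.ι (lev s t c 3 (m + 1)) := by
    rw [bk_D, add_comm]
    exact bk_up S m h2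
  obtain ⟨_, ⟨y, rfl⟩, z, hz, e1⟩ := Submodule.mem_sup.1 ((ok _ le_rfl).V2 _ h3 hN)
  obtain ⟨u2, v2, rfl⟩ := (bk_mem S).1 hz
  change (G.cx S O).D y + _ = _ at e1
  obtain ⟨y', hy1, hy2⟩ := (ok m (by omega)).V1 y ((bk_mem S).2 ⟨-u2, x - s • v2, by
    change (G.cx S O).D y = _
    rw [eq_sub_of_add_eq e1]
    module⟩)
  obtain ⟨a, b, e2⟩ := (bk_mem S).1 hy1
  obtain ⟨u, x', e3⟩ := (bk_mem S).1 hy2
  change (G.cx S O).D y' = _ at e3
  have h4 : (G.cx S O).D x' ∈ piI S G.ι (lev s t c 3 (m + 1)) := by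
    refine bk_P1 S h le_rfl ((bk_mem S).2 ⟨-(G.cx S O).D u, 0, ?_⟩)
    have := bk_DD G S y'
    rw [e3, map_add, bk_D, bk_D] at this
    rw [eq_neg_of_add_eq_zero_right this]
    module
  have h5 : x - x' - (G.cx S O).D b ∈ piI S G.ι (lev s t c 1 1) := by
    refine bk_P1 S h (k := m) (by omega) ((bk_mem S).2
      ⟨t ^ (2 * c) • u + (G.cx S O).D a + t ^ c • u2, v2, ?_⟩)
    rw [eq_add_of_sub_eq e2, map_add, map_add, bk_D, bk_D, e3] at e1
    rw [smul_sub, smul_sub, ← e1]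
    module
  refine ⟨(G.cx S O).p i x', (VCx.mem_Z _ _ _).2 ⟨?_, ?_⟩, (VCx.mem_N _ _).2 ⟨(G.cx S O).p (i + 1) b, ?_⟩⟩
  · exact LinearMap.congr_fun (((G.cx S O).p_mul i i).trans (if_pos rfl)) x'
  · change (G.cx S O).D ((G.cx S O).p i x') ∈ _
    cases i with
    | zero =>
      rw [show (G.cx S O).D ((G.cx S O).p 0 x') = 0 from LinearMap.congr_fun (G.cx S O).D_p0 x']
      exact zero_mem _
    | succ i =>
      rw [show (G.cx S O).D ((G.cx S O).p (i + 1) x') = (G.cx S O).p i ((G.cx S O).D x') from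
        LinearMap.congr_fun ((G.cx S O).D_p i) x']
      exact (ok _ le_rfl).p3 i _ h4
  · change x - (G.cx S O).p i x' - (G.cx S O).D ((G.cx S O).p (i + 1) b) ∈ _
    rw [show (G.cx S O).D ((G.cx S O).p (i + 1) b) = (G.cx S O).p i ((G.cx S O).D b) from
      LinearMap.congr_fun ((G.cx S O).D_p i) b, ← h1, ← map_sub, ← map_sub]
    exact (ok 1 (by omega)).p1 i _ h5

theorem bk_split {m : ℕ} (h : TOK s t c (m + 1 + m)) (ok : ∀ J ≤ m + 1, (G.lvl S s t c J).OK) (i : ℕ) :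
    (G.lvl S s t c 1).h i = cokL (G.lvl S s t c (m + 1)) (G.lvl S s t c 1) LinearMap.id i +
      (sql S (((G.lvl S s t c (m + 1)).Z i).map (smu S G.ι (s ^ m))) (G.lvl S s t c (m + 1)).N +
        kerL (G.lvl S s t c 1) (G.lvl S s t c (m + 1)) (smu S G.ι (s ^ m)) i) := by
  rw [VCx.h, cokL, Submodule.map_id, sql_add _ (le_sup_right (a := (G.lvl S s t c (m + 1)).Z i)), sql_map, kerL]
  congr 1
  have e1 : sql S ((G.lvl S s t c 1).Z i ⊓ ((G.lvl S s t c (m + 1)).Z i ⊔ (G.lvl S s t c 1).N)) (G.lvl S s t c 1).N =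
      sql S ((G.lvl S s t c (m + 1)).Z i) (G.lvl S s t c 1).N :=
    le_antisymm ((sql_mono inf_le_right le_rfl).trans_eq (sql_sup _ _))
      (sql_mono (le_inf (bk_ZZ G S m i) le_sup_left) le_rfl)
  rw [e1, sql_add _ (bk_NK G S m)]
  congr 1
  refine le_antisymm (sql_mono (inf_le_inf_right _ (bk_ZZ G S m i)) le_rfl)
    ((sql_mono ?_ le_rfl).trans_eq (sql_sup _ _))
  rintro x ⟨hx, hN⟩
  obtain ⟨x', h1, h2⟩ := bk_lift G S h ok i hx hN
  refine Submodule.mem_sup.2 ⟨x', ⟨h1, ?_⟩, x - x', h2, add_sub_cancel _ _⟩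
  have := sub_mem hN (bk_NK G S m h2)
  rwa [sub_sub_cancel] at this

theorem bk_tel (C : ℕ → ℤ) (k : ℕ) :
    ∑ i ∈ Finset.range k, (-1 : ℤ) ^ i * (C i + C (i + 1)) = C 0 - (-1) ^ k * C k := by
  induction k with
  | zero => simp
  | succ k ih =>
    rw [Finset.sum_range_succ, ih]
    ring

/-- Write `a, b, c` for the lengths at the levels `1, r-1, r`.  The sequence `1 → r → r-1` gives
`c i + B i + B (i-1) = a i + b i` with `B i = kerL`, the sequence `r-1 → r → 1` gives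
`c i + C (i+1) + C i = b i + a i` with `C i = cokL`, `C 0 = 0`; hence `B i = C (i+1)`.  In `H_i` of level `1` let
`A = Z_r i ⊔ N_1` (cycles that lift to level `r`) and `B = Z_1 i ⊓ (s^(r-1))⁻¹ N_r`.  Then `B ≤ A`: by `V2` (or
directly) `s^(r-1) x = D y + t^c u + s^r v`; use that `kerL = cokL` elementwise: `y` is a cycle of level `r-1` up to
`T2`, correct it by `V1` at level `r-1` to `y'` with `D y' = s^(r-1) x' + T3`; then `s^(r-1) D x' ∈ (t^(3c))`, so
`D x' ∈ lev 3 r` by `P1` with `J = r`, `k = r-1`, and `x' - x ∈ N_1` by `P1`.  So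
`a i = C i + E i + B i` with `E i` the length of `s^(r-1) H_i(r)`, and the alternating sum telescopes
(`B n = C (n+1) = 0`). -/
theorem bockstein {r : ℕ} (hr : 0 < r) (h : TOK s t c (2 * r - 1)) (ok : ∀ J ≤ r, (G.lvl S s t c J).OK)
    (fin : ∀ i, (G.lvl S s t c 1).h i ≠ ⊤) :
    (∀ i, sql S (((G.lvl S s t c r).Z i).map (smu S G.ι (s ^ (r - 1)))) (G.lvl S s t c r).N ≠ ⊤) ∧
    (G.lvl S s t c 1).chi = ∑ i ∈ Finset.range (n + 1), (-1 : ℤ) ^ i *
      ((sql S (((G.lvl S s t c r).Z i).map (smu S G.ι (s ^ (r - 1)))) (G.lvl S s t c r).N).toNat : ℤ) := by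
  obtain ⟨m, rfl⟩ : ∃ m, r = m + 1 := ⟨r - 1, by omega⟩
  rw [show 2 * (m + 1) - 1 = m + 1 + m by omega] at h
  simp only [Nat.add_sub_cancel]
  have s1 := lvl_ses G S h (J := 1) (k := m) (by omega) (ok 1 (by omega)) (ok _ (by omega)) (ok m (by omega))
  rw [add_comm 1 m] at s1
  have s2 := lvl_ses G S h (J := m) (k := 1) (by omega) (ok m (by omega)) (ok _ le_rfl) (ok 1 (by omega))
  have fc : ∀ i, (G.lvl S s t c (m + 1)).h i ≠ ⊤ := fun i =>
    ne_top_of_le_ne_top (WithTop.mul_ne_top (ENat.natCast_ne_top _) (fin i)) (lvl_h_le G S h (by omega) ok i le_rfl)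
  have fC : ∀ i, cokL (G.lvl S s t c (m + 1)) (G.lvl S s t c 1) LinearMap.id i ≠ ⊤ := fun i =>
    ne_top_of_le_ne_top (fin i) (cokL_le _ _ _ i)
  have key : ∀ i, cokL (G.lvl S s t c (m + 1)) (G.lvl S s t c m) LinearMap.id i =
      cokL (G.lvl S s t c (m + 1)) (G.lvl S s t c 1) LinearMap.id i := by
    intro i
    induction i with
    | zero => rw [s1.cok_zero, s2.cok_zero]
    | succ i ih =>
      have e := (s1.add i).trans ((add_comm _ _).trans (s2.add i).symm)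
      rw [ih] at e
      rw [s1.cok_succ, s2.cok_succ]
      exact WithTop.add_left_cancel (fc i) (WithTop.add_right_cancel (fC i) e)
  have sp := fun i => bk_split G S h ok i
  simp only [← s1.cok_succ, key] at sp
  have fE : ∀ i, sql S (((G.lvl S s t c (m + 1)).Z i).map (smu S G.ι (s ^ m))) (G.lvl S s t c (m + 1)).N ≠ ⊤ :=
    fun i => ne_top_of_le_ne_top (fin i) (by rw [sp]; exact le_add_left le_self_add)
  refine ⟨fE, ?_⟩
  have h0 : cokL (G.lvl S s t c (m + 1)) (G.lvl S s t c 1) LinearMap.id (n + 1) = 0 :=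
    le_antisymm ((cokL_le _ _ _ _).trans_eq (VCx.h_gt _ (Nat.lt_succ_self n))) zero_le
  have tel := bk_tel (fun i => ((cokL (G.lvl S s t c (m + 1)) (G.lvl S s t c 1) LinearMap.id i).toNat : ℤ)) (n + 1)
  simp only [h0, s2.cok_zero, ENat.toNat_zero, Nat.cast_zero, mul_zero, sub_zero] at tel
  rw [VCx.chi, ← add_zero (∑ i ∈ Finset.range (n + 1), (-1 : ℤ) ^ i * ((sql S _ _).toNat : ℤ)), ← tel,
    ← Finset.sum_add_distrib]
  refine Finset.sum_congr rfl fun i _ => ?_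
  have := congrArg ENat.toNat (sp i)
  rw [ENat.toNat_add (fC i) (ne_top_of_le_ne_top (fin i) (by rw [sp]; exact le_add_self)),
    ENat.toNat_add (fE i) (fC _)] at this
  rw [this]
  push_cast
  ring

end Crest.Agent.R188
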