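import Crest.Agent.R188.Sq

/-!
# rid 188, file `Bridge`: Mathlib's `Tor` is computed by a matrix resolution

Prefix helper lemmas with `bg_`.
-/

set_option autoImplicit false

open IsLocalRing Crest.Agent.R183

namespace Crest.Agent.R188

open Matrix CategoryTheory

section aux

variable {R : Type} [CommRing R] {n : ℕ} (F : MC R n) (L : Type) [AddCommGroup L] [Module R L]

/-- The indices of degree `i`. -/
abbrev bg_Ix (i : ℕ) : Type := {a : F.ι // F.deg a = i}

/-- The block of the differential from degree `i` to degree `j`. -/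
def bg_d (i j : ℕ) : (bg_Ix F i → L) →ₗ[R] (bg_Ix F j → L) :=
  mact R (F.D.submatrix (Subtype.val : bg_Ix F j → F.ι) (Subtype.val : bg_Ix F i → F.ι)) L

/-- Extension by zero. -/
def bg_ext (i : ℕ) : (bg_Ix F i → L) →ₗ[R] (F.ι → L) where
  toFun w a := if h : F.deg a = i then w ⟨a, h⟩ else 0
  map_add' w w' := by ext a; by_cases h : F.deg a = i <;> simp [h]
  map_smul' c w := by ext a; by_cases h : F.deg a = i <;> simp [h]

variable {F L}

theorem bg_d_apply (i j : ℕ) (w : bg_Ix F i → L) (a : bg_Ix F j) :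
    bg_d F L i j w a = ∑ b : bg_Ix F i, F.D a.1 b.1 • w b := rfl

theorem bg_ext_apply (i : ℕ) (w : bg_Ix F i → L) (a : F.ι) :
    bg_ext F L i w a = if h : F.deg a = i then w ⟨a, h⟩ else 0 := rfl

theorem bg_ext_val (i : ℕ) (w : bg_Ix F i → L) (a : bg_Ix F i) : bg_ext F L i w a.1 = w a := by
  rw [bg_ext_apply, dif_pos a.2]

theorem bg_ext_inj (i : ℕ) : Function.Injective (bg_ext F L i) := fun w w' h =>
  funext fun a => by rw [← bg_ext_val i w, h, bg_ext_val]

theorem bg_ext_res (i : ℕ) (x : F.ι → L) : bg_ext F L i (fun a => x a.1) = prj R F.deg L i x := by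
  ext a
  rw [bg_ext_apply, prj_apply]
  split_ifs <;> rfl

theorem bg_prj_ext (i : ℕ) (w : bg_Ix F i → L) : prj R F.deg L i (bg_ext F L i w) = bg_ext F L i w := by
  ext a
  rw [prj_apply]
  split_ifs with h
  · rfl
  · rw [bg_ext_apply, dif_neg h]

theorem bg_D_ext_apply (i : ℕ) (w : bg_Ix F i → L) (a : F.ι) :
    mact R F.D L (bg_ext F L i w) a = ∑ b : bg_Ix F i, F.D a b.1 • w b := by
  rw [mact_apply, ← Fintype.sum_subtype_add_sum_subtype (fun b => F.deg b = i)]
  rw [Finset.sum_eq_zero (s := (Finset.univ : Finset {b : F.ι // ¬F.deg b = i})) fun b _ => by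
    rw [bg_ext_apply, dif_neg b.2, smul_zero], add_zero]
  exact Finset.sum_congr rfl fun b _ => by rw [bg_ext_val]

theorem bg_D_ext (i : ℕ) (w : bg_Ix F i → L) :
    mact R F.D L (bg_ext F L i w) = bg_ext F L (i - 1) (bg_d F L i (i - 1) w) := by
  ext a
  rw [bg_D_ext_apply, bg_ext_apply]
  split_ifs with h
  · rfl
  · refine Finset.sum_eq_zero fun b _ => ?_
    by_cases h0 : F.D a b.1 = 0
    · rw [h0, zero_smul]
    · have := F.hD _ _ h0
      have := b.2
      omega

theorem bg_D_ext_succ (i : ℕ) (w : bg_Ix F (i + 1) → L) :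
    mact R F.D L (bg_ext F L (i + 1) w) = bg_ext F L i (bg_d F L (i + 1) i w) :=
  bg_D_ext (i + 1) w

theorem bg_d_zero {i j : ℕ} (h : j + 1 ≠ i) : bg_d F L i j = 0 := by
  refine LinearMap.ext fun w => funext fun a => ?_
  rw [bg_d_apply]
  refine Finset.sum_eq_zero fun b _ => ?_
  by_cases h0 : F.D a.1 b.1 = 0
  · rw [h0, zero_smul]
  · have := F.hD _ _ h0
    have := a.2
    have := b.2
    omega

theorem bg_DD (x : F.ι → L) : mact R F.D L (mact R F.D L x) = 0 :=
  LinearMap.congr_fun (F.cx R L).D_sq x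

theorem bg_d_d (i : ℕ) (w : bg_Ix F (i + 1 + 1) → L) :
    bg_d F L (i + 1) i (bg_d F L (i + 1 + 1) (i + 1) w) = 0 := by
  apply bg_ext_inj i
  rw [← bg_D_ext_succ, ← bg_D_ext_succ, bg_DD, map_zero]

theorem bg_mem_range (i : ℕ) (w : bg_Ix F i → L) :
    bg_ext F L i w ∈ LinearMap.range (mact R F.D L) ↔ w ∈ LinearMap.range (bg_d F L (i + 1) i) := by
  constructor
  · rintro ⟨y, hy⟩
    refine ⟨fun a => y a.1, bg_ext_inj i ?_⟩
    rw [← bg_D_ext_succ, bg_ext_res, ← bg_prj_ext, ← hy]
    exact LinearMap.congr_fun ((F.cx R L).D_p i) y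
  · rintro ⟨v, rfl⟩
    exact ⟨_, bg_D_ext_succ i v⟩

theorem bg_tl (i : ℕ) :
    F.tl L i = sql R (LinearMap.ker (bg_d F L i (i - 1))) (LinearMap.range (bg_d F L (i + 1) i)) := by
  have h1 : (hon (F.cx R L)).Z i = (LinearMap.ker (bg_d F L i (i - 1))).map (bg_ext F L i) := by
    ext x
    rw [VCx.mem_Z]
    constructor
    · rintro ⟨h, h'⟩
      have e : bg_ext F L i (fun a => x a.1) = x := (bg_ext_res i x).trans h
      refine ⟨fun a => x a.1, ?_, e⟩
      apply bg_ext_inj (i - 1)
      rw [← bg_D_ext, e, map_zero]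
      exact h'
    · rintro ⟨w, hw, rfl⟩
      refine ⟨bg_prj_ext i w, ?_⟩
      show mact R F.D L (bg_ext F L i w) = 0
      rw [bg_D_ext, show bg_d F L i (i - 1) w = 0 from hw, map_zero]
  have h2 : (hon (F.cx R L)).N.comap (bg_ext F L i) = LinearMap.range (bg_d F L (i + 1) i) := by
    ext w
    rw [← bg_mem_range, Submodule.mem_comap]
    show bg_ext F L i w ∈ LinearMap.range (mact R F.D L) ⊔ ⊥ ↔ _
    rw [sup_bot_eq]
  rw [MC.tl, VCx.h, h1, sql_map, h2]

variable (F L)

/-- The chain complex of a matrix complex. -/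
noncomputable def bg_cx : ChainComplex (ModuleCat.{0} R) ℕ where
  X i := ModuleCat.of R (bg_Ix F i → L)
  d i j := ModuleCat.ofHom (bg_d F L i j)
  shape i j h := by
    rw [bg_d_zero h]
    rfl
  d_comp_d' i j k hij hjk := by
    obtain rfl : j + 1 = i := hij
    obtain rfl : k + 1 = j := hjk
    exact ModuleCat.hom_ext (LinearMap.ext fun w => bg_d_d k w)

theorem bg_next (i : ℕ) : (ComplexShape.down ℕ).next i = i - 1 := by
  cases i with
  | zero => exact ChainComplex.next_nat_zero
  | succ i => exact ChainComplex.next_nat_succ i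

theorem bg_len_sc (S : ShortComplex (ModuleCat.{0} R)) :
    Module.length R S.homology = sql R (LinearMap.ker S.g.hom) (LinearMap.range S.f.hom) := by
  rw [S.moduleCatHomologyIso.toLinearEquiv.length_eq]
  have : LinearMap.range S.moduleCatToCycles =
      (LinearMap.range S.f.hom).submoduleOf (LinearMap.ker S.g.hom) := by
    ext x
    constructor
    · rintro ⟨y, rfl⟩
      exact ⟨y, rfl⟩
    · rintro ⟨y, hy⟩
      exact ⟨y, Subtype.ext hy⟩
  rw [sql, ← this]
  rfl

theorem bg_len_homology (i : ℕ) : Module.length R ((bg_cx F L).homology i) = F.tl L i := by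
  rw [((bg_cx F L).homologyIsoSc' (i + 1) i (i - 1) (ChainComplex.prev ℕ i)
    (bg_next i)).toLinearEquiv.length_eq, bg_len_sc, bg_tl]
  rfl

theorem bg_comm (i j : ℕ) (x : L) (w : bg_Ix F i → R) :
    bg_d F L i j (TensorProduct.piScalarRightHom R R L (bg_Ix F i) (x ⊗ₜ w)) =
      TensorProduct.piScalarRightHom R R L (bg_Ix F j) (x ⊗ₜ bg_d F R i j w) := by
  rw [TensorProduct.piScalarRightHom_tmul, TensorProduct.piScalarRightHom_tmul]
  ext a
  simp only [bg_d_apply, Finset.sum_smul, smul_eq_mul, mul_smul]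

/-- Tensoring the complex of free modules with `L`. -/
noncomputable def bg_iso :
    (((MonoidalCategory.tensoringLeft (ModuleCat.{0} R)).obj (ModuleCat.of R L)).mapHomologicalComplex
      (ComplexShape.down ℕ)).obj (bg_cx F R) ≅ bg_cx F L :=
  HomologicalComplex.Hom.isoOfComponents
    (fun i => (TensorProduct.piScalarRight R R L (bg_Ix F i)).toModuleIso) fun i j _ =>
      ModuleCat.MonoidalCategory.tensor_ext fun x w => bg_comm F L i j x w

variable {F}

theorem bg_mact (w : F.ι → R) : mact R F.D R w = F.D.mulVec w := rfl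

variable {N : Type} [AddCommGroup N] [Module R N] {ε : (F.ι → R) →ₗ[R] N}

theorem bg_exact (hF : F.Res ε) {i : ℕ} (w : bg_Ix F i → R) (h : bg_d F R i (i - 1) w = 0)
    (h' : ε (bg_ext F R i w) = 0) : ∃ v, bg_d F R (i + 1) i v = w := by
  refine (bg_mem_range i w).1 (hF.exact _ ?_ h')
  rw [← bg_mact, bg_D_ext, h, map_zero]

theorem bg_eps_d (hF : F.Res ε) (w : bg_Ix F (0 + 1) → R) :
    ε (bg_ext F R 0 (bg_d F R (0 + 1) 0 w)) = 0 := by
  rw [← bg_D_ext_succ, bg_mact, hF.εD]

theorem bg_eps_succ (hF : F.Res ε) {i : ℕ} (w : bg_Ix F (i + 1) → R) : ε (bg_ext F R (i + 1) w) = 0 :=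
  hF.ε0 _ fun a ha => by rw [bg_ext_apply, dif_neg (by omega)]

theorem bg_quasi {K : ChainComplex (ModuleCat.{0} R) ℕ} {X : ModuleCat.{0} R} (φ : K.X 0 ⟶ X)
    (hφ : K.d 1 0 ≫ φ = 0) (h1 : ∀ w, φ.hom w = 0 → ∃ v, (K.d 1 0).hom v = w)
    (h2 : Function.Surjective φ.hom) :
    QuasiIsoAt ((ChainComplex.toSingle₀Equiv K X).symm ⟨φ, hφ⟩) 0 := by
  have e := ChainComplex.toSingle₀Equiv_symm_apply_f_zero φ hφ
  generalize (ChainComplex.toSingle₀Equiv K X).symm ⟨φ, hφ⟩ = π at e ⊢
  subst e
  rw [ChainComplex.quasiIsoAt₀_iff, ShortComplex.quasiIso_iff_of_zeros']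
  · exact ⟨(ShortComplex.moduleCat_exact_iff _).2 h1, (ModuleCat.epi_iff_surjective _).2 h2⟩
  · exact K.shape 0 0 (by simp)
  · rfl
  · rfl

/-- The projective resolution of a matrix resolution. -/
noncomputable def bg_res (hF : F.Res ε) : ProjectiveResolution (ModuleCat.of R N) where
  complex := bg_cx F R
  projective i := by
    show Projective (ModuleCat.of R (bg_Ix F i → R))
    infer_instance
  π := (ChainComplex.toSingle₀Equiv _ _).symm ⟨ModuleCat.ofHom (ε ∘ₗ bg_ext F R 0),
    ModuleCat.hom_ext (LinearMap.ext fun w => bg_eps_d hF w)⟩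
  quasiIso := ⟨fun i => by
    cases i with
    | zero =>
      refine bg_quasi _ _ (fun w hw => bg_exact hF w ?_ hw) fun y => ?_
      · rw [bg_d_zero (by omega)]
        rfl
      · obtain ⟨x, rfl⟩ := hF.surj y
        refine ⟨fun a => x a.1, ?_⟩
        show ε (bg_ext F R 0 fun a => x a.1) = ε x
        rw [bg_ext_res, ← sub_eq_zero, ← map_sub]
        exact hF.ε0 _ fun a ha => by simp [prj_apply, ha]
    | succ i =>
      rw [quasiIsoAt_iff_exactAt' _ _ (ChainComplex.exactAt_succ_single_obj _ _),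
        HomologicalComplex.exactAt_iff' _ (i + 1 + 1) (i + 1) i (by simp) (by simp),
        ShortComplex.moduleCat_exact_iff]
      intro w hw
      exact bg_exact hF w hw (bg_eps_succ hF w)⟩

end aux

/-- Build `P : ProjectiveResolution (ModuleCat.of R N)` with `P.complex.X i = ModuleCat.of R ({a // F.deg a = i} → R)`
and differentials the blocks of `F.D` (`ChainComplex.of`).  `ProjectiveResolution.isoLeftDerivedObj` identifies
`Tor_i(M, N)` with the homology of `M ⊗ P`; use `HomologicalComplex.homologyIsoSc'` /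
`ShortComplex.moduleCatHomologyIso` and `TensorProduct.piScalarRight` (`M ⊗ (ι → R) ≃ (ι → M)`), and compare
`ker / range` with `Z i / N` in `F.ι → M` (extension by zero; `sql_map`, `sql_congr`). -/
theorem tor_eq_tl {R : Type} [CommRing R] {n : ℕ} {F : MC R n} {N : Type} [AddCommGroup N] [Module R N]
    {ε : (F.ι → R) →ₗ[R] N} (hF : F.Res ε) (M : Type) [AddCommGroup M] [Module R M] (i : ℕ) :
    tor R i M N = F.tl M i := by
  rw [← bg_len_homology, tor]
  exact (((bg_res hF).isoLeftDerivedObj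
    ((MonoidalCategory.tensoringLeft (ModuleCat.{0} R)).obj (ModuleCat.of R M)) i) ≪≫
      (HomologicalComplex.homologyFunctor _ _ i).mapIso (bg_iso F M)).toLinearEquiv.length_eq

end Crest.Agent.R188
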