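import Crest.Agent.R188.Defs
import Crest.Agent.R183.PS

/-!
# rid 188, file `Th`: power series maps, the thickening and the translation

Prefix helper lemmas with `th_`.
-/

set_option autoImplicit false

open IsLocalRing Crest.Agent.R183

namespace Crest.Agent.R188

open MvPowerSeries

variable {C O : Type} [CommRing C] [CommRing O] {d : ℕ}

theorem th_map_idl {A B : Type} [CommRing A] [CommRing B] (a : A →+* B) (x : Fin d → A) :
    (idl x).map a = idl fun i => a (x i) := by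
  unfold idl
  rw [Ideal.map_span, ← Set.range_comp]
  rfl

theorem th_mem_idl {A : Type} [CommRing A] (x : Fin d → A) (i : Fin d) : x i ∈ idl x :=
  Ideal.subset_span ⟨i, rfl⟩

theorem th_idl_le {A : Type} [CommRing A] {x : Fin d → A} {I : Ideal A} (h : ∀ i, x i ∈ I) : idl x ≤ I :=
  Ideal.span_le.2 (by rintro _ ⟨i, rfl⟩; exact h i)

theorem th_poly (a b : MvPowerSeries (Fin d) C →+* O) (h : ∀ c, a (MvPowerSeries.C c) = b (MvPowerSeries.C c))
    (p : MvPolynomial (Fin d) C) : a p - b p ∈ idl (fun i => a (X i) - b (X i)) := by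
  induction p using MvPolynomial.induction_on with
  | C c => rw [MvPolynomial.coe_C, h, sub_self]; exact Ideal.zero_mem _
  | add p q hp hq =>
    rw [MvPolynomial.coe_add, map_add, map_add, add_sub_add_comm]
    exact Ideal.add_mem _ hp hq
  | mul_X p i hp =>
    rw [MvPolynomial.coe_mul, MvPolynomial.coe_X, map_mul, map_mul]
    have : a p * a (X i) - b p * b (X i) = (a p - b p) * a (X i) + b p * (a (X i) - b (X i)) := by ring
    rw [this]
    exact Ideal.add_mem _ (Ideal.mul_mem_right _ _ hp)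
      (Ideal.mul_mem_left _ _ (th_mem_idl (fun i => a (X i) - b (X i)) i))

theorem th_nil {x : Fin d → O} (hx : ∀ i, IsNilpotent (x i)) : ∃ n : ℕ, idl x ^ n = ⊥ := by
  have hfg : (idl x).FG := Submodule.fg_span (Set.finite_range x)
  obtain ⟨n, hn⟩ := hfg.isNilpotent_iff_le_nilradical.2 (th_idl_le fun i => mem_nilradical.2 (hx i))
  exact ⟨n, hn⟩

theorem th_complete {I : Ideal O} {n : ℕ} (hn : I ^ n = ⊥) : IsAdicComplete I O where
  haus' x hx := by
    have := hx n
    rw [hn, Submodule.bot_smul, SModEq.bot] at this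
    exact this
  prec' f hf := by
    refine ⟨f n, fun m => ?_⟩
    rcases le_total m n with h | h
    · exact hf h
    · have := hf h
      rw [hn, Submodule.bot_smul, SModEq.bot] at this
      rw [this]

open Polynomial in
theorem th_mem {Λ : Type} [CommRing Λ] {N J : ℕ} (hJ : J ≤ N) (l : Λ) (f : Λ[X]) :
    AdjoinRoot.mk (Polynomial.X ^ N : Λ[X]) f ∈ Ideal.span {AdjoinRoot.of (Polynomial.X ^ N : Λ[X]) l,
      AdjoinRoot.root (Polynomial.X ^ N : Λ[X]) ^ J} ↔ ∀ i < J, f.coeff i ∈ Ideal.span {l} := by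
  rw [Ideal.mem_span_pair]
  constructor
  · rintro ⟨u, v, huv⟩ i hi
    obtain ⟨U, rfl⟩ := AdjoinRoot.mk_surjective u
    obtain ⟨V, rfl⟩ := AdjoinRoot.mk_surjective v
    have h1 : AdjoinRoot.mk (Polynomial.X ^ N : Λ[X]) (U * Polynomial.C l + V * Polynomial.X ^ J - f) = 0 := by
      rw [map_sub, map_add, map_mul, map_mul, map_pow, AdjoinRoot.mk_C, AdjoinRoot.mk_X, huv, sub_self]
    have h2 := Polynomial.X_pow_dvd_iff.1 (AdjoinRoot.mk_eq_zero.1 h1) i (hi.trans_le hJ)
    rw [coeff_sub, coeff_add, Polynomial.coeff_mul_C, coeff_mul_X_pow', if_neg (not_le.2 hi), add_zero, sub_eq_zero] at h2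
    rw [← h2]
    exact Ideal.mul_mem_left _ _ (Ideal.mem_span_singleton_self l)
  · intro h
    choose! e he using fun i hi => Ideal.mem_span_singleton'.1 (h i hi)
    have h1 : (Polynomial.X ^ J : Λ[X]) ∣
        f - (∑ i ∈ Finset.range J, Polynomial.monomial i (e i)) * Polynomial.C l := by
      refine Polynomial.X_pow_dvd_iff.2 fun i hi => ?_
      rw [coeff_sub, Polynomial.coeff_mul_C, finsetSum_coeff]
      simp only [Polynomial.coeff_monomial]
      rw [Finset.sum_ite_eq' (Finset.range J) i e, if_pos (Finset.mem_range.2 hi), he i hi, sub_self]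
    obtain ⟨V, hV⟩ := h1
    refine ⟨AdjoinRoot.mk _ (∑ i ∈ Finset.range J, Polynomial.monomial i (e i)), AdjoinRoot.mk _ V, ?_⟩
    rw [← AdjoinRoot.mk_C, ← AdjoinRoot.mk_X, ← map_pow, ← map_mul, ← map_mul, ← map_add]
    congr 1
    rw [mul_comm V, ← hV]
    ring


/-- Truncate `g` below degree `K` (`ps_mem_idl_pow`); for polynomials the difference lies in the ideal of the
differences. -/
theorem ps_diff (a b : MvPowerSeries (Fin d) C →+* O) (h : ∀ c, a (MvPowerSeries.C c) = b (MvPowerSeries.C c))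
    (g : MvPowerSeries (Fin d) C) (K : ℕ) :
    a g - b g ∈ idl (fun i => a (X i) - b (X i)) ⊔ (idl (fun i => a (X i)) ⊔ idl fun i => b (X i)) ^ K := by
  classical
  let n : Fin d →₀ ℕ := Finsupp.equivFunOnFinite.symm fun _ => K
  let p : MvPolynomial (Fin d) C := trunc' C n g
  have hr : g - p ∈ idl (X : Fin d → MvPowerSeries (Fin d) C) ^ K := by
    refine ps_mem_idl_pow K _ fun β hβ => ?_
    have hle : β ≤ n := fun i => by
      have : β i ≤ β.degree := Finsupp.le_degree i β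
      change β i ≤ K
      omega
    rw [map_sub, MvPolynomial.coeff_coe, coeff_trunc', if_pos hle, sub_self]
  have ha : a (g - p) ∈ (idl (fun i => a (X i)) ⊔ idl fun i => b (X i)) ^ K := by
    have := Ideal.mem_map_of_mem a hr
    rw [Ideal.map_pow, th_map_idl] at this
    exact Ideal.pow_right_mono le_sup_left K this
  have hb : b (g - p) ∈ (idl (fun i => a (X i)) ⊔ idl fun i => b (X i)) ^ K := by
    have := Ideal.mem_map_of_mem b hr
    rw [Ideal.map_pow, th_map_idl] at this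
    exact Ideal.pow_right_mono le_sup_right K this
  have : a g - b g = (a p - b p) + (a (g - p) - b (g - p)) := by
    rw [map_sub, map_sub]; ring
  rw [this]
  exact Submodule.add_mem_sup (th_poly a b h p) (Ideal.sub_mem _ ha hb)
theorem ps_ext (a b : MvPowerSeries (Fin d) C →+* O) (h : ∀ c, a (MvPowerSeries.C c) = b (MvPowerSeries.C c))
    (hX : ∀ i, a (X i) = b (X i)) (I : Ideal O) (hI : ∀ i, a (X i) ∈ I) (hH : ∀ y, (∀ K, y ∈ I ^ K) → y = 0) :
    a = b := by
  refine RingHom.ext fun g => sub_eq_zero.1 (hH _ fun K => ?_)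
  refine (sup_le (th_idl_le fun i => ?_) (Ideal.pow_right_mono (sup_le (th_idl_le hI) (th_idl_le fun i => ?_)) K) :
    _ ≤ I ^ K) (ps_diff a b h g K)
  · rw [hX, sub_self]; exact Ideal.zero_mem _
  · rw [← hX]; exact hI i
theorem ps_ext_nil (a b : MvPowerSeries (Fin d) C →+* O) (h : ∀ c, a (MvPowerSeries.C c) = b (MvPowerSeries.C c))
    (hX : ∀ i, a (X i) = b (X i)) (hn : ∀ i, IsNilpotent (a (X i))) : a = b := by
  obtain ⟨n, hn'⟩ := th_nil hn
  refine ps_ext a b h hX (idl fun i => a (X i)) (th_mem_idl fun i => a (X i)) fun y hy => ?_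
  have := hy n
  rwa [hn', Ideal.mem_bot] at this
/-- `exists_psMap` for the nilpotent ideal `idl x`. -/
theorem exists_psMap_nil (φ : C →+* O) (x : Fin d → O) (hx : ∀ i, IsNilpotent (x i)) :
    ∃ Φ : MvPowerSeries (Fin d) C →+* O, (∀ c, Φ (MvPowerSeries.C c) = φ c) ∧ ∀ i, Φ (X i) = x i := by
  obtain ⟨n, hn⟩ := th_nil hx
  have := th_complete hn
  exact exists_psMap (idl x) φ x (th_mem_idl x)
/-- `O = AdjoinRoot (X^N)`.  For `J ≤ N` and a polynomial `f`: `mk f ∈ (j l, s^J)` iff `coeff i f ∈ (l)` for all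
`i < J`. -/
theorem exists_thick (Λ : Type) [CommRing Λ] {N : ℕ} (hN : 0 < N) :
    ∃ (O : Type) (_ : CommRing O) (j : Λ →+* O) (ev : O →+* Λ) (s : O), Thick j ev s N ∧
      ∀ (𝒪 : Type) [CommRing 𝒪] (f : Λ →+* 𝒪) (σ : 𝒪), σ ^ N = 0 →
        ∃ θ : O →+* 𝒪, (∀ l, θ (j l) = f l) ∧ θ s = σ := by
  have h0 : (Polynomial.X ^ N : Polynomial Λ).eval₂ (RingHom.id Λ) 0 = 0 := by
    simp [hN.ne']
  refine ⟨AdjoinRoot (Polynomial.X ^ N : Polynomial Λ), inferInstance, AdjoinRoot.of _,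
    AdjoinRoot.lift (RingHom.id Λ) 0 h0, AdjoinRoot.root _, ⟨fun l => ?_, fun b => ?_, ?_, ?_, ?_⟩,
    fun 𝒪 _ f σ hσ => ?_⟩
  · exact AdjoinRoot.lift_of h0
  · obtain ⟨f, rfl⟩ := AdjoinRoot.mk_surjective b
    have h1 := th_mem (Λ := Λ) (J := 1) hN 0 f
    rw [map_zero, pow_one, Ideal.span_insert_zero] at h1
    rw [h1, AdjoinRoot.lift_mk, Polynomial.eval₂_at_zero]
    simp
  · rw [← AdjoinRoot.mk_X, ← map_pow, AdjoinRoot.mk_self]
  · intro l k J b hJ hb
    obtain ⟨f, rfl⟩ := AdjoinRoot.mk_surjective b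
    have h1 : AdjoinRoot.root (Polynomial.X ^ N : Polynomial Λ) ^ k * AdjoinRoot.mk _ f
        = AdjoinRoot.mk _ (Polynomial.X ^ k * f) := by
      rw [map_mul, map_pow, AdjoinRoot.mk_X]
    rw [h1, th_mem hJ] at hb
    rw [th_mem (by omega)]
    intro i hi
    have := hb (i + k) (by omega)
    rwa [Polynomial.coeff_X_pow_mul] at this
  · intro l l' l'' hl J hJ y hy
    obtain ⟨f, rfl⟩ := AdjoinRoot.mk_surjective y
    have h1 : AdjoinRoot.of (Polynomial.X ^ N : Polynomial Λ) l * AdjoinRoot.mk _ f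
        = AdjoinRoot.mk _ (Polynomial.C l * f) := by
      rw [map_mul, AdjoinRoot.mk_C]
    rw [h1, th_mem hJ] at hy
    rw [th_mem hJ]
    intro i hi
    have := hy i hi
    rw [Polynomial.coeff_C_mul] at this
    exact hl _ this
  · have h1 : (Polynomial.X ^ N : Polynomial Λ).eval₂ f σ = 0 := by simp [hσ]
    exact ⟨AdjoinRoot.lift f σ h1, fun l => AdjoinRoot.lift_of h1, AdjoinRoot.lift_root h1⟩
/-- First map `A = C⟦x⟧` to the complete local ring `MvPowerSeries (Fin 1) A` (`ps_complete`, `exists_psMap`) by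
`x_i ↦ x_i + v_i s`, then to `O` by `exists_psMap_nil`.  The last-but-one claim is `ps_ext` in the Noetherian local
ring `Λ` (Krull). -/
theorem exists_transl [IsLocalRing C] [IsNoetherianRing C] [IsAdicComplete (maximalIdeal C) C] {Λ : Type}
    [CommRing Λ] [Nontrivial Λ] (ρ0 : MvPowerSeries (Fin d) C →+* Λ) (hρ : Function.Surjective ρ0) {N : ℕ}
    (hN : 0 < N) (v : Fin d → C) :
    ∃ (O : Type) (_ : CommRing O) (j : Λ →+* O) (ev : O →+* Λ) (s : O) (τ0 : MvPowerSeries (Fin d) C →+* O),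
      Thick j ev s N ∧ (∀ c, τ0 (MvPowerSeries.C c) = j (ρ0 (MvPowerSeries.C c))) ∧
      (∀ i, τ0 (X i) = j (ρ0 (X i)) + j (ρ0 (MvPowerSeries.C (v i))) * s) ∧ (∀ g, ev (τ0 g) = ρ0 g) ∧
      ∀ (𝒪 : Type) [CommRing 𝒪] (f : Λ →+* 𝒪) (σ : 𝒪), σ ^ N = 0 →
        ∃ θ : O →+* 𝒪, (∀ l, θ (j l) = f l) ∧ θ s = σ := by
  obtain ⟨O, iO, j, ev, s, hT, hU⟩ := exists_thick Λ hN
  have := ps_complete C d
  have := ps_complete (MvPowerSeries (Fin d) C) 1
  have hX : ∀ i, (X i : MvPowerSeries (Fin d) C) ∈ maximalIdeal (MvPowerSeries (Fin d) C) := fun i => by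
    rw [ps_maximal]
    exact Ideal.mem_sup_right (th_mem_idl X i)
  obtain ⟨Φ, hΦ1, hΦ2⟩ := exists_psMap (maximalIdeal (MvPowerSeries (Fin 1) (MvPowerSeries (Fin d) C)))
    ((MvPowerSeries.C : MvPowerSeries (Fin d) C →+* _).comp MvPowerSeries.C)
    (fun i => MvPowerSeries.C (X i) + MvPowerSeries.C (MvPowerSeries.C (v i)) * X 0) (fun i => by
      rw [ps_maximal]
      exact Submodule.add_mem_sup (Ideal.mem_map_of_mem _ (hX i))
        (Ideal.mul_mem_left _ _ (th_mem_idl X 0)))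
  obtain ⟨Ψ, hΨ1, hΨ2⟩ := exists_psMap_nil (d := 1) (j.comp ρ0) (fun _ => s) fun _ => ⟨N, hT.nil⟩
  have e1 : ∀ c, Ψ.comp Φ (MvPowerSeries.C c) = j (ρ0 (MvPowerSeries.C c)) := fun c => by
    rw [RingHom.comp_apply, hΦ1, RingHom.comp_apply, hΨ1, RingHom.comp_apply]
  have e2 : ∀ i, Ψ.comp Φ (X i) = j (ρ0 (X i)) + j (ρ0 (MvPowerSeries.C (v i))) * s := fun i => by
    rw [RingHom.comp_apply, hΦ2, map_add, map_mul, hΨ1, hΨ1, hΨ2, RingHom.comp_apply, RingHom.comp_apply]
  have hs : ev s = 0 := (hT.ker_ev s).2 (Ideal.mem_span_singleton_self s)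
  refine ⟨O, iO, j, ev, s, Ψ.comp Φ, hT, e1, e2, ?_, hU⟩
  have := IsLocalRing.of_surjective' ρ0 hρ
  have := IsLocalHom.of_surjective ρ0 hρ
  have : IsNoetherianRing Λ := isNoetherianRing_of_surjective _ _ ρ0 hρ
  have e3 : ∀ i, ev.comp (Ψ.comp Φ) (X i) = ρ0 (X i) := fun i => by
    rw [RingHom.comp_apply, e2, map_add, map_mul, hs, mul_zero, add_zero, hT.ev_j]
  have key : ev.comp (Ψ.comp Φ) = ρ0 := by
    refine ps_ext _ _ (fun c => by rw [RingHom.comp_apply, e1, hT.ev_j]) e3 (maximalIdeal Λ) (fun i => ?_)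
      fun y hy => ?_
    · rw [e3]
      exact map_nonunit ρ0 _ (hX i)
    · have := Ideal.iInf_pow_eq_bot_of_isLocalRing (maximalIdeal Λ) (maximalIdeal.isMaximal Λ).ne_top
      rw [← Ideal.mem_bot, ← this]
      exact Ideal.mem_iInf.2 hy
  intro g
  exact RingHom.congr_fun key g
end Crest.Agent.R188
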