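import Crest.Agent.R188.Two
import Crest.Agent.R188.Th

/-!
# rid 188, file `ClV`: the valuative claim

Prefix helper lemmas with `cv_`.
-/

set_option autoImplicit false

open IsLocalRing Crest.Agent.R183

namespace Crest.Agent.R188

variable {k : Type} [Field k] {d : ℕ}

theorem cv_eval_smul {Φ : MvPolynomial (Fin d) k} {D : ℕ} (h : Φ.IsHomogeneous D) (c : k) (w : Fin d → k) :
    MvPolynomial.eval (fun i => c * w i) Φ = c ^ D * MvPolynomial.eval w Φ := by
  rw [MvPolynomial.eval_eq', MvPolynomial.eval_eq', Finset.mul_sum]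
  refine Finset.sum_congr rfl fun m hm => ?_
  have h1 : ∑ i, m i = D := by
    have := h (MvPolynomial.mem_support_iff.1 hm)
    rw [← this, Finsupp.weight_apply, Finsupp.sum_fintype _ _ (by simp)]
    simp
  simp only [mul_pow, Finset.prod_mul_distrib, Finset.prod_pow_eq_pow_sum, h1]
  ring

/-- A common non-zero of finitely many forms, normalised at `i0` (`MvPolynomial.funext`; multiply by `X i0`). -/
theorem exists_good_point [Infinite k] (i0 : Fin d) (l : List (MvPolynomial (Fin d) k))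
    (h : ∀ Φ ∈ l, Φ ≠ 0 ∧ ∃ D, Φ.IsHomogeneous D) :
    ∃ v : Fin d → k, v i0 = 1 ∧ ∀ Φ ∈ l, MvPolynomial.eval v Φ ≠ 0 := by
  have h1 : MvPolynomial.X i0 * l.prod ≠ 0 :=
    mul_ne_zero (MvPolynomial.X_ne_zero i0) (List.prod_ne_zero fun h0 => (h 0 h0).1 rfl)
  obtain ⟨w, hw⟩ : ∃ w : Fin d → k, MvPolynomial.eval w (MvPolynomial.X i0 * l.prod) ≠ 0 := by
    by_contra hh
    push Not at hh
    exact h1 (MvPolynomial.funext fun w => by rw [hh w, map_zero])
  rw [map_mul, MvPolynomial.eval_X] at hw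
  have h2 := left_ne_zero_of_mul hw
  have h3 := right_ne_zero_of_mul hw
  refine ⟨fun i => (w i0)⁻¹ * w i, inv_mul_cancel₀ h2, fun Φ hΦ => ?_⟩
  obtain ⟨-, D, hD⟩ := h Φ hΦ
  rw [cv_eval_smul hD]
  refine mul_ne_zero (pow_ne_zero _ (inv_ne_zero h2)) fun h0 => h3 ?_
  obtain ⟨q, hq⟩ := List.dvd_prod hΦ
  rw [hq, map_mul, h0, zero_mul]

theorem cv_coord {O K : Type} [CommRing O] [Field K] (V : ValuationSubring K) (f : O →+* K) (hf : ∀ y, f y ∈ V)
    {x y : Fin d → O} {U1 U2 : O} {N L : ℕ} (hN : 0 < N) (hL : 0 < L)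
    (hS : ∀ i, x i ^ N ∈ Ideal.span {U1, U2} ⊔ idl (fun i => x i - y i) ⊔ (idl x ⊔ idl y) ^ (N + 1))
    {γ : V.ValueGroup} (hγ : γ ≤ 1) (hx : ∀ i, V.valuation (f (x i)) < 1)
    (hd : ∀ i, V.valuation (f (x i - y i)) ≤ γ) (h1 : V.valuation (f U1) ^ L < γ)
    (h2 : V.valuation (f U2) ^ L < γ) (i : Fin d) :
    V.valuation (f (x i)) ^ (N * L) ≤ γ ∧ V.valuation (f (y i)) ^ (N * L) ≤ γ := by
  have : Nonempty (Fin d) := ⟨i⟩
  obtain ⟨i1, hi1⟩ := Finite.exists_max fun i => V.valuation (f (x i))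
  set ρ := V.valuation (f (x i1)) with hρ
  have hρ1 : ρ < 1 := hx i1
  have hC : N * L ≠ 0 := (Nat.mul_pos hN hL).ne'
  have hy : ∀ j, V.valuation (f (y j)) ≤ max ρ γ := fun j => by
    have e : f (y j) = f (x j) - f (x j - y j) := by rw [map_sub]; ring
    rw [e]
    exact (V.valuation.map_sub _ _).trans (max_le_max (hi1 j) (hd j))
  have key : ρ ^ (N * L) ≤ γ := by
    by_contra hh
    rw [not_le] at hh
    have a0 : ρ ≠ 0 := fun h0 => by
      rw [h0, zero_pow hC] at hh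
      exact not_lt_of_ge zero_le hh
    have a1 : ρ ^ (N * L) ≤ ρ ^ N := pow_le_pow_right_of_le_one' hρ1.le (Nat.le_mul_of_pos_right N hL)
    have a2 : ρ ^ N ≤ ρ := by
      simpa using pow_le_pow_right_of_le_one' hρ1.le (Nat.succ_le_of_lt hN)
    have a3 : ∀ U : O, V.valuation (f U) ^ L < γ → V.valuation (f U) < ρ ^ N := fun U hU => by
      refine lt_of_pow_lt_pow_left₀ L zero_le ?_
      rw [← pow_mul]
      exact hU.trans hh
    have a4 : ρ ^ (N + 1) < ρ ^ N := pow_lt_pow_right_of_lt_one₀ (zero_lt_iff.2 a0) hρ1 (Nat.lt_succ_self N)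
    have a5 : V.valuation (f (x i1 ^ N)) < ρ ^ N := by
      refine val_lt_of_mem_sup V f (fun z hz => val_lt_of_mem_sup V f (fun z hz => ?_) (fun z hz => ?_) hz)
        (fun z hz => ?_) (hS i1)
      · refine val_lt_of_mem_span V f hf (pow_ne_zero _ a0) ?_ hz
        rintro w (rfl | rfl)
        · exact a3 _ h1
        · exact a3 _ h2
      · refine val_lt_of_mem_span V f hf (pow_ne_zero _ a0) ?_ hz
        rintro w ⟨j, rfl⟩
        exact (hd j).trans_lt (hh.trans_le a1)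
      · refine (val_le_of_mem_pow V f hf (γ := ρ) (fun w hw => ?_) (N + 1) hz).trans_lt a4
        rw [idl, idl, ← Ideal.span_union] at hw
        refine val_le_of_mem_span V f hf ?_ hw
        rintro w (⟨j, rfl⟩ | ⟨j, rfl⟩)
        · exact hi1 j
        · exact (hy j).trans (max_le le_rfl (hh.le.trans (a1.trans a2)))
    rw [map_pow, map_pow] at a5
    exact lt_irrefl _ a5
  refine ⟨(pow_le_pow_left₀ zero_le (hi1 i) _).trans key, (pow_le_pow_left₀ zero_le (hy i) _).trans ?_⟩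
  rcases le_total ρ γ with h | h
  · rw [max_eq_right h]
    simpa using pow_le_pow_right_of_le_one' hγ (Nat.succ_le_of_lt (Nat.mul_pos hN hL))
  · rwa [max_eq_left h]

theorem cv_gens_map {m1 m2 : Mdl k d} {O O' : Type} [CommRing O] [Algebra k O] [CommRing O'] [Algebra k O']
    (φ : O →ₐ[k] O') (a : m1.E →ₐ[k] O) (b : m2.E →ₐ[k] O) (v : Fin d → k) (i0 : Fin d) (L κ : ℕ)
    (T1 T1' : m1.E) (T2 T2' : m2.E) (j : Fin (d + 5)) :
    φ (gens a b v i0 L κ T1 T1' T2 T2' j) = gens (φ.comp a) (φ.comp b) v i0 L κ T1 T1' T2 T2' j := by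
  refine Fin.addCases (fun i => ?_) (fun i => ?_) j
  · simp [gens]
  · simp only [gens, Fin.append_right]
    fin_cases i <;> simp

/-- No valuative point. -/
theorem cv_point {m1 m2 : Mdl k d} {L : ℕ} (hL : 0 < L) (hS : Sh1 m1 m2) {T1 T1' : m1.E}
    {T2 T2' : m2.E} {n1 n1' n2 n2' : ℕ} (c1 : Cov m1 n1 L T1' T1') (c1' : Cov m1 n1' L T1 T1')
    (c2 : Cov m2 n2 L T2' T2') (c2' : Cov m2 n2' L T2 T2') (h1 : n1 + n2' < d) (h2 : n1' + n2 < d)
    (i0 : Fin d) : ∃ (l : List (MvPolynomial (Fin d) k)) (κ0 : ℕ), (∀ Φ ∈ l, Φ ≠ 0 ∧ ∃ D, Φ.IsHomogeneous D) ∧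
      ∀ v : Fin d → k, (∀ Φ ∈ l, MvPolynomial.eval v Φ ≠ 0) → ∀ κ ≥ κ0,
      ∀ (O : Type) [CommRing O] [Algebra k O] (a : m1.E →ₐ[k] O) (b : m2.E →ₐ[k] O)
        (K : Type) [Field K] [IsAlgClosed K] (V : ValuationSubring K) (f : O →+* K), (∀ y, f y ∈ V) →
        f ((a (m1.x i0) - b (m2.x i0)) ^ κ) ≠ 0 → (∀ i, V.valuation (f (a (m1.x i))) < 1) →
        (∀ i, V.valuation (f (b (m2.x i))) < 1) →
        (∀ j, V.valuation (f (gens a b v i0 L κ T1 T1' T2 T2' j)) <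
          V.valuation (f ((a (m1.x i0) - b (m2.x i0)) ^ κ))) → False := by
  obtain ⟨N, hN, hS⟩ := hS
  have hC : 0 < N * L := Nat.mul_pos hN hL
  obtain ⟨l1, κ1, c1⟩ := c1 _ hC
  obtain ⟨l1', κ1', c1'⟩ := c1' _ hC
  obtain ⟨l2, κ2, c2⟩ := c2 _ hC
  obtain ⟨l2', κ2', c2'⟩ := c2' _ hC
  choose D Φ hΦ0 hΦD hΦ using fun (p1 : PD m1 n1) (p2 : PD m2 n2') => two_pd p1 p2 h1 hC
  choose D' Φ' hΦ0' hΦD' hΦ' using fun (p1 : PD m1 n1') (p2 : PD m2 n2) => two_pd p1 p2 h2 hC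
  refine ⟨(l1.flatMap fun p1 => l2'.map (Φ p1)) ++ l1'.flatMap fun p1 => l2.map (Φ' p1),
    2 * (κ1 + κ1' + κ2 + κ2') + 1, fun Ψ hΨ => ?_, fun v hv κ hκ O _ _ a b K _ _ V f hf hS0 hx hy hg => ?_⟩
  · simp only [List.mem_append, List.mem_flatMap, List.mem_map] at hΨ
    rcases hΨ with ⟨p1, -, p2, -, rfl⟩ | ⟨p1, -, p2, -, rfl⟩
    · exact ⟨hΦ0 _ _, _, hΦD _ _⟩
    · exact ⟨hΦ0' _ _, _, hΦD' _ _⟩
  have hκ0 : κ ≠ 0 := by omega
  obtain ⟨s0, hs0⟩ : ∃ s0, s0 = f (a (m1.x i0) - b (m2.x i0)) := ⟨_, rfl⟩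
  simp only [map_pow, ← hs0] at hS0 hg
  have s0ne : s0 ≠ 0 := fun h => hS0 (by rw [h, zero_pow hκ0])
  have s0lt : V.valuation s0 < 1 := by
    rw [hs0, map_sub]
    exact (V.valuation.map_sub _ _).trans_lt (max_lt (hx i0) (hy i0))
  have le1 : ∀ y, V.valuation (f y) ≤ 1 := fun y => (V.valuation_le_one_iff _).2 (hf y)
  have gδ : ∀ i, V.valuation (f (a (m1.x i)) - f (b (m2.x i)) - f (algebraMap k O (v i)) * s0) <
      V.valuation s0 := fun i => by
    have := hg (Fin.castAdd 5 i)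
    simp only [gens, Fin.append_left, map_pow] at this
    have h3 := lt_of_pow_lt_pow_left₀ κ zero_le this
    rwa [map_sub f, map_sub f, map_mul f, ← hs0] at h3
  have gU1 : V.valuation (f (a m1.U)) ^ L < V.valuation s0 := by
    have := hg (Fin.natAdd d 0)
    simp only [gens, Fin.append_right, Matrix.cons_val_zero, map_pow, pow_mul] at this
    exact lt_of_pow_lt_pow_left₀ κ zero_le this
  have gU2 : V.valuation (f (b m2.U)) ^ L < V.valuation s0 := by
    have := hg (Fin.natAdd d 1)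
    simp only [gens, Fin.append_right, Matrix.cons_val_one, Matrix.cons_val_zero, map_pow, pow_mul] at this
    exact lt_of_pow_lt_pow_left₀ κ zero_le this
  have gT : V.valuation (f (a T1)) * V.valuation (f (b T2)) < V.valuation s0 ^ κ := by
    have := hg (Fin.natAdd d 2)
    simpa [gens] using this
  have gT1 : V.valuation (f (a T1')) < V.valuation s0 ^ κ := by
    have := hg (Fin.natAdd d 3)
    simpa [gens] using this
  have gT2 : V.valuation (f (b T2')) < V.valuation s0 ^ κ := by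
    have := hg (Fin.natAdd d 4)
    simpa [gens] using this
  have hd : ∀ i, V.valuation (f (a (m1.x i) - b (m2.x i))) ≤ V.valuation s0 := fun i => by
    have e : f (a (m1.x i) - b (m2.x i)) =
        (f (a (m1.x i)) - f (b (m2.x i)) - f (algebraMap k O (v i)) * s0) + f (algebraMap k O (v i)) * s0 := by
      rw [map_sub]; ring
    rw [e]
    refine V.valuation.map_add_le (gδ i).le ?_
    rw [map_mul]
    exact mul_le_of_le_one_left' (le1 _)
  have hco := cv_coord V f hf hN hL (hS O a b) s0lt.le hx hd gU1 gU2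
  have hU : ∀ U : O, V.valuation (f U) ^ L < V.valuation s0 →
      V.valuation (f U) ^ (N * L) ≤ V.valuation s0 := fun U hU =>
    (pow_le_pow_right_of_le_one' (le1 U) (Nat.le_mul_of_pos_left L hN)).trans hU.le
  have pw : ∀ {p q : ℕ}, p ≤ q → V.valuation s0 ^ q ≤ V.valuation s0 ^ p := fun h =>
    pow_le_pow_right_of_le_one' s0lt.le h
  let f1 : m1.E →+* K := f.comp (a : m1.E →+* O)
  let f2 : m2.E →+* K := f.comp (b : m2.E →+* O)
  have hf1 : ∀ y, f1 y ∈ V := fun y => hf _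
  have hf2 : ∀ y, f2 y ∈ V := fun y => hf _
  have ek1 : ∀ c, f1 (algebraMap k _ c) = f (algebraMap k O c) := fun c => congrArg f (a.commutes c)
  have ek2 : ∀ c, f2 (algebraMap k _ c) = f (algebraMap k O c) := fun c => congrArg f (b.commutes c)
  have ek : ∀ c, f1 (algebraMap k _ c) = f2 (algebraMap k _ c) := fun c => (ek1 c).trans (ek2 c).symm
  have gδ' : ∀ i, V.valuation (f1 (m1.x i) - f2 (m2.x i) - f1 (algebraMap k _ (v i)) * s0) <
      V.valuation s0 := fun i => by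
    rw [ek1]
    exact gδ i
  have hx1 : ∀ i, V.valuation (f1 (m1.x i)) ^ (N * L) ≤ V.valuation s0 := fun i => (hco i).1
  have hx2 : ∀ i, V.valuation (f2 (m2.x i)) ^ (N * L) ≤ V.valuation s0 := fun i => (hco i).2
  have hU1 : V.valuation (f1 m1.U) ^ (N * L) ≤ V.valuation s0 := hU _ gU1
  have hU2 : V.valuation (f2 m2.U) ^ (N * L) ≤ V.valuation s0 := hU _ gU2
  have hor : V.valuation (f (a T1)) < V.valuation s0 ^ (κ1 + κ1' + κ2 + κ2') ∨
      V.valuation (f (b T2)) < V.valuation s0 ^ (κ1 + κ1' + κ2 + κ2') := by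
    by_contra hh
    rw [not_or, not_lt, not_lt] at hh
    have := mul_le_mul' hh.1 hh.2
    rw [← pow_add] at this
    exact lt_irrefl _ ((this.trans_lt gT).trans_le (pw (by omega)))
  rcases hor with hT | hT
  · obtain ⟨p1, hp1, e1⟩ := c1' K V f1 s0 hf1 s0ne s0lt hx1 hU1 gU1 (hT.trans_le (pw (by omega)))
      (gT1.trans_le (pw (by omega)))
    obtain ⟨p2, hp2, e2⟩ := c2 K V f2 s0 hf2 s0ne s0lt hx2 hU2 gU2 (gT2.trans_le (pw (by omega)))
      (gT2.trans_le (pw (by omega)))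
    refine hΦ' p1 p2 K V f1 f2 s0 v ek (hv _ ?_) hf1 hf2 s0ne s0lt (p1.val_b V f1 hf1 hC hx1 hU1)
      (p2.val_b V f2 hf2 hC hx2 hU2) gδ' e1 e2
    simp only [List.mem_append, List.mem_flatMap, List.mem_map]
    exact Or.inr ⟨p1, hp1, p2, hp2, rfl⟩
  · obtain ⟨p1, hp1, e1⟩ := c1 K V f1 s0 hf1 s0ne s0lt hx1 hU1 gU1 (gT1.trans_le (pw (by omega)))
      (gT1.trans_le (pw (by omega)))
    obtain ⟨p2, hp2, e2⟩ := c2' K V f2 s0 hf2 s0ne s0lt hx2 hU2 gU2 (hT.trans_le (pw (by omega)))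
      (gT2.trans_le (pw (by omega)))
    refine hΦ p1 p2 K V f1 f2 s0 v ek (hv _ ?_) hf1 hf2 s0ne s0lt (p1.val_b V f1 hf1 hC hx1 hU1)
      (p2.val_b V f2 hf2 hC hx2 hU2) gδ' e1 e2
    simp only [List.mem_append, List.mem_flatMap, List.mem_map]
    exact Or.inl ⟨p1, hp1, p2, hp2, rfl⟩

/-- Put `C = N L` with `N` from `Sh1`.  Collect the forms of `two_pd` for all pairs of data from the four covers and
choose `v`; `κ0 = 2 (sum of the four κ) + 1`.  Apply `vc` in `B = E1 ⊗[k] E2` to `S = s0^κ`, the generators `gens`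
and `μ = (x ⊗ 1, 1 ⊗ x)`.  At a point, `v δ'_i < v s0 < 1`, `v U ^ L < v s0`; `Sh1` (in `B`) bounds the coordinates:
if the largest `v x_i` exceeds `v s0` then its `N`-th power is `≤ max (v U1, v U2, v s0)`.  One of `T1`, `T2` is small,
so one of the two pairs of covers applies.  Finally map `B → O` (`Algebra.TensorProduct.lift` / `productMap`), where
`η` becomes a unit, and use `pow_mem_of_int`. -/
theorem claimV [Infinite k] {m1 m2 : Mdl k d} {L : ℕ} (hL : 0 < L) (hS : Sh1 m1 m2) {T1 T1' : m1.E}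
    {T2 T2' : m2.E} {n1 n1' n2 n2' : ℕ} (c1 : Cov m1 n1 L T1' T1') (c1' : Cov m1 n1' L T1 T1')
    (c2 : Cov m2 n2 L T2' T2') (c2' : Cov m2 n2' L T2 T2') (h1 : n1 + n2' < d) (h2 : n1' + n2 < d) :
    VOut m1 m2 L T1 T1' T2 T2' := by
  let i0 : Fin d := ⟨0, by omega⟩
  obtain ⟨l, κ0, hl, h⟩ := cv_point hL hS c1 c1' c2 c2' h1 h2 i0
  obtain ⟨v, hv0, hv⟩ := exists_good_point i0 l hl
  refine ⟨v, i0, hv0, κ0, fun κ hκ => ?_⟩
  let a : m1.E →ₐ[k] TensorProduct k m1.E m2.E := Algebra.TensorProduct.includeLeft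
  let b : m2.E →ₐ[k] TensorProduct k m1.E m2.E := Algebra.TensorProduct.includeRight
  obtain ⟨M, η, hη, hM⟩ := vc ((a (m1.x i0) - b (m2.x i0)) ^ κ) (gens a b v i0 L κ T1 T1' T2 T2')
    (Fin.append (fun i => a (m1.x i)) fun i => b (m2.x i)) fun K _ _ V f hf hS0 hμ hg =>
      h v hv κ hκ _ a b K V f hf hS0 (fun i => by simpa using hμ (Fin.castAdd d i))
        (fun i => by simpa only [Fin.append_right] using hμ (Fin.natAdd d i)) hg
  refine ⟨M + 1, fun O _ _ a' b' na nb n => pow_mem_of_int ?_ n⟩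
  let φ : TensorProduct k m1.E m2.E →ₐ[k] O := Algebra.TensorProduct.productMap a' b'
  have ea : φ.comp a = a' := Algebra.TensorProduct.productMap_left a' b'
  have eb : φ.comp b = b' := Algebra.TensorProduct.productMap_right a' b'
  have ea' : ∀ y, φ (a y) = a' y := fun y => by rw [← ea]; rfl
  have eb' : ∀ y, φ (b y) = b' y := fun y => by rw [← eb]; rfl
  have hnil : IsNilpotent (φ η - 1) := by
    have h3 : idl (Fin.append (fun i => a (m1.x i)) fun i => b (m2.x i)) ≤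
        (nilradical O).comap (φ : TensorProduct k m1.E m2.E →+* O) := ln_idl_le fun j => by
      refine Fin.addCases (fun i => ?_) (fun i => ?_) j
      · simp only [Fin.append_left, Ideal.mem_comap, mem_nilradical, RingHom.coe_coe, ea']
        exact na i
      · simp only [Fin.append_right, Ideal.mem_comap, mem_nilradical, RingHom.coe_coe, eb']
        exact nb i
    simpa [mem_nilradical] using h3 hη
  have hu : IsUnit (φ η) := by
    simpa using hnil.isUnit_add_one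
  have h4 := Ideal.mem_map_of_mem (φ : TensorProduct k m1.E m2.E →+* O) hM
  rw [Ideal.map_mul, Ideal.map_pow, Ideal.map_sup, idl_map, Ideal.map_span, Set.image_singleton] at h4
  simp only [RingHom.coe_coe, cv_gens_map, ea, eb, map_mul, map_pow, map_sub, ea', eb'] at h4
  exact (Ideal.unit_mul_mem_iff_mem _ hu).1 h4

theorem Cov.zero {m : Mdl k d} {n L : ℕ} {σ : m.E} (h : Cov m n L σ σ) : Cov m n L 0 σ := by
  intro C hC
  obtain ⟨l, κ, h⟩ := h C hC
  exact ⟨l, κ, fun K _ V f s0 a1 a2 a3 a4 a5 a6 _ a8 => h K V f s0 a1 a2 a3 a4 a5 a6 a8 a8⟩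

/-- `X i ^ N = F + G` with `F ∈ 𝔣1`, `G ∈ 𝔣2`; compare `a (a1 G)` and `b (a2 G)` by `ps_diff`. -/
theorem sh1_of {C : Type} [CommRing C] [IsLocalRing C] (res : C →+* k) {m1 m2 : Mdl k d}
    (a1 : MvPowerSeries (Fin d) C →+* m1.E) (a2 : MvPowerSeries (Fin d) C →+* m2.E)
    (x1 : ∀ i, a1 (MvPowerSeries.X i) = m1.x i) (x2 : ∀ i, a2 (MvPowerSeries.X i) = m2.x i)
    (k1 : ∀ w, a1 (MvPowerSeries.C w) = algebraMap k _ (res w))
    (k2 : ∀ w, a2 (MvPowerSeries.C w) = algebraMap k _ (res w)) {𝔣1 𝔣2 : Ideal (MvPowerSeries (Fin d) C)}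
    (f1 : ∀ g ∈ 𝔣1, a1 g ∈ Ideal.span {m1.U}) (f2 : ∀ g ∈ 𝔣2, a2 g ∈ Ideal.span {m2.U}) (h : Prim 𝔣1 𝔣2) :
    Sh1 m1 m2 := by
  obtain ⟨c, hc⟩ := h
  refine ⟨c + 1, c.succ_pos, fun O _ _ a b i => ?_⟩
  have hX : (MvPowerSeries.X i : MvPowerSeries (Fin d) C) ∈ maximalIdeal _ := by
    rw [mem_maximalIdeal, mem_nonunits_iff, MvPowerSeries.isUnit_iff_constantCoeff,
      MvPowerSeries.constantCoeff_X]
    exact not_isUnit_zero
  have h1 : (MvPowerSeries.X i : MvPowerSeries (Fin d) C) ^ (c + 1) ∈ 𝔣1 ⊔ 𝔣2 := by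
    rw [pow_succ]
    exact Ideal.mul_mem_right _ _ (hc (Ideal.pow_mem_pow hX c))
  obtain ⟨F, hF, G, hG, hFG⟩ := Submodule.mem_sup.1 h1
  have h2 := ps_diff ((a : m1.E →+* O).comp a1) ((b : m2.E →+* O).comp a2) (fun w => by
    simp only [RingHom.comp_apply, k1, k2, RingHom.coe_coe, AlgHom.commutes]) G (c + 1 + 1)
  simp only [RingHom.comp_apply, x1, x2, RingHom.coe_coe] at h2
  have h3 : a (a1 F) ∈ Ideal.span {a m1.U, b m2.U} := by
    obtain ⟨y, hy⟩ := Ideal.mem_span_singleton'.1 (f1 F hF)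
    rw [← hy, map_mul]
    exact Ideal.mul_mem_left _ _ (Ideal.subset_span (by simp))
  have h4 : b (a2 G) ∈ Ideal.span {a m1.U, b m2.U} := by
    obtain ⟨y, hy⟩ := Ideal.mem_span_singleton'.1 (f2 G hG)
    rw [← hy, map_mul]
    exact Ideal.mul_mem_left _ _ (Ideal.subset_span (by simp))
  have e : a (m1.x i) ^ (c + 1) = (a (a1 F) + b (a2 G)) + (a (a1 G) - b (a2 G)) := by
    rw [← x1, ← map_pow, ← map_pow, ← hFG, map_add, map_add]
    ring
  rw [e, sup_assoc]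
  exact Submodule.add_mem_sup (add_mem h3 h4) h2

end Crest.Agent.R188
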