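import Mathlib

/-!
# rid 188, file `CntAux`: two dimension counts for commutative algebras over a field
-/

set_option autoImplicit false

namespace Crest.Agent.R188

variable {k : Type} [Field k] {O : Type} [CommRing O] [Algebra k O]

/-- Filtration by monomials in nilpotent elements. -/
theorem cn_finrank_nil {ι : Type} [Fintype ι] (z : ι → O) {N : ℕ} (h : ∀ i, z i ^ N = 0)
    [Module.Finite k (O ⧸ Ideal.span (Set.range z))] :
    Module.Finite k O ∧
      Module.finrank k O ≤ Module.finrank k (O ⧸ Ideal.span (Set.range z)) * N ^ Fintype.card ι := by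
  classical
  set I := Ideal.span (Set.range z) with hI
  obtain ⟨s, hs⟩ := (Ideal.Quotient.mkₐ k I).toLinearMap.exists_rightInverse_of_surjective
    (LinearMap.range_eq_top.2 (Ideal.Quotient.mkₐ_surjective k I))
  have hs' : ∀ y : O, y - s (Ideal.Quotient.mk I y) ∈ I := fun y => by
    rw [← Ideal.Quotient.eq]
    exact (LinearMap.congr_fun hs (Ideal.Quotient.mk I y)).symm
  let L : ((ι → Fin N) → O ⧸ I) →ₗ[k] O :=
    ∑ γ : ι → Fin N, (LinearMap.mulLeft k (∏ i, z i ^ (γ i : ℕ))) ∘ₗ s ∘ₗ LinearMap.proj γ
  have hL : ∀ f, L f = ∑ γ : ι → Fin N, (∏ i, z i ^ (γ i : ℕ)) * s (f γ) := fun f => by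
    simp [L, LinearMap.sum_apply]
  have h0 : ∀ (γ : ι → ℕ) (i : ι), N ≤ γ i → ∏ i, z i ^ γ i = 0 := fun γ i hi =>
    Finset.prod_eq_zero (Finset.mem_univ i) (pow_eq_zero_of_le hi (h i))
  have h1 : ∀ (γ : ι → ℕ) (q : O ⧸ I), (∏ i, z i ^ γ i) * s q ∈ LinearMap.range L := fun γ q => by
    by_cases hγ : ∀ i, γ i < N
    · refine ⟨Pi.single (fun i => ⟨γ i, hγ i⟩) q, ?_⟩
      rw [hL, Finset.sum_eq_single (fun i => (⟨γ i, hγ i⟩ : Fin N))]
      · simp
      · intro δ _ hδ
        simp [hδ]
      · simp
    · push Not at hγ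
      obtain ⟨i, hi⟩ := hγ
      rw [h0 γ i hi, zero_mul]
      exact zero_mem _
  have h2 : ∀ (t : ℕ) (γ : ι → ℕ), Fintype.card ι * N + 1 ≤ ∑ i, γ i + t → ∀ y : O,
      (∏ i, z i ^ γ i) * y ∈ LinearMap.range L := by
    intro t
    induction t with
    | zero =>
      intro γ hγ y
      have : ∃ i, N ≤ γ i := by
        by_contra hc
        push Not at hc
        have : ∑ i, γ i ≤ Fintype.card ι * N := by
          simpa using Finset.sum_le_card_nsmul Finset.univ γ N fun i _ => (hc i).le
        omega
      obtain ⟨i, hi⟩ := this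
      rw [h0 γ i hi, zero_mul]
      exact zero_mem _
    | succ t ih =>
      intro γ hγ y
      obtain ⟨a, ha⟩ := Ideal.mem_span_range_iff_exists_fun.1 (hs' y)
      have e : y = s (Ideal.Quotient.mk I y) + ∑ i, a i * z i := by rw [ha]; ring
      rw [e, mul_add, Finset.mul_sum]
      refine add_mem (h1 γ _) (Submodule.sum_mem _ fun j _ => ?_)
      have e2 : ∏ i, z i ^ (γ + (Pi.single j 1 : ι → ℕ)) i = (∏ i, z i ^ γ i) * z j := by
        simp only [Pi.add_apply, pow_add, Finset.prod_mul_distrib]
        congr 1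
        rw [Finset.prod_eq_single j]
        · simp
        · intro i _ hi
          simp [hi]
        · simp
      have := ih (γ + Pi.single j 1) (by simp [Finset.sum_add_distrib]; omega) (a j)
      rw [e2] at this
      convert this using 1
      ring
  have hsurj : Function.Surjective L := fun y => by
    have := h2 (Fintype.card ι * N + 1) 0 (by simp) y
    simpa using this
  refine ⟨Module.Finite.of_surjective L hsurj, ?_⟩
  have := LinearMap.finrank_range_le L
  rw [LinearMap.range_eq_top.2 hsurj, finrank_top, Module.finrank_pi_fintype] at this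
  simpa [mul_comm] using this

theorem cn_adjoin_single {w : O} {g : Polynomial k} (hg : g.Monic) (h0 : Polynomial.aeval w g = 0) :
    Module.Finite k (Algebra.adjoin k {w}) ∧ Module.finrank k (Algebra.adjoin k {w}) ≤ g.natDegree := by
  have hw : IsIntegral k w := ⟨g, hg, h0⟩
  refine ⟨(Algebra.adjoin.powerBasis hw).finite, ?_⟩
  rw [(Algebra.adjoin.powerBasis hw).finrank, Algebra.adjoin.powerBasis_dim]
  exact Polynomial.natDegree_le_natDegree (minpoly.min k w hg h0)

/-- An algebra generated by roots of monic polynomials. -/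
theorem cn_finrank_int {τ : Type} [Fintype τ] (w : τ → O) (N : τ → ℕ) (g : τ → Polynomial k)
    (hg : ∀ t, (g t).Monic) (hd : ∀ t, (g t).natDegree ≤ N t) (h0 : ∀ t, Polynomial.aeval (w t) (g t) = 0)
    (hgen : Algebra.adjoin k (Set.range w) = ⊤) :
    Module.Finite k O ∧ Module.finrank k O ≤ ∏ t, N t := by
  classical
  have key : ∀ s : Finset τ, Module.Finite k (Algebra.adjoin k (w '' s)) ∧
      Module.finrank k (Algebra.adjoin k (w '' s)) ≤ ∏ t ∈ s, N t := by
    intro s
    induction s using Finset.induction_on with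
    | empty =>
      rw [Finset.coe_empty, Set.image_empty, Algebra.adjoin_empty, Finset.prod_empty]
      have e : (⊥ : Subalgebra k O) = Algebra.adjoin k {(0 : O)} := by
        refine le_antisymm bot_le (Algebra.adjoin_le ?_)
        rintro _ rfl
        exact zero_mem _
      rw [e]
      have := cn_adjoin_single (k := k) (w := (0 : O)) (g := Polynomial.X) Polynomial.monic_X (by simp)
      simpa using this
    | insert t s ht ih =>
      rw [Finset.coe_insert, Set.image_insert_eq, Finset.prod_insert ht, Set.insert_eq, Algebra.adjoin_union]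
      obtain ⟨f1, l1⟩ := cn_adjoin_single (hg t) (h0 t)
      obtain ⟨f2, l2⟩ := ih
      exact ⟨Subalgebra.finite_sup _ _, (Subalgebra.finrank_sup_le_of_free _ _).trans
        (Nat.mul_le_mul (l1.trans (hd t)) l2)⟩
  have := key Finset.univ
  rw [Finset.coe_univ, Set.image_univ, hgen] at this
  obtain ⟨f1, l1⟩ := this
  exact ⟨Module.Finite.equiv Subalgebra.topEquiv.toLinearEquiv,
    by rwa [← Subalgebra.topEquiv.toLinearEquiv.finrank_eq]⟩

end Crest.Agent.R188
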