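import Crest.Agent.R188.Defs2
import Crest.Agent.R188.CntAux
import Crest.Agent.R183.Len

/-!
# rid 188, file `Cnt`: a universal polynomial relation by counting

Prefix helper lemmas with `cn_`.
-/

set_option autoImplicit false

open IsLocalRing Crest.Agent.R183

namespace Crest.Agent.R188

theorem cn_monic {k : Type} [Field k] {n N : ℕ} (G : Polynomial (MvPolynomial (Fin n) k)) (h1 : G.natDegree ≤ N)
    (h2 : MvPolynomial.constantCoeff (G.coeff N) = 1) :
    (G.map MvPolynomial.constantCoeff).Monic ∧ (G.map MvPolynomial.constantCoeff).natDegree ≤ N := by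
  have h3 : (G.map MvPolynomial.constantCoeff).natDegree ≤ N := Polynomial.natDegree_map_le.trans h1
  exact ⟨Polynomial.monic_of_natDegree_le_of_coeff_eq_one N h3 (by rw [Polynomial.coeff_map, h2]), h3⟩

theorem cn_root {k O O' : Type} [Field k] [CommRing O] [Algebra k O] [CommRing O'] [Algebra k O'] {n : ℕ}
    (π : O →ₐ[k] O') (b : Fin n → O) (hb : ∀ j, π (b j) = 0) (G : Polynomial (MvPolynomial (Fin n) k)) {x : O}
    (h : Polynomial.eval₂ (MvPolynomial.aeval b : MvPolynomial (Fin n) k →ₐ[k] O).toRingHom x G = 0) :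
    Polynomial.aeval (π x) (G.map MvPolynomial.constantCoeff) = 0 := by
  have h1 := congrArg π.toRingHom h
  rw [Polynomial.hom_eval₂, map_zero] at h1
  rw [Polynomial.aeval_def, Polynomial.eval₂_map]
  refine Eq.trans ?_ h1
  congr 1
  ext j
  · simp
  · simp [hb]

theorem cn_eval_map {k O O' : Type} [Field k] [CommRing O] [Algebra k O] [CommRing O'] [Algebra k O'] {n : ℕ}
    (π : O →ₐ[k] O') (b : Fin n → O) (G : Polynomial (MvPolynomial (Fin n) k)) (x : O) :
    π (Polynomial.eval₂ (MvPolynomial.aeval b : MvPolynomial (Fin n) k →ₐ[k] O).toRingHom x G) =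
      Polynomial.eval₂ (MvPolynomial.aeval (fun j => π (b j)) : MvPolynomial (Fin n) k →ₐ[k] O').toRingHom
        (π x) G := by
  have := Polynomial.hom_eval₂ G (MvPolynomial.aeval b : MvPolynomial (Fin n) k →ₐ[k] O).toRingHom π.toRingHom x
  refine this.trans ?_
  congr 1
  ext j
  · simp
  · simp

/-- The dimension count. -/
theorem cn_count {k : Type} [Field k] {d n1 n2 N1 N2 K : ℕ} (G1 : Fin d → Polynomial (MvPolynomial (Fin n1) k))
    (G2 : Fin d → Polynomial (MvPolynomial (Fin n2) k)) (d1 : ∀ i, (G1 i).natDegree ≤ N1)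
    (l1 : ∀ i, MvPolynomial.constantCoeff ((G1 i).coeff N1) = 1) (d2 : ∀ i, (G2 i).natDegree ≤ N2)
    (l2 : ∀ i, MvPolynomial.constantCoeff ((G2 i).coeff N2) = 1) {O : Type} [CommRing O] [Algebra k O]
    (u : (Fin n1 ⊕ Fin n2) ⊕ (Fin d ⊕ Fin d) → O) (hu : Function.Surjective (MvPolynomial.aeval (R := k) u))
    (e1 : ∀ i, Polynomial.eval₂ (MvPolynomial.aeval (fun j => u (.inl (.inl j))) :
      MvPolynomial (Fin n1) k →ₐ[k] O).toRingHom (u (.inr (.inl i))) (G1 i) = 0)
    (e2 : ∀ i, Polynomial.eval₂ (MvPolynomial.aeval (fun j => u (.inl (.inr j))) :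
      MvPolynomial (Fin n2) k →ₐ[k] O).toRingHom (u (.inr (.inr i))) (G2 i) = 0)
    (e3 : ∀ j, u (.inl j) ^ K = 0) :
    Module.Finite k O ∧ Module.finrank k O ≤ (N1 * N2) ^ d * K ^ (n1 + n2) := by
  set I := Ideal.span (Set.range fun j => u (.inl j)) with hI
  let π := Ideal.Quotient.mkₐ k I
  have hπ : ∀ j, π (u (.inl j)) = 0 := fun j =>
    Ideal.Quotient.eq_zero_iff_mem.2 (Ideal.subset_span ⟨j, rfl⟩)
  obtain ⟨f1, c1⟩ := cn_finrank_int (k := k) (O := O ⧸ I) (fun t : Fin d ⊕ Fin d => π (u (.inr t)))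
    (Sum.elim (fun _ => N1) fun _ => N2)
    (Sum.elim (fun i => (G1 i).map MvPolynomial.constantCoeff) fun i => (G2 i).map MvPolynomial.constantCoeff)
    (by rintro (i | i); exacts [(cn_monic _ (d1 i) (l1 i)).1, (cn_monic _ (d2 i) (l2 i)).1])
    (by rintro (i | i); exacts [(cn_monic _ (d1 i) (l1 i)).2, (cn_monic _ (d2 i) (l2 i)).2])
    (by rintro (i | i); exacts [cn_root π _ (fun j => hπ _) _ (e1 i), cn_root π _ (fun j => hπ _) _ (e2 i)])
    (by
      rw [eq_top_iff]
      rintro y -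
      obtain ⟨y, rfl⟩ := Ideal.Quotient.mkₐ_surjective k I y
      obtain ⟨q, rfl⟩ := hu y
      induction q using MvPolynomial.induction_on with
      | C a =>
        rw [MvPolynomial.aeval_C, AlgHom.commutes]
        exact Subalgebra.algebraMap_mem _ _
      | add p q hp hq =>
        rw [map_add, map_add]
        exact add_mem hp hq
      | mul_X p t hp =>
        rw [map_mul, map_mul, MvPolynomial.aeval_X]
        refine mul_mem hp ?_
        rcases t with j | t
        · rw [show Ideal.Quotient.mkₐ k I (u (.inl j)) = 0 from hπ j]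
          exact zero_mem _
        · exact Algebra.subset_adjoin ⟨t, rfl⟩)
  obtain ⟨f2, c2⟩ := cn_finrank_nil (k := k) (fun j => u (.inl j)) e3
  refine ⟨f2, c2.trans ?_⟩
  rw [Fintype.card_sum, Fintype.card_fin, Fintype.card_fin]
  refine Nat.mul_le_mul_right _ (c1.trans (le_of_eq ?_))
  rw [Fintype.prod_sum_type]
  simp [mul_pow]

theorem cn_arith (A C d m : ℕ) (h : m < d) : ∃ n : ℕ, A * (C * (d * n + 1)) ^ m < n ^ d := by
  refine ⟨A * (C * (d + 1)) ^ m + 1, ?_⟩
  set n := A * (C * (d + 1)) ^ m + 1 with hn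
  have h1 : 0 < n := Nat.succ_pos _
  have h2 : C * (d * n + 1) ≤ C * (d + 1) * n := by
    rw [mul_assoc]
    exact Nat.mul_le_mul_left _ (by nlinarith)
  calc A * (C * (d * n + 1)) ^ m ≤ A * (C * (d + 1) * n) ^ m :=
        Nat.mul_le_mul_left _ (Nat.pow_le_pow_left h2 m)
    _ = A * (C * (d + 1)) ^ m * n ^ m := by rw [mul_pow _ n, mul_assoc]
    _ < n * n ^ m := Nat.mul_lt_mul_of_pos_right (Nat.lt_succ_self _) (pow_pos h1 m)
    _ = n ^ (m + 1) := by ring
    _ ≤ n ^ d := Nat.pow_le_pow_right h1 h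

/-- A `k`-algebra of dimension `< n ^ d` has a polynomial relation with exponents `< n` on any `d` elements. -/
theorem cn_kernel {k O : Type} [Field k] [CommRing O] [Algebra k O] [Module.Finite k O] {d n : ℕ}
    (h : Module.finrank k O < n ^ d) (z : Fin d → O) :
    ∃ Ψ : MvPolynomial (Fin d) k, Ψ ≠ 0 ∧ Ψ.totalDegree < d * n + 1 ∧ MvPolynomial.aeval z Ψ = 0 := by
  classical
  let e : (Fin d → Fin n) → (Fin d →₀ ℕ) := fun γ => Finsupp.equivFunOnFinite.symm fun i => (γ i : ℕ)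
  have he : Function.Injective e := fun γ δ hh => by
    funext i
    exact Fin.ext (congrFun (Finsupp.equivFunOnFinite.symm.injective hh) i)
  let M : ((Fin d → Fin n) → k) →ₗ[k] MvPolynomial (Fin d) k :=
    ∑ γ, MvPolynomial.monomial (e γ) ∘ₗ LinearMap.proj γ
  have hM : ∀ c, M c = ∑ γ, MvPolynomial.monomial (e γ) (c γ) := fun c => by
    simp [M, LinearMap.sum_apply]
  have hk := LinearMap.ker_ne_bot_of_finrank_lt (f := (MvPolynomial.aeval z).toLinearMap ∘ₗ M)
    (by simpa using h)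
  obtain ⟨c, hc, hc0⟩ := (Submodule.ne_bot_iff _).1 hk
  refine ⟨M c, fun h0 => hc0 ?_, ?_, hc⟩
  · funext γ
    have := congrArg (MvPolynomial.coeff (e γ)) h0
    rw [hM, MvPolynomial.coeff_sum, Finset.sum_eq_single γ] at this
    · simpa using this
    · intro δ _ hδ
      rw [MvPolynomial.coeff_monomial, if_neg (he.ne hδ)]
    · simp
  · rw [hM, Nat.lt_succ_iff]
    refine MvPolynomial.totalDegree_finsetSum_le fun γ _ => (MvPolynomial.totalDegree_monomial_le _ _).trans ?_
    rw [Finsupp.sum_fintype _ _ fun _ => rfl]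
    have := Finset.sum_le_card_nsmul Finset.univ (fun i => (γ i : ℕ)) n fun i _ => (γ i).2.le
    simpa [e] using this

/-- Let `B = MvPolynomial (Fin n1 ⊕ Fin n2) k`, `𝔟` the ideal of its variables, and `Λ_K` the quotient of
`B[x_1..x_d, y_1..y_d]` by the `G1 i (x i)`, `G2 i (y i)` and `𝔟^K`.  The leading coefficients are units in `Λ_K`
(`1 +` nilpotent), so `Λ_K` is spanned over `k` by the monomials `b^β x^γ y^γ'` with `|β| < K`, `γ i < N1`,
`γ' i < N2`: `finrank ≤ (N1 N2)^d K^(d-1)` or so.  The polynomials with all exponents `< n` form a space of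
dimension `n^d` and have total degree `< N = d n + 1`.  For `K = C N` and `n` large the linear map
`Ψ ↦ Ψ(x - y)` has a kernel.  Every `O ⧸ (b)^K` receives a map from `Λ_K`. -/
theorem exists_rel {k : Type} [Field k] {d n1 n2 N1 N2 : ℕ} (G1 : Fin d → Polynomial (MvPolynomial (Fin n1) k))
    (G2 : Fin d → Polynomial (MvPolynomial (Fin n2) k)) (d1 : ∀ i, (G1 i).natDegree ≤ N1)
    (l1 : ∀ i, MvPolynomial.constantCoeff ((G1 i).coeff N1) = 1) (d2 : ∀ i, (G2 i).natDegree ≤ N2)
    (l2 : ∀ i, MvPolynomial.constantCoeff ((G2 i).coeff N2) = 1) (h : n1 + n2 < d) (C : ℕ) :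
    ∃ (N : ℕ) (Ψ : MvPolynomial (Fin d) k), Ψ ≠ 0 ∧ Ψ.totalDegree < N ∧
      ∀ (O : Type) [CommRing O] [Algebra k O] (b1 : Fin n1 → O) (b2 : Fin n2 → O) (x y : Fin d → O),
        (∀ i, Polynomial.eval₂ (MvPolynomial.aeval b1 : MvPolynomial (Fin n1) k →ₐ[k] O).toRingHom (x i)
          (G1 i) = 0) →
        (∀ i, Polynomial.eval₂ (MvPolynomial.aeval b2 : MvPolynomial (Fin n2) k →ₐ[k] O).toRingHom (y i)
          (G2 i) = 0) →
        MvPolynomial.aeval (fun i => x i - y i) Ψ ∈ (idl b1 ⊔ idl b2) ^ (C * N) := by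
  obtain ⟨n, hn⟩ := cn_arith ((N1 * N2) ^ d) C d (n1 + n2) h
  set K := C * (d * n + 1) with hK
  let U := MvPolynomial ((Fin n1 ⊕ Fin n2) ⊕ (Fin d ⊕ Fin d)) k
  let g1 : Fin d → U := fun i => Polynomial.eval₂ (MvPolynomial.aeval (fun j => MvPolynomial.X (.inl (.inl j))) :
      MvPolynomial (Fin n1) k →ₐ[k] U).toRingHom (MvPolynomial.X (.inr (.inl i))) (G1 i)
  let g2 : Fin d → U := fun i => Polynomial.eval₂ (MvPolynomial.aeval (fun j => MvPolynomial.X (.inl (.inr j))) :
      MvPolynomial (Fin n2) k →ₐ[k] U).toRingHom (MvPolynomial.X (.inr (.inr i))) (G2 i)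
  let g3 : Fin n1 ⊕ Fin n2 → U := fun j => MvPolynomial.X (.inl j) ^ K
  let J : Ideal U := Ideal.span (Set.range g1) ⊔ Ideal.span (Set.range g2) ⊔ Ideal.span (Set.range g3)
  let π := Ideal.Quotient.mkₐ k J
  have hπ : MvPolynomial.aeval (fun t => π (MvPolynomial.X t)) = π := by
    ext t
    simp
  obtain ⟨f, c⟩ := cn_count (K := K) G1 G2 d1 l1 d2 l2 (fun t => π (MvPolynomial.X t))
    (by rw [hπ]; exact Ideal.Quotient.mkₐ_surjective k J)
    (fun i => by
      rw [← cn_eval_map π]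
      exact Ideal.Quotient.eq_zero_iff_mem.2
        (Ideal.mem_sup_left (Ideal.mem_sup_left (Ideal.subset_span ⟨i, rfl⟩))))
    (fun i => by
      rw [← cn_eval_map π]
      exact Ideal.Quotient.eq_zero_iff_mem.2
        (Ideal.mem_sup_left (Ideal.mem_sup_right (Ideal.subset_span ⟨i, rfl⟩))))
    (fun j => by
      rw [← map_pow]
      exact Ideal.Quotient.eq_zero_iff_mem.2 (Ideal.mem_sup_right (Ideal.subset_span ⟨j, rfl⟩)))
  obtain ⟨Ψ, h0, h1, h2⟩ := cn_kernel (c.trans_lt hn)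
    fun i => π (MvPolynomial.X (.inr (.inl i)) - MvPolynomial.X (.inr (.inr i)))
  refine ⟨d * n + 1, Ψ, h0, h1, fun O _ _ b1 b2 x y e1 e2 => ?_⟩
  let φ : U →ₐ[k] O := MvPolynomial.aeval (Sum.elim (Sum.elim b1 b2) (Sum.elim x y))
  have hφ : ∀ t, φ (MvPolynomial.X t) = Sum.elim (Sum.elim b1 b2) (Sum.elim x y) t := fun t =>
    MvPolynomial.aeval_X _ t
  have hJ : J ≤ ((idl b1 ⊔ idl b2) ^ K).comap φ := by
    refine sup_le (sup_le ?_ ?_) ?_ <;> rw [Ideal.span_le] <;> rintro _ ⟨i, rfl⟩ <;>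
      rw [SetLike.mem_coe, Ideal.mem_comap]
    · rw [cn_eval_map φ]
      simp only [hφ, Sum.elim_inl, Sum.elim_inr]
      rw [e1 i]
      exact zero_mem _
    · rw [cn_eval_map φ]
      simp only [hφ, Sum.elim_inl, Sum.elim_inr]
      rw [e2 i]
      exact zero_mem _
    · rw [map_pow]
      refine Ideal.pow_mem_pow ?_ _
      rw [hφ]
      rcases i with j | j
      · exact Ideal.mem_sup_left (ln_mem_idl b1 j)
      · exact Ideal.mem_sup_right (ln_mem_idl b2 j)
  rw [← MvPolynomial.comp_aeval_apply] at h2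
  have h3 := hJ (Ideal.Quotient.eq_zero_iff_mem.1 h2)
  rw [Ideal.mem_comap, MvPolynomial.comp_aeval_apply] at h3
  simpa only [map_sub, hφ, Sum.elim_inl, Sum.elim_inr] using h3

end Crest.Agent.R188
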