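import Crest.Agent.R188.Defs

/-!
# rid 188, file `Lift`: chain maps, homotopies, actions, reduction modulo a regular element

Prefix helper lemmas with `lf_`.
-/

set_option autoImplicit false

open IsLocalRing Crest.Agent.R183

namespace Crest.Agent.R188

open Matrix

variable {O O' : Type} [CommRing O] [CommRing O'] {n n' n'' : ℕ} {F : MC O n} {G : MC O n'} {H : MC O n''}

theorem IsChain.one (F : MC O n) : IsChain F F 1 := ⟨fun a b h => by
  by_contra h'
  exact h (Matrix.one_apply_ne fun e => h' (by rw [e])), by rw [Matrix.mul_one, Matrix.one_mul]⟩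

theorem IsChain.mul {Ψ : Matrix H.ι G.ι O} {Φ : Matrix G.ι F.ι O} (h : IsChain G H Ψ) (h' : IsChain F G Φ) :
    IsChain F H (Ψ * Φ) := by
  refine ⟨fun a b hab => ?_, ?_⟩
  · rw [Matrix.mul_apply] at hab
    obtain ⟨c, -, hc⟩ := Finset.exists_ne_zero_of_sum_ne_zero hab
    exact (h.1 a c (left_ne_zero_of_mul hc)).trans (h'.1 c b (right_ne_zero_of_mul hc))
  · rw [← Matrix.mul_assoc, h.2, Matrix.mul_assoc, h'.2, Matrix.mul_assoc]

theorem IsChain.add {Φ Ψ : Matrix G.ι F.ι O} (h : IsChain F G Φ) (h' : IsChain F G Ψ) : IsChain F G (Φ + Ψ) := by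
  refine ⟨fun a b hab => ?_, by rw [Matrix.mul_add, Matrix.add_mul, h.2, h'.2]⟩
  by_cases h1 : Φ a b = 0
  · exact h'.1 a b fun h2 => hab (by rw [Matrix.add_apply, h1, h2, add_zero])
  · exact h.1 a b h1

theorem IsChain.sub {Φ Ψ : Matrix G.ι F.ι O} (h : IsChain F G Φ) (h' : IsChain F G Ψ) : IsChain F G (Φ - Ψ) := by
  refine ⟨fun a b hab => ?_, by rw [Matrix.mul_sub, Matrix.sub_mul, h.2, h'.2]⟩
  by_cases h1 : Φ a b = 0
  · exact h'.1 a b fun h2 => hab (by rw [Matrix.sub_apply, h1, h2, sub_zero])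
  · exact h.1 a b h1

theorem IsChain.smul {Φ : Matrix G.ι F.ι O} (h : IsChain F G Φ) (o : O) : IsChain F G (o • Φ) := by
  refine ⟨fun a b hab => h.1 a b fun h1 => hab (by rw [Matrix.smul_apply, h1, smul_zero]), ?_⟩
  rw [Matrix.mul_smul, Matrix.smul_mul, h.2]

theorem IsChain.map {Φ : Matrix G.ι F.ι O} (h : IsChain F G Φ) (f : O →+* O') :
    IsChain (F.map f) (G.map f) (Φ.map f) := by
  refine ⟨fun a b hab => h.1 a b fun h1 => hab ((congrArg f h1).trans (map_zero f)), ?_⟩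
  change G.D.map f * Φ.map f = Φ.map f * F.D.map f
  rw [← Matrix.map_mul, ← Matrix.map_mul, h.2]

/-- A chain map acts on `L ⊗ F`. -/
theorem IsChain.isMap {Φ : Matrix G.ι F.ι O} (h : IsChain F G Φ) (S : Type) [CommRing S] (L : Type)
    [AddCommGroup L] [Module O L] [Module S L] [SMulCommClass O S L] :
    IsMap (F.cx S L) (G.cx S L) (mact S Φ L) := by
  refine ⟨fun x => ?_, fun i x => funext fun a => ?_⟩
  · change mact S Φ L (mact S F.D L x) = mact S G.D L (mact S Φ L x)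
    rw [← mact_mul, ← mact_mul, h.2]
  · change mact S Φ L (prj S F.deg L i x) a = prj S G.deg L i (mact S Φ L x) a
    simp only [mact_apply, prj_apply]
    split_ifs with h1
    · refine Finset.sum_congr rfl fun b _ => ?_
      by_cases h0 : Φ a b = 0
      · simp [h0]
      · rw [if_pos (by rw [← h.1 a b h0, h1])]
    · refine Finset.sum_eq_zero fun b _ => ?_
      by_cases h0 : Φ a b = 0
      · simp [h0]
      · rw [if_neg (by rw [← h.1 a b h0]; exact h1), smul_zero]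

theorem mact_self (S : Type) [CommRing S] [Algebra S O] {ι κ : Type} [Fintype κ] (A : Matrix ι κ O) (w : κ → O) :
    mact S A O w = A *ᵥ w := rfl

theorem Htp.refl (Φ : Matrix G.ι F.ι O) : Htp F G Φ Φ := ⟨0, by simp⟩

theorem Htp.symm {Φ Ψ : Matrix G.ι F.ι O} (h : Htp F G Φ Ψ) : Htp F G Ψ Φ := by
  obtain ⟨σ, hσ⟩ := h
  exact ⟨-σ, by rw [Matrix.mul_neg, Matrix.neg_mul, ← neg_add, ← hσ, neg_sub]⟩

theorem Htp.trans {Φ Ψ Θ : Matrix G.ι F.ι O} (h : Htp F G Φ Ψ) (h' : Htp F G Ψ Θ) : Htp F G Φ Θ := by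
  obtain ⟨σ, hσ⟩ := h
  obtain ⟨σ', hσ'⟩ := h'
  refine ⟨σ + σ', ?_⟩
  rw [Matrix.mul_add, Matrix.add_mul, add_add_add_comm, ← hσ, ← hσ', sub_add_sub_cancel]

theorem Htp.add {Φ Ψ Φ' Ψ' : Matrix G.ι F.ι O} (h : Htp F G Φ Ψ) (h' : Htp F G Φ' Ψ') :
    Htp F G (Φ + Φ') (Ψ + Ψ') := by
  obtain ⟨σ, hσ⟩ := h
  obtain ⟨σ', hσ'⟩ := h'
  refine ⟨σ + σ', ?_⟩
  rw [Matrix.mul_add, Matrix.add_mul, add_add_add_comm, ← hσ, ← hσ', add_sub_add_comm]

theorem Htp.mul_left {Φ Ψ : Matrix G.ι F.ι O} {Θ : Matrix H.ι G.ι O} (hΘ : IsChain G H Θ) (h : Htp F G Φ Ψ) :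
    Htp F H (Θ * Φ) (Θ * Ψ) := by
  obtain ⟨σ, hσ⟩ := h
  refine ⟨Θ * σ, ?_⟩
  rw [← Matrix.mul_sub, hσ, Matrix.mul_add, ← Matrix.mul_assoc, ← Matrix.mul_assoc, ← Matrix.mul_assoc, hΘ.2]

theorem Htp.mul_right {Φ Ψ : Matrix H.ι G.ι O} {Θ : Matrix G.ι F.ι O} (hΘ : IsChain F G Θ) (h : Htp G H Φ Ψ) :
    Htp F H (Φ * Θ) (Ψ * Θ) := by
  obtain ⟨σ, hσ⟩ := h
  refine ⟨σ * Θ, ?_⟩
  rw [← Matrix.sub_mul, hσ, Matrix.add_mul, Matrix.mul_assoc, Matrix.mul_assoc, Matrix.mul_assoc, hΘ.2]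

theorem Htp.map {Φ Ψ : Matrix G.ι F.ι O} (h : Htp F G Φ Ψ) (f : O →+* O') :
    Htp (F.map f) (G.map f) (Φ.map f) (Ψ.map f) := by
  obtain ⟨σ, hσ⟩ := h
  refine ⟨σ.map f, ?_⟩
  change Φ.map f - Ψ.map f = G.D.map f * σ.map f + σ.map f * F.D.map f
  rw [← Matrix.map_mul, ← Matrix.map_mul, ← Matrix.map_add _ (map_add f), ← hσ, Matrix.map_sub _ (map_sub f)]

/-- Keep only the entries of `σ` of degree `+1`. -/
theorem Htp.deg {Φ Ψ : Matrix G.ι F.ι O} (hΦ : IsChain F G Φ) (hΨ : IsChain F G Ψ) (h : Htp F G Φ Ψ) :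
    ∃ σ : Matrix G.ι F.ι O, (∀ a b, σ a b ≠ 0 → G.deg a = F.deg b + 1) ∧ Φ - Ψ = G.D * σ + σ * F.D := by
  obtain ⟨σ, hσ⟩ := h
  refine ⟨Matrix.of fun a b => if G.deg a = F.deg b + 1 then σ a b else 0, fun a b hab => ?_, ?_⟩
  · by_contra h'
    exact hab (by rw [Matrix.of_apply, if_neg h'])
  · ext a b
    by_cases hab : G.deg a = F.deg b
    · rw [hσ]
      simp only [Matrix.add_apply, Matrix.mul_apply, Matrix.of_apply]
      congr 1
      · refine Finset.sum_congr rfl fun c _ => ?_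
        by_cases h0 : G.D a c = 0
        · simp [h0]
        · rw [if_pos (by rw [G.hD a c h0, hab])]
      · refine Finset.sum_congr rfl fun c _ => ?_
        by_cases h0 : F.D c b = 0
        · simp [h0]
        · rw [if_pos (by rw [← F.hD c b h0, hab])]
    · have h1 : (Φ - Ψ) a b = 0 := by
        by_contra h1
        exact hab ((hΦ.sub hΨ).1 a b h1)
      rw [h1]
      simp only [Matrix.add_apply, Matrix.mul_apply, Matrix.of_apply]
      rw [Finset.sum_eq_zero, Finset.sum_eq_zero, add_zero]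
      · intro c _
        by_cases h0 : F.D c b = 0
        · simp [h0]
        · rw [if_neg (by rw [← F.hD c b h0]; exact hab), zero_mul]
      · intro c _
        by_cases h0 : G.D a c = 0
        · simp [h0]
        · rw [if_neg (by rw [G.hD a c h0]; omega), mul_zero]

theorem lf_rec {ι V : Type} [Zero V] (deg : ι → ℕ) {m : ℕ} (hm : ∀ b, deg b ≤ m) (P : (ι → V) → ι → V → Prop)
    (hP : ∀ C C' b v, (∀ c, deg c < deg b → C c = C' c) → P C b v → P C' b v)
    (step : ∀ C b, (∀ c, deg c < deg b → P C c (C c)) → ∃ v, P C b v) : ∃ C, ∀ b, P C b (C b) := by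
  classical
  have key : ∀ k : ℕ, ∃ C, ∀ b, deg b < k → P C b (C b) := by
    intro k
    induction k with
    | zero => exact ⟨0, fun b hb => absurd hb (Nat.not_lt_zero _)⟩
    | succ k ih =>
      obtain ⟨C, hC⟩ := ih
      have h1 : ∀ b, deg b = k → ∃ v, P C b v := fun b hb => step C b fun c hc => hC c (hb ▸ hc)
      choose v hv using h1
      refine ⟨fun b => if h : deg b = k then v b h else C b, fun b hb => ?_⟩
      refine hP C _ b _ (fun c hc => ?_) ?_
      · rw [dif_neg (by omega)]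
      · by_cases h : deg b = k
        · simp only [dif_pos h]; exact hv b h
        · simp only [dif_neg h]; exact hC b (by omega)
  obtain ⟨C, hC⟩ := key (m + 1)
  exact ⟨C, fun b => hC b (Nat.lt_succ_of_le (hm b))⟩

theorem lf_D_prj (F : MC O n) (i : ℕ) (w : F.ι → O) :
    F.D *ᵥ prj O F.deg O (i + 1) w = prj O F.deg O i (F.D *ᵥ w) :=
  LinearMap.congr_fun ((F.cx O O).D_p i) w

theorem lf_D_prj0 (F : MC O n) (w : F.ι → O) : F.D *ᵥ prj O F.deg O 0 w = 0 :=
  LinearMap.congr_fun (F.cx O O).D_p0 w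

theorem lf_eps_sub {N : Type} [AddCommGroup N] [Module O N] {ε : (F.ι → O) →ₗ[O] N}
    (h0 : ∀ w, (∀ a, F.deg a = 0 → w a = 0) → ε w = 0) (w : F.ι → O) : ε (w - prj O F.deg O 0 w) = 0 :=
  h0 _ fun a ha => by rw [Pi.sub_apply, prj_apply, if_pos ha, sub_self]

theorem lf_eps_prj {N : Type} [AddCommGroup N] [Module O N] {ε : (F.ι → O) →ₗ[O] N}
    (h0 : ∀ w, (∀ a, F.deg a = 0 → w a = 0) → ε w = 0) (w : F.ι → O) : ε (prj O F.deg O 0 w) = ε w := by
  have := lf_eps_sub h0 w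
  rw [map_sub, sub_eq_zero] at this
  exact this.symm

theorem lf_cols {ι κ : Type} [Fintype κ] (C : κ → ι → O) (w : κ → O) :
    (Matrix.of fun a b => C b a) *ᵥ w = ∑ b, w b • C b := by
  ext a
  simp [Matrix.mulVec, dotProduct, Finset.sum_apply, mul_comm]

theorem lf_single {κ : Type} [Fintype κ] [DecidableEq κ] (w : κ → O) : ∑ b, w b • (Pi.single b 1 : κ → O) = w := by
  ext a
  simp [Finset.sum_apply, Pi.single_apply]

theorem lf_sum_congr {V : Type} [AddCommGroup V] [Module O V] (F : MC O n) (C C' : F.ι → V) (b : F.ι)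
    (h : ∀ c, F.deg c < F.deg b → C c = C' c) : ∑ c, F.D c b • C c = ∑ c, F.D c b • C' c := by
  refine Finset.sum_congr rfl fun c _ => ?_
  by_cases h0 : F.D c b = 0
  · simp [h0]
  · rw [h c (by rw [F.hD c b h0]; omega)]

theorem lf_DD {V : Type} [AddCommGroup V] [Module O V] (F : MC O n) (C : F.ι → V) (b : F.ι) :
    ∑ c, F.D c b • ∑ d, F.D d c • C d = 0 := by
  simp only [Finset.smul_sum, smul_smul]
  rw [Finset.sum_comm]
  refine Finset.sum_eq_zero fun d _ => ?_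
  have : (F.D * F.D) d b = 0 := by rw [F.sq]; rfl
  rw [Matrix.mul_apply] at this
  rw [← Finset.sum_smul, Finset.sum_congr rfl fun c _ => mul_comm (F.D c b) (F.D d c), this, zero_smul]

theorem lf_mulVec_sum {ι κ μ : Type} [Fintype κ] [Fintype μ] (A : Matrix ι κ O) (r : μ → O) (C : μ → κ → O) :
    A *ᵥ ∑ c, r c • C c = ∑ c, r c • A *ᵥ C c := by
  simp only [← Matrix.mulVecLin_apply, map_sum, map_smul]

/-- The lifting lemma.  Construct the columns by strong induction on the degree: for `deg b = 0` lift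
`φ (ε e_b)` and keep the degree `0` part; for `deg b = i + 1` the vector `Φ (D e_b)` is a cycle killed by `ε'`,
so it is `D v`; keep the degree `i + 1` part of `v`. -/
theorem exists_chain {N N' : Type} [AddCommGroup N] [Module O N] [AddCommGroup N'] [Module O N']
    {ε : (F.ι → O) →ₗ[O] N} (h1 : ∀ w, ε (F.D *ᵥ w) = 0) (h0 : ∀ w, (∀ a, F.deg a = 0 → w a = 0) → ε w = 0)
    {ε' : (G.ι → O) →ₗ[O] N'} (hG : G.Res ε') (φ : N →ₗ[O] N') :
    ∃ Φ : Matrix G.ι F.ι O, IsChain F G Φ ∧ ∀ w, ε' (Φ *ᵥ w) = φ (ε w) := by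
  obtain ⟨C, hC⟩ := lf_rec F.deg F.deg_le (fun (C : F.ι → G.ι → O) b v => (∀ a, v a ≠ 0 → G.deg a = F.deg b) ∧
      G.D *ᵥ v = ∑ c, F.D c b • C c ∧ ε' v = φ (ε (Pi.single b 1)))
    (fun C C' b v h hP => ⟨hP.1, by rw [hP.2.1, lf_sum_congr F C C' b h], hP.2.2⟩) (fun C b hC => by
      rcases hb : F.deg b with _ | i
      · obtain ⟨v, hv⟩ := hG.surj (φ (ε (Pi.single b 1)))
        refine ⟨prj O G.deg O 0 v, fun a ha => ?_, ?_, by rw [lf_eps_prj hG.ε0, hv]⟩
        · by_contra h'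
          exact ha (by rw [prj_apply, if_neg h'])
        · rw [lf_D_prj0, lf_sum_congr F C 0 b fun c hc => by omega]
          simp
      · have e1 : G.D *ᵥ ∑ c, F.D c b • C c = 0 := by
          rw [lf_mulVec_sum, lf_sum_congr F (fun c => G.D *ᵥ C c) (fun c => ∑ d, F.D d c • C d) b
            fun c hc => (hC c hc).2.1, lf_DD]
        have e2 : ε' (∑ c, F.D c b • C c) = 0 := by
          simp only [map_sum, map_smul]
          rw [lf_sum_congr F (fun c => ε' (C c)) (fun c => φ (ε (Pi.single c 1))) b fun c hc => (hC c hc).2.2]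
          simp only [← map_smul, ← map_sum]
          rw [lf_single (fun c => F.D c b), show (fun c => F.D c b) = F.D *ᵥ Pi.single b 1 by
            rw [Matrix.mulVec_single_one]; rfl, h1, map_zero]
        obtain ⟨v, hv⟩ := hG.exact _ e1 e2
        refine ⟨prj O G.deg O (i + 1) v, fun a ha => ?_, ?_, ?_⟩
        · by_contra h'
          exact ha (by rw [prj_apply, if_neg h'])
        · rw [lf_D_prj, hv]
          ext a
          rw [prj_apply]
          split_ifs with h'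
          · rfl
          · rw [Finset.sum_apply]
            refine (Finset.sum_eq_zero fun c _ => ?_).symm
            by_cases h2 : F.D c b = 0
            · simp [h2]
            · have h3 := F.hD c b h2
              have h4 : C c a = 0 := by
                by_contra h4
                have := (hC c (by omega)).1 a h4
                omega
              simp [h4]
        · rw [hG.ε0 _ fun a ha => by rw [prj_apply, if_neg (by omega)],
            h0 _ fun a ha => Pi.single_eq_of_ne (fun e => by rw [e] at ha; omega) _, map_zero])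
  refine ⟨Matrix.of fun a b => C b a, ⟨fun a b hab => (hC b).1 a hab, ?_⟩, fun w => ?_⟩
  · ext a b
    have := congrFun (hC b).2.1 a
    rw [Finset.sum_apply] at this
    simp only [Matrix.mul_apply, Matrix.of_apply]
    refine Eq.trans this (Finset.sum_congr rfl fun c _ => ?_)
    rw [Pi.smul_apply, smul_eq_mul, mul_comm]
  · rw [lf_cols]
    conv_rhs => rw [← lf_single w]
    simp only [map_sum, map_smul, fun b => (hC b).2.2]

/-- Uniqueness up to homotopy.  Construct the columns of `σ` (degree `+1`) by induction on the degree: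
`Φ e_b - σ (D e_b)` is a cycle killed by `ε'`. -/
theorem htp_of_res {N' : Type} [AddCommGroup N'] [Module O N'] {ε' : (G.ι → O) →ₗ[O] N'} (hG : G.Res ε')
    {Φ Ψ : Matrix G.ι F.ι O} (hΦ : IsChain F G Φ) (hΨ : IsChain F G Ψ) (h : ∀ w, ε' (Φ *ᵥ w) = ε' (Ψ *ᵥ w)) :
    Htp F G Φ Ψ := by
  have hΘ := hΦ.sub hΨ
  have hε : ∀ w, ε' ((Φ - Ψ) *ᵥ w) = 0 := fun w => by rw [Matrix.sub_mulVec, map_sub, h, sub_self]
  unfold Htp
  generalize Φ - Ψ = Θ at hΘ hε
  obtain ⟨C, hC⟩ := lf_rec F.deg F.deg_le (fun (C : F.ι → G.ι → O) b v => ε' v = 0 ∧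
      G.D *ᵥ v = Θ *ᵥ Pi.single b 1 - ∑ c, F.D c b • C c)
    (fun C C' b v h hP => ⟨hP.1, by rw [hP.2, lf_sum_congr F C C' b h]⟩) (fun C b hC => by
      have e1 : G.D *ᵥ (Θ *ᵥ Pi.single b 1 - ∑ c, F.D c b • C c) = 0 := by
        rw [Matrix.mulVec_sub, lf_mulVec_sum, lf_sum_congr F (fun c => G.D *ᵥ C c)
          (fun c => Θ *ᵥ Pi.single c 1 - ∑ d, F.D d c • C d) b fun c hc => (hC c hc).2]
        simp only [smul_sub, Finset.sum_sub_distrib]
        rw [lf_DD, sub_zero, ← lf_mulVec_sum, lf_single (fun c => F.D c b), Matrix.mulVec_mulVec, hΘ.2,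
          ← Matrix.mulVec_mulVec, Matrix.mulVec_single_one F.D]
        exact sub_self _
      have e2 : ε' (Θ *ᵥ Pi.single b 1 - ∑ c, F.D c b • C c) = 0 := by
        simp only [map_sub, map_sum, map_smul, hε]
        rw [lf_sum_congr F (fun c => ε' (C c)) 0 b fun c hc => (hC c hc).1]
        simp
      obtain ⟨v, hv⟩ := hG.exact _ e1 e2
      exact ⟨v - prj O G.deg O 0 v, lf_eps_sub hG.ε0 v, by rw [Matrix.mulVec_sub, lf_D_prj0, sub_zero, hv]⟩)
  refine ⟨Matrix.of fun a b => C b a, ?_⟩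
  ext a b
  have := congrFun (hC b).2 a
  rw [Pi.sub_apply, Finset.sum_apply, Matrix.mulVec_single_one, eq_sub_iff_add_eq] at this
  simp only [Matrix.add_apply, Matrix.mul_apply, Matrix.of_apply]
  refine Eq.trans this.symm ?_
  congr 1
  exact Finset.sum_congr rfl fun c _ => by rw [Pi.smul_apply, smul_eq_mul, mul_comm]

theorem exists_act {X : Type} [CommRing X] [Algebra O X] {ε : (F.ι → O) →ₗ[O] X} (hF : F.Res ε) :
    ∃ A : Act F (algebraMap O X) (RingHom.id O), ∀ y w, ε (A.L y *ᵥ w) = y * ε w := by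
  have h1 : ∀ y : X, ∃ Φ : Matrix F.ι F.ι O, IsChain F F Φ ∧ ∀ w, ε (Φ *ᵥ w) = y * ε w := fun y =>
    exists_chain hF.εD hF.ε0 hF (LinearMap.mulLeft O y)
  choose L hL hL' using h1
  refine ⟨⟨L, hL, fun y y' => htp_of_res hF (hL _) ((hL _).add (hL _)) fun w => ?_,
    fun y y' => htp_of_res hF (hL _) ((hL _).mul (hL _)) fun w => ?_,
    fun r => htp_of_res hF (hL _) ((IsChain.one F).smul _) fun w => ?_⟩, hL'⟩
  · rw [Matrix.add_mulVec, map_add, hL', hL', hL', add_mul]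
  · rw [← Matrix.mulVec_mulVec, hL', hL', hL', mul_assoc]
  · rw [hL', Matrix.smul_mulVec, Matrix.one_mulVec, map_smul, RingHom.id_apply, Algebra.smul_def]

theorem Act.exists_map {R0 X : Type} [CommRing R0] [CommRing X] {g : R0 →+* X} {j : R0 →+* O} (A : Act F g j)
    (f : O →+* O') (j' : R0 →+* O') (h : ∀ r, j' r = f (j r)) :
    ∃ A' : Act (F.map f) g j', ∀ y, A'.L y = (A.L y).map f := by
  refine ⟨⟨fun y => (A.L y).map f, fun y => (A.chain y).map f, fun y y' => ?_, fun y y' => ?_, fun r => ?_⟩,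
    fun _ => rfl⟩
  · have := (A.add y y').map f
    rwa [Matrix.map_add _ (map_add f)] at this
  · have := (A.mul y y').map f
    rwa [Matrix.map_mul] at this
  · have := (A.alg r).map f
    have e : (j r • (1 : Matrix F.ι F.ι O)).map f = j' r • (1 : Matrix F.ι F.ι O') := by
      ext a b
      by_cases hab : a = b <;> simp [hab, h]
    rwa [e] at this

theorem Act.zero {R0 X : Type} [CommRing R0] [CommRing X] {g : R0 →+* X} {j : R0 →+* O} (A : Act F g j) :
    Htp F F (A.L 0) 0 := by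
  have := A.alg 0
  rwa [map_zero, map_zero, zero_smul] at this

/-- Reduction of a resolution modulo an element `ϖ` that is regular on the ring and on the module.  Exactness: if
`D w = ϖ y` then `D y = 0` and `ε y = 0`, so `y = D z`; `w - ϖ z` is a cycle with `ε (w - ϖ z) = ϖ ε v`, `v` of
degree `0`; so `w - ϖ z - ϖ v` is a boundary. -/
theorem res_quot {N N' : Type} [AddCommGroup N] [Module O N] [AddCommGroup N'] [Module O' N']
    {ε : (F.ι → O) →ₗ[O] N} (hF : F.Res ε) (ρ : O →+* O') (hρ : Function.Surjective ρ) {ϖ : O}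
    (hk : ∀ x, ρ x = 0 ↔ x ∈ Ideal.span {ϖ}) (h1 : ∀ x : O, ϖ * x = 0 → x = 0)
    (h2 : ∀ y : N, ϖ • y = 0 → y = 0) (q : N →ₛₗ[ρ] N') (hq : Function.Surjective q)
    (hq' : ∀ y, q y = 0 ↔ ∃ z, y = ϖ • z) :
    ∃ ε' : ((F.map ρ).ι → O') →ₗ[O'] N', (F.map ρ).Res ε' ∧ ∀ w : F.ι → O, ε' (fun a => ρ (w a)) = q (ε w) := by
  have hϖ : ρ ϖ = 0 := (hk ϖ).2 (Ideal.mem_span_singleton_self ϖ)
  let ε' : (F.ι → O') →ₗ[O'] N' := Fintype.linearCombination O' fun a => q (ε (Pi.single a 1))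
  have hε : ∀ w : F.ι → O, ε' (fun a => ρ (w a)) = q (ε w) := fun w => by
    conv_rhs => rw [← lf_single w]
    simp only [ε', Fintype.linearCombination_apply, map_sum, map_smul, map_smulₛₗ]
  have hl : ∀ w' : F.ι → O', ∃ w : F.ι → O, w' = fun a => ρ (w a) := fun w' => by
    choose w hw using fun a => hρ (w' a)
    exact ⟨w, funext fun a => (hw a).symm⟩
  have hD : ∀ w : F.ι → O, (F.D.map ρ *ᵥ fun a => ρ (w a)) = fun a => ρ ((F.D *ᵥ w) a) := fun w =>
    funext fun a => (RingHom.map_mulVec ρ F.D w a).symm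
  refine ⟨ε', ⟨fun y' => ?_, fun w' => ?_, fun w' hw' => ?_, fun w' e1 e2 => ?_⟩, hε⟩
  · obtain ⟨y, rfl⟩ := hq y'
    obtain ⟨w, rfl⟩ := hF.surj y
    exact ⟨_, hε w⟩
  · obtain ⟨w, rfl⟩ := hl w'
    change ε' (F.D.map ρ *ᵥ fun a => ρ (w a)) = 0
    rw [hD, hε, hF.εD, map_zero]
  · refine (Fintype.linearCombination_apply O' (fun a : F.ι => q (ε (Pi.single a 1))) w').trans ?_
    refine Finset.sum_eq_zero fun a _ => ?_
    by_cases ha : F.deg a = 0
    · rw [hw' a ha, zero_smul]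
    · rw [hF.ε0 _ fun b hb => Pi.single_eq_of_ne (fun e : b = a => ha (by rw [← hb, e])) _, map_zero, smul_zero]
  · obtain ⟨w, rfl⟩ := hl w'
    change (F.D.map ρ *ᵥ fun a => ρ (w a)) = 0 at e1
    rw [hD] at e1
    have e3 : q (ε w) = 0 := (hε w).symm.trans e2
    obtain ⟨u, hu⟩ := (hq' _).1 e3
    have h3 : ∀ a, ∃ y, y * ϖ = (F.D *ᵥ w) a := fun a =>
      Ideal.mem_span_singleton'.1 ((hk _).1 (congrFun e1 a))
    choose y hy using h3
    have h4 : F.D *ᵥ w = ϖ • y := funext fun a => by rw [← hy, Pi.smul_apply, smul_eq_mul, mul_comm]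
    have h5 : F.D *ᵥ y = 0 := funext fun a => h1 _ (by
      have : F.D *ᵥ (F.D *ᵥ w) = 0 := by rw [Matrix.mulVec_mulVec, F.sq, Matrix.zero_mulVec]
      rw [h4, Matrix.mulVec_smul] at this
      exact congrFun this a)
    have h6 : ε y = 0 := h2 _ (by rw [← map_smul, ← h4, hF.εD])
    obtain ⟨z, hz⟩ := hF.exact y h5 h6
    obtain ⟨v, hv⟩ := hF.surj (u - ε z)
    obtain ⟨x, hx⟩ := hF.exact (w - ϖ • z - ϖ • prj O F.deg O 0 v)
      (by rw [Matrix.mulVec_sub, Matrix.mulVec_sub, Matrix.mulVec_smul, Matrix.mulVec_smul, lf_D_prj0, hz, h4,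
        smul_zero, sub_self, sub_self])
      (by rw [map_sub, map_sub, map_smul, map_smul, lf_eps_prj hF.ε0, hv, hu, smul_sub, sub_self])
    refine ⟨fun a => ρ (x a), ?_⟩
    change (F.D.map ρ *ᵥ fun a => ρ (x a)) = _
    rw [hD, hx]
    ext a
    simp [hϖ]

end Crest.Agent.R188
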