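import Crest.Agent.R188.Sq
import Crest.Agent.R188.Lift

/-!
# rid 188, file `CoreA`: the commutative ring acting on virtual homology

Prefix helper lemmas with `ca_`.
-/

set_option autoImplicit false

open IsLocalRing Crest.Agent.R183

namespace Crest.Agent.R188

open Matrix

variable {O : Type} [CommRing O] {n : ℕ} (G : MC O n) (S : Type) [CommRing S] [Algebra S O]
  {R0 X1 X2 : Type} [CommRing R0] [CommRing X1] [CommRing X2] {g1 : R0 →+* X1} {g2 : R0 →+* X2}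
  {j1 j2 : R0 →+* O}

theorem MC.mem_Z (I1 I2 I3 : Ideal O) (i : ℕ) (x : G.ι → O) : x ∈ (G.vcx S I1 I2 I3).Z i ↔
    (∀ a, G.deg a ≠ i → x a = 0) ∧ ∀ a, (G.D *ᵥ x) a ∈ I3 := by
  rw [VCx.mem_Z]
  refine and_congr ?_ ?_
  · change prj S G.deg O i x = x ↔ _
    rw [funext_iff]
    refine forall_congr' fun a => ?_
    rw [prj_apply]
    by_cases h : G.deg a = i <;> simp [h, eq_comm]
  · change mact S G.D O x ∈ piI S G.ι I3 ↔ _
    rw [mact_self, mem_piI]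

theorem MC.mem_N (I1 I2 I3 : Ideal O) (x : G.ι → O) : x ∈ (G.vcx S I1 I2 I3).N ↔
    ∃ y : G.ι → O, ∀ a, x a - (G.D *ᵥ y) a ∈ I1 := by
  rw [VCx.mem_N]
  refine exists_congr fun y => ?_
  change x - mact S G.D O y ∈ piI S G.ι I1 ↔ _
  rw [mact_self, mem_piI]
  rfl

theorem ca_mulVec {ι κ : Type} [Fintype κ] (Φ : Matrix ι κ O) {I : Ideal O} {w : κ → O} (h : ∀ b, w b ∈ I) (a : ι) :
    (Φ *ᵥ w) a ∈ I :=
  Ideal.sum_mem _ fun b _ => I.mul_mem_left _ (h b)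

variable {G} in
theorem IsChain.mem_Z {n' : ℕ} {G' : MC O n'} {Φ : Matrix G'.ι G.ι O} (h : IsChain G G' Φ) (I1 I2 I3 : Ideal O)
    (i : ℕ) {x : G.ι → O} (hx : x ∈ (G.vcx S I1 I2 I3).Z i) : Φ *ᵥ x ∈ (G'.vcx S I1 I2 I3).Z i := by
  rw [MC.mem_Z] at hx ⊢
  refine ⟨fun a ha => Finset.sum_eq_zero fun b _ => ?_, fun a => ?_⟩
  · change Φ a b * x b = 0
    by_cases h0 : Φ a b = 0
    · rw [h0, zero_mul]
    · rw [hx.1 b (h.1 a b h0 ▸ ha), mul_zero]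
  · rw [mulVec_mulVec, h.2, ← mulVec_mulVec]
    exact ca_mulVec Φ hx.2 a

variable {G} in
theorem IsChain.mem_N {n' : ℕ} {G' : MC O n'} {Φ : Matrix G'.ι G.ι O} (h : IsChain G G' Φ) (I1 I2 I3 : Ideal O)
    {x : G.ι → O} (hx : x ∈ (G.vcx S I1 I2 I3).N) : Φ *ᵥ x ∈ (G'.vcx S I1 I2 I3).N := by
  rw [MC.mem_N] at hx ⊢
  obtain ⟨y, hy⟩ := hx
  refine ⟨Φ *ᵥ y, fun a => ?_⟩
  rw [mulVec_mulVec, h.2, ← mulVec_mulVec, ← Pi.sub_apply, ← mulVec_sub]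
  exact ca_mulVec Φ hy a

variable {G} in
theorem Htp.mem_N {n' : ℕ} {G' : MC O n'} {Φ Ψ : Matrix G'.ι G.ι O} (h : Htp G G' Φ Ψ) {I1 I3 : Ideal O}
    (I2 : Ideal O) (h31 : I3 ≤ I1) (i : ℕ) {x : G.ι → O} (hx : x ∈ (G.vcx S I1 I2 I3).Z i) :
    Φ *ᵥ x - Ψ *ᵥ x ∈ (G'.vcx S I1 I2 I3).N := by
  rw [MC.mem_Z] at hx
  rw [MC.mem_N]
  obtain ⟨σ, hσ⟩ := h
  refine ⟨σ *ᵥ x, fun a => ?_⟩
  rw [← sub_mulVec, hσ, add_mulVec, ← mulVec_mulVec, ← mulVec_mulVec, Pi.add_apply, add_sub_cancel_left]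
  exact h31 (ca_mulVec σ hx.2 a)

theorem ca_ring {E : Type} [Ring E] [Algebra O E] (a : X1 →+* E) (b : X2 →+* E)
    (hc : ∀ y1 y2, a y1 * b y2 = b y2 * a y1) :
    ∃ (𝒪 : Type) (_ : CommRing 𝒪) (ι : 𝒪 →+* E) (θ : O →+* 𝒪) (a' : X1 →+* 𝒪) (b' : X2 →+* 𝒪),
      Function.Injective ι ∧ (∀ o, ι (θ o) = algebraMap O E o) ∧ (∀ y, ι (a' y) = a y) ∧ ∀ y, ι (b' y) = b y := by
  let T := Algebra.adjoin O (Set.range a ∪ Set.range b)
  have hT : IsMulCommutative T := Algebra.isMulCommutative_adjoin O (by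
    rintro _ (⟨x, rfl⟩ | ⟨x, rfl⟩) _ (⟨y, rfl⟩ | ⟨y, rfl⟩)
    · rw [← map_mul, mul_comm, map_mul]
    · exact hc _ _
    · exact (hc _ _).symm
    · rw [← map_mul, mul_comm, map_mul])
  exact ⟨T, { (inferInstance : Ring T) with mul_comm := hT.is_comm.comm }, T.val.toRingHom, algebraMap O T,
    a.codRestrict T fun y => Algebra.subset_adjoin (Or.inl ⟨y, rfl⟩),
    b.codRestrict T fun y => Algebra.subset_adjoin (Or.inr ⟨y, rfl⟩), Subtype.val_injective, fun _ => rfl,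
    fun _ => rfl, fun _ => rfl⟩

/-- The homology module. -/
abbrev ca_H (I1 I2 I3 : Ideal O) (i : ℕ) : Type :=
  (G.vcx O I1 I2 I3).Z i ⧸ (G.vcx O I1 I2 I3).N.submoduleOf ((G.vcx O I1 I2 I3).Z i)

variable {G} in
/-- The induced endomorphism. -/
def ca_ind {Φ : Matrix G.ι G.ι O} (h : IsChain G G Φ) (I1 I2 I3 : Ideal O) (i : ℕ) :
    Module.End O (ca_H G I1 I2 I3 i) :=
  Submodule.mapQ _ _ (Φ.mulVecLin.restrict fun _ hx => h.mem_Z O I1 I2 I3 i hx) fun _ hx => h.mem_N O I1 I2 I3 hx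

variable {G} in
theorem ca_eq_iff {Φ Ψ : Matrix G.ι G.ι O} (h : IsChain G G Φ) (h' : IsChain G G Ψ) (I1 I2 I3 : Ideal O) (i : ℕ) :
    ca_ind h I1 I2 I3 i = ca_ind h' I1 I2 I3 i ↔
      ∀ x ∈ (G.vcx O I1 I2 I3).Z i, Φ *ᵥ x - Ψ *ᵥ x ∈ (G.vcx O I1 I2 I3).N := by
  constructor
  · intro e x hx
    exact (Submodule.Quotient.eq ((G.vcx O I1 I2 I3).N.submoduleOf ((G.vcx O I1 I2 I3).Z i))).1
      (LinearMap.congr_fun e (Submodule.Quotient.mk ⟨x, hx⟩))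
  · intro e
    refine Submodule.linearMap_qext _ (LinearMap.ext fun x => ?_)
    exact (Submodule.Quotient.eq _).2 (e x.1 x.2)

variable {G} in
theorem ca_mul {Φ Ψ : Matrix G.ι G.ι O} (h : IsChain G G Φ) (h' : IsChain G G Ψ) (I1 I2 I3 : Ideal O) (i : ℕ) :
    ca_ind (h.mul h') I1 I2 I3 i = ca_ind h I1 I2 I3 i * ca_ind h' I1 I2 I3 i := by
  refine Submodule.linearMap_qext _ (LinearMap.ext fun x => ?_)
  exact congrArg Submodule.Quotient.mk (Subtype.ext (mulVec_mulVec _ _ _).symm)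

variable {G} in
theorem ca_add {Φ Ψ : Matrix G.ι G.ι O} (h : IsChain G G Φ) (h' : IsChain G G Ψ) (I1 I2 I3 : Ideal O) (i : ℕ) :
    ca_ind (h.add h') I1 I2 I3 i = ca_ind h I1 I2 I3 i + ca_ind h' I1 I2 I3 i := by
  refine Submodule.linearMap_qext _ (LinearMap.ext fun x => ?_)
  exact congrArg Submodule.Quotient.mk (Subtype.ext (add_mulVec _ _ _))

theorem ca_smul (o : O) (I1 I2 I3 : Ideal O) (i : ℕ) :
    ca_ind ((IsChain.one G).smul o) I1 I2 I3 i = algebraMap O _ o := by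
  refine Submodule.linearMap_qext _ (LinearMap.ext fun x => ?_)
  exact congrArg Submodule.Quotient.mk (Subtype.ext ((smul_mulVec _ _ _).trans (congrArg _ (one_mulVec _))))

variable {G} in
theorem ca_hom {X : Type} [CommRing X] {g : R0 →+* X} {j : R0 →+* O} (A : Act G g j) {I1 I3 : Ideal O}
    (I2 : Ideal O) (h31 : I3 ≤ I1) (i : ℕ) : ∃ a : X →+* Module.End O (ca_H G I1 I2 I3 i),
      (∀ y, a y = ca_ind (A.chain y) I1 I2 I3 i) ∧ ∀ r, a (g r) = algebraMap O _ (j r) := by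
  have h1 : ∀ r, ca_ind (A.chain (g r)) I1 I2 I3 i = algebraMap O _ (j r) := fun r => by
    rw [← ca_smul]
    exact (ca_eq_iff _ _ _ _ _ _).2 fun x hx => (A.alg r).mem_N O I2 h31 i hx
  refine ⟨RingHom.mk' ⟨⟨fun y => ca_ind (A.chain y) I1 I2 I3 i, ?_⟩, fun y y' => ?_⟩ fun y y' => ?_,
    fun _ => rfl, h1⟩
  · have := h1 1
    simpa only [map_one] using this
  · refine Eq.trans ?_ (ca_mul (A.chain y) (A.chain y') I1 I2 I3 i)
    exact (ca_eq_iff (A.chain _) _ _ _ _ _).2 fun x hx => (A.mul y y').mem_N O I2 h31 i hx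
  · refine Eq.trans ?_ (ca_add (A.chain y) (A.chain y') I1 I2 I3 i)
    exact (ca_eq_iff (A.chain _) _ _ _ _ _).2 fun x hx => (A.add y y').mem_N O I2 h31 i hx

/-- Let `H = Z i / N` as an `O`-module (take `S = O`; membership does not depend on `S`).  A chain map induces an
endomorphism of `H`, homotopic maps induce the same one, so `A1`, `A2` give ring homomorphisms into
`Module.End O H` with commuting images (`L 1 = L (g 1) ≃ 1`).  Take the subalgebra generated by the two images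
(`Algebra.adjoinCommRingOfComm`, or `Subalgebra.centralizer` twice). -/
theorem exists_actRing {I1 I3 : Ideal O} (I2 : Ideal O) (h31 : I3 ≤ I1) (i : ℕ) (A1 : Act G g1 j1)
    (A2 : Act G g2 j2) (hc : ∀ y1 y2, Htp G G (A1.L y1 * A2.L y2) (A2.L y2 * A1.L y1)) :
    ∃ (𝒪 : Type) (_ : CommRing 𝒪) (θ : O →+* 𝒪) (a : X1 →+* 𝒪) (b : X2 →+* 𝒪), Compat g1 g2 j1 j2 θ a b ∧
      (∀ o ∈ I1, θ o = 0) ∧ (∀ o, θ o = 0 → ∀ x ∈ (G.vcx S I1 I2 I3).Z i, o • x ∈ (G.vcx S I1 I2 I3).N) ∧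
      ∀ y1 y2, (∀ x ∈ (G.vcx S I1 I2 I3).Z i, (A1.L y1 * A2.L y2) *ᵥ x ∈ (G.vcx S I1 I2 I3).N) →
        a y1 * b y2 = 0 := by
  have hZ : ∀ x, x ∈ (G.vcx S I1 I2 I3).Z i ↔ x ∈ (G.vcx O I1 I2 I3).Z i := fun x => by rw [MC.mem_Z, MC.mem_Z]
  have hN : ∀ x, x ∈ (G.vcx S I1 I2 I3).N ↔ x ∈ (G.vcx O I1 I2 I3).N := fun x => by rw [MC.mem_N, MC.mem_N]
  simp only [hZ, hN]
  obtain ⟨a, ha, ha'⟩ := ca_hom A1 I2 h31 i
  obtain ⟨b, hb, hb'⟩ := ca_hom A2 I2 h31 i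
  obtain ⟨𝒪, _, ι, θ, a', b', hι, h1, h2, h3⟩ := ca_ring (O := O) a b fun y1 y2 => by
    rw [ha, hb, ← ca_mul, ← ca_mul]
    exact (ca_eq_iff _ _ _ _ _ _).2 fun x hx => (hc y1 y2).mem_N O I2 h31 i hx
  have key : ∀ {Φ : Matrix G.ι G.ι O} (h : IsChain G G Φ), ca_ind h I1 I2 I3 i = 0 ↔
      ∀ x ∈ (G.vcx O I1 I2 I3).Z i, Φ *ᵥ x ∈ (G.vcx O I1 I2 I3).N := fun h => by
    rw [← map_zero (algebraMap O (Module.End O (ca_H G I1 I2 I3 i))), ← ca_smul, ca_eq_iff]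
    simp
  have key' : ∀ o, θ o = 0 ↔ ∀ x ∈ (G.vcx O I1 I2 I3).Z i, o • x ∈ (G.vcx O I1 I2 I3).N := fun o => by
    rw [← map_eq_zero_iff ι hι, h1, ← ca_smul, key]
    simp only [smul_mulVec, one_mulVec]
  refine ⟨𝒪, inferInstance, θ, a', b', ⟨fun r => hι ?_, fun r => hι ?_⟩, fun o ho => (key' o).2 fun x _ => ?_,
    fun o => (key' o).1, fun y1 y2 h => ?_⟩
  · rw [h1, h2, ha']
  · rw [h1, h3, hb']
  · exact (MC.mem_N _ _ _ _ _ _).2 ⟨0, fun a => by simpa using I1.mul_mem_right _ ho⟩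
  · rw [← map_eq_zero_iff ι hι, map_mul, h2, h3, ha, hb, ← ca_mul]
    exact (key _).2 h

theorem URel.kill {I1 I3 : Ideal O} (I2 : Ideal O) (h31 : I3 ≤ I1) (i : ℕ) (A1 : Act G g1 j1)
    (A2 : Act G g2 j2) (hc : ∀ y1 y2, Htp G G (A1.L y1 * A2.L y2) (A2.L y2 * A1.L y1)) {o : O} {y1 : X1}
    {y2 : X2} {I : Ideal O} (h : URel g1 g2 j1 j2 o y1 y2 I) (hI : I ≤ I1)
    (h0 : ∀ x ∈ (G.vcx S I1 I2 I3).Z i, (A1.L y1 * A2.L y2) *ᵥ x ∈ (G.vcx S I1 I2 I3).N) :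
    ∀ x ∈ (G.vcx S I1 I2 I3).Z i, o • x ∈ (G.vcx S I1 I2 I3).N := by
  obtain ⟨𝒪, _, θ, a, b, h1, h2, h3, h4⟩ := exists_actRing G S I2 h31 i A1 A2 hc
  have := h 𝒪 θ a b h1
  rw [h4 y1 y2 h0, Ideal.span_singleton_eq_bot.2 rfl, bot_sup_eq,
    (Ideal.map_eq_bot_iff_le_ker θ).2 fun x hx => h2 x (hI hx)] at this
  exact h3 o this

theorem URel.kill0 {I1 I3 : Ideal O} (I2 : Ideal O) (h31 : I3 ≤ I1) (i : ℕ) (A1 : Act G g1 j1)
    (A2 : Act G g2 j2) (hc : ∀ y1 y2, Htp G G (A1.L y1 * A2.L y2) (A2.L y2 * A1.L y1)) {o : O}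
    {I : Ideal O} (h : URel g1 g2 j1 j2 o 0 0 I) (hI : I ≤ I1) :
    ∀ x ∈ (G.vcx S I1 I2 I3).Z i, o • x ∈ (G.vcx S I1 I2 I3).N := by
  refine h.kill G S I2 h31 i A1 A2 hc hI fun x hx => ?_
  simpa using (A1.zero.mul_right (A2.chain 0)).mem_N S I2 h31 i hx

end Crest.Agent.R188
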