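import Crest.Agent.R188.CoreA
import Crest.Agent.R188.Bock

/-!
# rid 188, file `CoreB`: the core vanishing and positivity theorems

Prefix helper lemmas with `cb_`.
-/

set_option autoImplicit false

open IsLocalRing Crest.Agent.R183

namespace Crest.Agent.R188

open Matrix

variable {O : Type} [CommRing O] {n n' : ℕ} (S : Type) [CommRing S] [Algebra S O] {s t : O} {c : ℕ}
  {R0 X1 X2 : Type} [CommRing R0] [CommRing X1] [CommRing X2] {g1 : R0 →+* X1} {g2 : R0 →+* X2}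
  {j1 j2 : R0 →+* O}

theorem cb_mem {j J : ℕ} {b : O} : b ∈ lev s t c j J ↔ ∃ y u, y * t ^ (j * c) + u * s ^ J = b :=
  Ideal.mem_span_pair

theorem cb_s (j J : ℕ) (u : O) : u * s ^ J ∈ lev s t c j J := cb_mem.2 ⟨0, u, by ring⟩

theorem cb_t (j J : ℕ) (u : O) : u * t ^ (j * c) ∈ lev s t c j J := cb_mem.2 ⟨u, 0, by ring⟩

theorem cb_mul {j J : ℕ} {b : O} (h : b ∈ lev s t c j J) : t ^ c * b ∈ lev s t c (j + 1) J := by
  obtain ⟨y, u, rfl⟩ := cb_mem.1 h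
  exact cb_mem.2 ⟨y, t ^ c * u, by ring⟩

theorem cb_le {j j' : ℕ} (h : j ≤ j') (J : ℕ) : lev s t c j' J ≤ lev s t c j J := by
  obtain ⟨k, rfl⟩ := Nat.exists_eq_add_of_le h
  intro b hb
  obtain ⟨y, u, rfl⟩ := cb_mem.1 hb
  exact cb_mem.2 ⟨y * t ^ (k * c), u, by ring⟩

theorem cb_mulVec {ι κ : Type} [Fintype κ] (A : Matrix ι κ O) {I : Ideal O} {w : κ → O}
    (hw : ∀ a, w a ∈ I) (a : ι) : (A *ᵥ w) a ∈ I :=
  I.sum_mem fun b _ => I.mul_mem_left _ (hw b)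

theorem cb_prj (G : MC O n) {I : Ideal O} (i : ℕ) (x : G.ι → O) (hx : x ∈ piI S G.ι I) :
    (G.cx S O).p i x ∈ piI S G.ι I := by
  refine (mem_piI S).2 fun a => ?_
  change (if G.deg a = i then x a else 0) ∈ I
  split_ifs
  exacts [(mem_piI S).1 hx a, I.zero_mem]

theorem cb_DD (G : MC O n) (x : G.ι → O) : G.D *ᵥ (G.D *ᵥ x) = 0 := by
  rw [mulVec_mulVec, G.sq, zero_mulVec]

theorem cb_split {ι : Type} {j J : ℕ} {x : ι → O} (h : ∀ a, x a ∈ lev s t c j J) :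
    ∃ y u : ι → O, x = t ^ (j * c) • y + s ^ J • u := by
  choose y u h using fun a => cb_mem.1 (h a)
  exact ⟨y, u, funext fun a => by simp [← h a, mul_comm]⟩

theorem cb_Z0 (G : MC O n) (I1 I2 I3 : Ideal O) {x : G.ι → O} (hx : ∀ a, G.deg a ≠ 0 → x a = 0) :
    x ∈ (G.vcx S I1 I2 I3).Z 0 := by
  refine (G.mem_Z S I1 I2 I3 0 x).2 ⟨hx, fun a => I3.sum_mem fun b _ => ?_⟩
  by_cases h : G.D a b = 0
  · simp [h]
  · simp [hx b (by rw [G.hD a b h]; omega)]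

theorem cb_fun (G : MC O n) {K : Type} [CommRing K] (θ : O →+* K) {η : G.ι → K}
    (hη : ∀ b, ∑ a, θ (G.D a b) * η a = 0) (x y : G.ι → O) :
    ∑ a, θ (x a - (G.D *ᵥ y) a) * η a = ∑ a, θ (x a) * η a := by
  have : ∑ a, θ ((G.D *ᵥ y) a) * η a = 0 := by
    simp only [mulVec, dotProduct, map_sum, map_mul, Finset.sum_mul]
    rw [Finset.sum_comm]
    refine Finset.sum_eq_zero fun b _ => ?_
    simp only [mul_right_comm _ (θ (y b)), ← Finset.sum_mul, hη, zero_mul]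
  simp only [map_sub, sub_mul, Finset.sum_sub_distrib, this, sub_zero]

/-- If `t = 0` the three ideals agree.  Otherwise `V1`: `D x = t^(2c) y + s^J u`, so `D y ∈ lev 2 J` by `P2`, and
`t^c y = D v + lev 2 J`; take `x - t^c v`.  `V2`: `x = D y + t^c w + s^J u`, so `t^(2c) D w ∈ lev 4 J`,
`D w ∈ lev 2 J`, `t^c w ∈ range D + lev 2 J`. -/
theorem lvl_ok (G : MC O n) {N J : ℕ} (h : TOK s t c N) (hJ : J ≤ N) (hK : G.Kill s t c J) :
    (G.lvl S s t c J).OK := by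
  have h0 : t = 0 → ∀ j j', lev s t c (j + 1) J = lev s t c (j' + 1) J := by
    rintro rfl j j'
    have := h.cpos
    simp only [lev]
    rw [zero_pow (by positivity), zero_pow (by positivity)]
  refine ⟨fun x hx => (mem_piI S).2 fun a => cb_le (by norm_num) J ((mem_piI S).1 hx a),
    fun x hx => (mem_piI S).2 fun a => cb_le (by norm_num) J ((mem_piI S).1 hx a),
    fun x hx => (mem_piI S).2 (cb_mulVec G.D ((mem_piI S).1 hx)),
    fun x hx => (mem_piI S).2 (cb_mulVec G.D ((mem_piI S).1 hx)),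
    fun x hx => (mem_piI S).2 (cb_mulVec G.D ((mem_piI S).1 hx)),
    cb_prj S G, cb_prj S G, cb_prj S G, fun x hx => ?_, fun x hx hN => ?_⟩
  · replace hx : ∀ a, (G.D *ᵥ x) a ∈ lev s t c 2 J := (mem_piI S).1 hx
    rcases h.P2 with ht | hP
    · exact ⟨x, by simp, (mem_piI S).2 fun a => h0 ht 1 2 ▸ hx a⟩
    obtain ⟨y, u, e⟩ := cb_split hx
    have e2 := cb_DD G x
    rw [e, mulVec_add, mulVec_smul, mulVec_smul] at e2
    obtain ⟨v, hv⟩ := hK y fun a => hP J hJ _ (by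
      have := congrFun e2 a
      simp only [Pi.add_apply, Pi.smul_apply, smul_eq_mul, Pi.zero_apply] at this
      exact cb_mem.2 ⟨0, -(G.D *ᵥ u) a, by linear_combination -this⟩)
    refine ⟨x - t ^ c • v, (mem_piI S).2 fun a => ?_, (mem_piI S).2 fun a => ?_⟩
    · exact cb_mem.2 ⟨v a, 0, by simp [mul_comm]⟩
    · change (G.D *ᵥ (x - t ^ c • v)) a ∈ lev s t c 3 J
      rw [mulVec_sub, mulVec_smul, e]
      convert add_mem (cb_mul (hv a)) (cb_s 3 J (u a)) using 1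
      simp only [Pi.add_apply, Pi.sub_apply, Pi.smul_apply, smul_eq_mul]
      ring
  · replace hx : ∀ a, (G.D *ᵥ x) a ∈ lev s t c 3 J := (mem_piI S).1 hx
    obtain ⟨y, hy⟩ := (G.mem_N S _ _ _ x).1 hN
    suffices ∃ y, ∀ a, x a - (G.D *ᵥ y) a ∈ lev s t c 2 J by
      obtain ⟨y, hy⟩ := this
      exact Submodule.mem_sup.2 ⟨G.D *ᵥ y, ⟨y, rfl⟩, x - G.D *ᵥ y, (mem_piI S).2 hy, by simp⟩
    rcases h.P2 with ht | hP
    · exact ⟨y, fun a => h0 ht 0 1 ▸ hy a⟩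
    obtain ⟨w, u, e⟩ := cb_split (x := x - G.D *ᵥ y) hy
    have e2 := congrArg (G.D *ᵥ ·) e
    simp only [mulVec_sub, cb_DD, sub_zero, mulVec_add, mulVec_smul, one_mul] at e2 e
    obtain ⟨v, hv⟩ := hK w fun a => hP J hJ _ (by
      convert sub_mem (cb_mul (hx a)) (cb_s 4 J (t ^ c * (G.D *ᵥ u) a)) using 1
      simp only [e2, Pi.add_apply, Pi.smul_apply, smul_eq_mul]
      ring)
    refine ⟨y + v, fun a => ?_⟩
    convert add_mem (hv a) (cb_s 2 J (u a)) using 1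
    have := congrFun e a
    simp only [Pi.add_apply, Pi.sub_apply, Pi.smul_apply, smul_eq_mul, mulVec_add] at this ⊢
    linear_combination this

/-- `t^(c0 J) ∈ (s^J)` universally; apply `URel.kill0` with all ideals `lev 2 J` in each degree and add up. -/
theorem kill_of_rel (G : MC O n) (A1 : Act G g1 j1) (A2 : Act G g2 j2)
    (hc : ∀ y1 y2, Htp G G (A1.L y1 * A2.L y2) (A2.L y2 * A1.L y1)) {c0 J : ℕ}
    (h : URel g1 g2 j1 j2 (t ^ c0) 0 0 (Ideal.span {s})) (hJ : c0 * J ≤ c) : G.Kill s t c J := by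
  have h1 : URel g1 g2 j1 j2 (t ^ c) 0 0 (lev s t c 2 J) := by
    intro 𝒪 _ θ a b hab
    have h2 := h 𝒪 θ a b hab
    rw [map_zero, zero_mul, Ideal.span_singleton_zero, bot_sup_eq] at h2 ⊢
    rw [Ideal.map_span, Set.image_singleton, Ideal.mem_span_singleton] at h2
    obtain ⟨k, rfl⟩ := Nat.exists_eq_add_of_le hJ
    obtain ⟨z, hz⟩ := h2
    rw [pow_add, pow_mul, map_mul, map_pow, hz, mul_pow, mul_assoc, ← map_pow]
    exact Ideal.mul_mem_right _ _ (Ideal.mem_map_of_mem _ (by simpa using cb_s (c := c0 * J + k) (t := t) 2 J 1))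
  intro w hw
  refine (G.mem_N O _ (lev s t c 2 J) (lev s t c 2 J) (t ^ c • w)).1 ?_
  have e : w = ∑ i ∈ Finset.range (n + 1), (G.cx O O).p i w := by
    rw [← LinearMap.sum_apply, (G.cx O O).p_sum, Module.End.one_apply]
  rw [e, Finset.smul_sum]
  refine Submodule.sum_mem _ fun i _ => URel.kill0 G O _ le_rfl i A1 A2 hc h1 le_rfl _ ?_
  exact (VCx.mem_Z _ _ _).2 ⟨sq_pp _ _ _, sq_Dp (G.cx O O) (cb_prj O G) ((mem_piI O).2 hw) i⟩

theorem core_van (G : MC O n) {r : ℕ} (hr : 0 < r) (hT : TOK s t c (2 * r - 1)) (hK : ∀ J ≤ r, G.Kill s t c J)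
    (A1 : Act G g1 j1) (A2 : Act G g2 j2) (hc : ∀ y1 y2, Htp G G (A1.L y1 * A2.L y2) (A2.L y2 * A1.L y1))
    (fin : ∀ i, (G.lvl S s t c 1).h i ≠ ⊤) (hC : URel g1 g2 j1 j2 (s ^ (r - 1)) 0 0 (lev s t c 1 r)) :
    (G.lvl S s t c 1).chi = 0 := by
  rw [(bockstein G S hr hT (fun J hJ => lvl_ok S G hT (by omega) (hK J hJ)) fin).2]
  refine Finset.sum_eq_zero fun i _ => ?_
  rw [(sql_eq_zero_iff _ _).2]
  · simp
  · rintro _ ⟨x, hx, rfl⟩
    exact URel.kill0 G S _ (cb_le (by norm_num) r) i A1 A2 hc hC le_rfl x hx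

/-- For `i ≥ 1` the level `r` homology of `GD` vanishes (`lvl_h_le`), so `π μ`, hence `L γ1 * L γ2`, hence
`s^(r-1)` kills `H_i` of `GM` at level `r`; conclude with `bockstein`. -/
theorem core_pos (GD : MC O n') (GM : MC O n) {r : ℕ} (hr : 0 < r) (hT : TOK s t c (2 * r - 1))
    (kD : ∀ J ≤ r, GD.Kill s t c J) (kM : ∀ J ≤ r, GM.Kill s t c J) (A1 : Act GM g1 j1) (A2 : Act GM g2 j2)
    (hc : ∀ y1 y2, Htp GM GM (A1.L y1 * A2.L y2) (A2.L y2 * A1.L y1)) {π : Matrix GM.ι GD.ι O}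
    {μ : Matrix GD.ι GM.ι O} (hπ : IsChain GD GM π) (hμ : IsChain GM GD μ) {γ1 : X1} {γ2 : X2}
    (hπμ : Htp GM GM (π * μ) (A1.L γ1 * A2.L γ2)) (hD : ∀ i, 1 ≤ i → (GD.lvl S s t c 1).h i = 0)
    (fin : ∀ i, (GM.lvl S s t c 1).h i ≠ ⊤) (hC : URel g1 g2 j1 j2 (s ^ (r - 1)) γ1 γ2 (lev s t c 1 r))
    (hNV : ∃ x ∈ (GM.lvl S s t c r).Z 0, s ^ (r - 1) • x ∉ (GM.lvl S s t c r).N) :
    0 < (GM.lvl S s t c 1).chi := by
  obtain ⟨b1, b2⟩ := bockstein GM S hr hT (fun J hJ => lvl_ok S GM hT (by omega) (kM J hJ)) fin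
  rw [b2, Finset.sum_range_succ', Finset.sum_eq_zero, zero_add, pow_zero, one_mul, Nat.cast_pos,
    Nat.pos_iff_ne_zero, ne_eq, ENat.toNat_eq_zero, not_or]
  · refine ⟨fun h0 => ?_, b1 0⟩
    obtain ⟨x, hx, hx'⟩ := hNV
    exact hx' ((sql_eq_zero_iff _ _).1 h0 ⟨x, hx, rfl⟩)
  intro i _
  rw [(sql_eq_zero_iff _ _).2]
  · simp
  rintro _ ⟨x, hx, rfl⟩
  refine URel.kill GM S _ (cb_le (by norm_num) r) (i + 1) A1 A2 hc hC le_rfl (fun z hz => ?_) x hx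
  have h1 := lvl_h_le GD S hT (by omega) (fun J hJ => lvl_ok S GD hT (by omega) (kD J hJ)) (i + 1) le_rfl
  rw [hD _ (by omega), mul_zero, nonpos_iff_eq_zero] at h1
  have h2 := hπ.mem_N S _ _ _ ((sql_eq_zero_iff _ _).1 h1 (hμ.mem_Z S _ _ _ _ hz))
  rw [mulVec_mulVec] at h2
  simpa using sub_mem h2 (hπμ.mem_N S _ (cb_le (by norm_num) r) _ hz)

/-- If `s^(r-1) x ∈ N_r` then `s^(r-1) μ x ∈ N_r` for `GD`; in the sequence `1 → r → r-1` we have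
`kerL 0 = cokL 1 ≤ h_1(r-1) = 0`, so `μ x ∈ N_1`, which the functional `w ↦ ∑ res (w a) η a` kills. -/
theorem nv_D (GD : MC O n') (GM : MC O n) {r : ℕ} (hr : 0 < r) (hT : TOK s t c (2 * r - 1))
    (kD : ∀ J ≤ r, GD.Kill s t c J) {μ : Matrix GD.ι GM.ι O} (hμ : IsChain GM GD μ)
    (hD : (GD.lvl S s t c 1).h 1 = 0) {K : Type} [CommRing K] (res : O →+* K) (hs : res s = 0) (ht : res t = 0)
    (η : GD.ι → K) (hη : ∀ b, ∑ a, res (GD.D a b) * η a = 0) (x : GM.ι → O) (hx : ∀ a, GM.deg a ≠ 0 → x a = 0)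
    (h : ∑ a, res ((μ *ᵥ x) a) * η a ≠ 0) :
    ∃ x ∈ (GM.lvl S s t c r).Z 0, s ^ (r - 1) • x ∉ (GM.lvl S s t c r).N := by
  refine ⟨x, cb_Z0 S GM _ _ _ hx, fun hN => h ?_⟩
  obtain ⟨k, rfl⟩ : ∃ k, r = 1 + k := ⟨r - 1, by omega⟩
  rw [Nat.add_sub_cancel_left] at hN
  have ok : ∀ J ≤ 1 + k, (GD.lvl S s t c J).OK := fun J hJ => lvl_ok S GD hT (by omega) (kD J hJ)
  have ses := lvl_ses GD S hT (J := 1) (k := k) (by omega) (ok _ (by omega)) (ok _ le_rfl) (ok _ (by omega))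
  have h1 := (cokL_le (GD.lvl S s t c (1 + k)) _ LinearMap.id (0 + 1)).trans
    (lvl_h_le GD S hT (by omega) ok (0 + 1) (J := k) (by omega))
  rw [ses.cok_succ, zero_add, hD, mul_zero, nonpos_iff_eq_zero] at h1
  have h2 := hμ.mem_N S _ _ _ hN
  rw [mulVec_smul] at h2
  obtain ⟨y, hy⟩ := (GD.mem_N S _ _ _ _).1 ((sql_eq_zero_iff _ _).1 h1
    ⟨hμ.mem_Z S _ _ _ _ (cb_Z0 S GM _ _ _ hx), h2⟩)
  rw [← cb_fun GD res hη _ y]
  refine Finset.sum_eq_zero fun a _ => ?_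
  obtain ⟨p, q, e⟩ := cb_mem.1 (hy a)
  have := hT.cpos
  rw [← e]
  simp [hs, ht, this.ne']

theorem nv_O (GM : MC O n) {r : ℕ} {𝒪 : Type} [CommRing 𝒪] (θ : O →+* 𝒪) (η : GM.ι → 𝒪)
    (hη : ∀ b, ∑ a, θ (GM.D a b) * η a = 0) (x : GM.ι → O) (hx : ∀ a, GM.deg a ≠ 0 → x a = 0)
    (h1 : ∑ a, θ (x a) * η a = 1) (h : θ (s ^ (r - 1)) ∉ (lev s t c 1 r).map θ) :
    ∃ x ∈ (GM.lvl S s t c r).Z 0, s ^ (r - 1) • x ∉ (GM.lvl S s t c r).N := by
  refine ⟨x, cb_Z0 S GM _ _ _ hx, fun hN => h ?_⟩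
  obtain ⟨y, hy⟩ := (GM.mem_N S _ _ _ _).1 hN
  have e := cb_fun GM θ hη (s ^ (r - 1) • x) y
  simp only [Pi.smul_apply, smul_eq_mul, map_mul θ (s ^ (r - 1)), mul_assoc, ← Finset.mul_sum, h1,
    mul_one] at e
  rw [← e]
  exact Ideal.sum_mem _ fun a _ => Ideal.mul_mem_right _ _ (Ideal.mem_map_of_mem _ (hy a))

end Crest.Agent.R188
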