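import Crest.Agent.R183.Defs2

/-!
# rid 188 (Serre's positivity conjecture), file `Defs`: homological definitions (no proofs to fill)

All rings and modules live in `Type`.  We reuse `Crest.Agent.R183` (`idl`, `ism`, `colen`, `Reg`, `Cx`, `Sop`, …).
A complex `P_n → … → P_0` is one module `P` with projections (`R183.Cx`); finite free complexes are square
matrices with a degree function (`MC`).
-/

set_option autoImplicit false

open IsLocalRing Crest.Agent.R183

namespace Crest.Agent.R188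

/-- Length of the subquotient `A / (A ⊓ B)`. -/
noncomputable def sql (S : Type) [CommRing S] {P : Type} [AddCommGroup P] [Module S P]
    (A B : Submodule S P) : ℕ∞ := Module.length S (A ⧸ B.submoduleOf A)

section vcx

/-- A complex with three distinguished submodules (virtual homology). -/
structure VCx (S : Type) [CommRing S] (n : ℕ) (P : Type) [AddCommGroup P] [Module S P] where
  C : Cx S n P
  T1 : Submodule S P
  T2 : Submodule S P
  T3 : Submodule S P

variable {S : Type} [CommRing S] {n : ℕ} {P : Type} [AddCommGroup P] [Module S P]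

/-- An honest complex. -/
def hon (C : Cx S n P) : VCx S n P := ⟨C, ⊥, ⊥, ⊥⟩

/-- Virtual cycles of degree `i`: `p i x = x` and `D x ∈ T3`. -/
def VCx.Z (V : VCx S n P) (i : ℕ) : Submodule S P :=
  LinearMap.eqLocus (V.C.p i) LinearMap.id ⊓ V.T3.comap V.C.D

/-- Virtual boundaries. -/
def VCx.N (V : VCx S n P) : Submodule S P := LinearMap.range V.C.D ⊔ V.T1

/-- Length of the virtual homology in degree `i`. -/
noncomputable def VCx.h (V : VCx S n P) (i : ℕ) : ℕ∞ := sql S (V.Z i) V.N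

/-- Euler characteristic of the virtual homology. -/
noncomputable def VCx.chi (V : VCx S n P) : ℤ :=
  ∑ i ∈ Finset.range (n + 1), (-1 : ℤ) ^ i * ((V.h i).toNat : ℤ)

/-- The axioms that give long exact sequences. -/
structure VCx.OK (V : VCx S n P) : Prop where
  le32 : V.T3 ≤ V.T2
  le21 : V.T2 ≤ V.T1
  D1 : ∀ x ∈ V.T1, V.C.D x ∈ V.T1
  D2 : ∀ x ∈ V.T2, V.C.D x ∈ V.T2
  D3 : ∀ x ∈ V.T3, V.C.D x ∈ V.T3
  p1 : ∀ i, ∀ x ∈ V.T1, V.C.p i x ∈ V.T1
  p2 : ∀ i, ∀ x ∈ V.T2, V.C.p i x ∈ V.T2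
  p3 : ∀ i, ∀ x ∈ V.T3, V.C.p i x ∈ V.T3
  V1 : ∀ x, V.C.D x ∈ V.T2 → ∃ x', x - x' ∈ V.T1 ∧ V.C.D x' ∈ V.T3
  V2 : ∀ x, V.C.D x ∈ V.T3 → x ∈ V.N → x ∈ LinearMap.range V.C.D ⊔ V.T2

variable {P' P'' : Type} [AddCommGroup P'] [Module S P'] [AddCommGroup P''] [Module S P'']

/-- A map of complexes of degree `0`. -/
def IsMap {n' : ℕ} (C' : Cx S n' P') (C : Cx S n P) (f : P' →ₗ[S] P) : Prop :=
  (∀ x, f (C'.D x) = C.D (f x)) ∧ ∀ i x, f (C'.p i x) = C.p i (f x)

/-- A short exact sequence of virtual complexes. -/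
structure VSES (V' : VCx S n P') (V : VCx S n P) (V'' : VCx S n P'') (f : P' →ₗ[S] P) (g : P →ₗ[S] P'') :
    Prop where
  ok' : V'.OK
  ok : V.OK
  ok'' : V''.OK
  mf : IsMap V'.C V.C f
  mg : IsMap V.C V''.C g
  f1 : V.T1.comap f = V'.T1
  f2 : V.T2.comap f = V'.T2
  f3 : V.T3.comap f = V'.T3
  surj : Function.Surjective g
  g1 : V''.T1.comap g = LinearMap.range f ⊔ V.T1
  g2 : V''.T2.comap g = LinearMap.range f ⊔ V.T2
  g3 : V''.T3.comap g = LinearMap.range f ⊔ V.T3

/-- Length of the kernel of `H_i(V') → H_i(V)`. -/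
noncomputable def kerL (V' : VCx S n P') (V : VCx S n P) (f : P' →ₗ[S] P) (i : ℕ) : ℕ∞ :=
  sql S (V'.Z i ⊓ V.N.comap f) V'.N

/-- Length of the cokernel of `H_i(V) → H_i(V'')`. -/
noncomputable def cokL (V : VCx S n P) (V'' : VCx S n P'') (g : P →ₗ[S] P'') (i : ℕ) : ℕ∞ :=
  sql S (V''.Z i) ((V.Z i).map g ⊔ V''.N)

end vcx

section mc

/-- A finite free complex of length `≤ n`, as one square matrix. -/
structure MC (O : Type) [CommRing O] (n : ℕ) where
  ι : Type
  [fin : Fintype ι]
  [dec : DecidableEq ι]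
  deg : ι → ℕ
  deg_le : ∀ a, deg a ≤ n
  D : Matrix ι ι O
  hD : ∀ a b, D a b ≠ 0 → deg b = deg a + 1
  sq : D * D = 0

attribute [instance] MC.fin MC.dec

variable {O O' : Type} [CommRing O] [CommRing O'] {n n' : ℕ}

/-- Base change of a matrix complex. -/
def MC.map (F : MC O n) (f : O →+* O') : MC O' n where
  ι := F.ι
  deg := F.deg
  deg_le := F.deg_le
  D := F.D.map f
  hD a b h := F.hD a b fun h0 => h (by simp [h0])
  sq := by rw [← Matrix.map_mul, F.sq, Matrix.map_zero _ (map_zero f)]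

/-- A matrix over `O` acting on families in an `O`-module `L`, as a map that is linear over `S`. -/
def mact (S : Type) [CommRing S] {ι κ : Type} [Fintype κ] (A : Matrix ι κ O) (L : Type) [AddCommGroup L]
    [Module O L] [Module S L] [SMulCommClass O S L] : (κ → L) →ₗ[S] (ι → L) where
  toFun w a := ∑ b, A a b • w b
  map_add' w w' := by ext a; simp [Finset.sum_add_distrib]
  map_smul' c w := by
    ext a
    simp only [Pi.smul_apply, RingHom.id_apply, Finset.smul_sum]
    exact Finset.sum_congr rfl fun b _ => smul_comm _ _ _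

theorem mact_apply (S : Type) [CommRing S] {ι κ : Type} [Fintype κ] (A : Matrix ι κ O) (L : Type)
    [AddCommGroup L] [Module O L] [Module S L] [SMulCommClass O S L] (w : κ → L) (a : ι) :
    mact S A L w a = ∑ b, A a b • w b := rfl

theorem mact_mul (S : Type) [CommRing S] {ι κ μ : Type} [Fintype κ] [Fintype μ] (A : Matrix ι κ O)
    (B : Matrix κ μ O) (L : Type) [AddCommGroup L] [Module O L] [Module S L] [SMulCommClass O S L]
    (w : μ → L) : mact S (A * B) L w = mact S A L (mact S B L w) := by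
  ext a
  simp only [mact_apply, Matrix.mul_apply, Finset.sum_smul, Finset.smul_sum, mul_smul]
  exact Finset.sum_comm

/-- The projection onto the coordinates of degree `i`. -/
def prj (S : Type) [CommRing S] {ι : Type} (deg : ι → ℕ) (L : Type) [AddCommGroup L] [Module S L] (i : ℕ) :
    Module.End S (ι → L) where
  toFun w a := if deg a = i then w a else 0
  map_add' w w' := by ext a; by_cases h : deg a = i <;> simp [h]
  map_smul' c w := by ext a; by_cases h : deg a = i <;> simp [h]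

theorem prj_apply (S : Type) [CommRing S] {ι : Type} (deg : ι → ℕ) (L : Type) [AddCommGroup L] [Module S L]
    (i : ℕ) (w : ι → L) (a : ι) : prj S deg L i w a = if deg a = i then w a else 0 := rfl

/-- The complex `L ⊗ F`, with scalars `S`. -/
def MC.cx (F : MC O n) (S : Type) [CommRing S] (L : Type) [AddCommGroup L] [Module O L] [Module S L]
    [SMulCommClass O S L] : Cx S n (F.ι → L) where
  p := prj S F.deg L
  D := mact S F.D L
  p_mul i j := by
    refine LinearMap.ext fun w => funext fun a => ?_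
    by_cases h : i = j
    · subst h
      by_cases h' : F.deg a = i <;> simp [prj_apply, h']
    · by_cases h' : F.deg a = i
      · have : ¬ F.deg a = j := fun h'' => h (h'.symm.trans h'')
        simp [prj_apply, h, this]
      · simp [prj_apply, h, h']
  p_sum := by
    refine LinearMap.ext fun w => funext fun a => ?_
    have := F.deg_le a
    simp [LinearMap.sum_apply, Finset.sum_apply, prj_apply, Finset.sum_ite_eq, this]
  D_sq := by
    refine LinearMap.ext fun w => ?_
    rw [Module.End.mul_apply, ← mact_mul, F.sq]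
    ext a
    simp [mact_apply]
  D_p i := by
    refine LinearMap.ext fun w => funext fun a => ?_
    simp only [Module.End.mul_apply, mact_apply, prj_apply]
    split_ifs with h
    · refine Finset.sum_congr rfl fun b _ => ?_
      by_cases h0 : F.D a b = 0
      · simp [h0]
      · rw [if_pos (by rw [F.hD a b h0, h])]
    · refine Finset.sum_eq_zero fun b _ => ?_
      by_cases h0 : F.D a b = 0
      · simp [h0]
      · rw [if_neg (by rw [F.hD a b h0]; omega), smul_zero]
  D_p0 := by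
    refine LinearMap.ext fun w => funext fun a => ?_
    simp only [Module.End.mul_apply, mact_apply, prj_apply, LinearMap.zero_apply, Pi.zero_apply]
    refine Finset.sum_eq_zero fun b _ => ?_
    by_cases h0 : F.D a b = 0
    · simp [h0]
    · rw [if_neg (by rw [F.hD a b h0]; omega), smul_zero]

/-- Length of `H_i(L ⊗ F)`. -/
noncomputable def MC.tl (F : MC O n) (L : Type) [AddCommGroup L] [Module O L] (i : ℕ) : ℕ∞ :=
  (hon (F.cx O L)).h i

/-- Families with all coordinates in the ideal `I`. -/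
def piI (S : Type) [CommRing S] [Algebra S O] (ι : Type) (I : Ideal O) : Submodule S (ι → O) :=
  Submodule.pi Set.univ fun _ => I.restrictScalars S

theorem mem_piI (S : Type) [CommRing S] [Algebra S O] {ι : Type} {I : Ideal O} {w : ι → O} :
    w ∈ piI S ι I ↔ ∀ a, w a ∈ I := by simp [piI, Submodule.mem_pi]

/-- Multiplication by `o` on `ι → O`. -/
def smu (S : Type) [CommRing S] [Algebra S O] (ι : Type) (o : O) : (ι → O) →ₗ[S] (ι → O) :=
  (LinearMap.lsmul O (ι → O) o).restrictScalars S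

theorem smu_apply (S : Type) [CommRing S] [Algebra S O] {ι : Type} (o : O) (w : ι → O) :
    smu S ι o w = o • w := rfl

/-- The virtual complex of `F` for three ideals. -/
def MC.vcx (F : MC O n) (S : Type) [CommRing S] [Algebra S O] (I1 I2 I3 : Ideal O) : VCx S n (F.ι → O) :=
  ⟨F.cx S O, piI S F.ι I1, piI S F.ι I2, piI S F.ι I3⟩

/-- `F` with the augmentation `ε` is a free resolution of `N`. -/
structure MC.Res (F : MC O n) {N : Type} [AddCommGroup N] [Module O N] (ε : (F.ι → O) →ₗ[O] N) : Prop where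
  surj : Function.Surjective ε
  εD : ∀ w, ε (F.D.mulVec w) = 0
  ε0 : ∀ w, (∀ a, F.deg a = 0 → w a = 0) → ε w = 0
  exact : ∀ w, F.D.mulVec w = 0 → ε w = 0 → ∃ v, F.D.mulVec v = w

/-- A chain map of degree `0`. -/
def IsChain (F : MC O n) (G : MC O n') (Φ : Matrix G.ι F.ι O) : Prop :=
  (∀ a b, Φ a b ≠ 0 → G.deg a = F.deg b) ∧ G.D * Φ = Φ * F.D

/-- Homotopic matrices (no condition on the degree of the homotopy). -/
def Htp (F : MC O n) (G : MC O n') (Φ Ψ : Matrix G.ι F.ι O) : Prop :=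
  ∃ σ : Matrix G.ι F.ι O, Φ - Ψ = G.D * σ + σ * F.D

/-- An action up to homotopy of the ring `X` on `G`; the elements `g r` act as the scalars `j r`. -/
structure Act (G : MC O n) {R0 X : Type} [CommRing R0] [CommRing X] (g : R0 →+* X) (j : R0 →+* O) where
  L : X → Matrix G.ι G.ι O
  chain : ∀ y, IsChain G G (L y)
  add : ∀ y y', Htp G G (L (y + y')) (L y + L y')
  mul : ∀ y y', Htp G G (L (y * y')) (L y * L y')
  alg : ∀ r, Htp G G (L (g r)) (j r • (1 : Matrix G.ι G.ι O))

/-- The sign matrix `(-1)^deg`. -/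
def MC.sgn (F : MC O n) : Matrix F.ι F.ι O := Matrix.diagonal fun a => (-1) ^ F.deg a

theorem MC.D_sgn (F : MC O n) : F.D * F.sgn = -(F.sgn * F.D) := by
  ext a b
  simp only [MC.sgn, Matrix.mul_diagonal, Matrix.diagonal_mul, Matrix.neg_apply]
  by_cases h : F.D a b = 0
  · simp [h]
  · rw [F.hD a b h]; ring

open Kronecker in
/-- The tensor product of two matrix complexes: `D = D₁ ⊗ 1 + sgn ⊗ D₂`. -/
def MC.ten (F : MC O n) (G : MC O n') : MC O (n + n') where
  ι := F.ι × G.ι
  deg a := F.deg a.1 + G.deg a.2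
  deg_le a := Nat.add_le_add (F.deg_le _) (G.deg_le _)
  D := F.D ⊗ₖ (1 : Matrix G.ι G.ι O) + F.sgn ⊗ₖ G.D
  hD a b h := by
    obtain ⟨a1, a2⟩ := a
    obtain ⟨b1, b2⟩ := b
    simp only [Matrix.add_apply, Matrix.kroneckerMap_apply, MC.sgn, Matrix.one_apply, Matrix.diagonal_apply] at h
    by_cases h1 : F.D a1 b1 = 0
    · have h2 : a1 = b1 := by
        by_contra h2
        simp [h1, h2] at h
      have h3 : G.D a2 b2 ≠ 0 := fun h3 => by simp [h1, h3] at h
      subst h2
      have := G.hD _ _ h3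
      dsimp only
      omega
    · have h4 := F.hD _ _ h1
      have h2 : a1 ≠ b1 := by
        rintro rfl
        omega
      have h3 : a2 = b2 := by
        by_contra h3
        simp [h2, h3] at h
      subst h3
      dsimp only
      omega
  sq := by
    rw [add_mul, mul_add, mul_add, ← Matrix.mul_kronecker_mul, ← Matrix.mul_kronecker_mul,
      ← Matrix.mul_kronecker_mul, ← Matrix.mul_kronecker_mul, F.sq, G.sq, F.D_sgn]
    ext a b
    simp

end mc

section tor

/-- Length of Mathlib's `Tor_i(M, N)`. -/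
noncomputable def tor (R : Type) [CommRing R] (i : ℕ) (M N : Type) [AddCommGroup M] [Module R M]
    [AddCommGroup N] [Module R N] : ℕ∞ :=
  Module.length R (((CategoryTheory.Tor (ModuleCat.{0} R) i).obj (ModuleCat.of R M)).obj (ModuleCat.of R N))

/-- The intersection multiplicity. -/
noncomputable def chi (R : Type) [CommRing R] (d : ℕ) (M N : Type) [AddCommGroup M] [Module R M]
    [AddCommGroup N] [Module R N] : ℤ :=
  ∑ i ∈ Finset.range (d + 1), (-1 : ℤ) ^ i * ((tor R i M N).toNat : ℤ)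

/-- The maximal ideal is generated by a regular sequence of length `d`. -/
def RegL (R : Type) [CommRing R] [IsLocalRing R] (d : ℕ) : Prop :=
  ∃ x : Fin d → R, Reg x R ∧ idl x = maximalIdeal R

/-- The class of rings for the induction: complete, regular, algebraically closed residue field. -/
structure Cls (R : Type) [CommRing R] [IsLocalRing R] (d : ℕ) : Prop where
  noeth : IsNoetherianRing R
  reg : RegL R d
  cpl : IsAdicComplete (maximalIdeal R) R
  alg : IsAlgClosed (ResidueField R)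

/-- A power of `I` kills `M`. -/
def Kil {R : Type} [CommRing R] (I : Ideal R) (M : Type) [AddCommGroup M] [Module R M] : Prop :=
  ∃ N : ℕ, ∀ y ∈ I ^ N, ∀ w : M, y • w = 0

/-- `I ⊔ J` contains a power of the maximal ideal. -/
def Prim {R : Type} [CommRing R] [IsLocalRing R] (I J : Ideal R) : Prop :=
  ∃ c : ℕ, maximalIdeal R ^ c ≤ I ⊔ J

/-- An integer function on modules, additive on finite modules killed by a power of `I`. -/
structure AddFn (R : Type) [CommRing R] (I : Ideal R) where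
  φ : ∀ (M : Type) [AddCommGroup M] [Module R M], ℤ
  add : ∀ (M' M M'' : Type) [AddCommGroup M'] [Module R M'] [AddCommGroup M] [Module R M]
    [AddCommGroup M''] [Module R M''] [Module.Finite R M] (f : M' →ₗ[R] M) (g : M →ₗ[R] M''), Kil I M →
    Function.Injective f → Function.Surjective g → Function.Exact f g → φ M = φ M' + φ M''

/-- `φ` vanishes on the primes over `I` of dimension `< a`. -/
def AddFn.Low {R : Type} [CommRing R] {I : Ideal R} (φ : AddFn R I) (a : ℕ) : Prop :=
  ∀ P : Ideal R, P.IsPrime → I ≤ P → ringKrullDim (R ⧸ P) < a → φ.φ (R ⧸ P) = 0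

/-- Positivity passes from `M` to `Y`. -/
def ClPos {R : Type} [CommRing R] (I : Ideal R) (a : ℕ) (M Y : Type) [AddCommGroup M] [Module R M]
    [AddCommGroup Y] [Module R Y] : Prop :=
  ∀ φ : AddFn R I, φ.Low a → 0 < φ.φ M → 0 < φ.φ Y

/-- Vanishing passes from `M` to `Y`. -/
def ClVan {R : Type} [CommRing R] (I : Ideal R) (a : ℕ) (M Y : Type) [AddCommGroup M] [Module R M]
    [AddCommGroup Y] [Module R Y] : Prop :=
  ∀ φ : AddFn R I, φ.Low a → φ.φ M = 0 → φ.φ Y = 0

/-- Vanishing for all rings of the class, for primes whose dimensions add up to less than `n`. -/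
def VanLt (d n : ℕ) : Prop :=
  ∀ (R : Type) [CommRing R] [IsLocalRing R], Cls R d → ∀ (P Q : Ideal R) (a b : ℕ), P.IsPrime → Q.IsPrime →
    ringKrullDim (R ⧸ P) ≤ a → ringKrullDim (R ⧸ Q) ≤ b → a + b < n → Prim P Q →
    chi R d (R ⧸ P) (R ⧸ Q) = 0

end tor

section core

variable {O : Type} [CommRing O] {n : ℕ}

/-- The ideal `(t^(j c), s^J)`. -/
def lev (s t : O) (c j J : ℕ) : Ideal O := Ideal.span {t ^ (j * c), s ^ J}

/-- The virtual complex of level `J`. -/
def MC.lvl (G : MC O n) (S : Type) [CommRing S] [Algebra S O] (s t : O) (c J : ℕ) : VCx S n (G.ι → O) :=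
  G.vcx S (lev s t c 1 J) (lev s t c 2 J) (lev s t c 3 J)

/-- Flatness over `k[s]/s^N` and over `k[t]/t^(4c)`. -/
structure TOK (s t : O) (c N : ℕ) : Prop where
  cpos : 0 < c
  P1 : ∀ (j k J : ℕ) (b : O), J + k ≤ N → s ^ k * b ∈ lev s t c j (J + k) → b ∈ lev s t c j J
  P2 : t = 0 ∨ ∀ J ≤ N, ∀ y : O, t ^ (2 * c) * y ∈ lev s t c 4 J → y ∈ lev s t c 2 J

/-- `t^c` kills the homology of `G / (t^(2c), s^J)`. -/
def MC.Kill (G : MC O n) (s t : O) (c J : ℕ) : Prop :=
  ∀ w : G.ι → O, (∀ a, G.D.mulVec w a ∈ lev s t c 2 J) →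
    ∃ v : G.ι → O, ∀ a, t ^ c * w a - G.D.mulVec v a ∈ lev s t c 2 J

/-- `O` behaves like `Λ[s] / s^N`, with `ev` the reduction modulo `s`. -/
structure Thick {Λ : Type} [CommRing Λ] (j : Λ →+* O) (ev : O →+* Λ) (s : O) (N : ℕ) : Prop where
  ev_j : ∀ l, ev (j l) = l
  ker_ev : ∀ b, ev b = 0 ↔ b ∈ Ideal.span {s}
  nil : s ^ N = 0
  P1 : ∀ (l : Λ) (k J : ℕ) (b : O), J + k ≤ N → s ^ k * b ∈ Ideal.span {j l, s ^ (J + k)} →
    b ∈ Ideal.span {j l, s ^ J}
  P2 : ∀ (l l' l'' : Λ), (∀ y, l * y ∈ Ideal.span {l'} → y ∈ Ideal.span {l''}) → ∀ J ≤ N, ∀ y : O,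
    j l * y ∈ Ideal.span {j l', s ^ J} → y ∈ Ideal.span {j l'', s ^ J}

/-- Three ring homomorphisms into `𝒪` that are compatible over `R0`. -/
def Compat {R0 X1 X2 𝒪 : Type} [CommRing R0] [CommRing X1] [CommRing X2] [CommRing 𝒪] (g1 : R0 →+* X1)
    (g2 : R0 →+* X2) (j1 j2 : R0 →+* O) (θ : O →+* 𝒪) (a : X1 →+* 𝒪) (b : X2 →+* 𝒪) : Prop :=
  (∀ r, θ (j1 r) = a (g1 r)) ∧ ∀ r, θ (j2 r) = b (g2 r)

/-- The relation `θ o ∈ (a y1 * b y2, θ I)` holds in every commutative ring with compatible maps. -/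
def URel {R0 X1 X2 : Type} [CommRing R0] [CommRing X1] [CommRing X2] (g1 : R0 →+* X1) (g2 : R0 →+* X2)
    (j1 j2 : R0 →+* O) (o : O) (y1 : X1) (y2 : X2) (I : Ideal O) : Prop :=
  ∀ (𝒪 : Type) [CommRing 𝒪] (θ : O →+* 𝒪) (a : X1 →+* 𝒪) (b : X2 →+* 𝒪), Compat g1 g2 j1 j2 θ a b →
    θ o ∈ Ideal.span {a y1 * b y2} ⊔ I.map θ

end core

section side

/-- One side of the intersection: a finite algebra `M`, approximated by a finite algebra `D`. -/
structure Side (R : Type) [CommRing R] where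
  D : Type
  [cD : CommRing D]
  [aD : Algebra R D]
  [fD : Module.Finite R D]
  M : Type
  [cM : CommRing M]
  [aM : Algebra R M]
  [fM : Module.Finite R M]
  π : D →ₐ[R] M
  α : D

attribute [instance] Side.cD Side.aD Side.fD Side.cM Side.aM Side.fM

variable {R : Type} [CommRing R]

/-- `D / ϖ → M / ϖ` has kernel and cokernel killed by `α`. -/
def Side.Sand (S : Side R) (ϖ : R) : Prop :=
  (∀ y : S.M, ∃ d : S.D, S.π S.α * y - S.π d ∈ Ideal.span {algebraMap R S.M ϖ}) ∧
    ∀ d : S.D, S.π d ∈ Ideal.span {algebraMap R S.M ϖ} → S.α * d ∈ Ideal.span {algebraMap R S.D ϖ}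

/-- Either the sandwich is exact, or it holds modulo an element `ϖ` that is regular everywhere. -/
def Side.Kind (S : Side R) (ϖ : R) : Prop :=
  S.Sand 0 ∨ (S.Sand ϖ ∧ (∀ r : R, ϖ * r = 0 → r = 0) ∧ (∀ d : S.D, ϖ • d = 0 → d = 0) ∧
    ∀ y : S.M, ϖ • y = 0 → y = 0)

/-- `D` has depth `≥ a`. -/
def Side.Depth [IsLocalRing R] (S : Side R) (a : ℕ) : Prop :=
  ∃ z : Fin a → R, (∀ i, z i ∈ maximalIdeal R) ∧ Reg z S.D

end side

section setup

/-- The deformation data: `Λ = R / ϖ`, `O = Λ[s] / s^(2r-1)`, `τ` a deformation of the inclusion `j`. -/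
structure Setup (R : Type) [CommRing R] where
  Λ : Type
  [cΛ : CommRing Λ]
  O : Type
  [cO : CommRing O]
  ρ : R →+* Λ
  j : Λ →+* O
  τ : Λ →+* O
  ev : O →+* Λ
  ϖ : R
  t : R
  s : O
  c : ℕ
  r : ℕ

attribute [instance] Setup.cΛ Setup.cO

variable {R : Type} [CommRing R] (U : Setup R)

/-- The first structure map. -/
def Setup.j1 : R →+* U.O := U.j.comp U.ρ

/-- The second (deformed) structure map. -/
def Setup.j2 : R →+* U.O := U.τ.comp U.ρ

/-- The image of `t`. -/
def Setup.tO : U.O := U.j (U.ρ U.t)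

/-- Lengths are measured through the first structure map. -/
noncomputable instance Setup.alg : Algebra R U.O := U.j1.toAlgebra

/-- The deformed tensor product of two complexes. -/
def Setup.G {n n' : ℕ} (F1 : MC R n) (F2 : MC R n') : MC U.O (n + n') :=
  ((F1.map U.ρ).map U.j).ten ((F2.map U.ρ).map U.τ)

/-- The level `J` virtual complex. -/
noncomputable def Setup.lv {n : ℕ} (G : MC U.O n) (J : ℕ) : VCx R n (G.ι → U.O) := G.lvl R U.s U.tO U.c J

structure Setup.OK [IsLocalRing R] : Prop where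
  surj : Function.Surjective U.ρ
  ker : ∀ x, U.ρ x = 0 ↔ x ∈ Ideal.span {U.ϖ}
  ϖm : U.ϖ ∈ maximalIdeal R
  cpos : 0 < U.c
  rpos : 0 < U.r
  thick : Thick U.j U.ev U.s (2 * U.r - 1)
  evτ : ∀ l, U.ev (U.τ l) = l
  cases : (U.ϖ = 0 ∧ U.t = 0) ∨ (U.ϖ ≠ 0 ∧ U.t ∈ maximalIdeal R ∧ U.ϖ ∈ Ideal.span {U.t ^ (4 * U.c)})

/-- The shallow relation `t^c0 ∈ (s)`. -/
def Setup.RelS (X1 X2 : Type) [CommRing X1] [Algebra R X1] [CommRing X2] [Algebra R X2] (c0 : ℕ) : Prop :=
  URel (algebraMap R X1) (algebraMap R X2) U.j1 U.j2 (U.tO ^ c0) 0 0 (Ideal.span {U.s})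

/-- The relation `s^(r-1) ∈ (γ1 γ2, t^c, s^r)`. -/
def Setup.RelC {X1 X2 : Type} [CommRing X1] [Algebra R X1] [CommRing X2] [Algebra R X2] (γ1 : X1) (γ2 : X2) :
    Prop :=
  URel (algebraMap R X1) (algebraMap R X2) U.j1 U.j2 (U.s ^ (U.r - 1)) γ1 γ2 (lev U.s U.tO U.c 1 U.r)

end setup

end Crest.Agent.R188
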