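import Crest.Agent.R188.Defs
import Crest.Agent.R183.MxA

/-!
# rid 188, file `Defs2`: models, valuative covers, the mixed characteristic set-up (no proofs to fill)
-/

set_option autoImplicit false

open IsLocalRing Crest.Agent.R183

namespace Crest.Agent.R188

/-- The colon ideal `(𝔟 : h)`. -/
def col {A : Type} [CommRing A] (𝔟 : Ideal A) (h : A) : Ideal A := Submodule.comap (LinearMap.mulLeft A h) 𝔟

theorem mem_col {A : Type} [CommRing A] {𝔟 : Ideal A} {h y : A} : y ∈ col 𝔟 h ↔ h * y ∈ 𝔟 := Iff.rfl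

/-- Positivity for all rings of the class, for primes of complementary dimension. -/
def PosAll (d : ℕ) : Prop :=
  ∀ (R : Type) [CommRing R] [IsLocalRing R], Cls R d → ∀ (P Q : Ideal R) (a b : ℕ), P.IsPrime → Q.IsPrime →
    ringKrullDim (R ⧸ P) = a → ringKrullDim (R ⧸ Q) = b → a + b = d → Prim P Q →
    0 < chi R d (R ⧸ P) (R ⧸ Q)

section mdl

/-- A model: a `k`-algebra with coordinates `x` and a distinguished element `U` (the tilt of `p`). -/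
structure Mdl (k : Type) [Field k] (d : ℕ) where
  E : Type
  [cE : CommRing E]
  [aE : Algebra k E]
  x : Fin d → E
  U : E

attribute [instance] Mdl.cE Mdl.aE

variable {k : Type} [Field k] {d : ℕ}

/-- Polynomial data: each coordinate gets an (almost monic) polynomial over `n` base variables. -/
structure PD (m : Mdl k d) (n : ℕ) where
  b : Fin n → m.E
  hb : ∀ j, b j ∈ idl m.x ⊔ Ideal.span {m.U}
  N : ℕ
  pos : 0 < N
  G : Fin d → Polynomial (MvPolynomial (Fin n) k)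
  deg : ∀ i, (G i).natDegree ≤ N
  lead : ∀ i, MvPolynomial.constantCoeff ((G i).coeff N) = 1

/-- The value `G_i(b; x_i)`. -/
noncomputable def PD.val {m : Mdl k d} {n : ℕ} (pd : PD m n) (i : Fin d) : m.E :=
  Polynomial.eval₂ (MvPolynomial.aeval pd.b : MvPolynomial (Fin n) k →ₐ[k] m.E).toRingHom (m.x i) (pd.G i)

/-- Every valuative point at which `U^L`, `σ1`, `σ2` are small is close to one of finitely many fixed varieties
of dimension `n`. -/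
def Cov (m : Mdl k d) (n L : ℕ) (σ1 σ2 : m.E) : Prop :=
  ∀ C : ℕ, 0 < C → ∃ (l : List (PD m n)) (κ : ℕ), ∀ (K : Type) [Field K] (V : ValuationSubring K)
    (f : m.E →+* K) (s0 : K), (∀ y, f y ∈ V) → s0 ≠ 0 → V.valuation s0 < 1 →
    (∀ i, V.valuation (f (m.x i)) ^ C ≤ V.valuation s0) → V.valuation (f m.U) ^ C ≤ V.valuation s0 →
    V.valuation (f m.U) ^ L < V.valuation s0 → V.valuation (f σ1) < V.valuation s0 ^ κ →
    V.valuation (f σ2) < V.valuation s0 ^ κ →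
    ∃ pd ∈ l, ∀ i, V.valuation (f (pd.val i)) < V.valuation s0 ^ pd.N

/-- Approximate equations with precision `U^(L N)`, after multiplication by `U^c`. -/
def AppW (m : Mdl k d) (n L c : ℕ) (σ1 σ2 : m.E) : Prop :=
  ∃ N : ℕ, ∀ K : ℕ, ∃ pd : PD m n, pd.N = N ∧ ∀ i,
    m.U ^ c * pd.val i ∈ Ideal.span {m.U ^ (c + L * N), σ1, σ2} ⊔ idl pd.b ^ K

/-- Approximate equations modulo `U`. -/
def AppU (m : Mdl k d) (n : ℕ) (σ1 σ2 : m.E) : Prop :=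
  ∃ N : ℕ, ∀ K : ℕ, ∃ pd : PD m n, pd.N = N ∧ ∀ i, pd.val i ∈ Ideal.span {m.U, σ1, σ2} ⊔ idl pd.b ^ K

/-- The first shallow relation. -/
def Sh1 (m1 m2 : Mdl k d) : Prop :=
  ∃ N : ℕ, 0 < N ∧ ∀ (O : Type) [CommRing O] [Algebra k O] (a : m1.E →ₐ[k] O) (b : m2.E →ₐ[k] O) (i : Fin d),
    a (m1.x i) ^ N ∈ Ideal.span {a m1.U, b m2.U} ⊔ idl (fun i => a (m1.x i) - b (m2.x i)) ⊔
      (idl (fun i => a (m1.x i)) ⊔ idl fun i => b (m2.x i)) ^ (N + 1)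

/-- The generators of the small ideal. -/
def gens {m1 m2 : Mdl k d} {O : Type} [CommRing O] [Algebra k O] (a : m1.E →ₐ[k] O) (b : m2.E →ₐ[k] O)
    (v : Fin d → k) (i0 : Fin d) (L κ : ℕ) (T1 T1' : m1.E) (T2 T2' : m2.E) : Fin (d + 5) → O :=
  Fin.append
    (fun i => (a (m1.x i) - b (m2.x i) - algebraMap k O (v i) * (a (m1.x i0) - b (m2.x i0))) ^ κ)
    ![a m1.U ^ (L * κ), b m2.U ^ (L * κ), a T1 * b T2, a T1', b T2']

/-- `s0^κ` is integral over the small ideal, uniformly. -/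
def VAt (m1 m2 : Mdl k d) (L : ℕ) (T1 T1' : m1.E) (T2 T2' : m2.E) (v : Fin d → k) (i0 : Fin d) (κ M : ℕ) : Prop :=
  ∀ (O : Type) [CommRing O] [Algebra k O] (a : m1.E →ₐ[k] O) (b : m2.E →ₐ[k] O),
    (∀ i, IsNilpotent (a (m1.x i))) → (∀ i, IsNilpotent (b (m2.x i))) → ∀ n : ℕ,
      ((a (m1.x i0) - b (m2.x i0)) ^ κ) ^ (n + M) ∈ idl (gens a b v i0 L κ T1 T1' T2 T2') ^ (n + 1)

/-- The output of the valuative argument. -/
def VOut (m1 m2 : Mdl k d) (L : ℕ) (T1 T1' : m1.E) (T2 T2' : m2.E) : Prop :=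
  ∃ (v : Fin d → k) (i0 : Fin d), v i0 = 1 ∧ ∃ κ0 : ℕ, ∀ κ ≥ κ0, ∃ M : ℕ, VAt m1 m2 L T1 T1' T2 T2' v i0 κ M

end mdl

section mix

/-- The unramified ring `W(k)⟦x⟧`. -/
abbrev AW (p : ℕ) [Fact p.Prime] (k : Type) [CommRing k] (d : ℕ) : Type := MvPowerSeries (Fin d) (WittVector p k)

/-- A presentation `R = W(k)⟦x⟧ / (p - f0)` in mixed characteristic, with the Frobenius lift. -/
structure Mix (p : ℕ) [Fact p.Prime] (k : Type) [Field k] [CharP k p] [IsAlgClosed k] (d : ℕ) where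
  Δ : DeltaS (AW p k d) p
  hb : MBase p (AW p k d) MvPowerSeries.X Δ
  hC : ∀ w, Δ.φ (MvPowerSeries.C w) = MvPowerSeries.C (WittVector.frobenius w)
  f0 : AW p k d
  f0_mem : f0 ∈ idl (MvPowerSeries.X : Fin d → AW p k d)
  f0_ne : f0 ∉ Ideal.span {(p : AW p k d)}

variable {p : ℕ} [Fact p.Prime] {k : Type} [Field k] [CharP k p] [IsAlgClosed k] {d : ℕ} (μ : Mix p k d)

/-- `p - φ^j f0`. -/
noncomputable def Mix.ξ (j : ℕ) : AW p k d := p - (μ.Δ.φ ^ j) μ.f0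

/-- The ring of level `j`. -/
abbrev Mix.R (j : ℕ) : Type := AW p k d ⧸ Ideal.span {μ.ξ j}

/-- The projection. -/
noncomputable abbrev Mix.pr (j : ℕ) : AW p k d →+* μ.R j := Ideal.Quotient.mk _

/-- `pr ∘ φ^j`. -/
noncomputable def Mix.ψ (j : ℕ) : AW p k d →+* μ.R j := (μ.pr j).comp (μ.Δ.φ ^ j)

include μ in
theorem Mix.p_mem : (p : AW p k d) ∈ maximalIdeal (AW p k d) := by
  rw [← μ.hb.max]
  exact Ideal.subset_span ⟨0, rfl⟩

include μ in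
theorem Mix.idl_le : idl (MvPowerSeries.X : Fin d → AW p k d) ≤ maximalIdeal (AW p k d) := by
  rw [← μ.hb.max, idl, Ideal.span_le]
  rintro _ ⟨i, rfl⟩
  exact Ideal.subset_span ⟨i.succ, rfl⟩

theorem Mix.ξ_mem (j : ℕ) : μ.ξ j ∈ maximalIdeal (AW p k d) := by
  have := μ.hb.φ_pow_local j
  exact sub_mem μ.p_mem (map_nonunit _ _ (μ.idl_le μ.f0_mem))

instance Mix.isLocalRing (j : ℕ) : IsLocalRing (μ.R j) := by
  have : Nontrivial (μ.R j) := Ideal.Quotient.nontrivial_iff.2 fun h =>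
    (maximalIdeal.isMaximal (AW p k d)).ne_top
      (top_le_iff.1 (h ▸ (Ideal.span_singleton_le_iff_mem _).2 (μ.ξ_mem j)))
  exact IsLocalRing.of_surjective' (μ.pr j) Ideal.Quotient.mk_surjective

/-- A model over `W(k)⟦x⟧`; the elements of `𝔫` are topologically nilpotent. -/
structure AMdl (p : ℕ) [Fact p.Prime] (k : Type) [Field k] (d : ℕ) where
  m : Mdl k d
  a0 : AW p k d →+* m.E
  hX : ∀ i, a0 (MvPowerSeries.X i) = m.x i
  hC : ∀ w, a0 (MvPowerSeries.C w) = algebraMap k m.E (w.coeff 0)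
  𝔫 : Ideal m.E

/-- The second shallow relation. -/
def Mix.Sh2 (md1 md2 : AMdl p k d) (c0 : ℕ) : Prop :=
  ∀ (O : Type) [CommRing O] (a : md1.m.E →+* O) (b : md2.m.E →+* O), (∀ g, a (md1.a0 g) = b (md2.a0 g)) →
    (∀ y ∈ md1.𝔫, IsNilpotent (a y)) → (∀ y ∈ md2.𝔫, IsNilpotent (b y)) → a (md1.a0 μ.f0) ^ c0 = 0

/-- The side `S` over the level `n'` ring realises the model through the `p^m`-th power map. -/
def Mix.Real (md : AMdl p k d) (T T' : md.m.E) (n' m k0 : ℕ) (S : Side (μ.R n')) : Prop :=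
  ∀ (𝒪 : Type) [CommRing 𝒪] (a : S.D →+* 𝒪), (p : 𝒪) = 0 → ∃ ε : md.m.E →+* 𝒪,
    (∀ g, ε (md.a0 g) ^ p ^ m = a (algebraMap _ S.D (μ.pr n' g))) ∧
    (∀ y ∈ md.𝔫, ε y ∈ ((maximalIdeal (μ.R n')).map (a.comp (algebraMap _ S.D))).radical) ∧
    ∀ a' : S.M →+* 𝒪, (∀ y, a' (S.π y) = a y) →
      ε md.m.U ^ p ^ m ∈ Ideal.span {a (algebraMap _ S.D (μ.pr n' μ.f0))} ∧
      ε T ^ p ^ (m - k0) ∈ Ideal.span {a (S.α ^ 2)} ∧ ε T' ^ p ^ (m - k0) = 0

/-- Properties of a side that are used for vanishing and for positivity. -/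
structure Mix.Good (md : AMdl p k d) (T T' : md.m.E) (𝔣 𝔞 : Ideal (AW p k d)) (n' m k0 : ℕ)
    (S : Side (μ.R n')) : Prop where
  real : μ.Real md T T' n' m k0 S
  kerD : ∀ g ∈ 𝔣, algebraMap _ S.D (μ.ψ n' g) = 0
  kil : Kil (𝔞.map (μ.ψ n')) S.M

/-- Properties of a side that are used for positivity. -/
structure Mix.GoodPos (𝔞 𝔮 : Ideal (AW p k d)) (a n' : ℕ) (S : Side (μ.R n')) : Prop where
  kind : S.Kind (p : μ.R n')
  depth : S.Depth a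
  nz : S.α ^ 2 ∉ (maximalIdeal (μ.R n')).map (algebraMap _ S.D)
  cl : ClPos (𝔞.map (μ.ψ n')) a S.M (μ.R n' ⧸ 𝔮.map (μ.ψ n'))

/-- Everything about one side, for positivity. -/
structure Mix.UPos (md : AMdl p k d) (T T' : md.m.E) (𝔣 𝔞 𝔮 : Ideal (AW p k d)) (a L : ℕ) : Prop where
  hf : ∀ g ∈ 𝔣, md.a0 g ∈ Ideal.span {md.m.U}
  full : Cov md.m a L T' T'
  cut : Cov md.m (a - 1) L T T'
  fam : ∃ n0 : ℕ, ∀ n' ≥ n0, ∀ k0 : ℕ, ∃ m0 : ℕ, ∀ m ≥ m0, ∃ S : Side (μ.R n'),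
    μ.Good md T T' 𝔣 𝔞 n' m k0 S ∧ μ.GoodPos 𝔞 𝔮 a n' S

/-- Everything about one side, for vanishing. -/
structure Mix.UVan (md : AMdl p k d) (T' : md.m.E) (𝔣 𝔞 𝔮 : Ideal (AW p k d)) (a L : ℕ) : Prop where
  hf : ∀ g ∈ 𝔣, md.a0 g ∈ Ideal.span {md.m.U}
  full : Cov md.m a L T' T'
  fam : ∀ n' k0 : ℕ, ∃ m0 : ℕ, ∀ m ≥ m0, ∃ S : Side (μ.R n'),
    μ.Good md 0 T' 𝔣 𝔞 n' m k0 S ∧ ClVan (𝔞.map (μ.ψ n')) a S.M (μ.R n' ⧸ 𝔮.map (μ.ψ n'))

/-- The ideals attached to a prime `P` of dimension `≤ a`. -/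
structure Near {A : Type} [CommRing A] (P 𝔞 𝔮 : Ideal A) (a : ℕ) : Prop where
  prime : P.IsPrime
  le : 𝔞 ≤ P
  dim : ringKrullDim (A ⧸ 𝔞) ≤ a
  qle : 𝔮 ≤ P
  pow : ∃ N : ℕ, P ^ N ≤ 𝔮

end mix

end Crest.Agent.R188
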