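import Crest.Agent.R188.EnvT

/-!
# rid 188, file `EnvS`: the rings `D e` are finite over the base and complete intersections (port of `R183/MxS`, `MxB`)
-/

set_option autoImplicit false
set_option linter.unusedSectionVars false

open IsLocalRing MvPolynomial Crest.Agent.R183

namespace Crest.Agent.R188

namespace Env

variable {p : ℕ} [Fact p.Prime] {A : Type} [CommRing A] [IsLocalRing A] {d : ℕ} {X' : Fin d → A}
  (m : Env p A X') {Δ : DeltaS A p}

theorem es_ξ_mem (K : Ideal m.𝒜) (hp : (p : m.𝒜) ∈ K) (hu : m.u ∈ K) (i : ℕ) : m.ξ i ∈ K :=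
  K.sub_mem hp (K.pow_mem_of_mem hu _ (pow_pos (Fact.out : p.Prime).pos i))

omit [Fact p.Prime] in
theorem es_C_mem_of (h : MBase p A X' Δ) {B : Type} [CommRing B] (f : A →+* B) (K : Ideal B) (hp : (p : B) ∈ K)
    (hX : ∀ i, f (X' i) ∈ K) {a : A} (ha : a ∈ maximalIdeal A) : f a ∈ K := by
  rw [← h.max] at ha
  refine (ln_idl_le fun i => ?_ : _ ≤ K.comap f) ha
  refine Fin.cases ?_ (fun i => ?_) i
  · rw [Fin.cons_zero, Ideal.mem_comap, map_natCast]
    exact hp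
  · exact hX i

/-- A radical ideal containing `u` and `X'` contains the maximal ideal. -/
theorem es_max_le (h : MBase p A X' Δ) (e : ℕ) [IsLocalRing (m.D Δ e)] (K : Ideal (m.D Δ e)) (hK : K.IsRadical)
    (hu : m.π Δ e m.u ∈ K) (hX : ∀ i, m.π Δ e (C (X' i)) ∈ K) : maximalIdeal (m.D Δ e) ≤ K := by
  have hp : (p : m.D Δ e) ∈ K := by
    rw [m.p_eq Δ e]
    exact K.pow_mem_of_mem hu _ (pow_pos (Fact.out : p.Prime).pos e)
  let K1 : Ideal m.𝒜 := K.comap (m.π Δ e)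
  have hK1 : K1.IsRadical := hK.comap _
  have hp1 : (p : m.𝒜) ∈ K1 := by
    rw [Ideal.mem_comap, map_natCast]
    exact hp
  have hξ := m.es_ξ_mem K1 hp1 hu
  have hr : ∀ l i, i ≤ e → m.r Δ l i ∈ K1 := fun l i hi => by
    rw [Ideal.mem_comap, m.π_r Δ hi]
    exact K.zero_mem
  have hC : ∀ a ∈ maximalIdeal A, (C a : m.𝒜) ∈ K1 := fun a ha => es_C_mem_of h C K1 hp1 hX ha
  have hCX : ∀ a ∈ idl X', (C a : m.𝒜) ∈ K1 := fun a ha =>
    (ln_idl_le (I := K1.comap (C : A →+* m.𝒜)) hX) ha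
  have h1 : ∀ v : m.V, (X (.inl v) : m.𝒜) ∈ K1 := fun v => by
    have h2 := K1.sub_mem (K1.mul_mem_right (m.y (.inr v) 0) (hξ 0)) (hr (.inr v) 0 (Nat.zero_le e))
    rw [r, sub_sub_cancel, F0, map_sub, rename_X, rename_C] at h2
    have h3 := K1.add_mem h2 (hCX _ (m.g_mem v))
    rwa [sub_add_cancel] at h3
  have hvar : ∀ i, ∀ s, eLev s ≤ i → (X s : m.𝒜) ∈ K1 := by
    intro i
    induction i with
    | zero =>
      rintro (v | ⟨l, j⟩) hs
      · exact h1 v
      · exact absurd hs (Nat.not_succ_le_zero j)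
    | succ i ih =>
      intro s hs
      rcases Nat.lt_or_eq_of_le hs with hs | hs
      · exact ih s (Nat.le_of_lt_succ hs)
      · obtain (v | ⟨l, j⟩) := s
        · exact ih _ (Nat.zero_le i)
        · obtain rfl : j = i := Nat.succ_injective hs
          by_cases hj : e ≤ j
          · rw [Ideal.mem_comap]
            exact (m.π_y Δ hj l).symm ▸ K.zero_mem
          · obtain ⟨a, ha, ham, b, -, c, -, habc⟩ := m.r_mod Δ h l j
            have ha1 : a ∈ K1 := by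
              have h2 := K1.add_mem (mxs_sub_C K1 ih ha) (hC _ ham)
              rwa [sub_add_cancel] at h2
            refine hK1 ⟨p, ?_⟩
            have h3 : m.y l j ^ p = m.r Δ l (j + 1) - m.ξ (j + 1) * m.y l (j + 1) - a - p * b - m.u * c := by
              rw [habc]
              ring
            change m.y l j ^ p ∈ K1
            rw [h3]
            exact K1.sub_mem (K1.sub_mem (K1.sub_mem (K1.sub_mem (hr l _ (not_le.1 hj))
              (K1.mul_mem_right _ (hξ _))) ha1) (K1.mul_mem_right _ hp1)) (K1.mul_mem_right _ hu)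
  rw [m.maximalIdeal_eq h e, Ideal.span_le]
  rintro v ((rfl | ⟨i, rfl⟩) | ⟨s, hs, rfl⟩)
  · exact hp
  · exact hX i
  · exact hvar e s hs

theorem es_pow_le (h : MBase p A X' Δ) (e : ℕ) [IsLocalRing (m.D Δ e)] (I : Ideal (m.D Δ e))
    (hu : m.π Δ e m.u ∈ I.radical) (hX : ∀ i, m.π Δ e (C (X' i)) ∈ I.radical) :
    ∃ c : ℕ, maximalIdeal (m.D Δ e) ^ c ≤ I := by
  have := m.isNoetherianRing h e
  exact Ideal.exists_pow_le_of_le_radical_of_fg (m.es_max_le h e _ I.radical_isRadical hu hX)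
    (maximalIdeal _).fg_of_isNoetherianRing

omit [Fact p.Prime] in
theorem es_X'_mem (h : MBase p A X' Δ) (i : Fin d) : X' i ∈ maximalIdeal A :=
  h.max ▸ ln_mem_idl (Fin.cons (p : A) X' : Fin (d + 1) → A) i.succ

theorem es_πX_mem (h : MBase p A X' Δ) (e : ℕ) [IsLocalRing (m.D Δ e)] (s : EV m.V m.L) :
    m.π Δ e (X s) ∈ maximalIdeal (m.D Δ e) := by
  rw [m.π_mem_iff h e, mxM, Ideal.mem_comap, constantCoeff_X]
  exact Ideal.zero_mem _

theorem es_πC_mem (h : MBase p A X' Δ) (e : ℕ) [IsLocalRing (m.D Δ e)] (a : A) :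
    m.π Δ e (C a) ∈ maximalIdeal (m.D Δ e) ↔ a ∈ maximalIdeal A := by
  rw [m.π_mem_iff h e, mxM, Ideal.mem_comap, constantCoeff_C]

/-- The relations are indexed by the variables and `c + 1` more indices. -/
def relEquiv (e : ℕ) : MxVe m.L e ≃ Option (Fin m.c) ⊕ EVe m.V m.L e where
  toFun s := match s with
    | ⟨.inl none, _⟩ => .inl none
    | ⟨.inl (some (.inl l)), _⟩ => .inl (some l)
    | ⟨.inl (some (.inr v)), _⟩ => .inr ⟨.inl v, Nat.zero_le e⟩
    | ⟨.inr li, h⟩ => .inr ⟨.inr li, h⟩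
  invFun s := match s with
    | .inl none => ⟨.inl none, Nat.zero_le e⟩
    | .inl (some l) => ⟨.inl (some (.inl l)), Nat.zero_le e⟩
    | .inr ⟨.inl v, _⟩ => ⟨.inl (some (.inr v)), Nat.zero_le e⟩
    | .inr ⟨.inr li, h⟩ => ⟨.inr li, h⟩
  left_inv := by rintro ⟨(_ | l | v) | li, h⟩ <;> rfl
  right_inv := by rintro ((_ | l) | ⟨v | li, h⟩) <;> rfl

/-- `D e` is a complete intersection of dimension `≥ d - c`. -/
theorem es_reg (h : MBase p A X' Δ) (e : ℕ) [IsLocalRing (m.D Δ e)] {a : ℕ} (ha : a + m.c = d)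
    {z : Fin a → m.D Δ e} (hz : Sop z) : Reg z (m.D Δ e) := by
  have := h.rb.noeth
  obtain ⟨b, ⟨ε⟩⟩ := Finite.exists_equiv_fin (EVe m.V m.L e)
  let ε' : MxVe m.L e ≃ Fin (m.c + 1 + b) :=
    (m.relEquiv e).trans ((Equiv.sumCongr finSuccEquivLast.symm ε).trans finSumFinEquiv)
  have hP : IsNoetherianRing (m.S e) :=
    IsLocalization.isNoetherianRing (mxM A (EVe m.V m.L e)).primeCompl _ inferInstance
  have hflat : Module.Flat (MvPolynomial (EVe m.V m.L e) A) (m.S e) :=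
    IsLocalization.flat _ (mxM A (EVe m.V m.L e)).primeCompl
  have h1 := (h.rb.reg.append_X ε.symm).of_flat (Λ' := m.S e)
  have hJ : idl (fun j : Fin (m.c + 1 + b) => m.πS e (m.rel Δ e (ε'.symm j))) = m.J Δ e := by
    rw [idl, J, ← ε'.symm.surjective.range_comp]
    rfl
  have hl : IsLocalRing (m.S e ⧸ m.J Δ e) := ‹IsLocalRing (m.D Δ e)›
  refine mxs_reg_ci (Reg.cast (show a + (m.c + 1 + b) = d + 1 + b by omega) h1) (fun i => ?_) hJ (z := z) hz
  rw [IsLocalization.AtPrime.to_map_mem_maximal_iff (m.S e) (mxM A (EVe m.V m.L e)), mxM, Ideal.mem_comap]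
  generalize Fin.cast _ i = i
  refine Fin.addCases (fun i => ?_) (fun i => ?_) i
  · rw [Fin.append_left, constantCoeff_C, ← h.max]
    exact ln_mem_idl _ i
  · rw [Fin.append_right, constantCoeff_X]
    exact Ideal.zero_mem _

theorem es_C_local (h : MBase p A X' Δ) (e : ℕ) : IsLocalHom ((m.π Δ e).comp (C : A →+* m.𝒜)) := by
  have := m.isLocalRing h e
  refine ⟨fun a ha => ?_⟩
  by_contra hn
  exact (mem_maximalIdeal _).1 ((m.es_πC_mem h e a).2 ((mem_maximalIdeal a).2 hn)) ha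

/-- `finite_of_complete`. -/
theorem finite_C (h : MBase p A X' Δ) (e : ℕ) : ((m.π Δ e).comp (C : A →+* m.𝒜)).Finite := by
  have := m.isLocalRing h e
  have := m.isNoetherianRing h e
  have := h.cpl
  have := m.es_C_local h e
  obtain ⟨c, hc⟩ := m.es_pow_le h e ((maximalIdeal A).map ((m.π Δ e).comp (C : A →+* m.𝒜)))
    ⟨p ^ e, by
      rw [← m.p_eq Δ e, ← map_natCast ((m.π Δ e).comp (C : A →+* m.𝒜))]
      exact Ideal.mem_map_of_mem _ (h.max ▸ ln_mem_idl (Fin.cons (p : A) X' : Fin (d + 1) → A) 0)⟩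
    fun i => Ideal.le_radical (Ideal.mem_map_of_mem ((m.π Δ e).comp (C : A →+* m.𝒜)) (es_X'_mem h i))
  exact finite_of_complete _ (m.sameRes_C h e) hc

/-- `D e` is integral over the image of the polynomial ring, so units of `D e` in the image have their inverses in
the image. -/
theorem π_surj (h : MBase p A X' Δ) (e : ℕ) (b : m.D Δ e) : ∃ a ∈ eSub A m.V m.L e, m.π Δ e a = b := by
  let B : Subring (m.D Δ e) := (eSub A m.V m.L e).toSubring.map (m.π Δ e)
  let f : A →+* B := ((m.π Δ e).comp (C : A →+* m.𝒜)).codRestrict B fun a => ⟨C a, m.er_C_mem e a, rfl⟩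
  have hint : B.subtype.IsIntegral := RingHom.IsIntegral.tower_top f B.subtype (m.finite_C h e).to_isIntegral
  have hloc := hint.isLocalHom B.subtype_injective
  obtain ⟨a, ha, s, hs, hsm, hb⟩ := m.π_frac Δ e b
  obtain ⟨v, hv⟩ := (hloc.1 ⟨m.π Δ e s, s, hs, rfl⟩ (m.π_isUnit Δ e hsm)).exists_right_inv
  obtain ⟨v, t, ht, rfl⟩ := v
  refine ⟨a * t, (eSub A m.V m.L e).mul_mem ha ht, ?_⟩
  have h1 : m.π Δ e s * m.π Δ e t = 1 := congrArg Subtype.val hv
  rw [map_mul, ← hb, mul_assoc, h1, mul_one]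

/-- The map from level `0`. -/
noncomputable def eb_ψ (Δ : DeltaS A p) (e : ℕ) : MvPolynomial (m.V) A →+* m.D Δ e :=
  (m.π Δ e).comp (rename (R := A) (Sum.inl : m.V → EV m.V m.L)).toRingHom

theorem eb_ψ_X (e : ℕ) (v : m.V) : m.eb_ψ Δ e (X v) = m.π Δ e (X (.inl v)) := by simp [eb_ψ]

theorem eb_ψ_C (e : ℕ) (a : A) : m.eb_ψ Δ e (C a) = m.π Δ e (C a) := by simp [eb_ψ]

theorem eb_inv_mem (h : MBase p A X' Δ) (e : ℕ) {t : m.D Δ e} (ht : t ∈ (m.eb_ψ Δ e).range)
    (hu : IsUnit t) : ∃ w ∈ (m.eb_ψ Δ e).range, w * t = 1 := by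
  have h1 : ((m.eb_ψ Δ e).range.subtype.comp
      ((m.eb_ψ Δ e).rangeRestrict.comp (C : A →+* MvPolynomial (m.V) A))).IsIntegral := by
    have : (m.eb_ψ Δ e).range.subtype.comp
      ((m.eb_ψ Δ e).rangeRestrict.comp (C : A →+* MvPolynomial (m.V) A)) =
        (m.π Δ e).comp (C : A →+* m.𝒜) := RingHom.ext fun a => m.eb_ψ_C e a
    rw [this]
    exact (m.finite_C h e).to_isIntegral
  have h2 := (RingHom.IsIntegral.tower_top _ _ h1).isLocalHom Subtype.val_injective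
  obtain ⟨w, hw⟩ := (h2.map_nonunit ⟨t, ht⟩ hu).exists_left_inv
  exact ⟨w, w.2, congrArg Subtype.val hw⟩

theorem eb_ξ_dvd (h : MBase p A X' Δ) {e i : ℕ} (hi : i < e) :
    ∃ w ∈ (m.eb_ψ Δ e).range, w * m.π Δ e (m.ξ i) = p := by
  have hp : 1 < p := (Fact.out : p.Prime).one_lt
  have hlt : p ^ i < p ^ e := Nat.pow_lt_pow_right hp hi
  have hu : m.π Δ e m.u ∈ (m.eb_ψ Δ e).range := ⟨X (m.u0), m.eb_ψ_X e _⟩
  have hunit : IsUnit (m.π Δ e (m.u ^ (p ^ e - p ^ i) - 1)) := by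
    apply m.π_isUnit Δ e
    intro hmem
    have h0 : p ^ e - p ^ i ≠ 0 := by omega
    simp only [mxM, Ideal.mem_comap, map_sub, map_pow, u, constantCoeff_X, zero_pow h0, map_one, zero_sub,
      neg_mem_iff] at hmem
    exact (maximalIdeal.isMaximal A).ne_top ((Ideal.eq_top_iff_one _).2 hmem)
  rw [map_sub, map_pow, map_one] at hunit
  obtain ⟨w, hw, hw1⟩ := m.eb_inv_mem h e (sub_mem (pow_mem hu _) (one_mem _)) hunit
  refine ⟨w * m.π Δ e m.u ^ (p ^ e - p ^ i), mul_mem hw (pow_mem hu _), ?_⟩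
  have e1 : m.π Δ e m.u ^ p ^ e = m.π Δ e m.u ^ (p ^ e - p ^ i) * m.π Δ e m.u ^ p ^ i := by
    rw [← pow_add, Nat.sub_add_cancel hlt.le]
  rw [ξ, map_sub, map_pow, map_natCast, m.p_eq Δ e, e1]
  linear_combination (m.π Δ e m.u ^ (p ^ e - p ^ i) * m.π Δ e m.u ^ p ^ i) * hw1

theorem eb_lev (h : MBase p A X' Δ) (e i : ℕ) : i ≤ e → ∀ a ∈ eSub A m.V m.L i,
    ∃ c : ℕ, (p : m.D Δ e) ^ c * m.π Δ e a ∈ (m.eb_ψ Δ e).range := by
  induction i using Nat.strong_induction_on with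
  | _ i ih =>
    intro hi a ha
    have hp : (p : m.D Δ e) ∈ (m.eb_ψ Δ e).range := natCast_mem _ _
    rw [eSub, supported_eq_adjoin_X] at ha
    induction ha using Algebra.adjoin_induction with
    | mem x hx =>
      obtain ⟨s, hs, rfl⟩ := hx
      rcases s with v | ⟨l, j⟩
      · exact ⟨0, by rw [pow_zero, one_mul]; exact ⟨X v, m.eb_ψ_X e v⟩⟩
      · have hj : j < i := hs
        obtain ⟨c, hc⟩ := ih j hj (by omega) _ (m.r_sub Δ l j)
        obtain ⟨w, hw, hw1⟩ := m.eb_ξ_dvd h (show j < e by omega)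
        rw [map_sub, m.π_r Δ (show j ≤ e by omega), map_mul] at hc
        refine ⟨c + 1, ?_⟩
        have e1 : (p : m.D Δ e) ^ (c + 1) * m.π Δ e (X (.inr (l, j))) =
            -(w * ((p : m.D Δ e) ^ c * (0 - m.π Δ e (m.ξ j) * m.π Δ e (m.y l j)))) := by
          rw [pow_succ, y]
          linear_combination (-((p : m.D Δ e) ^ c * m.π Δ e (X (.inr (l, j))))) * hw1
        rw [e1]
        exact neg_mem (mul_mem hw hc)
    | algebraMap a => exact ⟨0, by rw [pow_zero, one_mul]; exact ⟨C a, m.eb_ψ_C e a⟩⟩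
    | add x y _ _ hx hy =>
      obtain ⟨c, hc⟩ := hx
      obtain ⟨c', hc'⟩ := hy
      refine ⟨c + c', ?_⟩
      have e1 : (p : m.D Δ e) ^ (c + c') * m.π Δ e (x + y) =
          p ^ c' * (p ^ c * m.π Δ e x) + p ^ c * (p ^ c' * m.π Δ e y) := by rw [map_add]; ring
      rw [e1]
      exact add_mem (mul_mem (pow_mem hp _) hc) (mul_mem (pow_mem hp _) hc')
    | mul x y _ _ hx hy =>
      obtain ⟨c, hc⟩ := hx
      obtain ⟨c', hc'⟩ := hy
      refine ⟨c + c', ?_⟩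
      have e1 : (p : m.D Δ e) ^ (c + c') * m.π Δ e (x * y) =
          (p ^ c * m.π Δ e x) * (p ^ c' * m.π Δ e y) := by rw [map_mul]; ring
      rw [e1]
      exact mul_mem hc hc'

theorem eb_unif (h : MBase p A X' Δ) (e : ℕ) :
    ∃ c : ℕ, ∀ b : m.D Δ e, (p : m.D Δ e) ^ c * b ∈ (m.eb_ψ Δ e).range := by
  classical
  let _ : Algebra A (m.D Δ e) := ((m.π Δ e).comp (C : A →+* m.𝒜)).toAlgebra
  have hfin : Module.Finite A (m.D Δ e) := m.finite_C h e
  obtain ⟨s, hs⟩ := hfin.fg_top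
  have hp : (p : m.D Δ e) ∈ (m.eb_ψ Δ e).range := natCast_mem _ _
  have h1 : ∀ b : m.D Δ e, ∃ c : ℕ, (p : m.D Δ e) ^ c * b ∈ (m.eb_ψ Δ e).range := by
    intro b
    obtain ⟨a, ha, rfl⟩ := m.π_surj h e b
    exact m.eb_lev h e e le_rfl a ha
  choose c hc using h1
  refine ⟨s.sup c, fun b => ?_⟩
  have hb : b ∈ Submodule.span A (s : Set (m.D Δ e)) := hs ▸ Submodule.mem_top
  induction hb using Submodule.span_induction with
  | mem x hx =>
    obtain ⟨k, hk⟩ := Nat.exists_eq_add_of_le (Finset.le_sup (f := c) hx)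
    rw [hk, add_comm, pow_add, mul_assoc]
    exact mul_mem (pow_mem hp _) (hc x)
  | zero => rw [mul_zero]; exact zero_mem _
  | add x y _ _ hx hy => rw [mul_add]; exact add_mem hx hy
  | smul a x _ hx =>
    rw [Algebra.smul_def, mul_left_comm]
    exact mul_mem ⟨C a, m.eb_ψ_C e a⟩ hx

theorem eb_tr_step (h : MBase p A X' Δ) {e e' : ℕ} (he : e ≤ e') (he1 : e + 1 ≤ e') (b : m.D Δ e) :
    m.tr h he b = m.tr h he1 (m.Φ h e b) := by
  have h1 : m.tr h he = (m.tr h he1).comp (m.tr h (Nat.le_succ e)) := m.tr_trans h (Nat.le_succ e) he1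
  have h2 : m.tr h (Nat.le_succ e) = (m.Φ h e).comp (m.tr h (le_refl e)) := m.tr_succ h (le_refl e)
  rw [h1, h2, m.tr_self h e]
  rfl

theorem eb_root_iter (h : MBase p A X' Δ) {j : ℕ} (k : ℕ) : ∀ (e e' : ℕ) (he : e ≤ e'), e + k = e' →
    j ≤ p ^ e → ∀ b : m.D Δ e, b ^ p ^ k ∈ Ideal.span {m.π Δ e m.u ^ j} →
      m.tr h he b ∈ Ideal.span {m.π Δ e' m.u ^ j} := by
  induction k with
  | zero =>
    intro e e' he hk _ b hb
    obtain rfl : e = e' := by omega
    rw [m.tr_self h e]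
    simpa using hb
  | succ k ih =>
    intro e e' he hk hj b hb
    have he1 : e + 1 ≤ e' := by omega
    rw [m.eb_tr_step h he he1]
    refine ih (e + 1) e' he1 (by omega)
      (hj.trans (Nat.pow_le_pow_right (Fact.out : p.Prime).pos (Nat.le_succ e))) _ ?_
    rw [← map_pow (m.Φ h e)]
    refine m.root_closed h hj ?_
    rwa [← pow_mul, ← pow_succ]

/-- `root_closed`, `k` times. -/
theorem root_closed_iter (h : MBase p A X' Δ) {e j : ℕ} (hj : j ≤ p ^ e) (k : ℕ) {b : m.D Δ e}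
    (hb : b ^ p ^ k ∈ Ideal.span {m.π Δ e m.u ^ j}) :
    m.tr h (Nat.le_add_right e k) b ∈ Ideal.span {m.π Δ (e + k) m.u ^ j} :=
  m.eb_root_iter h k e (e + k) _ rfl hj b hb

theorem eb_u_pow_regular (hu : ∀ (e : ℕ) (b : m.D Δ e), m.π Δ e m.u * b = 0 → b = 0) (e N : ℕ) {b : m.D Δ e} (hb : m.π Δ e m.u ^ N * b = 0) :
    b = 0 := by
  induction N with
  | zero => simpa using hb
  | succ N ih =>
    apply ih
    apply hu e
    rw [← mul_assoc, ← pow_succ', hb]

theorem eb_nil_iter (h : MBase p A X' Δ) (hu : ∀ (e : ℕ) (b : m.D Δ e), m.π Δ e m.u * b = 0 → b = 0)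
    (k M : ℕ) : ∀ (e : ℕ) (b : m.D Δ e), b ^ p ^ k = 0 →
    ∀ (e' : ℕ) (he : e ≤ e'), e + M * k ≤ e' →
      m.tr h he b ∈ Ideal.span {m.π Δ e' m.u ^ (M * p ^ (e' - k))} := by
  induction M with
  | zero => intro e b _ e' he _; simp
  | succ M ih =>
    intro e b hb e' he hM
    have hk : e + k ≤ e' := by nlinarith
    have h1 := m.root_closed_iter h (le_refl (p ^ e)) k (b := b) (by rw [hb]; exact zero_mem _)
    obtain ⟨b', hb'⟩ := Ideal.mem_span_singleton'.1 h1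
    have h2 : b' ^ p ^ k = 0 := by
      apply m.eb_u_pow_regular hu (e + k) (p ^ e * p ^ k)
      rw [pow_mul, ← mul_pow, mul_comm, hb', ← map_pow, hb, map_zero]
    have h3 := ih (e + k) b' h2 e' hk (by nlinarith)
    have h4 : m.tr h he b = m.tr h hk (m.tr h (Nat.le_add_right e k) b) := by
      have := m.tr_trans h (Nat.le_add_right e k) hk
      rw [show m.tr h he = _ from this]
      rfl
    obtain ⟨c, hc⟩ := Ideal.mem_span_singleton'.1 h3
    have h5 : m.tr h hk (m.π Δ (e + k) m.u) = m.π Δ e' m.u ^ p ^ (e' - (e + k)) :=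
      m.tr_inl h hk (m.u0)
    refine Ideal.mem_span_singleton'.2 ⟨c, ?_⟩
    rw [h4, ← hb', map_mul, map_pow, h5, ← hc, ← pow_mul, ← pow_add, mul_assoc, ← pow_add]
    have e1 : e' - (e + k) + e = e' - k := by omega
    rw [e1, add_mul, one_mul]

/-- After `k` steps `b` becomes `u^(p^e) b'` with `b'^(p^k) = 0` (`u_regular`), and `u^(p^e)` at level `e + k` is a
`p^k`-th root of `p`, compatible along `tr`.  Repeat `N p^k` times. -/
theorem nil_div (h : MBase p A X' Δ) (hu : ∀ (e : ℕ) (b : m.D Δ e), m.π Δ e m.u * b = 0 → b = 0)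
    (k N : ℕ) : ∃ j : ℕ, ∀ (e : ℕ) (b : m.D Δ e), b ^ p ^ k = 0 →
    ∀ (e' : ℕ) (he : e ≤ e'), e + j ≤ e' → m.tr h he b ∈ Ideal.span {(p : m.D Δ e') ^ N} := by
  refine ⟨N * p ^ k * k + k, fun e b hb e' he hj => ?_⟩
  have h1 := m.eb_nil_iter h hu k (N * p ^ k) e b hb e' he (by omega)
  have e1 : N * p ^ k * p ^ (e' - k) = p ^ e' * N := by
    rw [mul_assoc, ← pow_add, show k + (e' - k) = e' by omega, mul_comm]
  rwa [e1, pow_mul, ← m.p_eq Δ e'] at h1

end Env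

end Crest.Agent.R188
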