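import Crest.Agent.R188.MixR
import Crest.Agent.R188.EnvS

/-!
# rid 188, file `Defs3`: constructors for sides and models; the hypotheses on an envelope (no proofs to fill)
-/

set_option autoImplicit false

open IsLocalRing Crest.Agent.R183

namespace Crest.Agent.R188

/-- A side from two finite ring maps. -/
noncomputable def Side.of {R D M : Type} [CommRing R] [CommRing D] [CommRing M] (f : R →+* D) (hf : f.Finite)
    (π : D →+* M) (hπ : π.Finite) (α : D) : Side R :=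
  letI : Algebra R D := f.toAlgebra
  letI : Algebra R M := (π.comp f).toAlgebra
  haveI : Module.Finite R D := hf
  haveI : Module.Finite R M := hπ.comp hf
  { D := D, M := M, π := ⟨π, fun _ => rfl⟩, α := α }

section

variable {R D M : Type} [CommRing R] [CommRing D] [CommRing M] (f : R →+* D) (hf : f.Finite)
  (π : D →+* M) (hπ : π.Finite) (α : D)

theorem Side.of_algD (r : R) : algebraMap R (Side.of f hf π hπ α).D r = f r := rfl

theorem Side.of_algM (r : R) : algebraMap R (Side.of f hf π hπ α).M r = π (f r) := rfl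

theorem Side.of_π (y : D) : (Side.of f hf π hπ α).π y = π y := rfl

theorem Side.of_α : (Side.of f hf π hπ α).α = α := rfl

theorem Side.of_sand0 (hs : Function.Surjective π) (hk : ∀ y, π y = 0 → α * y = 0) :
    (Side.of f hf π hπ α).Sand 0 := by
  refine ⟨fun y => ?_, fun y hy => ?_⟩
  · obtain ⟨z, hz⟩ := hs ((Side.of f hf π hπ α).π (Side.of f hf π hπ α).α * y)
    exact ⟨z, (sub_eq_zero.2 hz.symm).symm ▸ Ideal.zero_mem _⟩
  · rw [map_zero, Ideal.span_singleton_zero, Ideal.mem_bot] at hy ⊢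
    exact hk y hy

end

variable {p : ℕ} [Fact p.Prime] {k : Type} [Field k] [CharP k p] [IsAlgClosed k] {d : ℕ}

theorem exists_kmap {B : Type} [CommRing B] (f : WittVector p k →+* B) (hp : (p : B) = 0) :
    ∃ s : k →+* B, ∀ w, s (w.coeff 0) = f w := by
  have hs : Function.Surjective (WittVector.constantCoeff : WittVector p k →+* k) := fun a =>
    ⟨WittVector.teichmuller p a, by simp⟩
  have hk : RingHom.ker (WittVector.constantCoeff : WittVector p k →+* k) ≤ RingHom.ker f := by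
    rw [WittVector.ker_constantCoeff, Ideal.span_singleton_le_iff_mem, RingHom.mem_ker, map_natCast, hp]
  exact ⟨RingHom.liftOfSurjective _ hs ⟨f, hk⟩, fun w => RingHom.liftOfSurjective_comp_apply _ hs ⟨f, hk⟩ w⟩

/-- A model from an `A`-algebra in which `p = 0`. -/
noncomputable def AMdl.of (B : Type) [CommRing B] (a0 : AW p k d →+* B) (hp : (p : B) = 0) (U : B) (𝔫 : Ideal B) :
    AMdl p k d :=
  letI : Algebra k B := (exists_kmap (a0.comp MvPowerSeries.C) hp).choose.toAlgebra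
  { m := { E := B, x := fun i => a0 (MvPowerSeries.X i), U := U }
    a0 := a0
    hX := fun _ => rfl
    hC := fun w => ((exists_kmap (a0.comp MvPowerSeries.C) hp).choose_spec w).symm
    𝔫 := 𝔫 }

section generic

open MvPolynomial

variable {A : Type} [CommRing A] [IsLocalRing A] {X' : Fin d → A} (m : Env p A X') (Δ : DeltaS A p)

/-- The variable attached to `v`. -/
noncomputable abbrev Env.xv (v : m.V) : m.𝒜 := X (.inl v)

/-- The structure map `A → D e`. -/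
noncomputable abbrev Env.σ (e : ℕ) : A →+* m.D Δ e := (m.π Δ e).comp C

/-- The ideal of the relations `r_{l,i}`, `i ≤ n`. -/
noncomputable def Env.Ir (n : ℕ) : Ideal m.𝒜 := Ideal.span {a | ∃ l, ∃ i ≤ n, a = m.r Δ l i}

/-- The ideal that defines the model of level `n`. -/
noncomputable def Env.Ik (n : ℕ) : Ideal m.𝒜 := Ideal.span {(p : m.𝒜)} ⊔ m.Ir Δ n

end generic

/-- Envelopes over `W(k)⟦x⟧`. -/
abbrev MEnv (p : ℕ) [Fact p.Prime] (k : Type) [Field k] [CharP k p] [IsAlgClosed k] (d : ℕ) : Type 1 :=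
  Env p (AW p k d) (MvPowerSeries.X : Fin d → AW p k d)

variable (μ : Mix p k d) (E : MEnv p k d)

/-- The model of level `n`. -/
noncomputable def Mix.mdl (n : ℕ) : AMdl p k d :=
  AMdl.of (E.𝒜 ⧸ E.Ik μ.Δ n) ((Ideal.Quotient.mk _).comp MvPolynomial.C)
    (by
      rw [← map_natCast (Ideal.Quotient.mk (E.Ik μ.Δ n)), Ideal.Quotient.eq_zero_iff_mem]
      exact Ideal.mem_sup_left (Ideal.mem_span_singleton_self _))
    (Ideal.Quotient.mk _ E.u) (Ideal.span (Set.range fun s => Ideal.Quotient.mk _ (MvPolynomial.X s)))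

/-- The projection onto the model. -/
noncomputable def Mix.q (n : ℕ) : E.𝒜 →+* (μ.mdl E n).m.E := Ideal.Quotient.mk (E.Ik μ.Δ n)

theorem Mix.q_eq_zero {n : ℕ} {a : E.𝒜} : μ.q E n a = 0 ↔ a ∈ E.Ik μ.Δ n := Ideal.Quotient.eq_zero_iff_mem

theorem Mix.q_surj (n : ℕ) : Function.Surjective (μ.q E n) := Ideal.Quotient.mk_surjective

theorem Mix.mdl_a0 (n : ℕ) (b : AW p k d) : (μ.mdl E n).a0 b = μ.q E n (MvPolynomial.C b) := rfl

theorem Mix.mdl_U (n : ℕ) : (μ.mdl E n).m.U = μ.q E n E.u := rfl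

theorem Mix.mdl_𝔫 (n : ℕ) :
    (μ.mdl E n).𝔫 = Ideal.span (Set.range fun s => μ.q E n (MvPolynomial.X s)) := rfl

/-- The structure map of `D e` over the ring of level `n'`, through `φ^m`. -/
structure Mix.Alg (n' m : ℕ) {e : ℕ} (f : μ.R n' →+* E.D μ.Δ e) : Prop where
  he : n' + m = e
  eq : ∀ b, f (μ.pr n' b) = E.σ μ.Δ e ((μ.Δ.φ ^ m) b)
  fin : f.Finite

/-- The hypotheses for a prime that does not contain `p`. -/
structure Mix.FD (P : Ideal (AW p k d)) (a : ℕ) (vT vT' : E.V) : Prop where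
  hE : E.g E.u0 = μ.f0
  hac : a + E.c = d
  prime : P.IsPrime
  p_not : (p : AW p k d) ∉ P
  le : E.𝔣 ≤ P
  dim : ringKrullDim (AW p k d ⧸ P) ≤ a
  h_not : E.g vT ∉ P
  pow : ∃ N : ℕ, P ^ N ≤ col E.𝔣 (E.g vT)
  hw : E.g vT * E.g vT' ∈ E.𝔣
  par : ∃ (n : ℕ) (ι : Fin n → E.V) (c : ℕ), n + 1 = a ∧
    maximalIdeal (AW p k d) ^ c ≤ E.𝔣 ⊔ Ideal.span {(p : AW p k d)} ⊔ idl fun j => E.g (ι j)
  cut : (a = 1 ∧ ∃ N : ℕ, (p : AW p k d) ^ N ∈ E.𝔣 ⊔ Ideal.span {E.g vT, E.g vT'}) ∨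
    ∃ (n : ℕ) (ι : Fin n → E.V) (N c : ℕ), n + 2 = a ∧
      maximalIdeal (AW p k d) ^ c ≤ col (E.𝔣 ⊔ Ideal.span {E.g vT, E.g vT'}) ((p : AW p k d) ^ N) ⊔
        Ideal.span {(p : AW p k d)} ⊔ idl fun j => E.g (ι j)
  zreg : ∃ (N : ℕ) (z : AW p k d), (p : AW p k d) ^ N * z ∈ E.𝔣 ⊔ Ideal.span {E.g vT, E.g vT'} ∧
    (z = 1 ∨ ∃ (n : ℕ) (t : Fin n → AW p k d) (c : ℕ), n + 2 = a ∧ z ∈ maximalIdeal (AW p k d) ∧
      (∀ j, t j ∈ maximalIdeal (AW p k d)) ∧
      maximalIdeal (AW p k d) ^ c ≤ E.𝔣 ⊔ Ideal.span {(p : AW p k d)} ⊔ idl (Fin.cons z t : Fin (n + 1) → _))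

/-- The hypotheses for a prime that contains `p`. -/
structure Mix.KD (P : Ideal (AW p k d)) (a N : ℕ) (vT : E.V) : Prop where
  hE : E.g E.u0 = μ.f0
  hac : a + E.c = d
  pos : 0 < a
  prime : P.IsPrime
  ne : P ≠ maximalIdeal (AW p k d)
  p_mem : (p : AW p k d) ∈ P
  le : E.𝔣 ≤ P
  dim : ringKrullDim (AW p k d ⧸ P) ≤ a
  dimf : ringKrullDim (AW p k d ⧸ E.𝔣) ≤ a
  other : ∀ 𝔭 : Ideal (AW p k d), 𝔭.IsPrime → E.𝔣 ⊔ Ideal.span {(p : AW p k d)} ≤ 𝔭 → 𝔭 ≠ P →
    ringKrullDim (AW p k d ⧸ 𝔭) < a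
  h_not : E.g vT ∉ P
  hN : E.g vT * (p : AW p k d) ^ N ∈ E.𝔣

end Crest.Agent.R188
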