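import Crest.Agent.R188.Avoid
import Crest.Agent.R188.Th
import Crest.Agent.R188.CntAux
import Crest.Agent.R183.Cohen
import Crest.Agent.R183.Ord

/-!
# rid 188, file `ENV`: non-vanishing in equal characteristic by counting

Prefix helper lemmas with `ev_`.
-/

set_option autoImplicit false

open IsLocalRing Crest.Agent.R183

namespace Crest.Agent.R188

open MvPowerSeries

variable {k : Type} [Field k] {d : ℕ}

theorem ev_max : maximalIdeal (MvPowerSeries (Fin d) k) = idl (X : Fin d → MvPowerSeries (Fin d) k) := by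
  rw [ps_maximal, IsLocalRing.maximalIdeal_eq_bot, Ideal.map_bot, bot_sup_eq]

theorem ev_X_mem (i : Fin d) : (X i : MvPowerSeries (Fin d) k) ∈ maximalIdeal (MvPowerSeries (Fin d) k) :=
  ev_max (k := k) (d := d) ▸ ln_mem_idl _ i

theorem ev_sub_const (g : MvPowerSeries (Fin d) k) :
    g - MvPowerSeries.C (constantCoeff g) ∈ maximalIdeal (MvPowerSeries (Fin d) k) := by
  rw [mem_maximalIdeal, mem_nonunits_iff, MvPowerSeries.isUnit_iff_constantCoeff]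
  simp

theorem ev_finite (𝔮 : Ideal (MvPowerSeries (Fin d) k)) {c : ℕ} (h : maximalIdeal _ ^ c ≤ 𝔮) :
    Module.Finite k (MvPowerSeries (Fin d) k ⧸ 𝔮) := by
  set I : Ideal (MvPowerSeries (Fin d) k ⧸ 𝔮) := Ideal.span (Set.range fun i => Ideal.Quotient.mk 𝔮 (X i)) with hI
  have h1 : Module.Finite k ((MvPowerSeries (Fin d) k ⧸ 𝔮) ⧸ I) := by
    refine Module.Finite.of_surjective (Algebra.linearMap k ((MvPowerSeries (Fin d) k ⧸ 𝔮) ⧸ I)) fun y => ?_
    obtain ⟨y, rfl⟩ := Ideal.Quotient.mk_surjective y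
    obtain ⟨g, rfl⟩ := Ideal.Quotient.mk_surjective y
    refine ⟨constantCoeff g, ?_⟩
    have h2 : Ideal.Quotient.mk 𝔮 (g - MvPowerSeries.C (constantCoeff g)) ∈ I := by
      have := Ideal.mem_map_of_mem (Ideal.Quotient.mk 𝔮) (ev_sub_const g)
      rwa [ev_max, idl_map] at this
    symm
    rw [map_sub, ← Ideal.Quotient.eq] at h2
    exact h2
  exact (cn_finrank_nil (k := k) (fun i => Ideal.Quotient.mk 𝔮 (X i)) (N := c) fun i => by
    rw [← map_pow]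
    exact Ideal.Quotient.eq_zero_iff_mem.2 (h (Ideal.pow_mem_pow (ev_X_mem i) c))).1

/-- Contraction of the extended powers of the maximal ideal along a finite injective map. -/
theorem ev_contr {S : Type} [CommRing S] (Φ : MvPowerSeries (Fin d) k →+* S) (hf : Φ.Finite)
    (hi : Function.Injective Φ) (N : ℕ) {b : MvPowerSeries (Fin d) k}
    (hb : Φ b ∈ (idl (X : Fin d → MvPowerSeries (Fin d) k) ^ N).map Φ) :
    b ∈ idl (X : Fin d → MvPowerSeries (Fin d) k) ^ N := by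
  algebraize [Φ]
  have hΦ : algebraMap (MvPowerSeries (Fin d) k) S = Φ := rfl
  obtain ⟨a, c, ha, hc, he⟩ := exists_weighted_eq (Λ := MvPowerSeries (Fin d) k) (B := S) (W := S)
    (fun b hb => by simpa using hb 1) (idl X ^ N) (Φ b) fun w => by
      rw [ism, Ideal.smul_top_eq_map]
      exact Ideal.mul_mem_right w _ hb
  have hp : (idl (X : Fin d → MvPowerSeries (Fin d) k)).IsPrime := ev_max (k := k) (d := d) ▸ inferInstance
  refine mem_pow_of_integral (reg_X_ps d k) hp c (fun j _ _ => ?_) (hi ?_) ha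
  · rw [mul_comm, pow_mul]
    exact hc j
  · rw [map_zero, ← he, hΦ]
    simp

theorem ev_indep {n : ℕ} (hn : 0 < n) (g : (Fin d → Fin n) → k)
    (h : ∑ γ, MvPowerSeries.C (g γ) * ∏ j, X j ^ (γ j : ℕ) ∈
      idl (X : Fin d → MvPowerSeries (Fin d) k) ^ ((d + 1) * n)) (γ : Fin d → Fin n) : g γ = 0 := by
  classical
  let e : (Fin d → Fin n) → (Fin d →₀ ℕ) := fun γ => Finsupp.equivFunOnFinite.symm fun i => (γ i : ℕ)
  have he : Function.Injective e := fun γ δ hh => by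
    funext i
    exact Fin.ext (congrFun (Finsupp.equivFunOnFinite.symm.injective hh) i)
  have h1 : ∀ δ : Fin d → Fin n, (∏ j, X j ^ (δ j : ℕ) : MvPowerSeries (Fin d) k) = monomial (e δ) 1 := fun δ => by
    rw [MvPowerSeries.monomial_one_eq, Finsupp.prod_fintype _ _ fun _ => pow_zero _]
    rfl
  have h2 := (mem_ps_pow (⊥ : Ideal k) Submodule.fg_bot ((d + 1) * n) _).1
    (by rwa [Ideal.map_bot, bot_sup_eq]) (e γ)
  have h3 : (e γ).degree ≤ d * n := by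
    rw [Finsupp.degree_eq_sum]
    simpa [e] using Finset.sum_le_card_nsmul Finset.univ (fun i => (γ i : ℕ)) n fun i _ => (γ i).2.le
  rw [Ideal.bot_pow (by rw [add_mul]; omega), Ideal.mem_bot, map_sum, Finset.sum_eq_single γ] at h2
  · rwa [h1, coeff_C_mul, coeff_monomial_same, mul_one] at h2
  · intro δ _ hδ
    rw [h1, coeff_C_mul, coeff_monomial_ne (he.ne hδ.symm), mul_zero]
  · simp

/-- Take a prime `P ≥ 𝔮` of dimension `a' ≥ a`.  `S = A / P` is finite over `Λ = k⟦Y_1..Y_a'⟧`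
(`exists_sop`, `exists_base_eq`), injectively (`dim_le_of_not_injective`), `𝔪_S^c ≤ (Y) S`, and
`(Y)^N S ∩ Λ = (Y)^N` (`exists_weighted_eq`, `mem_pow_of_integral`); the monomials with exponents `< n` are
linearly independent modulo `(Y)^(a' n + 1)`. -/
theorem finrank_lower (𝔮 : Ideal (MvPowerSeries (Fin d) k)) {a : ℕ}
    (h : ¬ ringKrullDim (MvPowerSeries (Fin d) k ⧸ 𝔮) < a) : ∃ c : ℕ, ∀ n : ℕ, 0 < n →
      n ^ a ≤ Module.finrank k (MvPowerSeries (Fin d) k ⧸ (𝔮 ⊔ maximalIdeal _ ^ (c * n))) := by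
  have hq : 𝔮 ≠ ⊤ := by
    rintro rfl
    have : Subsingleton (MvPowerSeries (Fin d) k ⧸ (⊤ : Ideal (MvPowerSeries (Fin d) k))) :=
      Ideal.Quotient.subsingleton_iff.2 rfl
    rw [ringKrullDim_eq_bot_of_subsingleton] at h
    exact h (WithBot.bot_lt_coe _)
  have : Nontrivial (MvPowerSeries (Fin d) k ⧸ 𝔮) := Ideal.Quotient.nontrivial_iff.2 hq
  have : IsLocalRing (MvPowerSeries (Fin d) k ⧸ 𝔮) := IsLocalRing.of_surjective' _ Ideal.Quotient.mk_surjective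
  obtain ⟨a', ha'⟩ := exists_dim_eq (MvPowerSeries (Fin d) k ⧸ 𝔮)
  have haa : a ≤ a' := by
    rw [ha', not_lt] at h
    exact_mod_cast h
  obtain ⟨P, hP, hqP, hdim⟩ := exists_prime_dim ha'
  have : IsLocalRing (MvPowerSeries (Fin d) k ⧸ P) := IsLocalRing.of_surjective' _ Ideal.Quotient.mk_surjective
  have : IsAdicComplete (maximalIdeal k) k := by
    rw [IsLocalRing.maximalIdeal_eq_bot]
    infer_instance
  have := ps_complete k d
  have := complete_quot P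
  have hm := map_maximalIdeal_of_surjective (Ideal.Quotient.mk P) Ideal.Quotient.mk_surjective
  obtain ⟨x, hx⟩ := exists_sop hdim.le
  obtain ⟨Φ, hC, hX, hf, -, -⟩ := exists_base_eq ((Ideal.Quotient.mk P).comp MvPowerSeries.C) (fun y => by
    obtain ⟨g, rfl⟩ := Ideal.Quotient.mk_surjective y
    refine ⟨constantCoeff g, ?_⟩
    rw [← hm, RingHom.comp_apply, ← map_sub]
    exact Ideal.mem_map_of_mem _ (ev_sub_const g)) hx
  have hi : Function.Injective Φ := by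
    by_contra hn
    rcases a' with _ | e
    · refine hn ((injective_iff_map_eq_zero Φ).2 fun b hb => ?_)
      have hb0 : b = MvPowerSeries.C (constantCoeff b) := by
        ext β
        rw [Subsingleton.elim β 0]
        simp
      rw [hb0] at hb ⊢
      by_contra h0
      have h1 : constantCoeff b ≠ 0 := fun e => h0 (by rw [e, map_zero])
      exact ((h1.isUnit.map MvPowerSeries.C).map Φ).ne_zero hb
    · have : IsDomain (MvPowerSeries (Fin (e + 1)) k) := NoZeroDivisors.to_isDomain _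
      have h1 := dim_le_of_not_injective Φ hf (dim_le_of_sop (ch_sop_of_eq ev_max)) hn
      rw [hdim] at h1
      exact Nat.not_succ_le_self e (by exact_mod_cast h1)
  obtain ⟨-, c, hc⟩ := hx
  choose t ht using fun j => Ideal.Quotient.mk_surjective (I := P) (x j)
  refine ⟨c * (a' + 1), fun n hn => (Nat.pow_le_pow_right hn haa).trans ?_⟩
  have := ev_finite (𝔮 ⊔ maximalIdeal _ ^ (c * (a' + 1) * n)) le_sup_right
  have hli : LinearIndependent k fun γ : Fin a' → Fin n =>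
      Ideal.Quotient.mkₐ k (𝔮 ⊔ maximalIdeal _ ^ (c * (a' + 1) * n)) (∏ j, t j ^ (γ j : ℕ)) := by
    refine Fintype.linearIndependent_iff.2 fun g hg => ev_indep hn g (ev_contr Φ hf hi _ ?_)
    simp only [← map_smul, ← map_sum] at hg
    have h1 := Ideal.mem_map_of_mem (Ideal.Quotient.mk P) (Ideal.Quotient.eq_zero_iff_mem.1 hg)
    have h2 : (𝔮 ⊔ maximalIdeal _ ^ (c * (a' + 1) * n)).map (Ideal.Quotient.mk P) ≤
        (idl (X : Fin a' → MvPowerSeries (Fin a') k) ^ ((a' + 1) * n)).map Φ := by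
      rw [Ideal.map_sup, Ideal.map_pow, Ideal.map_pow, hm, idl_map, mul_assoc, pow_mul]
      refine sup_le ((Ideal.map_mono hqP).trans (by rw [Ideal.map_quotient_self]; exact bot_le)) ?_
      simp only [hX]
      exact Ideal.pow_right_mono hc _
    convert h2 h1 using 1
    simp only [map_sum, map_mul, map_prod, map_pow, hC, hX, smul_eq_C_mul, ht, RingHom.comp_apply]
  simpa using hli.fintype_card_le_finrank

theorem finite_quot_pow (𝔮 : Ideal (MvPowerSeries (Fin d) k)) {c : ℕ} (h : maximalIdeal _ ^ c ≤ 𝔮) :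
    Module.Finite k (MvPowerSeries (Fin d) k ⧸ 𝔮) :=
  ev_finite 𝔮 h

/-- `finrank (O) ≤ finrank (O / (z)) * N^m` if `(z)^N = 0` for `m` generators (filter by monomials). -/
theorem finrank_le_of_nil {O : Type} [CommRing O] [Algebra k O] [Module.Finite k O] {ι : Type} [Fintype ι]
    (z : ι → O) {N : ℕ} (h : ∀ i, z i ^ N = 0) :
    Module.finrank k O ≤ Module.finrank k (O ⧸ Ideal.span (Set.range z)) * N ^ Fintype.card ι :=
  (cn_finrank_nil z h).2

/-- If `f (X i) = g (X i)` then the algebra is a quotient of `A / (𝔮1 + 𝔮2)`. -/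
theorem ev_top (𝔮1 𝔮2 : Ideal (MvPowerSeries (Fin d) k)) (hP : Prim 𝔮1 𝔮2) {O : Type} [CommRing O] [Algebra k O]
    (f g : MvPowerSeries (Fin d) k →ₐ[k] O) (hgen : ∀ S : Subalgebra k O, (∀ y, f y ∈ S) → (∀ y, g y ∈ S) → S = ⊤)
    (h1 : ∀ y ∈ 𝔮1, f y = 0) (h2 : ∀ y ∈ 𝔮2, g y = 0) (hn : ∀ i, IsNilpotent (f (X i)))
    (hX : ∀ i, f (X i) = g (X i)) :
    Module.finrank k O ≤ Module.finrank k (MvPowerSeries (Fin d) k ⧸ (𝔮1 ⊔ 𝔮2)) := by
  obtain ⟨c, hc⟩ := hP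
  have := ev_finite _ hc
  have hfg : ∀ y, f y = g y := fun y => RingHom.congr_fun
    (ps_ext_nil f.toRingHom g.toRingHom (fun c => (f.commutes c).trans (g.commutes c).symm) hX hn) y
  have hs : f.range = ⊤ := hgen _ (fun y => ⟨y, rfl⟩) fun y => ⟨y, hfg y⟩
  have hk : ∀ y ∈ 𝔮1 ⊔ 𝔮2, f y = 0 := fun y hy => by
    obtain ⟨u, hu, w, hw, rfl⟩ := Submodule.mem_sup.1 hy
    rw [map_add, h1 u hu, hfg, h2 w hw, add_zero]
  refine LinearMap.finrank_le_finrank_of_surjective (f := (Ideal.Quotient.liftₐ _ f hk).toLinearMap) fun y => ?_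
  obtain ⟨u, rfl⟩ := (AlgHom.range_eq_top f).1 hs y
  exact ⟨Ideal.Quotient.mk _ u, rfl⟩

theorem ev_gen {A O O' : Type} [CommRing A] [Algebra k A] [CommRing O] [Algebra k O] [CommRing O'] [Algebra k O']
    (f g : A →ₐ[k] O) (hgen : ∀ S : Subalgebra k O, (∀ y, f y ∈ S) → (∀ y, g y ∈ S) → S = ⊤) (π : O →ₐ[k] O')
    (hπ : Function.Surjective π) (S : Subalgebra k O') (h1 : ∀ y, (π.comp f) y ∈ S) (h2 : ∀ y, (π.comp g) y ∈ S) :
    S = ⊤ := by
  rw [eq_top_iff]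
  rintro y -
  obtain ⟨u, rfl⟩ := hπ y
  have : u ∈ S.comap π := by
    rw [hgen (S.comap π) h1 h2]
    trivial
  exact this

/-- The second step: only `σ` is left. -/
theorem ev_sigma (𝔮1 𝔮2 : Ideal (MvPowerSeries (Fin d) k)) (hP : Prim 𝔮1 𝔮2) {O : Type} [CommRing O] [Algebra k O]
    [Module.Finite k O] (f g : MvPowerSeries (Fin d) k →ₐ[k] O)
    (hgen : ∀ S : Subalgebra k O, (∀ y, f y ∈ S) → (∀ y, g y ∈ S) → S = ⊤)
    (h1 : ∀ y ∈ 𝔮1, f y = 0) (h2 : ∀ y ∈ 𝔮2, g y = 0) (hn : ∀ i, IsNilpotent (f (X i))) (v : Fin d → k) {σ : O}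
    (hX : ∀ i, g (X i) = f (X i) + f (MvPowerSeries.C (v i)) * σ) {m : ℕ} (hm : σ ^ m = 0) :
    Module.finrank k O ≤ Module.finrank k (MvPowerSeries (Fin d) k ⧸ (𝔮1 ⊔ 𝔮2)) * m := by
  have h3 := finrank_le_of_nil (k := k) (fun _ : Unit => σ) (N := m) fun _ => hm
  rw [Fintype.card_unit, pow_one] at h3
  refine h3.trans (Nat.mul_le_mul_right _ ?_)
  set I := Ideal.span (Set.range fun _ : Unit => σ) with hI
  let π := Ideal.Quotient.mkₐ k I
  have hσ : π σ = 0 := Ideal.Quotient.eq_zero_iff_mem.2 (Ideal.subset_span ⟨(), rfl⟩)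
  refine ev_top 𝔮1 𝔮2 hP (π.comp f) (π.comp g) (ev_gen f g hgen π (Ideal.Quotient.mkₐ_surjective k I))
    (fun y hy => ?_) (fun y hy => ?_) (fun i => (hn i).map π) fun i => ?_
  · rw [AlgHom.comp_apply, h1 y hy, map_zero]
  · rw [AlgHom.comp_apply, h2 y hy, map_zero]
  · rw [AlgHom.comp_apply, AlgHom.comp_apply, hX, map_add, map_mul, hσ, mul_zero, add_zero]

theorem ev_core (𝔮1 𝔮2 : Ideal (MvPowerSeries (Fin d) k)) (hP : Prim 𝔮1 𝔮2) {O : Type} [CommRing O] [Algebra k O]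
    [Module.Finite k O] (f g : MvPowerSeries (Fin d) k →ₐ[k] O)
    (hgen : ∀ S : Subalgebra k O, (∀ y, f y ∈ S) → (∀ y, g y ∈ S) → S = ⊤)
    (h1 : ∀ y ∈ 𝔮1, f y = 0) (h2 : ∀ y ∈ 𝔮2, g y = 0) {N1 N2 : ℕ} (n1 : ∀ y ∈ maximalIdeal _, f y ^ N1 = 0)
    (n2 : ∀ y ∈ maximalIdeal _, g y ^ N2 = 0) (v : Fin d → k) (i0 : Fin d) (hv : v i0 = 1) {r : ℕ} (hr : 0 < r)
    (hbig : Module.finrank k (MvPowerSeries (Fin d) k ⧸ (𝔮1 ⊔ 𝔮2)) * (r - 1) * (N1 + N2) ^ (d - 1) <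
      Module.finrank k O) :
    ∃ (𝒪 : Type) (_ : CommRing 𝒪) (f g : MvPowerSeries (Fin d) k →+* 𝒪) (σ : 𝒪), (∀ y ∈ 𝔮1, f y = 0) ∧
      (∀ y ∈ 𝔮2, g y = 0) ∧ (∀ c, f (MvPowerSeries.C c) = g (MvPowerSeries.C c)) ∧
      (∀ i, g (X i) = f (X i) + f (MvPowerSeries.C (v i)) * σ) ∧ (∀ i, IsNilpotent (g (X i))) ∧ σ ^ r = 0 ∧
      σ ^ (r - 1) ≠ 0 := by
  classical
  have hC : ∀ c, f (MvPowerSeries.C c) = g (MvPowerSeries.C c) := fun c =>
    (f.commutes c).trans (g.commutes c).symm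
  have hnil : ∀ y ∈ maximalIdeal (MvPowerSeries (Fin d) k), (g y - f y) ^ (N1 + N2) = 0 := fun y hy => by
    rw [sub_eq_add_neg]
    refine (Commute.all _ _).add_pow_eq_zero_of_add_le_succ_of_pow_eq_zero (n2 y hy) (n := N1) ?_ (by omega)
    rw [neg_pow, n1 y hy, mul_zero]
  let δ : {i // i ≠ i0} → O := fun i =>
    g (X i.1 - MvPowerSeries.C (v i) * X i0) - f (X i.1 - MvPowerSeries.C (v i) * X i0)
  have h3 := finrank_le_of_nil (k := k) δ (N := N1 + N2) fun i =>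
    hnil _ (sub_mem (ev_X_mem _) (Ideal.mul_mem_left _ _ (ev_X_mem _)))
  rw [show Fintype.card {i // i ≠ i0} = d - 1 by simp] at h3
  set I := Ideal.span (Set.range δ) with hI
  let π := Ideal.Quotient.mkₐ k I
  let σ := π (g (X i0) - f (X i0))
  have hσ : IsNilpotent σ := IsNilpotent.map ⟨_, hnil _ (ev_X_mem i0)⟩ π
  have hX : ∀ i, π (g (X i)) = π (f (X i)) + π (f (MvPowerSeries.C (v i))) * σ := fun i => by
    by_cases hi : i = i0
    · subst hi
      rw [hv, map_one, map_one, map_one, one_mul, ← map_add, add_sub_cancel]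
    · have h4 : π (δ ⟨i, hi⟩) = 0 := Ideal.Quotient.eq_zero_iff_mem.2 (Ideal.subset_span ⟨_, rfl⟩)
      simp only [δ, map_sub, map_mul, ← hC] at h4
      simp only [σ, map_sub]
      linear_combination h4
  have hne : σ ^ (r - 1) ≠ 0 := fun h0 => by
    have h4 := ev_sigma 𝔮1 𝔮2 hP (π.comp f) (π.comp g) (ev_gen f g hgen π (Ideal.Quotient.mkₐ_surjective k I))
      (fun y hy => by rw [AlgHom.comp_apply, h1 y hy, map_zero])
      (fun y hy => by rw [AlgHom.comp_apply, h2 y hy, map_zero])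
      (fun i => IsNilpotent.map ⟨_, n1 _ (ev_X_mem i)⟩ π) v hX h0
    exact absurd (h3.trans (Nat.mul_le_mul_right _ h4)) (not_le.2 hbig)
  let ρ := Ideal.Quotient.mk (Ideal.span {σ ^ r})
  refine ⟨_, inferInstance, ρ.comp (π.comp f).toRingHom, ρ.comp (π.comp g).toRingHom, ρ σ, fun y hy => ?_,
    fun y hy => ?_, fun c => ?_, fun i => ?_, fun i => ?_, ?_, fun h0 => hne ?_⟩
  · change ρ (π (f y)) = 0
    rw [h1 y hy, map_zero, map_zero]
  · change ρ (π (g y)) = 0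
    rw [h2 y hy, map_zero, map_zero]
  · change ρ (π (f _)) = ρ (π (g _))
    rw [hC]
  · change ρ (π (g _)) = ρ (π (f _)) + ρ (π (f _)) * ρ σ
    rw [hX, map_add, map_mul]
  · exact IsNilpotent.map (IsNilpotent.map ⟨_, n2 _ (ev_X_mem i)⟩ π) ρ
  · exact (map_pow ρ σ r).symm.trans (Ideal.Quotient.eq_zero_iff_mem.2 (Ideal.mem_span_singleton_self _))
  · obtain ⟨u, hu⟩ := Ideal.mem_span_singleton'.1
      (Ideal.Quotient.eq_zero_iff_mem.1 ((map_pow ρ σ (r - 1)).trans h0))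
    have h5 : IsUnit (1 - u * σ) := ((Commute.all u σ).isNilpotent_mul_left hσ).isUnit_one_sub
    refine h5.mul_right_eq_zero.1 ?_
    obtain ⟨m, rfl⟩ : ∃ m, r = m + 1 := ⟨r - 1, by omega⟩
    rw [Nat.add_sub_cancel] at hu ⊢
    linear_combination -hu

theorem ev_arith (A c : ℕ) (hd : 0 < d) : ∃ n : ℕ, 0 < n ∧ A * (c * n) ^ (d - 1) < n ^ d := by
  obtain ⟨m, rfl⟩ : ∃ m, d = m + 1 := ⟨d - 1, by omega⟩
  refine ⟨A * c ^ m + 1, Nat.succ_pos _, ?_⟩
  rw [Nat.add_sub_cancel, mul_pow, ← mul_assoc, pow_succ']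
  exact Nat.mul_lt_mul_of_pos_right (Nat.lt_succ_self _) (pow_pos (Nat.succ_pos _) m)

/-- Let `O_n = A / (𝔮1 + 𝔪^(c n)) ⊗ A / (𝔮2 + 𝔪^(c n))`, of dimension `≥ n^d`, `σ = 1 ⊗ x_{i0} - x_{i0} ⊗ 1`,
`δ'_i = 1 ⊗ x_i - x_i ⊗ 1 - v_i σ` (`i ≠ i0`, `δ'^(2 c n) = 0`), and `𝒪 = O_n / (δ', σ^r)`.  If `σ^(r-1) = 0` in `𝒪`
then `σ^(r-1) = 0` in `O_n / δ'` (`σ` is nilpotent), and `O_n / (δ', σ)` is a quotient of `A / (𝔮1 + 𝔮2)`
(`ps_ext_nil`).  So `n^d ≤ ℓ (r - 1) (2 c n)^(d-1)`, false for large `n`. -/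
theorem exists_nv (𝔮1 𝔮2 : Ideal (MvPowerSeries (Fin d) k)) (hP : Prim 𝔮1 𝔮2) {a b : ℕ}
    (h1 : ¬ ringKrullDim (MvPowerSeries (Fin d) k ⧸ 𝔮1) < a)
    (h2 : ¬ ringKrullDim (MvPowerSeries (Fin d) k ⧸ 𝔮2) < b) (hab : d ≤ a + b) (v : Fin d → k) (i0 : Fin d)
    (hv : v i0 = 1) {r : ℕ} (hr : 0 < r) :
    ∃ (𝒪 : Type) (_ : CommRing 𝒪) (f g : MvPowerSeries (Fin d) k →+* 𝒪) (σ : 𝒪), (∀ y ∈ 𝔮1, f y = 0) ∧
      (∀ y ∈ 𝔮2, g y = 0) ∧ (∀ c, f (MvPowerSeries.C c) = g (MvPowerSeries.C c)) ∧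
      (∀ i, g (X i) = f (X i) + f (MvPowerSeries.C (v i)) * σ) ∧ (∀ i, IsNilpotent (g (X i))) ∧ σ ^ r = 0 ∧
      σ ^ (r - 1) ≠ 0 := by
  obtain ⟨c1, H1⟩ := finrank_lower 𝔮1 h1
  obtain ⟨c2, H2⟩ := finrank_lower 𝔮2 h2
  obtain ⟨n, hn, hlt⟩ := ev_arith (Module.finrank k (MvPowerSeries (Fin d) k ⧸ (𝔮1 ⊔ 𝔮2)) * (r - 1)) (c1 + c2)
    (Fin.pos i0)
  set I1 := 𝔮1 ⊔ maximalIdeal (MvPowerSeries (Fin d) k) ^ (c1 * n) with hI1
  set I2 := 𝔮2 ⊔ maximalIdeal (MvPowerSeries (Fin d) k) ^ (c2 * n) with hI2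
  have := ev_finite I1 le_sup_right
  have := ev_finite I2 le_sup_right
  refine ev_core 𝔮1 𝔮2 hP (O := TensorProduct k (MvPowerSeries (Fin d) k ⧸ I1) (MvPowerSeries (Fin d) k ⧸ I2))
    (Algebra.TensorProduct.includeLeft.comp (Ideal.Quotient.mkₐ k I1))
    (Algebra.TensorProduct.includeRight.comp (Ideal.Quotient.mkₐ k I2)) (fun S s1 s2 => ?_) (fun y hy => ?_)
    (fun y hy => ?_) (N1 := c1 * n) (N2 := c2 * n) (fun y hy => ?_) (fun y hy => ?_) v i0 hv hr ?_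
  · rw [eq_top_iff]
    rintro y -
    induction y using TensorProduct.induction_on with
    | zero => exact zero_mem _
    | add x y hx hy => exact add_mem hx hy
    | tmul x y =>
      obtain ⟨x, rfl⟩ := Ideal.Quotient.mk_surjective x
      obtain ⟨y, rfl⟩ := Ideal.Quotient.mk_surjective y
      simpa using mul_mem (s1 x) (s2 y)
  · rw [AlgHom.comp_apply, Ideal.Quotient.mkₐ_eq_mk, Ideal.Quotient.eq_zero_iff_mem.2 (Ideal.mem_sup_left hy),
      map_zero]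
  · rw [AlgHom.comp_apply, Ideal.Quotient.mkₐ_eq_mk, Ideal.Quotient.eq_zero_iff_mem.2 (Ideal.mem_sup_left hy),
      map_zero]
  · rw [← map_pow, AlgHom.comp_apply, Ideal.Quotient.mkₐ_eq_mk,
      Ideal.Quotient.eq_zero_iff_mem.2 (Ideal.mem_sup_right (Ideal.pow_mem_pow hy _)), map_zero]
  · rw [← map_pow, AlgHom.comp_apply, Ideal.Quotient.mkₐ_eq_mk,
      Ideal.Quotient.eq_zero_iff_mem.2 (Ideal.mem_sup_right (Ideal.pow_mem_pow hy _)), map_zero]
  · rw [Module.finrank_tensorProduct, ← add_mul]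
    refine hlt.trans_le ((Nat.pow_le_pow_right hn hab).trans ?_)
    rw [pow_add]
    exact Nat.mul_le_mul (H1 n hn) (H2 n hn)

end Crest.Agent.R188
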