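import Crest.Agent.R183.MxD
import Crest.Agent.R188.Defs

/-!
# rid 188, file `EnvK`: iterates of `δ`

Prefix helper lemmas with `ek_`.
-/

set_option autoImplicit false

open IsLocalRing Crest.Agent.R183

namespace Crest.Agent.R188

variable {A : Type} [CommRing A] {p : ℕ} [Fact p.Prime] (Δ : DeltaS A p)

/-- `∑_{j ≤ n} p^j u^(n-j)`; its product with `p - u` is `p^(n+1) - u^(n+1)`. -/
def Hn (p : ℕ) {A : Type} [CommRing A] (u : A) (n : ℕ) : A := ∑ j ∈ Finset.range (n + 1), (p : A) ^ j * u ^ (n - j)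

theorem ek_δ_p_pow (k : ℕ) :
    Δ.δ ((p : A) ^ (k + 1)) = (p : A) ^ k * (1 - (p : A) ^ ((k + 1) * (p - 1))) := by
  apply mxd_cancel Δ
  have h1 := Δ.spec ((p : A) ^ (k + 1))
  rw [map_pow, map_natCast] at h1
  have h2 : ((p : A) ^ (k + 1)) ^ p = (p : A) ^ (k + 1) * (p : A) ^ ((k + 1) * (p - 1)) := by
    rw [← pow_mul, ← pow_add]
    congr 1
    obtain ⟨q, hq⟩ : ∃ q, p = q + 1 := ⟨p - 1, by have := (Fact.out : p.Prime).pos; omega⟩
    rw [hq, Nat.add_sub_cancel]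
    ring
  linear_combination -h1 - h2

theorem ek_Hn_mul (p : ℕ) (u : A) (n : ℕ) : ((p : A) - u) * Hn p u n = (p : A) ^ (n + 1) - u ^ (n + 1) := by
  have := (Commute.all (p : A) u).mul_geom_sum₂ (n + 1)
  simpa [Hn] using this

theorem ek_iter_p_pow (n : ℕ) {w : A} (hw : w - 1 ∈ Ideal.span {(p : A)}) :
    Δ.δ^[n] ((p : A) ^ n * w) - 1 ∈ Ideal.span {(p : A)} := by
  have hp : p.Prime := Fact.out
  induction n generalizing w with
  | zero => simpa using hw
  | succ n ih =>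
    obtain ⟨m, hm⟩ : ∃ m, (n + 1) * (p - 1) = m + 1 :=
      ⟨(n + 1) * (p - 1) - 1, by
        have : 0 < (n + 1) * (p - 1) := Nat.mul_pos n.succ_pos (by have := hp.two_le; omega)
        omega⟩
    have h2 : ((p : A) ^ (n + 1)) ^ p = (p : A) ^ n * (p : A) ^ (m + 2) := by
      rw [← pow_mul, ← pow_add]
      congr 1
      obtain ⟨q, hq⟩ : ∃ q, p = q + 1 := ⟨p - 1, by have := hp.pos; omega⟩
      rw [hq, Nat.add_sub_cancel] at hm
      rw [hq, mul_add, hm]
      ring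
    have e : Δ.δ ((p : A) ^ (n + 1) * w) =
        (p : A) ^ n * ((p : A) ^ (m + 2) * Δ.δ w + Δ.φ w * (1 - (p : A) ^ (m + 1))) := by
      rw [Δ.δ_mul, ek_δ_p_pow, hm, h2]
      ring
    rw [Function.iterate_succ_apply, e]
    apply ih
    obtain ⟨c, hc⟩ := Ideal.mem_span_singleton'.1 hw
    have h3 : Δ.φ w = 1 + Δ.φ c * p := by
      have := congrArg Δ.φ hc
      rw [map_mul, map_natCast, map_sub, map_one] at this
      linear_combination -this
    refine Ideal.mem_span_singleton'.2 ⟨(p : A) ^ (m + 1) * Δ.δ w + Δ.φ c - Δ.φ w * (p : A) ^ m, ?_⟩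
    linear_combination -h3

theorem iter_δ_rank_one {V : A} (hV : Δ.φ V = V ^ p) (n : ℕ) (a : A) :
    Δ.δ^[n] (V * a) = V ^ p ^ n * Δ.δ^[n] a := by
  induction n generalizing V a with
  | zero => simp
  | succ n ih =>
    rw [Function.iterate_succ_apply, Function.iterate_succ_apply, Δ.δ_mul, Δ.δ_eq_zero hV, mul_zero, add_zero,
      ih (by rw [map_pow, hV]), ← pow_mul, pow_succ' p n]

/-- `δ (a + i) - δ a = δ i - cross a i`. -/
theorem iter_δ_congr (I : ℕ → Ideal A) (hm : ∀ i, I i ≤ I (i + 1)) (hδ : ∀ i, ∀ a ∈ I i, Δ.δ a ∈ I (i + 1))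
    {a b : A} (h : a - b ∈ I 0) (n : ℕ) : Δ.δ^[n] a - Δ.δ^[n] b ∈ I n := by
  induction n with
  | zero => simpa using h
  | succ n ih =>
    rw [Function.iterate_succ_apply', Function.iterate_succ_apply']
    have e : Δ.δ^[n] a = Δ.δ^[n] b + (Δ.δ^[n] a - Δ.δ^[n] b) := by ring
    rw [e, Δ.δ_add, show ∀ x y z : A, x + y - z - x = y - z from fun x y z => by ring]
    exact (I (n + 1)).sub_mem (hδ n _ ih)
      (hm n ((Ideal.span_singleton_le_iff_mem _).2 ih (cross_mem_right _ _)))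

/-- `δ` maps `(p^(k+1))` into `(p^k)`. -/
theorem δ_mem_p_pow (k : ℕ) {a : A} (h : a ∈ Ideal.span {(p : A) ^ (k + 1)}) :
    Δ.δ a ∈ Ideal.span {(p : A) ^ k} := by
  refine Δ.δ_mem_span _ _ ?_ ?_ h
  · rintro _ rfl
    rw [pow_succ]
    exact Ideal.mul_mem_right _ _ (Ideal.mem_span_singleton_self _)
  · rintro _ rfl
    rw [ek_δ_p_pow]
    exact Ideal.mul_mem_right _ _ (Ideal.mem_span_singleton_self _)

/-- A sum of two ideal chains is an ideal chain. -/
theorem δ_mem_sup {I I' J J' : Ideal A} (hI : I ≤ I') (hJ : J ≤ J') (h1 : ∀ a ∈ I, Δ.δ a ∈ I')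
    (h2 : ∀ a ∈ J, Δ.δ a ∈ J') {a : A} (h : a ∈ I ⊔ J) : Δ.δ a ∈ I' ⊔ J' := by
  obtain ⟨i, hi, j, hj, rfl⟩ := Submodule.mem_sup.1 h
  rw [Δ.δ_add]
  exact Ideal.sub_mem _ (Submodule.add_mem_sup (h1 i hi) (h2 j hj))
    (Ideal.mem_sup_left (hI ((Ideal.span_singleton_le_iff_mem _).2 hi (cross_mem_left _ _))))

theorem δ_mem_pow {I : Ideal A} (h1 : ∀ a ∈ I, Δ.δ a ∈ I) (K : ℕ) {a : A} (h : a ∈ I ^ K) : Δ.δ a ∈ I ^ K := by
  induction K generalizing a with
  | zero => simp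
  | succ K ih =>
    rw [pow_succ] at h ⊢
    induction h using Submodule.mul_induction_on' with
    | mem_mul_mem x hx y hy =>
      rw [Δ.δ_mul]
      refine Ideal.add_mem _ (Ideal.mul_mem_mul (Ideal.pow_mem_of_mem _ hx _ (Fact.out : p.Prime).pos) (h1 y hy)) ?_
      rw [mul_comm (Δ.φ y)]
      refine Ideal.mul_mem_mul (ih hx) ?_
      rw [Δ.spec]
      exact I.add_mem (Ideal.pow_mem_of_mem _ hy _ (Fact.out : p.Prime).pos) (I.mul_mem_left _ (h1 y hy))
    | add x hx y hy ihx ihy =>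
      rw [Δ.δ_add]
      exact Ideal.sub_mem _ (Ideal.add_mem _ ihx ihy)
        ((Ideal.span_singleton_le_iff_mem _).2 hx (cross_mem_left _ _))

theorem δ_mem_span_rank_one {s : Set A} (hs : ∀ v ∈ s, Δ.φ v = v ^ p) {a : A} (h : a ∈ Ideal.span s) :
    Δ.δ a ∈ Ideal.span s := by
  refine Δ.δ_mem_span s _ Ideal.subset_span (fun v hv => ?_) h
  rw [Δ.δ_eq_zero (hs v hv)]
  exact Ideal.zero_mem _

/-- `Hn * b ≡ u^(n+1) (-z)` modulo `I 0 ⊔ (p^(n+1))`; use the chain `I i ⊔ (p^(n+1-i))`. -/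
theorem key0 (I : ℕ → Ideal A) (hm : ∀ i, I i ≤ I (i + 1)) (hδ : ∀ i, ∀ a ∈ I i, Δ.δ a ∈ I (i + 1)) {u : A}
    (hu : Δ.φ u = u ^ p) {b : A} (hb : b ∈ I 0 ⊔ Ideal.span {(p : A) - u}) (n : ℕ) :
    Δ.δ^[n] (Hn p u n * b) ∈ I n ⊔ Ideal.span {(p : A), u ^ ((n + 1) * p ^ n)} := by
  obtain ⟨i, hi, j, hj, rfl⟩ := Submodule.mem_sup.1 hb
  obtain ⟨c, rfl⟩ := Ideal.mem_span_singleton'.1 hj
  let J : ℕ → Ideal A := fun i => I i ⊔ Ideal.span {(p : A) ^ (n + 1 - i)}
  have hle : ∀ i, Ideal.span {(p : A) ^ (n + 1 - i)} ≤ Ideal.span {(p : A) ^ (n + 1 - (i + 1))} := fun i =>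
    Ideal.span_singleton_le_span_singleton.2 (pow_dvd_pow _ (by omega))
  have hJm : ∀ i, J i ≤ J (i + 1) := fun i => sup_le_sup (hm i) (hle i)
  have hJδ : ∀ i, ∀ a ∈ J i, Δ.δ a ∈ J (i + 1) := fun i a ha => by
    refine δ_mem_sup Δ (hm i) (hle i) (hδ i) (fun x hx => ?_) ha
    by_cases hin : i ≤ n
    · rw [show n + 1 - i = (n + 1 - (i + 1)) + 1 by omega] at hx
      exact δ_mem_p_pow Δ _ hx
    · rw [show n + 1 - (i + 1) = 0 by omega, pow_zero, Ideal.span_singleton_one]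
      trivial
  have h0 : Hn p u n * (i + c * ((p : A) - u)) - u ^ (n + 1) * (-c) ∈ J 0 := by
    have e : Hn p u n * (i + c * ((p : A) - u)) - u ^ (n + 1) * (-c) =
        Hn p u n * i + c * (p : A) ^ (n + 1 - 0) := by
      have := ek_Hn_mul p u n
      rw [Nat.sub_zero]
      linear_combination c * this
    rw [e]
    exact Submodule.add_mem_sup ((I 0).mul_mem_left _ hi)
      (Ideal.mul_mem_left _ _ (Ideal.mem_span_singleton_self _))
  have h1 := iter_δ_congr Δ J hJm hJδ h0 n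
  rw [iter_δ_rank_one Δ (V := u ^ (n + 1)) (by rw [map_pow, hu, ← pow_mul, ← pow_mul, mul_comm]), ← pow_mul] at h1
  have h2 : J n ≤ I n ⊔ Ideal.span {(p : A), u ^ ((n + 1) * p ^ n)} := by
    refine sup_le_sup_left ?_ _
    rw [show n + 1 - n = 1 by omega, pow_one]
    exact Ideal.span_mono (by simp)
  have h3 : u ^ ((n + 1) * p ^ n) * Δ.δ^[n] (-c) ∈ I n ⊔ Ideal.span {(p : A), u ^ ((n + 1) * p ^ n)} :=
    Ideal.mem_sup_right (Ideal.mul_mem_right _ _ (Ideal.subset_span (by simp)))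
  simpa using Ideal.add_mem _ (h2 h1) h3

/-- `Hn * η ≡ p^n` modulo the `δ`-stable ideal `𝔫`, and `δ^n (p^n) ≡ 1` modulo `p` (by induction
`δ^i (p^n) = p^(n-i) w` with `w ≡ 1`). -/
theorem key1 {𝔫 : Ideal A} (h𝔫 : ∀ a ∈ 𝔫, Δ.δ a ∈ 𝔫) {u η : A} (hu : u ∈ 𝔫) (hη : η - 1 ∈ 𝔫) (n : ℕ) :
    Δ.δ^[n] (Hn p u n * η) - 1 ∈ 𝔫 ⊔ Ideal.span {(p : A)} := by
  have h0 : Hn p u n * η - (p : A) ^ n * 1 ∈ 𝔫 := by
    have e : Hn p u n * η - (p : A) ^ n * 1 =
        Hn p u n * (η - 1) + ∑ j ∈ Finset.range n, (p : A) ^ j * u ^ (n - j) := by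
      rw [Hn, Finset.sum_range_succ, Nat.sub_self]
      ring
    rw [e]
    refine 𝔫.add_mem (𝔫.mul_mem_left _ hη) (𝔫.sum_mem fun j hj => 𝔫.mul_mem_left _ ?_)
    exact 𝔫.pow_mem_of_mem hu _ (by have := Finset.mem_range.1 hj; omega)
  have h1 := iter_δ_congr Δ (fun _ => 𝔫) (fun _ => le_rfl) (fun _ => h𝔫) h0 n
  have h2 := ek_iter_p_pow Δ n (w := 1) (by simp)
  simpa using Submodule.add_mem_sup h1 h2

/-- The combination for an element of rank one. -/
theorem key2 (I : ℕ → Ideal A) (hm : ∀ i, I i ≤ I (i + 1)) (hδ : ∀ i, ∀ a ∈ I i, Δ.δ a ∈ I (i + 1)) {u : A}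
    (hu : Δ.φ u = u ^ p) {𝔫 : Ideal A} (h𝔫 : ∀ a ∈ 𝔫, Δ.δ a ∈ 𝔫) (hun : u ∈ 𝔫) {V η : A} (hV : Δ.φ V = V ^ p)
    (hη : η - 1 ∈ 𝔫) (hb : V * η ∈ I 0 ⊔ Ideal.span {(p : A) - u}) (n : ℕ) :
    ∃ η', η' - 1 ∈ 𝔫 ∧ V ^ p ^ n * η' ∈ I n ⊔ Ideal.span {(p : A), u ^ ((n + 1) * p ^ n)} := by
  have h0 := key0 Δ I hm hδ hu hb n
  rw [mul_left_comm, iter_δ_rank_one Δ hV] at h0
  obtain ⟨x, hx, y, hy, hxy⟩ := Submodule.mem_sup.1 (key1 Δ h𝔫 hun hη n)
  refine ⟨1 + x, by simpa using hx, ?_⟩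
  have e : V ^ p ^ n * (1 + x) = V ^ p ^ n * Δ.δ^[n] (Hn p u n * η) - V ^ p ^ n * y := by
    linear_combination V ^ p ^ n * hxy
  rw [e]
  exact Ideal.sub_mem _ h0 (Ideal.mem_sup_right (Ideal.mul_mem_left _ _ (Ideal.span_mono (by simp) hy)))

/-- A ring map that commutes with `φ` commutes with `δ`. -/
theorem map_δ {B : Type} [CommRing B] (Δ' : DeltaS B p) (f : A →+* B) (h : ∀ a, f (Δ.φ a) = Δ'.φ (f a)) (n : ℕ)
    (a : A) : f (Δ.δ^[n] a) = Δ'.δ^[n] (f a) := by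
  have h1 : ∀ a, f (Δ.δ a) = Δ'.δ (f a) := fun a => by
    apply mxd_cancel Δ'
    have e1 := h a
    rw [Δ.spec, Δ'.spec, map_add, map_pow, map_mul, map_natCast] at e1
    exact add_left_cancel e1
  induction n generalizing a with
  | zero => rfl
  | succ n ih => rw [Function.iterate_succ_apply, Function.iterate_succ_apply, ih, h1]

/-- The polynomial ring in one variable of rank one: `φ = expand p ∘ map φ`. -/
theorem exists_delta_poly : ∃ Δ' : DeltaS (Polynomial A) p,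
    (∀ a, Δ'.φ (Polynomial.C a) = Polynomial.C (Δ.φ a)) ∧ Δ'.φ Polynomial.X = Polynomial.X ^ p ∧
      ∀ (n N : ℕ) (G : Polynomial A), G.natDegree ≤ N → (Δ'.δ^[n] G).natDegree ≤ N * p ^ n ∧
        (Δ'.δ^[n] G).coeff (N * p ^ n) = Δ.δ^[n] (G.coeff N) := by
  have hp : p.Prime := Fact.out
  let φ' : Polynomial A →+* Polynomial A :=
    (Polynomial.expand A p : Polynomial A →+* Polynomial A).comp (Polynomial.mapRingHom Δ.φ)
  have hφ' : ∀ G, φ' G = Polynomial.expand A p (G.map Δ.φ) := fun G => rfl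
  have hC : ∀ a, φ' (Polynomial.C a) = Polynomial.C (Δ.φ a) := fun a => by
    rw [hφ', Polynomial.map_C, Polynomial.expand_C]
  have hX : φ' Polynomial.X = Polynomial.X ^ p := by
    rw [hφ', Polynomial.map_X, Polynomial.expand_X]
  have hco : ∀ (f : Polynomial A) (m : ℕ), ((p : Polynomial A) * f).coeff m = p * f.coeff m := fun f m => by
    rw [← map_natCast (Polynomial.C : A →+* Polynomial A), Polynomial.coeff_C_mul]
  have htf : ∀ f : Polynomial A, (p : Polynomial A) * f = 0 → f = 0 := fun f hf => by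
    ext m
    apply Δ.tf
    rw [← hco, hf, Polynomial.coeff_zero]
  have hex : ∀ f : Polynomial A, ∃ d, φ' f = f ^ p + p * d := fun f => by
    induction f using Polynomial.induction_on with
    | C a =>
      exact ⟨Polynomial.C (Δ.δ a), by rw [hC, Δ.spec, map_add, map_pow, map_mul, map_natCast]⟩
    | add f g hf hg =>
      obtain ⟨d, hd⟩ := hf
      obtain ⟨e, he⟩ := hg
      refine ⟨d + e - cross p f g, ?_⟩
      rw [map_add, hd, he, cross_spec]
      ring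
    | monomial n a hf =>
      obtain ⟨d, hd⟩ := hf
      refine ⟨d * Polynomial.X ^ p, ?_⟩
      rw [pow_succ, ← mul_assoc, map_mul, hd, hX, mul_pow _ Polynomial.X]
      ring
  choose δ' hδ' using hex
  let Δ' : DeltaS (Polynomial A) p := ⟨φ', δ', hδ', htf⟩
  have h1 : ∀ (N : ℕ) (G : Polynomial A), G.natDegree ≤ N →
      (δ' G).natDegree ≤ N * p ∧ (δ' G).coeff (N * p) = Δ.δ (G.coeff N) := fun N G hG => by
    have e : (p : Polynomial A) * δ' G = φ' G - G ^ p := by rw [hδ']; ring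
    constructor
    · rw [Polynomial.natDegree_le_iff_coeff_eq_zero]
      intro m hm
      apply Δ.tf
      rw [← hco, e]
      refine Polynomial.coeff_eq_zero_of_natDegree_lt (lt_of_le_of_lt ?_ hm)
      refine (Polynomial.natDegree_sub_le _ _).trans (max_le ?_ ?_)
      · rw [hφ', Polynomial.natDegree_expand]
        exact Nat.mul_le_mul_right _ (Polynomial.natDegree_map_le.trans hG)
      · rw [mul_comm]
        exact Polynomial.natDegree_pow_le_of_le p hG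
    · apply mxd_cancel Δ
      rw [← hco, e, Polynomial.coeff_sub, hφ', Polynomial.coeff_expand_mul hp.pos, Polynomial.coeff_map,
        mul_comm N p, Polynomial.coeff_pow_of_natDegree_le hG, Δ.spec]
      ring
  refine ⟨Δ', hC, hX, fun n => ?_⟩
  induction n with
  | zero => intro N G hG; simpa using hG
  | succ n ih =>
    intro N G hG
    obtain ⟨h2, h3⟩ := h1 N G hG
    have := ih (N * p) (δ' G) h2
    rw [h3, mul_assoc, ← pow_succ'] at this
    exact this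

/-- The Witt vectors of a perfect field. -/
theorem exists_delta_witt (k : Type) [Field k] [CharP k p] [PerfectRing k p] :
    ∃ Δ0 : DeltaS (WittVector p k) p, ∀ w, Δ0.φ w = WittVector.frobenius w := by
  have hex : ∀ x : WittVector p k, ∃ d, WittVector.frobenius x = x ^ p + p * d := fun x => by
    have h : WittVector.frobenius x - x ^ p ∈ Ideal.span {(p : WittVector p k)} := by
      rw [WittVector.mem_span_p_iff_coeff_zero_eq_zero, ← WittVector.constantCoeff_apply, map_sub, map_pow,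
        WittVector.constantCoeff_apply, WittVector.constantCoeff_apply, WittVector.coeff_frobenius_charP, sub_self]
    obtain ⟨d, hd⟩ := Ideal.mem_span_singleton'.1 h
    exact ⟨d, by linear_combination -hd⟩
  choose δ' hδ' using hex
  exact ⟨⟨WittVector.frobenius, δ', hδ', fun a ha =>
    (mul_eq_zero.1 ha).resolve_left (WittVector.p_nonzero p k)⟩, fun _ => rfl⟩

end Crest.Agent.R188
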