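import Crest.Agent.R188.Defs3
import Crest.Agent.R188.EnvK

/-!
# rid 188, file `EnvB`: basic facts about the rings `D e`

Prefix helper lemmas with `nb_`.
-/

set_option autoImplicit false
set_option linter.unusedSectionVars false

open IsLocalRing MvPolynomial Crest.Agent.R183

namespace Crest.Agent.R188

namespace Env

variable {p : ℕ} [Fact p.Prime] {A : Type} [CommRing A] [IsLocalRing A] {d : ℕ} {X' : Fin d → A}
  (m : Env p A X') {Δ : DeltaS A p}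

theorem nb_ξ0 : m.ξ 0 = (p : m.𝒜) - m.u := by rw [ξ, pow_zero, pow_one]

theorem nb_r_inr (v : m.V) :
    m.r Δ (.inr v) 0 = ((p : m.𝒜) - m.u) * m.y (.inr v) 0 - (m.xv v - C (m.g v)) := by
  rw [r, nb_ξ0, F0, map_sub, rename_X, rename_C]

theorem nb_r_inl (l : Fin m.c) : m.r Δ (.inl l) 0 = ((p : m.𝒜) - m.u) * m.y (.inl l) 0 - C (m.f l) := by
  rw [r, nb_ξ0, F0, rename_C]

theorem nb_φ_pow_X (h : MBase p A X' Δ) (j : ℕ) (i : Fin d) : (Δ.φ ^ j) (X' i) = X' i ^ p ^ j := by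
  induction j with
  | zero => simp
  | succ j ih => rw [pow_succ, RingHom.mul_def, RingHom.comp_apply, h.φX, map_pow, ih, ← pow_mul, ← pow_succ]

theorem nb_p_mem (h : MBase p A X' Δ) : (p : A) ∈ maximalIdeal A :=
  h.max ▸ ln_mem_idl (Fin.cons (p : A) X' : Fin (d + 1) → A) 0

theorem nb_g_mem (h : MBase p A X' Δ) (v : m.V) : m.g v ∈ maximalIdeal A :=
  ln_idl_le (es_X'_mem h) (m.g_mem v)

/-- Evaluation at `X_v = g v`, `y = 0`. -/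
noncomputable def nb_ev : m.𝒜 →+* A := eval₂Hom (RingHom.id A) (Sum.elim m.g fun _ => 0)

theorem nb_ev_C (a : A) : m.nb_ev (C a) = a := by simp [nb_ev]

theorem nb_ev_xv (v : m.V) : m.nb_ev (X (.inl v)) = m.g v := by simp [nb_ev]

theorem nb_ev_inr (li : m.L × ℕ) : m.nb_ev (X (.inr li)) = 0 := by simp [nb_ev]

theorem nb_ev_unit (h : MBase p A X' Δ) {s : m.𝒜} (hs : s ∉ mxM A (EV m.V m.L)) : IsUnit (m.nb_ev s) := by
  have h1 := mxs_sub_C (t := Set.univ) ((maximalIdeal A).comap m.nb_ev) (by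
    rintro (v | li) -
    · rw [Ideal.mem_comap, nb_ev_xv]; exact m.nb_g_mem h v
    · rw [Ideal.mem_comap, nb_ev_inr]; exact Ideal.zero_mem _) (a := s) (by rw [supported_univ]; trivial)
  rw [Ideal.mem_comap, map_sub, nb_ev_C] at h1
  by_contra hn
  apply hs
  have h2 := (maximalIdeal A).sub_mem ((mem_maximalIdeal _).2 hn) h1
  rwa [sub_sub_cancel] at h2

theorem nb_unit (e : ℕ) {s : m.𝒜} (hs : constantCoeff s = 1) : IsUnit (m.π Δ e s) := by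
  refine m.π_isUnit Δ e fun hm => ?_
  rw [mxM, Ideal.mem_comap, hs] at hm
  exact (maximalIdeal.isMaximal A).ne_top ((Ideal.eq_top_iff_one _).2 hm)


theorem r_mem_Ir (l : m.L) {i n : ℕ} (h : i ≤ n) : m.r Δ l i ∈ m.Ir Δ n := by
  exact Ideal.subset_span ⟨l, i, h, rfl⟩
theorem Ir_mono {i n : ℕ} (h : i ≤ n) : m.Ir Δ i ≤ m.Ir Δ n := by
  refine Ideal.span_mono ?_
  rintro _ ⟨l, j, hj, rfl⟩
  exact ⟨l, j, hj.trans h, rfl⟩
/-- `DeltaS.δ_mem_span`. -/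
theorem Ir_δ (i : ℕ) : ∀ a ∈ m.Ir Δ i, (m.Δ' Δ).δ a ∈ m.Ir Δ (i + 1) := by
  intro a ha
  refine (m.Δ' Δ).δ_mem_span _ _ ?_ ?_ ha
  · rintro _ ⟨l, j, hj, rfl⟩
    exact m.r_mem_Ir l (hj.trans (Nat.le_succ i))
  · rintro _ ⟨l, j, hj, rfl⟩
    exact m.r_mem_Ir l (i := j + 1) (Nat.succ_le_succ hj)
theorem π_Ir {n e : ℕ} (h : n ≤ e) {a : m.𝒜} (ha : a ∈ m.Ir Δ n) : m.π Δ e a = 0 := by
  refine (Ideal.span_le.2 ?_ : m.Ir Δ n ≤ RingHom.ker (m.π Δ e)) ha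
  rintro _ ⟨l, j, hj, rfl⟩
  exact m.π_r Δ (hj.trans h) l
theorem φ_u : (m.Δ' Δ).φ m.u = m.u ^ p := by
  exact m.φ_inl Δ _
/-- From `r (.inr v) 0`. -/
theorem xv_sub_mem (v : m.V) : m.xv v - C (m.g v) ∈ m.Ir Δ 0 ⊔ Ideal.span {(p : m.𝒜) - m.u} := by
  have e : m.xv v - C (m.g v) = -m.r Δ (.inr v) 0 + m.y (.inr v) 0 * ((p : m.𝒜) - m.u) := by
    rw [nb_r_inr]; ring
  rw [e]
  exact Submodule.add_mem_sup (neg_mem (m.r_mem_Ir _ le_rfl))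
    (Ideal.mul_mem_left _ _ (Ideal.mem_span_singleton_self _))
theorem C_mem {b : A} (hb : b ∈ m.𝔣) : (C b : m.𝒜) ∈ m.Ir Δ 0 ⊔ Ideal.span {(p : m.𝒜) - m.u} := by
  refine (sup_le ((Ideal.span_singleton_le_iff_mem _).2 ?_) (ln_idl_le fun l => ?_) :
    m.𝔣 ≤ (m.Ir Δ 0 ⊔ Ideal.span {(p : m.𝒜) - m.u}).comap (C : A →+* m.𝒜)) hb
  · rw [Ideal.mem_comap, map_sub, map_natCast]
    have e : (p : m.𝒜) - C (m.g m.u0) = ((p : m.𝒜) - m.u) + (m.xv m.u0 - C (m.g m.u0)) := by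
      rw [u]; ring
    rw [e]
    exact Ideal.add_mem _ (Ideal.mem_sup_right (Ideal.mem_span_singleton_self _)) (m.xv_sub_mem m.u0)
  · rw [Ideal.mem_comap]
    have e : (C (m.f l) : m.𝒜) = -m.r Δ (.inl l) 0 + m.y (.inl l) 0 * ((p : m.𝒜) - m.u) := by
      rw [nb_r_inl]; ring
    rw [e]
    exact Submodule.add_mem_sup (neg_mem (m.r_mem_Ir _ le_rfl))
      (Ideal.mul_mem_left _ _ (Ideal.mem_span_singleton_self _))
/-- `p - g u0 = (p - u) (1 + y) - r`. -/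
theorem ξ_mul_mem : ((p : m.𝒜) - m.u) * (1 + m.y (.inr m.u0) 0) - C ((p : A) - m.g m.u0) ∈ m.Ir Δ 0 := by
  have e : ((p : m.𝒜) - m.u) * (1 + m.y (.inr m.u0) 0) - C ((p : A) - m.g m.u0) = m.r Δ (.inr m.u0) 0 := by
    rw [nb_r_inr, map_sub, map_natCast, show m.xv m.u0 = m.u from rfl]; ring
  rw [e]
  exact m.r_mem_Ir _ le_rfl
theorem nb_π_zero {a : m.𝒜} (ha : a ∈ m.Ir Δ 0 ⊔ Ideal.span {(p : m.𝒜) - m.u}) : m.π Δ 0 a = 0 := by
  refine (sup_le (fun a ha => m.π_Ir le_rfl ha) ((Ideal.span_singleton_le_iff_mem _).2 ?_) :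
    _ ≤ RingHom.ker (m.π Δ 0)) ha
  rw [← nb_ξ0]
  exact m.π_ξ Δ 0


theorem σ_zero_xv (v : m.V) : m.π Δ 0 (m.xv v) = m.σ Δ 0 (m.g v) := by
  have := m.nb_π_zero (m.xv_sub_mem (Δ := Δ) v)
  rwa [map_sub, sub_eq_zero] at this
/-- `exists_lift` for the map `𝒜 → A / 𝔣`, `X_v ↦ g v`, `y ↦ 0`. -/
theorem σ_zero_eq_zero (h : MBase p A X' Δ) {b : A} : m.σ Δ 0 b = 0 ↔ b ∈ m.𝔣 := by
  refine ⟨fun hb => ?_, fun hb => m.nb_π_zero (m.C_mem hb)⟩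
  have hξ : (Ideal.Quotient.mk m.𝔣).comp m.nb_ev (m.ξ 0) = 0 := by
    rw [nb_ξ0, RingHom.comp_apply, map_sub, map_natCast, u, nb_ev_xv, Ideal.Quotient.eq_zero_iff_mem]
    exact Ideal.mem_sup_left (Ideal.mem_span_singleton_self _)
  obtain ⟨G, hG⟩ := m.exists_lift Δ 0 ((Ideal.Quotient.mk m.𝔣).comp m.nb_ev)
    (fun s hs => (m.nb_ev_unit h hs).map (Ideal.Quotient.mk m.𝔣)) (fun s hs => by
      rcases m.et_rel_cases Δ (e := 0) hs with h1 | ⟨l, i, hi, h1⟩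
      · rw [h1, hξ]
      · obtain rfl : i = 0 := Nat.le_zero.1 hi
        rw [h1]
        rcases l with l | v
        · rw [nb_r_inl, ← nb_ξ0, map_sub, map_mul, hξ, zero_mul, zero_sub, neg_eq_zero, RingHom.comp_apply,
            nb_ev_C, Ideal.Quotient.eq_zero_iff_mem]
          exact Ideal.mem_sup_right (ln_mem_idl m.f l)
        · rw [nb_r_inr, ← nb_ξ0, map_sub, map_mul, hξ, zero_mul, zero_sub, neg_eq_zero, RingHom.comp_apply,
            map_sub, nb_ev_C, nb_ev_xv, sub_self, map_zero])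
    (by
      rintro (v | li) hs
      · exact absurd hs (lt_irrefl 0)
      · rw [RingHom.comp_apply, nb_ev_inr, map_zero])
  have h1 := hG (C b)
  rw [show m.π Δ 0 (C b) = 0 from hb, map_zero, RingHom.comp_apply, nb_ev_C] at h1
  exact Ideal.Quotient.eq_zero_iff_mem.1 h1.symm
/-- `π_surj` at level `0`. -/
theorem σ_zero_surj (h : MBase p A X' Δ) : Function.Surjective (m.σ Δ 0) := by
  intro b
  obtain ⟨a, ha, rfl⟩ := m.π_surj h 0 b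
  refine ⟨m.nb_ev a, (mxs_hom_eq (m.π Δ 0) ((m.σ Δ 0).comp m.nb_ev) (fun a => ?_) ?_ ha).symm⟩
  · rw [RingHom.comp_apply, nb_ev_C, RingHom.comp_apply]
  · rintro (v | ⟨l, j⟩) hs
    · rw [RingHom.comp_apply, nb_ev_xv]
      exact m.σ_zero_xv v
    · exact absurd hs (Nat.not_succ_le_zero j)
/-- Apply `tr` (`tr_C`). -/
theorem σ_φ_eq_zero (h : MBase p A X' Δ) (e : ℕ) {b : A} (hb : b ∈ m.𝔣) : m.σ Δ e ((Δ.φ ^ e) b) = 0 := by
  have h1 := m.tr_C h (Nat.zero_le e) b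
  rw [m.nb_π_zero (m.C_mem hb), map_zero, Nat.sub_zero] at h1
  exact h1.symm
theorem xv_pow (h : MBase p A X' Δ) (e : ℕ) (v : m.V) :
    m.π Δ e (m.xv v) ^ p ^ e = m.σ Δ e ((Δ.φ ^ e) (m.g v)) := by
  have h1 := m.tr_C h (Nat.zero_le e) (m.g v)
  have h2 := m.tr_inl h (Nat.zero_le e) v
  rw [Nat.sub_zero] at h1 h2
  rw [← h2, show m.π Δ 0 (X (.inl v)) = m.π Δ 0 (C (m.g v)) from m.σ_zero_xv v, h1]
  rfl
theorem p_mem_u (e : ℕ) : (p : m.D Δ e) ∈ Ideal.span {m.π Δ e m.u} := by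
  rw [m.p_eq Δ e]
  exact Ideal.pow_mem_of_mem _ (Ideal.mem_span_singleton_self _) _ (pow_pos (Fact.out : p.Prime).pos e)
theorem nb_π_mem_u (e : ℕ) {a : m.𝒜} (ha : a ∈ m.Ir Δ 0 ⊔ Ideal.span {(p : m.𝒜) - m.u}) :
    m.π Δ e a ∈ Ideal.span {m.π Δ e m.u} := by
  refine (sup_le (fun a ha => ?_) ((Ideal.span_singleton_le_iff_mem _).2 ?_) :
    _ ≤ (Ideal.span {m.π Δ e m.u}).comap (m.π Δ e)) ha
  · rw [Ideal.mem_comap, m.π_Ir (Nat.zero_le e) ha]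
    exact Ideal.zero_mem _
  · rw [Ideal.mem_comap, map_sub, map_natCast]
    exact Ideal.sub_mem _ (m.p_mem_u e) (Ideal.mem_span_singleton_self _)


theorem σ_mem_u (e : ℕ) {b : A} (hb : b ∈ m.𝔣 ⊔ Ideal.span {(p : A)}) : m.σ Δ e b ∈ Ideal.span {m.π Δ e m.u} := by
  refine (sup_le (fun a ha => m.nb_π_mem_u e (m.C_mem ha)) ((Ideal.span_singleton_le_iff_mem _).2 ?_) :
    _ ≤ (Ideal.span {m.π Δ e m.u}).comap (m.σ Δ e)) hb
  rw [Ideal.mem_comap, map_natCast]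
  exact m.p_mem_u e
theorem xv_sub_mem_u (e : ℕ) (v : m.V) : m.π Δ e (m.xv v) - m.σ Δ e (m.g v) ∈ Ideal.span {m.π Δ e m.u} := by
  have := m.nb_π_mem_u e (m.xv_sub_mem (Δ := Δ) v)
  rwa [map_sub] at this
/-- `u - g u0 = (p - u) y` and `p = u^q`, so `g u0 = u (1 - (u^(q-1) - 1) y)`; the bracket is a unit (`π_isUnit`). -/
theorem u_mem (h : MBase p A X' Δ) (e : ℕ) : m.π Δ e m.u ∈ Ideal.span {m.σ Δ e (m.g m.u0)} := by
  obtain ⟨q, hq⟩ : ∃ q, p ^ e = q + 1 := ⟨p ^ e - 1, by have := pow_pos (Fact.out : p.Prime).pos e; omega⟩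
  have h1 := m.π_r Δ (Nat.zero_le e) (.inr m.u0)
  rw [nb_r_inr, map_sub, map_mul, map_sub, map_sub, map_natCast, m.p_eq Δ e, hq,
    show m.xv m.u0 = m.u from rfl] at h1
  obtain ⟨w, hw⟩ := (m.nb_unit (Δ := Δ) e (s := 1 - (m.u ^ q - 1) * m.y (.inr m.u0) 0)
    (by simp [y])).exists_right_inv
  rw [map_sub, map_mul, map_sub, map_pow, map_one] at hw
  refine Ideal.mem_span_singleton'.2 ⟨w, ?_⟩
  rw [RingHom.comp_apply]
  linear_combination w * h1 + m.π Δ e m.u * hw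
/-- `es_pow_le`: `u^q = p` and `X'^q = φ^j X'`. -/
theorem pow_le_map (h : MBase p A X' Δ) (e j : ℕ) [IsLocalRing (m.D Δ e)] :
    ∃ c : ℕ, maximalIdeal (m.D Δ e) ^ c ≤ (maximalIdeal A).map ((m.σ Δ e).comp (Δ.φ ^ j)) := by
  refine m.es_pow_le h e _ ⟨p ^ e, ?_⟩ fun i => ⟨p ^ j, ?_⟩
  · rw [← m.p_eq Δ e, ← map_natCast ((m.σ Δ e).comp (Δ.φ ^ j))]
    exact Ideal.mem_map_of_mem _ (nb_p_mem h)
  · have := Ideal.mem_map_of_mem ((m.σ Δ e).comp (Δ.φ ^ j)) (es_X'_mem h i)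
    rwa [RingHom.comp_apply, nb_φ_pow_X h, map_pow] at this
theorem nb_sop (h : MBase p A X' Δ) (e j : ℕ) [IsLocalRing (m.D Δ e)] {k c : ℕ} {z : Fin k → m.D Δ e}
    (hz : ∀ i, z i ∈ maximalIdeal (m.D Δ e)) {J : Ideal A} (hc : maximalIdeal A ^ c ≤ J)
    (hJ : J ≤ (idl z).comap ((m.σ Δ e).comp (Δ.φ ^ j))) : Sop z := by
  obtain ⟨c', hc'⟩ := m.pow_le_map h e j
  refine ⟨hz, c' * c, ?_⟩
  rw [pow_mul]
  refine (Ideal.pow_right_mono hc' c).trans ?_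
  rw [← Ideal.map_pow, Ideal.map_le_iff_le_comap]
  exact hc.trans hJ

theorem nb_sop0 (h : MBase p A X' Δ) (e : ℕ) [IsLocalRing (m.D Δ e)] {n c : ℕ} {z : Fin n → m.D Δ e}
    (hz : ∀ i, z i ∈ maximalIdeal (m.D Δ e)) {t : Fin n → A}
    (hc : maximalIdeal A ^ c ≤ m.𝔣 ⊔ Ideal.span {(p : A)} ⊔ idl t)
    (ht : ∀ i, z i - m.σ Δ e (t i) ∈ Ideal.span {m.π Δ e m.u}) :
    Sop (Fin.cons (m.π Δ e m.u) z : Fin (n + 1) → m.D Δ e) := by
  have hU : Ideal.span {m.π Δ e m.u} ≤ idl (Fin.cons (m.π Δ e m.u) z : Fin (n + 1) → m.D Δ e) :=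
    (Ideal.span_singleton_le_iff_mem _).2 (ln_mem_idl (Fin.cons (m.π Δ e m.u) z : Fin (n + 1) → m.D Δ e) 0)
  refine m.nb_sop h e 0 (fun i => Fin.cases (m.es_πX_mem h e _) hz i) hc
    (sup_le (fun b hb => hU (m.σ_mem_u e hb)) (ln_idl_le fun i => ?_))
  have h1 := Ideal.sub_mem _ (ln_mem_idl (Fin.cons (m.π Δ e m.u) z : Fin (n + 1) → m.D Δ e) i.succ) (hU (ht i))
  rwa [Fin.cons_succ, sub_sub_cancel] at h1


theorem sop_φ (h : MBase p A X' Δ) (e : ℕ) [IsLocalRing (m.D Δ e)] {a c : ℕ} {t : Fin a → A}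
    (ht : ∀ i, t i ∈ maximalIdeal A) (hc : maximalIdeal A ^ c ≤ m.𝔣 ⊔ idl t) :
    Sop fun i => m.σ Δ e ((Δ.φ ^ e) (t i)) := by
  refine m.nb_sop h e e (fun i => (m.es_πC_mem h e _).2 ?_) hc (sup_le (fun b hb => ?_) (ln_idl_le fun i => ?_))
  · refine es_C_mem_of h (Δ.φ ^ e) _ (nb_p_mem h) (fun i => ?_) (ht i)
    rw [nb_φ_pow_X h]
    exact Ideal.pow_mem_of_mem _ (es_X'_mem h i) _ (pow_pos (Fact.out : p.Prime).pos e)
  · rw [Ideal.mem_comap, RingHom.comp_apply, m.σ_φ_eq_zero h e hb]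
    exact Ideal.zero_mem _
  · exact ln_mem_idl (fun i => m.σ Δ e ((Δ.φ ^ e) (t i))) i
theorem sop_u (h : MBase p A X' Δ) (e : ℕ) [IsLocalRing (m.D Δ e)] {n c : ℕ} {t : Fin n → A}
    (ht : ∀ i, t i ∈ maximalIdeal A) (hc : maximalIdeal A ^ c ≤ m.𝔣 ⊔ Ideal.span {(p : A)} ⊔ idl t) :
    Sop (Fin.cons (m.π Δ e m.u) fun i => m.σ Δ e (t i) : Fin (n + 1) → m.D Δ e) := by
  exact m.nb_sop0 h e (fun i => (m.es_πC_mem h e _).2 (ht i)) hc fun i => by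
    rw [sub_self]; exact Ideal.zero_mem _
theorem sop_ux (h : MBase p A X' Δ) (e : ℕ) [IsLocalRing (m.D Δ e)] {n c : ℕ} (ι : Fin n → m.V)
    (hc : maximalIdeal A ^ c ≤ m.𝔣 ⊔ Ideal.span {(p : A)} ⊔ idl fun j => m.g (ι j)) :
    Sop (Fin.cons (m.π Δ e m.u) fun j => m.π Δ e (m.xv (ι j)) : Fin (n + 1) → m.D Δ e) := by
  exact m.nb_sop0 h e (fun i => m.es_πX_mem h e _) hc fun i => m.xv_sub_mem_u e _
/-- `sop_u`, `es_reg`, `rg2_reg_self` (see `u_regular` in `R183/MxS.lean`). -/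
theorem u_reg (h : MBase p A X' Δ) {n c : ℕ} (hn : n + 1 + m.c = d) {t : Fin n → A}
    (ht : ∀ i, t i ∈ maximalIdeal A) (hc : maximalIdeal A ^ c ≤ m.𝔣 ⊔ Ideal.span {(p : A)} ⊔ idl t) (e : ℕ)
    (b : m.D Δ e) (hb : m.π Δ e m.u * b = 0) : b = 0 := by
  have := m.isLocalRing h e
  have h1 := rg2_reg_self.1 (m.es_reg h e hn (m.sop_u h e ht hc)) 0 b
  have h0 : idlLt (Fin.cons (m.π Δ e m.u) fun i => m.σ Δ e (t i) : Fin (n + 1) → m.D Δ e) 0 = ⊥ := by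
    simp [idlLt]
  rw [h0, Ideal.mem_bot, Ideal.mem_bot] at h1
  exact h1 hb
theorem z_reg (h : MBase p A X' Δ) {n c : ℕ} (hn : n + 2 + m.c = d) {z : A} {t : Fin n → A}
    (hz : z ∈ maximalIdeal A) (ht : ∀ i, t i ∈ maximalIdeal A)
    (hc : maximalIdeal A ^ c ≤ m.𝔣 ⊔ Ideal.span {(p : A)} ⊔ idl (Fin.cons z t : Fin (n + 1) → A)) (e : ℕ)
    (b : m.D Δ e) (hb : m.σ Δ e z * b ∈ Ideal.span {m.π Δ e m.u}) : b ∈ Ideal.span {m.π Δ e m.u} := by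
  have := m.isLocalRing h e
  have h1 := rg2_reg_self.1 (m.es_reg h e hn (m.sop_u h e (fun i => Fin.cases hz ht i) hc)) (Fin.succ 0) b
  have h2 : {i : Fin (n + 2) | i < Fin.succ 0} = {0} := by
    ext i
    simp only [Set.mem_ofPred_eq, Set.mem_singleton_iff, Fin.lt_def, Fin.val_succ, Fin.val_zero, Fin.ext_iff]
    omega
  rw [idlLt, h2, Set.image_singleton] at h1
  exact h1 hb
theorem nb_iter_p_pow {B : Type} [CommRing B] (Δ' : DeltaS B p) (n : ℕ) (w : B) :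
    Δ'.δ^[n] ((p : B) ^ n * w) - w ^ p ^ n ∈ Ideal.span {(p : B)} := by
  have hp : p.Prime := Fact.out
  induction n generalizing w with
  | zero => simp
  | succ n ih =>
    obtain ⟨k, hk⟩ : ∃ k, (n + 1) * (p - 1) = k + 1 :=
      ⟨(n + 1) * (p - 1) - 1, by
        have : 0 < (n + 1) * (p - 1) := Nat.mul_pos n.succ_pos (by have := hp.two_le; omega)
        omega⟩
    have h2 : ((p : B) ^ (n + 1)) ^ p = (p : B) ^ n * (p : B) ^ (k + 2) := by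
      rw [← pow_mul, ← pow_add]
      congr 1
      obtain ⟨q, hq⟩ : ∃ q, p = q + 1 := ⟨p - 1, by have := hp.pos; omega⟩
      rw [hq, Nat.add_sub_cancel] at hk
      rw [hq, mul_add, hk]
      ring
    have e : Δ'.δ ((p : B) ^ (n + 1) * w) =
        (p : B) ^ n * ((p : B) ^ (k + 2) * Δ'.δ w + Δ'.φ w * (1 - (p : B) ^ (k + 1))) := by
      rw [Δ'.δ_mul, ek_δ_p_pow, hk, h2]
      ring
    rw [Function.iterate_succ_apply, e]
    set w' := (p : B) ^ (k + 2) * Δ'.δ w + Δ'.φ w * (1 - (p : B) ^ (k + 1)) with hw'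
    have h3 : (p : B) ∣ w' - w ^ p :=
      ⟨(p : B) ^ (k + 1) * Δ'.δ w + Δ'.δ w - Δ'.φ w * (p : B) ^ k, by
        rw [hw']; linear_combination Δ'.spec w⟩
    have h4 : w' ^ p ^ n - w ^ p ^ (n + 1) ∈ Ideal.span {(p : B)} := by
      rw [pow_succ' p n, pow_mul]
      exact Ideal.mem_span_singleton.2 (h3.trans (sub_dvd_pow_sub_pow _ _ _))
    simpa using Ideal.add_mem _ (ih w') h4


/-- `Hn * z ≡ p^n z` modulo the `δ`-stable ideal `(u)` (`iter_δ_congr`), and by induction on `i ≤ n`: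
`δ^i (p^n z) = p^(n-i) w` with `w ≡ z^(p^i)` modulo `p`. -/
theorem _root_.Crest.Agent.R188.key3 {B : Type} [CommRing B] (Δ' : DeltaS B p) {u : B} (hu : Δ'.φ u = u ^ p) (z : B)
    (n : ℕ) : Δ'.δ^[n] (Hn p u n * z) - z ^ p ^ n ∈ Ideal.span {(p : B), u} := by
  have h0 : Hn p u n * z - (p : B) ^ n * z ∈ Ideal.span {u} := by
    have e : Hn p u n * z - (p : B) ^ n * z = (∑ j ∈ Finset.range n, (p : B) ^ j * u ^ (n - j)) * z := by
      rw [Hn, Finset.sum_range_succ, Nat.sub_self]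
      ring
    rw [e]
    refine Ideal.mul_mem_right _ _ (Ideal.sum_mem _ fun j hj => Ideal.mul_mem_left _ _ ?_)
    exact Ideal.pow_mem_of_mem _ (Ideal.mem_span_singleton_self u) _ (by have := Finset.mem_range.1 hj; omega)
  have h1 := iter_δ_congr Δ' (fun _ => Ideal.span {u}) (fun _ => le_rfl)
    (fun _ a ha => δ_mem_span_rank_one Δ' (by rintro _ rfl; exact hu) ha) h0 n
  have h2 := nb_iter_p_pow Δ' n z
  have h3 : Ideal.span {u} ≤ Ideal.span {(p : B), u} := Ideal.span_mono (by simp)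
  have h4 : Ideal.span {(p : B)} ≤ Ideal.span {(p : B), u} := Ideal.span_mono (by simp)
  simpa using Ideal.add_mem _ (h3 h1) (h4 h2)
/-- `b = u^N z` lies in `I 0 ⊔ (p - u)` for the chain `I i = Ir i ⊔ (X_v, X_v')`.  Use `key0` with `n = N`,
`iter_δ_rank_one` and `key3`; `c = N p^N`, and `z' = δ^N (Hn * C z) - u^(p^N) * (…)`. -/
theorem key_z (v v' : m.V) {N : ℕ} {z : A} (hz : (p : A) ^ N * z ∈ m.𝔣 ⊔ Ideal.span {m.g v, m.g v'}) :
    ∃ (n c : ℕ) (z' : m.𝒜), z' - C z ^ p ^ n ∈ Ideal.span {(p : m.𝒜), m.u} ∧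
      m.u ^ c * z' ∈ m.Ik Δ n ⊔ Ideal.span {m.xv v, m.xv v'} := by
  let I : ℕ → Ideal m.𝒜 := fun i => m.Ir Δ i ⊔ Ideal.span {m.xv v, m.xv v'}
  have hle : m.Ir Δ 0 ⊔ Ideal.span {(p : m.𝒜) - m.u} ≤ I 0 ⊔ Ideal.span {(p : m.𝒜) - m.u} :=
    sup_le_sup_right le_sup_left _
  have hg : ∀ w : m.V, m.xv w ∈ Ideal.span {m.xv v, m.xv v'} →
      (C (m.g w) : m.𝒜) ∈ I 0 ⊔ Ideal.span {(p : m.𝒜) - m.u} := fun w hw => by
    have := Ideal.sub_mem _ (Ideal.mem_sup_left (Ideal.mem_sup_right hw)) (hle (m.xv_sub_mem (Δ := Δ) w))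
    rwa [sub_sub_cancel] at this
  have h1 : (C ((p : A) ^ N * z) : m.𝒜) ∈ I 0 ⊔ Ideal.span {(p : m.𝒜) - m.u} := by
    refine (sup_le (fun b hb => hle (m.C_mem hb)) (Ideal.span_le.2 ?_) :
      _ ≤ (I 0 ⊔ Ideal.span {(p : m.𝒜) - m.u}).comap (C : A →+* m.𝒜)) hz
    rintro _ (rfl | rfl)
    · exact hg v (Ideal.subset_span (by simp))
    · exact hg v' (Ideal.subset_span (by simp))
  have h2 : m.u ^ N * C z ∈ I 0 ⊔ Ideal.span {(p : m.𝒜) - m.u} := by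
    have e : m.u ^ N * C z = C ((p : A) ^ N * z) - ((p : m.𝒜) ^ N - m.u ^ N) * C z := by
      rw [map_mul, map_pow, map_natCast]; ring
    rw [e]
    exact Ideal.sub_mem _ h1 (Ideal.mem_sup_right (Ideal.mul_mem_right _ _
      (Ideal.mem_span_singleton.2 (sub_dvd_pow_sub_pow _ _ _))))
  have h3 := key0 (m.Δ' Δ) I (fun i => sup_le_sup_right (m.Ir_mono (Nat.le_succ i)) _)
    (fun i a ha => δ_mem_sup (m.Δ' Δ) (m.Ir_mono (Nat.le_succ i)) le_rfl (m.Ir_δ i)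
      (fun a ha => δ_mem_span_rank_one (m.Δ' Δ) (by rintro _ (rfl | rfl) <;> exact m.φ_inl Δ _) ha) ha)
    m.φ_u h2 N
  rw [mul_left_comm, iter_δ_rank_one (m.Δ' Δ) (V := m.u ^ N)
    (by rw [map_pow, m.φ_u, ← pow_mul, ← pow_mul, mul_comm]), ← pow_mul] at h3
  have h4 := key3 (m.Δ' Δ) m.φ_u (C z) N
  obtain ⟨i, hi, x, hx, hix⟩ := Submodule.mem_sup.1 h3
  obtain ⟨a, b, rfl⟩ := Ideal.mem_span_pair.1 hx
  refine ⟨N, N * p ^ N, (m.Δ' Δ).δ^[N] (Hn p m.u N * C z) - b * m.u ^ p ^ N, ?_, ?_⟩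
  · rw [sub_right_comm]
    exact Ideal.sub_mem _ h4 (Ideal.mul_mem_left _ _ (Ideal.pow_mem_of_mem _ (Ideal.subset_span (by simp)) _
      (pow_pos (Fact.out : p.Prime).pos N)))
  · have e : m.u ^ (N * p ^ N) * ((m.Δ' Δ).δ^[N] (Hn p m.u N * C z) - b * m.u ^ p ^ N) = i + a * p := by
      rw [add_mul, one_mul, pow_add] at hix
      linear_combination -hix
    rw [e]
    refine Ideal.add_mem _ ((sup_le_sup_right le_sup_right _ : I N ≤ _) hi) ?_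
    exact Ideal.mem_sup_left (Ideal.mem_sup_left (Ideal.mul_mem_left _ _ (Ideal.mem_span_singleton_self _)))
/-- `key2` with `V = X_v u^N`, `η = 1`, `𝔫 = (u)`, `n = e - j`; `η'` is a unit in `D e` and `p = u^(p^e)`. -/
theorem key_p (h : MBase p A X' Δ) (v : m.V) {N : ℕ} (hN : m.g v * (p : A) ^ N ∈ m.𝔣) {e j : ℕ} (hj : j ≤ e)
    (he : p ^ j ≤ e - j + 1) :
    (m.π Δ e (m.xv v) * m.π Δ e m.u ^ N) ^ p ^ (e - j) ∈ Ideal.span {m.π Δ e m.u ^ p ^ e} := by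
  have h1 : m.xv v * m.u ^ N * 1 ∈ m.Ir Δ 0 ⊔ Ideal.span {(p : m.𝒜) - m.u} := by
    have e : m.xv v * m.u ^ N * 1 = (m.xv v - C (m.g v)) * m.u ^ N + C (m.g v * (p : A) ^ N)
        - C (m.g v) * ((p : m.𝒜) ^ N - m.u ^ N) := by
      rw [map_mul, map_pow, map_natCast]; ring
    rw [e]
    exact Ideal.sub_mem _ (Ideal.add_mem _ (Ideal.mul_mem_right _ _ (m.xv_sub_mem v)) (m.C_mem hN))
      (Ideal.mem_sup_right (Ideal.mul_mem_left _ _ (Ideal.mem_span_singleton.2 (sub_dvd_pow_sub_pow _ _ _))))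
  obtain ⟨η, hη, h2⟩ := key2 (m.Δ' Δ) (m.Ir Δ) (fun i => m.Ir_mono (Nat.le_succ i)) m.Ir_δ m.φ_u
    (𝔫 := Ideal.span {m.u}) (fun a ha => δ_mem_span_rank_one (m.Δ' Δ) (by rintro _ rfl; exact m.φ_u) ha)
    (Ideal.mem_span_singleton_self _) (V := m.xv v * m.u ^ N)
    (by rw [map_mul, map_pow, m.φ_u, m.φ_inl Δ, mul_pow, ← pow_mul, ← pow_mul, mul_comm N])
    (by simp) h1 (e - j)
  obtain ⟨c, hc⟩ := Ideal.mem_span_singleton'.1 hη
  obtain ⟨w, hw⟩ := (m.nb_unit (Δ := Δ) e (s := η) (by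
    rw [← sub_eq_zero, ← map_one (constantCoeff : m.𝒜 →+* A), ← map_sub, ← hc]
    simp [u])).exists_right_inv
  have h3 : m.π Δ e ((m.xv v * m.u ^ N) ^ p ^ (e - j) * η) ∈ Ideal.span {m.π Δ e m.u ^ p ^ e} := by
    refine (sup_le (fun a ha => ?_) (Ideal.span_le.2 ?_) :
      _ ≤ (Ideal.span {m.π Δ e m.u ^ p ^ e}).comap (m.π Δ e)) h2
    · rw [Ideal.mem_comap, m.π_Ir (Nat.sub_le e j) ha]
      exact Ideal.zero_mem _
    · rintro _ (rfl | rfl)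
      · rw [SetLike.mem_coe, Ideal.mem_comap, map_natCast, m.p_eq Δ e]
        exact Ideal.mem_span_singleton_self _
      · rw [SetLike.mem_coe, Ideal.mem_comap, map_pow]
        refine Ideal.mem_span_singleton.2 (pow_dvd_pow _ ?_)
        calc p ^ e = p ^ j * p ^ (e - j) := by rw [← pow_add, Nat.add_sub_cancel' hj]
          _ ≤ _ := Nat.mul_le_mul_right _ he
  have h4 := Ideal.mul_mem_right w _ h3
  rwa [map_mul, mul_assoc, hw, mul_one, map_pow, map_mul, map_pow] at h4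
end Env

theorem reg_mod_pow {D : Type} [CommRing D] {U z : D} (hU : ∀ y, U * y = 0 → y = 0)
    (hz : ∀ y, z * y ∈ Ideal.span {U} → y ∈ Ideal.span {U}) (q : ℕ) (y : D) (hy : z * y ∈ Ideal.span {U ^ q}) :
    y ∈ Ideal.span {U ^ q} := by
  induction q generalizing y with
  | zero => simp
  | succ q ih =>
    obtain ⟨c, hc⟩ := Ideal.mem_span_singleton'.1 hy
    obtain ⟨y1, rfl⟩ := Ideal.mem_span_singleton'.1
      (hz y (Ideal.mem_span_singleton'.2 ⟨c * U ^ q, by rw [← hc]; ring⟩))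
    have h1 : z * y1 - c * U ^ q = 0 := hU _ (by linear_combination -hc)
    obtain ⟨c', rfl⟩ := Ideal.mem_span_singleton'.1
      (ih y1 (Ideal.mem_span_singleton'.2 ⟨c, (sub_eq_zero.1 h1).symm⟩))
    exact Ideal.mem_span_singleton'.2 ⟨c', by ring⟩
end Crest.Agent.R188
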