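import Crest.Agent.R188.Defs
import Crest.Agent.R183.Reg2
import Crest.Agent.R183.Len

/-!
# rid 188, file `ResEx`: finite free resolutions over regular local rings

Prefix helper lemmas with `rx_`.
-/

set_option autoImplicit false

open IsLocalRing Crest.Agent.R183

namespace Crest.Agent.R188

open Matrix

variable {R : Type} [CommRing R]

/-- If `x` is regular on `G / K` then `K ⊓ (x) G = (x) K` (`Reg.kos`). -/
theorem inf_ism_of_reg {d : ℕ} {x : Fin d → R} {G W : Type} [AddCommGroup G] [Module R G] [AddCommGroup W]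
    [Module R W] (f : G →ₗ[R] W) (hf : Function.Surjective f) (h : Reg x W) :
    LinearMap.ker f ⊓ ism (idl x) G = idl x • LinearMap.ker f := by
  refine le_antisymm ?_ (le_inf Submodule.smul_le_right (Submodule.smul_mono le_rfl le_top))
  rintro g ⟨hg0, hg⟩
  obtain ⟨b, -, -, rfl⟩ := rg_exists_sum x Set.univ ⊤ (w := g) (by rw [Set.image_univ]; exact hg)
  obtain ⟨a, ha, ha0, hb⟩ := h.kos (fun i => f (b i)) (by
    simpa only [map_sum, map_smul] using LinearMap.mem_ker.1 hg0)
  choose c hc using fun i j => hf (a i j)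
  let c' : Fin d → Fin d → G := fun i j => if i < j then c i j else if j < i then -c j i else 0
  have h1 : ∀ i j, f (c' i j) = a i j := fun i j => by
    simp only [c']
    split_ifs with h1 h2
    · exact hc i j
    · rw [map_neg, hc, ← ha]
    · obtain rfl : i = j := le_antisymm (not_lt.1 h2) (not_lt.1 h1)
      rw [map_zero, ha0]
  have h2 : ∑ i, x i • ∑ j, x j • c' i j = 0 := by
    simp only [Finset.smul_sum]
    rw [← Finset.sum_product']
    refine Finset.sum_involution (fun p _ => p.swap) (fun p _ => ?_) (fun p _ hp e => hp ?_)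
      (fun _ _ => by simp) (fun _ _ => rfl)
    · obtain ⟨i, j⟩ := p
      simp only [Prod.swap, c']
      rcases lt_trichotomy i j with h | rfl | h
      · simp [h, h.not_gt, smul_comm (x i) (x j)]
      · simp
      · simp [h, h.not_gt, smul_comm (x i) (x j)]
    · have : p.2 = p.1 := congrArg Prod.fst e
      simp [c', this]
  have e : ∑ i, x i • b i = ∑ i, x i • (b i - ∑ j, x j • c' i j) := by
    simp only [smul_sub, Finset.sum_sub_distrib, h2, sub_zero]
  rw [e]
  refine Submodule.sum_mem _ fun i _ => Submodule.smul_mem_smul (ln_mem_idl x i) ?_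
  rw [LinearMap.mem_ker, map_sub, hb i, map_sum]
  simp only [map_smul, h1, sub_self]

/-- Lift a basis of `W / 𝔪 W`; the kernel `K` of `R^r → W` lies in `𝔪 R^r`, so `K = 𝔪 K = 0`. -/
theorem free_of_reg [IsLocalRing R] [IsNoetherianRing R] {d : ℕ} {x : Fin d → R} (hx : idl x = maximalIdeal R)
    {W : Type} [AddCommGroup W] [Module R W] [Module.Finite R W] (h : Reg x W) :
    ∃ r : ℕ, Nonempty (W ≃ₗ[R] (Fin r → R)) ∧ colen R (ism (idl x) W) = r := by
  let b := Module.finBasis (ResidueField R) (TensorProduct R (ResidueField R) W)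
  choose v hv using fun i => TensorProduct.mk_surjective R W (ResidueField R)
    Ideal.Quotient.mk_surjective (b i)
  have hs := IsLocalRing.span_eq_top_of_tmul_eq_basis v b hv
  let f := Fintype.linearCombination R v
  have hf : Function.Surjective f := by
    rw [← LinearMap.range_eq_top, Fintype.range_linearCombination, hs]
  have hk : LinearMap.ker f ≤ ism (idl x) _ := fun c hc => by
    rw [rg2_mem_pi]
    intro i
    rw [rg2_mem_self, hx, ← residue_eq_zero_iff]
    refine Fintype.linearIndependent_iff.1 b.linearIndependent (fun i => residue R (c i)) ?_ i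
    have := congrArg (TensorProduct.mk R (ResidueField R) W 1) (LinearMap.mem_ker.1 hc)
    rw [map_zero, Fintype.linearCombination_apply, map_sum] at this
    rw [← this]
    refine Finset.sum_congr rfl fun j _ => ?_
    rw [map_smul, hv]
    exact algebraMap_smul (ResidueField R) (c j) (b j)
  have h0 : LinearMap.ker f = ⊥ := by
    refine Submodule.eq_bot_of_le_smul_of_le_jacobson_bot (idl x) _ (IsNoetherian.noetherian _) ?_
      (by rw [hx, IsLocalRing.jacobson_eq_maximalIdeal ⊥ bot_ne_top])
    rw [← inf_ism_of_reg f hf h]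
    exact le_inf le_rfl hk
  let e := LinearEquiv.ofBijective f ⟨LinearMap.ker_eq_bot.1 h0, hf⟩
  refine ⟨_, ⟨e.symm⟩, ?_⟩
  have h1 : colen R (ism (idl x) R) = 1 := by
    have : ism (idl x) R = maximalIdeal R := by
      ext a
      rw [rg2_mem_self, hx]
    rw [this]
    have : IsSimpleModule R (R ⧸ maximalIdeal R) :=
      isSimpleModule_iff_isCoatom.2 (Ideal.isMaximal_def.1 inferInstance)
    exact Module.length_eq_one R _
  have h2 := colen_ism_pi (W := R) (idl x)
    (Fin (Module.finrank (ResidueField R) (TensorProduct R (ResidueField R) W)))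
  rw [h1, mul_one, Fintype.card_fin] at h2
  rw [← h2]
  exact le_antisymm (colen_le_of_surj _ e.surjective (ln_map_ism e.toLinearMap (idl x)))
    (colen_le_of_surj _ e.symm.surjective (ln_map_ism e.symm.toLinearMap (idl x)))

/-- A free module is its own resolution. -/
theorem exists_res_free {ι N : Type} [Fintype ι] [AddCommGroup N] [Module R N] (e : (ι → R) ≃ₗ[R] N) (n : ℕ) :
    ∃ (F : MC R n) (ε : (F.ι → R) →ₗ[R] N), F.Res ε ∧ F.D = 0 ∧ (∀ a, F.deg a = 0) ∧
      Nonempty (F.ι ≃ ι) := by
  classical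
  refine ⟨⟨ι, fun _ => 0, fun _ => Nat.zero_le _, 0, fun _ _ h => absurd rfl h, by simp⟩, e,
    ⟨e.surjective, fun w => by simp, fun w hw => ?_, fun w _ hw => ⟨0, ?_⟩⟩, rfl, fun _ => rfl,
    ⟨Equiv.refl _⟩⟩
  · rw [show w = 0 from funext fun a => hw a rfl, map_zero]
  · rw [e.map_eq_zero_iff.1 hw]
    simp

/-- Splice a resolution of the kernel: `ι = κ ⊕ F'.ι`, degrees `0` and `deg' + 1`, `D = fromBlocks 0 A 0 D'` with `A`
the matrix of `subtype ∘ ε'`. -/
theorem exists_res_splice {κ N : Type} [Fintype κ] [AddCommGroup N] [Module R N] (f : (κ → R) →ₗ[R] N)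
    (hf : Function.Surjective f) {n : ℕ} {F' : MC R n} {ε' : (F'.ι → R) →ₗ[R] LinearMap.ker f}
    (h : F'.Res ε') : ∃ (F : MC R (n + 1)) (ε : (F.ι → R) →ₗ[R] N), F.Res ε := by
  classical
  let A : Matrix κ F'.ι R := LinearMap.toMatrix' ((LinearMap.ker f).subtype ∘ₗ ε')
  have hA : ∀ w, A.mulVec w = (ε' w : κ → R) := fun w => LinearMap.toMatrix'_mulVec _ w
  have hAD : A * F'.D = 0 := Matrix.ext_of_mulVec_single fun i => by
    rw [← Matrix.mulVec_mulVec, hA, h.εD, Matrix.zero_mulVec]
    rfl
  let F : MC R (n + 1) :=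
    { ι := κ ⊕ F'.ι
      deg := Sum.elim (fun _ => 0) fun b => F'.deg b + 1
      deg_le := by
        rintro (a | a)
        · exact Nat.zero_le _
        · exact Nat.succ_le_succ (F'.deg_le a)
      D := Matrix.fromBlocks 0 A 0 F'.D
      hD := by
        rintro (a | a) (b | b) hab
        · exact absurd rfl hab
        · by_contra hb
          refine hab ?_
          have h1 := congrFun (hA (Pi.single b 1)) a
          rw [h.ε0 _ fun c hc => Pi.single_eq_of_ne (by rintro rfl; exact hb (by simp [hc])) _] at h1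
          simpa using h1
        · exact absurd rfl hab
        · exact congrArg (· + 1) (F'.hD a b hab)
      sq := by simp [Matrix.fromBlocks_multiply, hAD, F'.sq] }
  have hD : ∀ w : κ ⊕ F'.ι → R, F.D.mulVec w =
      Sum.elim (ε' (w ∘ Sum.inr) : κ → R) (F'.D.mulVec (w ∘ Sum.inr)) := fun w => by
    change (Matrix.fromBlocks 0 A 0 F'.D).mulVec w = _
    simp [Matrix.fromBlocks_mulVec, hA]
  refine ⟨F, f ∘ₗ LinearMap.funLeft R R Sum.inl, fun y => ?_, fun w => ?_, fun w hw => ?_,
    fun w hw hw' => ?_⟩
  · obtain ⟨u, rfl⟩ := hf y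
    exact ⟨Sum.elim u 0, rfl⟩
  · rw [hD]
    exact (ε' _).2
  · have : LinearMap.funLeft R R Sum.inl w = 0 := funext fun a => hw (Sum.inl a) rfl
    rw [LinearMap.comp_apply, this, map_zero]
  · rw [hD] at hw
    obtain ⟨v, hv⟩ := h.exact (w ∘ Sum.inr) (funext fun a => congrFun hw (Sum.inr a))
      (Subtype.ext (funext fun a => congrFun hw (Sum.inl a)))
    obtain ⟨u, hu⟩ := h.surj (⟨w ∘ Sum.inl, hw'⟩ - ε' v)
    let u0 : F'.ι → R := fun a => if F'.deg a = 0 then u a else 0
    have h1 : ε' u0 = ε' u := by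
      rw [eq_comm, ← sub_eq_zero, ← map_sub]
      exact h.ε0 _ fun a ha => by simp [u0, ha]
    have h2 : F'.D.mulVec u0 = 0 := funext fun a => Finset.sum_eq_zero fun b _ => by
      by_cases hab : F'.D a b = 0
      · simp [hab]
      · simp [u0, F'.hD a b hab]
    refine ⟨Sum.elim 0 (v + u0), ?_⟩
    rw [hD, Sum.elim_comp_inr, map_add, h1, hu, add_sub_cancel, Matrix.mulVec_add, hv, h2, add_zero]
    exact Sum.elim_comp_inl_inr w

/-- Show by induction on `k` that a finite module on which the first `d - k` elements of `x` are regular has a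
resolution of length `≤ k`: for `k = 0` it is free; a syzygy gains one regular element (`inf_ism_of_reg` for initial
segments of `x`). -/
theorem exists_res [IsLocalRing R] [IsNoetherianRing R] {d : ℕ} (h : RegL R d) (N : Type) [AddCommGroup N]
    [Module R N] [Module.Finite R N] : ∃ (F : MC R d) (ε : (F.ι → R) →ₗ[R] N), F.Res ε := by
  obtain ⟨x, hr, hx⟩ := h
  suffices H : ∀ (k : ℕ) (N : Type) [AddCommGroup N] [Module R N] [Module.Finite R N],
      (∀ j : Fin d, j.1 + k < d → ∀ w : N, x j • w ∈ ism (idlLt x j) N → w ∈ ism (idlLt x j) N) →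
      ∃ (F : MC R k) (ε : (F.ι → R) →ₗ[R] N), F.Res ε from
    H d N fun j hj => absurd hj (by omega)
  intro k
  induction k with
  | zero =>
    intro N _ _ _ hN
    obtain ⟨r, ⟨e⟩, -⟩ := free_of_reg hx (W := N) fun j => hN j j.2
    obtain ⟨F, ε, hF, -⟩ := exists_res_free e.symm 0
    exact ⟨F, ε, hF⟩
  | succ k ih =>
    intro N _ _ _ hN
    obtain ⟨r, f, hf⟩ := Module.Finite.exists_fin' R N
    obtain ⟨F, ε, hF⟩ := ih (LinearMap.ker f) fun j hj w hw => by
      let y : Fin j.1 → R := fun i => x (Fin.castLE j.2.le i)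
      have e1 : idl y = idlLt x j := by
        unfold idl idlLt
        congr 1
        ext a
        constructor
        · rintro ⟨i, rfl⟩
          exact ⟨_, i.2, rfl⟩
        · rintro ⟨i, hi, rfl⟩
          exact ⟨⟨i.1, hi⟩, rfl⟩
      have e2 : ∀ i, idlLt y i = idlLt x (Fin.castLE j.2.le i) := fun i => by
        unfold idlLt
        congr 1
        ext a
        constructor
        · rintro ⟨l, hl, rfl⟩
          exact ⟨_, hl, rfl⟩
        · rintro ⟨l, hl, rfl⟩
          exact ⟨⟨l.1, lt_trans hl i.2⟩, hl, rfl⟩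
      have hy : Reg y N := fun i w hw => by
        rw [e2] at hw ⊢
        exact hN _ (by have := i.2; simp only [Fin.val_castLE]; omega) w hw
      have key := inf_ism_of_reg f hf hy
      rw [e1] at key
      rw [Submodule.mem_smul_top_iff, ← key]
      exact ⟨w.2, hr.pi _ j _ (rg_map_mem (LinearMap.ker f).subtype hw)⟩
    exact exists_res_splice f hf hF

end Crest.Agent.R188
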