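import Crest.Agent.R188.Defs2
import Crest.Agent.R188.ResEx
import Crest.Agent.R183.Cohen
import Crest.Agent.R183.Ord
import Crest.Agent.R183.Grow

/-!
# rid 188, file `ND`: uniform non-divisibility; the algebra `M*`

Prefix helper lemmas with `nd_`.
-/

set_option autoImplicit false

open IsLocalRing Crest.Agent.R183

namespace Crest.Agent.R188

/-- `S` is finite over a regular base `Λ` (`exists_rbase`, `exists_dim_eq`), `𝔪^c ≤ (X) S`.  There is `ν ≠ 0` in
`Λ` with image in `h S`, and `ν ∉ (X)^(o+1)` by Krull.  Take `K0 = c (o + 1)`; `W` is finite and faithful over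
`Λ`, so `exists_weighted_eq` (with `B = Λ`) and `mem_pow_of_integral` give `ν ∈ (X)^(o+1)`. -/
theorem not_le_pow (S : Type) [CommRing S] [IsDomain S] [IsLocalRing S] [IsNoetherianRing S]
    [IsAdicComplete (maximalIdeal S) S] [PerfectField (ResidueField S)] (hd : ¬ ringKrullDim S ≤ (0 : ℕ)) {h : S}
    (hh : h ≠ 0) : ∃ K0 : ℕ, ∀ (W : Type) [AddCommGroup W] [Module S W] [Module.Finite S W],
      (∀ b : S, (∀ w : W, b • w = 0) → b = 0) → ¬ ∀ w : W, h • w ∈ ism (maximalIdeal S ^ K0) W := by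
  obtain ⟨d0, hd0⟩ := exists_dim_eq S
  obtain ⟨d, rfl⟩ : ∃ d, d0 = d + 1 := by
    refine Nat.exists_eq_succ_of_ne_zero ?_
    rintro rfl
    exact hd hd0.le
  obtain ⟨Λ, _, X, Φ, hb, hfin, hinj, hs, c, hc⟩ := exists_rbase (R := S) (d := d) hd0.le (by
    rw [hd0, not_le]
    exact_mod_cast Nat.lt_succ_self d)
  let := Φ.toAlgebra
  have : Module.Finite Λ S := hfin
  have := hb.dom
  have := hb.noeth
  have hne : (Ideal.span {h}).comap (algebraMap Λ S) ≠ ⊥ :=
    Ideal.comap_ne_bot_of_integral_mem hh (Ideal.mem_span_singleton_self h) (Algebra.IsIntegral.isIntegral h)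
  obtain ⟨ν, hν, hν0⟩ := Submodule.exists_mem_ne_zero_of_ne_bot hne
  obtain ⟨r, hr⟩ := Ideal.mem_span_singleton'.1 (Ideal.mem_comap.1 hν)
  obtain ⟨o, ho⟩ : ∃ i, ν ∉ idl X ^ (i + 1) := by
    have h1 := Ideal.iInf_pow_eq_bot_of_isDomain (idl X) hb.max.ne_top
    by_contra hc
    push Not at hc
    refine hν0 ((Submodule.mem_bot Λ).1 ?_)
    rw [← h1, Submodule.mem_iInf]
    exact fun i => Ideal.pow_le_pow_right (Nat.le_succ i) (hc i)
  refine ⟨c * (o + 1), fun W _ _ _ hf hW => ho ?_⟩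
  let : Module Λ W := Module.compHom W Φ
  have : IsScalarTower Λ S W := ⟨fun a s w => mul_smul (Φ a) s w⟩
  have : Module.Finite Λ W := Module.Finite.trans S W
  have hle : maximalIdeal S ^ (c * (o + 1)) ≤ (idl X ^ (o + 1)).map (algebraMap Λ S) := by
    rw [pow_mul, Ideal.map_pow, ← rg2_idl_map]
    exact Ideal.pow_right_mono hc _
  obtain ⟨a, cc, ha, hcc, he⟩ := exists_weighted_eq (Λ := Λ) (B := Λ) (W := W)
    (fun b hb' => hinj (by rw [map_zero]; exact hf _ hb')) (idl X ^ (o + 1)) ν fun w => by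
      rw [← rg2_mem_map (Λ' := S)]
      have e : ν • w = r • h • w := by
        rw [smul_smul, hr]
        rfl
      rw [e]
      exact Submodule.smul_mem _ _ (rg2_mono hle (hW w))
  exact mem_pow_of_integral hb.reg hb.max.isPrime cc (fun j _ _ => by rw [mul_comm, pow_mul]; exact hcc j)
    (by simpa using he) ha

/-- Apply `not_le_pow` to `S = A / P` and `W = D / P D`, which is faithful: if `g b ∈ P D` then `b^a ∈ P + ker g`
by `exists_weighted_eq`. -/
theorem not_mem_pow (A : Type) [CommRing A] [IsLocalRing A] [IsNoetherianRing A]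
    [IsAdicComplete (maximalIdeal A) A] [PerfectField (ResidueField A)] (P : Ideal A) [P.IsPrime]
    (hP : P ≠ maximalIdeal A) {h : A} (hh : h ∉ P) : ∃ K0 : ℕ, ∀ (D : Type) [CommRing D] (g : A →+* D),
      g.Finite → (∀ b, g b = 0 → b ∈ P) → g h ∉ (maximalIdeal A ^ K0).map g := by
  have : IsLocalRing (A ⧸ P) := IsLocalRing.of_surjective' (Ideal.Quotient.mk P) Ideal.Quotient.mk_surjective
  have := complete_quot P
  have hloc := IsLocalHom.of_surjective (Ideal.Quotient.mk P) Ideal.Quotient.mk_surjective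
  have e : ResidueField A ≃+* ResidueField (A ⧸ P) :=
    RingEquiv.ofBijective (ResidueField.map (Ideal.Quotient.mk P)) ⟨RingHom.injective _, fun y => by
      obtain ⟨b, rfl⟩ := residue_surjective y
      obtain ⟨a, rfl⟩ := Ideal.Quotient.mk_surjective b
      exact ⟨residue A a, ResidueField.map_residue _ a⟩⟩
  have := PerfectField.of_ringEquiv e
  have hd : ¬ ringKrullDim (A ⧸ P) ≤ (0 : ℕ) := fun hd => by
    have := Ring.krullDimLE_iff.2 hd
    exact hP (eq_maximalIdeal (Ideal.Quotient.maximal_of_isField P Ring.KrullDimLE.isField_of_isDomain))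
  obtain ⟨K0, hK⟩ := not_le_pow (A ⧸ P) hd (h := Ideal.Quotient.mk P h)
    fun h0 => hh (Ideal.Quotient.eq_zero_iff_mem.1 h0)
  refine ⟨K0, fun D _ g hg hker hmem => ?_⟩
  let := g.toAlgebra
  have : Module.Finite A D := hg
  obtain ⟨Q, -, hQ, hQP⟩ := Ideal.exists_ideal_over_prime_of_isIntegral (S := D) P ⊥ fun b hb =>
    hker b ((Submodule.mem_bot D).1 hb)
  let φ : A ⧸ P →+* D ⧸ P.map g := Ideal.quotientMap (P.map g) g Ideal.le_comap_map
  let := φ.toAlgebra
  have hφ : ∀ b, algebraMap (A ⧸ P) (D ⧸ P.map g) (Ideal.Quotient.mk P b) = Ideal.Quotient.mk _ (g b) :=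
    fun b => rfl
  have : IsScalarTower A (A ⧸ P) (D ⧸ P.map g) := IsScalarTower.of_algebraMap_eq fun b => rfl
  have : Module.Finite (A ⧸ P) (D ⧸ P.map g) := Module.Finite.of_restrictScalars_finite A _ _
  refine hK (D ⧸ P.map g) (fun b hb => ?_) fun w => ?_
  · obtain ⟨b, rfl⟩ := Ideal.Quotient.mk_surjective b
    have h1 := hb 1
    rw [Algebra.smul_def, mul_one, hφ, Ideal.Quotient.eq_zero_iff_mem] at h1
    have h2 : P.map g ≤ Q := Ideal.map_le_iff_le_comap.2 hQP.ge
    rw [Ideal.Quotient.eq_zero_iff_mem, ← hQP]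
    exact h2 h1
  · rw [ism, Ideal.smul_top_eq_map, Submodule.restrictScalars_mem, Algebra.smul_def, hφ]
    refine Ideal.mul_mem_right _ _ ?_
    have h1 := Ideal.mem_map_of_mem (Ideal.Quotient.mk (P.map g)) hmem
    rw [Ideal.map_map] at h1
    have h2 : (Ideal.Quotient.mk (P.map g)).comp g =
        (algebraMap (A ⧸ P) (D ⧸ P.map g)).comp (Ideal.Quotient.mk P) := rfl
    rw [h2, ← Ideal.map_map, Ideal.map_pow] at h1
    refine Ideal.map_mono (Ideal.pow_right_mono ?_ _) h1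
    exact Ideal.map_le_iff_le_comap.2 fun b hb => map_nonunit (Ideal.Quotient.mk P) b hb

theorem nd_adjoin {D D0 L : Type} [CommRing D] [CommRing D0] [CommRing L] [Algebra D0 L] (m : D →+* D0)
    (hm : Function.Surjective m) (β : L) (u : D)
    (h : ∀ j : ℕ, ∃ z, algebraMap D0 L (m u) * β ^ j = algebraMap D0 L (m z)) {y : L}
    (hy : y ∈ Algebra.adjoin D0 {β}) : ∃ z, algebraMap D0 L (m u) * y = algebraMap D0 L (m z) := by
  rw [Algebra.adjoin_singleton_eq_range_aeval] at hy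
  obtain ⟨p, rfl⟩ := hy
  induction p using Polynomial.induction_on' with
  | add p q hp hq =>
    obtain ⟨z, hz⟩ := hp
    obtain ⟨z', hz'⟩ := hq
    refine ⟨z + z', ?_⟩
    simp only [AlgHom.toRingHom_eq_coe, RingHom.coe_coe, map_add] at hz hz' ⊢
    rw [mul_add, hz, hz']
  | monomial n a =>
    obtain ⟨z, hz⟩ := h n
    obtain ⟨a, rfl⟩ := hm a
    refine ⟨a * z, ?_⟩
    simp only [AlgHom.toRingHom_eq_coe, RingHom.coe_coe, Polynomial.aeval_monomial, map_mul]
    rw [mul_left_comm, hz]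

/-- Let `D0 = D / (0 : T^q)`; `ϖ` is regular on it and `T'^q = 0` there.  Let `M` be the `D0`-subalgebra of
`Localization.Away ϖ` generated by the nilpotent element `β = T'^s / ϖ` (`β^J = 0`); it is spanned by the `β^j`,
`j < J`, and `T^s β^j = (T T')^s T'^(s (j-1)) / ϖ^j` comes from `D`. -/
theorem exists_mstar {D : Type} [CommRing D] (ϖ T T' : D) (hϖ : ∀ y, ϖ * y = 0 → y = 0) {q s J N : ℕ}
    (hJ : q ≤ s * J) (hN : J ≤ N) (h0 : (T * T') ^ q = 0) (h1 : (T * T') ^ s ∈ Ideal.span {ϖ ^ N}) :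
    ∃ (M : Type) (_ : CommRing M) (π : D →+* M), π.Finite ∧ (∀ y, π ϖ * y = 0 → y = 0) ∧
      (∀ y, π y = 0 ↔ T ^ q * y = 0) ∧ (∀ y, ∃ z, π (ϖ ^ J) * y = π z) ∧ π (T' ^ s) ∈ Ideal.span {π ϖ} ∧
      ∀ y, ∃ z, π (T ^ s) * y = π z := by
  let D0 := D ⧸ col ⊥ (T ^ q)
  let m : D →+* D0 := Ideal.Quotient.mk _
  have hm : Function.Surjective m := Ideal.Quotient.mk_surjective
  have hm0 : ∀ y, m y = 0 ↔ T ^ q * y = 0 := fun y => by
    rw [Ideal.Quotient.eq_zero_iff_mem, mem_col, Ideal.mem_bot]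
  have hreg : m ϖ ∈ nonZeroDivisors D0 := by
    refine mem_nonZeroDivisors_iff_left.2 fun y hy => ?_
    obtain ⟨y, rfl⟩ := hm y
    rw [← map_mul, hm0] at hy
    rw [hm0]
    exact hϖ _ (by rw [← hy]; ring)
  let L := Localization.Away (m ϖ)
  have hinj : Function.Injective (algebraMap D0 L) :=
    IsLocalization.injective L (Submonoid.powers_le.2 hreg)
  obtain ⟨v, hv⟩ : ∃ v : L, algebraMap D0 L (m ϖ) * v = 1 :=
    (IsLocalization.Away.algebraMap_isUnit (S := L) (m ϖ)).exists_right_inv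
  let f : D →+* L := (algebraMap D0 L).comp m
  have hf : ∀ y, algebraMap D0 L (m y) = f y := fun y => rfl
  rw [hf] at hv
  let β : L := f T' ^ s * v
  have hT' : f T' ^ q = 0 := by
    have : m (T' ^ q) = 0 := (hm0 _).2 (by rw [← mul_pow, h0])
    rw [← map_pow, ← hf, this, map_zero]
  have hβ : ∀ j, J ≤ j → β ^ j = 0 := fun j hj => by
    have : q ≤ s * j := hJ.trans (Nat.mul_le_mul_left s hj)
    rw [mul_pow, ← pow_mul, pow_eq_zero_of_le this hT', zero_mul]
  have hint : IsIntegral D0 β := ⟨Polynomial.X ^ J, Polynomial.monic_X_pow J, by simp [hβ J le_rfl]⟩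
  have hfin := Algebra.finite_adjoin_simple_of_isIntegral hint
  let M := Algebra.adjoin D0 {β}
  let π : D →+* M := (algebraMap D0 M).comp m
  have hπ : ∀ y, ((π y : M) : L) = f y := fun y => rfl
  have hpv : ∀ a b : ℕ, a ≤ b → f ϖ ^ b * v ^ a = f ϖ ^ (b - a) := fun a b hab => by
    obtain ⟨e, rfl⟩ := Nat.exists_eq_add_of_le hab
    rw [Nat.add_sub_cancel_left, pow_add, mul_right_comm, ← mul_pow, hv, one_pow, one_mul]
  have key : ∀ u : D, (∀ j : ℕ, j < J → ∃ z, f u * β ^ j = f z) → ∀ y : M, ∃ z, π u * y = π z := by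
    intro u hu y
    obtain ⟨z, hz⟩ := nd_adjoin m hm β u (fun j => by
      rcases lt_or_ge j J with hj | hj
      · exact hu j hj
      · exact ⟨0, by rw [hβ j hj, mul_zero, map_zero, map_zero]⟩) y.2
    exact ⟨z, Subtype.ext hz⟩
  refine ⟨M, inferInstance, π, ?_, fun y hy => ?_, fun y => ?_, key _ fun j hj => ?_, ?_, key _ fun j hj => ?_⟩
  · exact RingHom.Finite.comp (RingHom.finite_algebraMap.2 hfin) (RingHom.Finite.of_surjective m hm)
  · have h2 : f ϖ * (y : L) = 0 := congrArg Subtype.val hy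
    refine Subtype.ext ?_
    have : (y : L) = v * (f ϖ * y) := by rw [← mul_assoc, mul_comm v, hv, one_mul]
    rw [this, h2, mul_zero]
    rfl
  · rw [← hm0]
    constructor
    · intro hy
      have h2 : algebraMap D0 L (m y) = 0 := congrArg Subtype.val hy
      exact hinj (by rw [h2, map_zero])
    · intro hy
      simp [π, hy]
  · refine ⟨ϖ ^ (J - j) * T' ^ (s * j), ?_⟩
    simp only [β, map_mul, map_pow, mul_pow]
    rw [← hpv j J hj.le, ← pow_mul]
    ring
  · refine Ideal.mem_span_singleton'.2 ⟨⟨β, Algebra.self_mem_adjoin_singleton D0 β⟩, Subtype.ext ?_⟩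
    change β * f ϖ = f (T' ^ s)
    rw [map_pow, mul_assoc, mul_comm v, hv, mul_one]
  · rcases j with _ | j
    · exact ⟨T ^ s, by simp⟩
    · obtain ⟨r, hr⟩ := Ideal.mem_span_singleton'.1 h1
      refine ⟨r * ϖ ^ (N - (j + 1)) * T' ^ (s * j), ?_⟩
      have h2 : f r * f ϖ ^ N = (f T * f T') ^ s := by rw [← map_pow, ← map_mul, hr, map_pow, map_mul]
      simp only [β, map_mul, map_pow, mul_pow] at h2 ⊢
      rw [← hpv (j + 1) N (by omega)]
      calc f T ^ s * ((f T' ^ s) ^ (j + 1) * v ^ (j + 1))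
          = (f T ^ s * f T' ^ s) * (f T' ^ (s * j) * v ^ (j + 1)) := by ring
        _ = _ := by rw [← h2]; ring

/-- Expand `(a T + b T')^(q + s) T^s κ`: every term vanishes or is divisible by `(T T')^s`.  Cancel
`U^(c (q + s))`, then `z^(q + s)`. -/
theorem mul_mem_of_kill {D : Type} [CommRing D] {U T T' z κ : D} (hU : ∀ y, U * y = 0 → y = 0) {q s c N : ℕ}
    (hs : s ≤ q) (hN : 2 * c + 1 ≤ N) (hz : ∀ y, z * y ∈ Ideal.span {U ^ q} → y ∈ Ideal.span {U ^ q})
    (hc : U ^ c * z ∈ Ideal.span {T, T'}) (h1 : (T * T') ^ s ∈ Ideal.span {(U ^ q) ^ N}) (hκ : T ^ q * κ = 0) :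
    T ^ s * κ ∈ Ideal.span {U ^ q} := by
  obtain ⟨a, b, hab⟩ := Ideal.mem_span_pair.1 hc
  have h2 : (U ^ c * z) ^ (q + s) * (T ^ s * κ) ∈ Ideal.span {(U ^ q) ^ N} := by
    rw [← hab, add_pow, Finset.sum_mul]
    refine Ideal.sum_mem _ fun i hi => ?_
    rcases le_or_gt q (i + s) with h | h
    · obtain ⟨e, he⟩ := Nat.exists_eq_add_of_le h
      have : (a * T) ^ i * (b * T') ^ (q + s - i) * ((q + s).choose i : D) * (T ^ s * κ) =
          a ^ i * (b * T') ^ (q + s - i) * ((q + s).choose i : D) * (T ^ (i + s) * κ) := by ring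
      rw [this, he, pow_add, mul_right_comm (T ^ q), hκ]
      simp
    · obtain ⟨e, he⟩ : ∃ e, q + s - i = s + e := ⟨q - i, by omega⟩
      have : (a * T) ^ i * (b * T') ^ (q + s - i) * ((q + s).choose i : D) * (T ^ s * κ) =
          ((a * T) ^ i * b ^ (s + e) * T' ^ e * ((q + s).choose i : D) * κ) * (T * T') ^ s := by
        rw [he]
        ring
      rw [this]
      exact Ideal.mul_mem_left _ _ h1
  obtain ⟨r, hr⟩ := Ideal.mem_span_singleton'.1 h2
  obtain ⟨e, he⟩ : ∃ e, q * N = c * (q + s) + (q + e) := by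
    refine ⟨q * N - (c * (q + s) + q), ?_⟩
    have h3 : q * (2 * c + 1) ≤ q * N := Nat.mul_le_mul_left q hN
    have h4 : c * s ≤ c * q := Nat.mul_le_mul_left c hs
    have h5 : c * (q + s) + q ≤ q * N := by nlinarith
    omega
  have hUk : ∀ (k : ℕ) (y : D), U ^ k * y = 0 → y = 0 := by
    intro k
    induction k with
    | zero => simp
    | succ k ih => exact fun y hy => hU _ (ih _ (by rw [← hy]; ring))
  have h3 : z ^ (q + s) * (T ^ s * κ) = (r * U ^ e) * U ^ q := by
    refine sub_eq_zero.1 (hUk (c * (q + s)) _ ?_)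
    rw [← pow_mul, he] at hr
    rw [mul_sub, sub_eq_zero]
    calc U ^ (c * (q + s)) * (z ^ (q + s) * (T ^ s * κ)) = (U ^ c * z) ^ (q + s) * (T ^ s * κ) := by
          rw [mul_pow, ← pow_mul, mul_assoc]
      _ = _ := by rw [← hr]; ring
  have hzk : ∀ (k : ℕ) (y : D), z ^ k * y ∈ Ideal.span {U ^ q} → y ∈ Ideal.span {U ^ q} := by
    intro k
    induction k with
    | zero => simp
    | succ k ih => exact fun y hy => hz _ (ih _ (by rwa [← mul_assoc, ← pow_succ]))
  exact hzk (q + s) _ (h3 ▸ Ideal.mul_mem_left _ _ (Ideal.mem_span_singleton_self _))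

/-- The quotient side `M = D / (0 : α)`. -/
noncomputable def Side.ofQuot (R D : Type) [CommRing R] [CommRing D] [Algebra R D] [Module.Finite R D] (α : D) :
    Side R where
  D := D
  M := D ⧸ col ⊥ α
  π := Ideal.Quotient.mkₐ R (col ⊥ α)
  α := α

theorem Side.ofQuot_sand (R D : Type) [CommRing R] [CommRing D] [Algebra R D] [Module.Finite R D] (α : D) :
    (Side.ofQuot R D α).Sand 0 := by
  refine ⟨fun y => ?_, fun d hd => ?_⟩
  · obtain ⟨d, rfl⟩ := Ideal.Quotient.mk_surjective (I := col ⊥ α) y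
    refine ⟨α * d, ?_⟩
    change Ideal.Quotient.mk (col ⊥ α) α * Ideal.Quotient.mk (col ⊥ α) d - Ideal.Quotient.mk (col ⊥ α) (α * d) ∈ _
    rw [map_mul, sub_self]
    exact Ideal.zero_mem _
  · rw [map_zero, Ideal.span_singleton_zero, Ideal.mem_bot] at hd ⊢
    exact (Ideal.Quotient.eq_zero_iff_mem (I := col ⊥ α)).1 hd

/-- Both modules are free over `Λ` (`free_of_reg`); compare ranks. -/
theorem inj_of_colen {Λ : Type} [CommRing Λ] [IsDomain Λ] [IsLocalRing Λ] [IsNoetherianRing Λ] {a : ℕ}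
    {z : Fin a → Λ} (hz : idl z = maximalIdeal Λ) {N D : Type} [AddCommGroup N] [Module Λ N] [Module.Finite Λ N]
    [AddCommGroup D] [Module Λ D] [Module.Finite Λ D] (hN : Reg z N) (hD : Reg z D) (ι : N →ₗ[Λ] D) {γ : Λ}
    (hγ : γ ≠ 0) (hc : ∀ y, γ • y ∈ LinearMap.range ι)
    (hl : colen Λ (ism (idl z) N) ≤ colen Λ (ism (idl z) D)) : Function.Injective ι := by
  obtain ⟨r, ⟨e⟩, hr⟩ := free_of_reg hz hN
  obtain ⟨r', ⟨e'⟩, hr'⟩ := free_of_reg hz hD
  rw [hr, hr', Nat.cast_le] at hl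
  have : Module.Free Λ N := Module.Free.of_equiv e.symm
  have : Module.Free Λ D := Module.Free.of_equiv e'.symm
  have h1 : Module.finrank Λ N = r := by rw [e.finrank_eq]; simp
  have h2 : Module.finrank Λ D = r' := by rw [e'.finrank_eq]; simp
  have h3 : Module.finrank Λ D ≤ Module.finrank Λ (LinearMap.range ι) := by
    refine LinearMap.finrank_le_finrank_of_injective
      (f := LinearMap.codRestrict _ (LinearMap.lsmul Λ D γ) hc) fun x y hxy => ?_
    exact smul_right_injective D hγ (congrArg Subtype.val hxy)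
  have h4 := (LinearMap.ker ι).finrank_quotient_add_finrank
  rw [ι.quotKerEquivRange.finrank_eq] at h4
  rw [← LinearMap.ker_eq_bot, ← Submodule.finrank_eq_zero]
  omega

end Crest.Agent.R188
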