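import Crest.Agent.R188.EnvB
import Crest.Agent.R188.ND

/-!
# rid 188, file `EnvG`: sides built on `D e`

Prefix helper lemmas with `ng_`.
-/

set_option autoImplicit false
set_option linter.unusedSectionVars false

open IsLocalRing Crest.Agent.R183

namespace Crest.Agent.R188

variable {p : ℕ} [Fact p.Prime] {k : Type} [Field k] [CharP k p] [IsAlgClosed k] {d : ℕ} {μ : Mix p k d}
  {E : MEnv p k d}

theorem ng_φ_add (μ : Mix p k d) {a b c : ℕ} (h : a + b = c) (g : AW p k d) :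
    (μ.Δ.φ ^ b) ((μ.Δ.φ ^ a) g) = (μ.Δ.φ ^ c) g := by
  rw [← h, add_comm, pow_add, RingHom.mul_def, RingHom.comp_apply]

theorem ng_fin (μ : Mix p k d) (E : MEnv p k d) (e j : ℕ) : ((E.σ μ.Δ e).comp (μ.Δ.φ ^ j)).Finite :=
  (E.finite_C μ.hb e).comp (μ.φ_finite j)

theorem ng_frob {𝒪 : Type} [CommRing 𝒪] (hp : (p : 𝒪) = 0) (s : AW p k d →+* 𝒪) (μ : Mix p k d) (j : ℕ)
    (g : AW p k d) : s g ^ p ^ j = s ((μ.Δ.φ ^ j) g) := by
  obtain ⟨c, hc⟩ := Ideal.mem_span_singleton'.1 (μ.φ_pow_sub j g)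
  have h := congrArg s hc
  rw [map_mul, map_natCast, hp, mul_zero, map_sub, map_pow] at h
  exact (sub_eq_zero.1 h.symm).symm

/-- `φ_ξ`, `σ_φ_eq_zero`, `finite_C`, `φ_finite`. -/
theorem Mix.exists_alg (hE : E.g E.u0 = μ.f0) {n' m e : ℕ} (he : n' + m = e) :
    ∃ f : μ.R n' →+* E.D μ.Δ e, μ.Alg E n' m f := by
  have h0 : ∀ a ∈ Ideal.span {μ.ξ n'}, (E.σ μ.Δ e).comp (μ.Δ.φ ^ m) a = 0 := by
    refine fun a ha => (Ideal.span_le.2 ?_ : _ ≤ RingHom.ker ((E.σ μ.Δ e).comp (μ.Δ.φ ^ m))) ha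
    rintro _ rfl
    rw [SetLike.mem_coe, RingHom.mem_ker, RingHom.comp_apply, μ.φ_ξ, he, ← zero_add e, ← μ.φ_ξ, zero_add]
    refine E.σ_φ_eq_zero μ.hb e ?_
    rw [μ.ξ_zero, ← hE]
    exact Ideal.mem_sup_left (Ideal.mem_span_singleton_self _)
  refine ⟨Ideal.Quotient.lift _ _ h0, he, fun b => rfl, ?_⟩
  exact RingHom.Finite.of_comp_finite (f := μ.pr n') (ng_fin μ E e m)

variable {n' m e : ℕ} {f : μ.R n' →+* E.D μ.Δ e}

theorem Mix.Alg.ψ (hf : μ.Alg E n' m f) (b : AW p k d) : f (μ.ψ n' b) = E.σ μ.Δ e ((μ.Δ.φ ^ e) b) := by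
  rw [Mix.ψ, RingHom.comp_apply, hf.eq, ng_φ_add μ hf.he]

theorem Mix.Alg.map_max (hf : μ.Alg E n' m f) :
    (maximalIdeal (μ.R n')).map f = br (fun i => E.σ μ.Δ e (MvPowerSeries.X i)) (p ^ m) := by
  rw [← μ.max_eq, ← rg2_idl_map, br]
  congr 1
  funext i
  rw [hf.eq, μ.hb.φ_pow_X, map_pow]

/-- `ε` is the lift of `a ∘ π e` to the model (`π_Ir`).  Use `φ_pow_sub`, `pow_le_map`, `es_πX_mem`, `u_mem`. -/
theorem Mix.Alg.good (hf : μ.Alg E n' m f) (hE : E.g E.u0 = μ.f0) {n : ℕ} (hn : n ≤ e) (τ τ' : E.𝒜) {M : Type}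
    [CommRing M] (π : E.D μ.Δ e →+* M) (hπ : π.Finite) (α : E.D μ.Δ e) {𝔞 : Ideal (AW p k d)} {k0 : ℕ}
    (h1 : ∀ (𝒪 : Type) [CommRing 𝒪] (a' : M →+* 𝒪), (p : 𝒪) = 0 →
      a' (π (E.π μ.Δ e τ)) ^ p ^ (m - k0) ∈ Ideal.span {a' (π (α ^ 2))} ∧
      a' (π (E.π μ.Δ e τ')) ^ p ^ (m - k0) = 0)
    (h2 : ∃ N : ℕ, ∀ b ∈ 𝔞 ^ N, π (E.σ μ.Δ e ((μ.Δ.φ ^ e) b)) = 0) :
    μ.Good (μ.mdl E n) (μ.q E n τ) (μ.q E n τ') E.𝔣 𝔞 n' m k0 (Side.of f hf.fin π hπ α) := by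
  refine ⟨fun 𝒪 _ a hp => ?_, fun g hg => ?_, ?_⟩
  · let a1 : E.D μ.Δ e →+* 𝒪 := a
    have h0 : ∀ x ∈ E.Ik μ.Δ n, a1.comp (E.π μ.Δ e) x = 0 := by
      refine fun x hx => (sup_le ((Ideal.span_singleton_le_iff_mem _).2 ?_) (fun y hy => ?_) :
        _ ≤ RingHom.ker (a1.comp (E.π μ.Δ e))) hx
      · rw [RingHom.mem_ker, map_natCast, hp]
      · rw [RingHom.mem_ker, RingHom.comp_apply, E.π_Ir hn hy, map_zero]
    let ε : (μ.mdl E n).m.E →+* 𝒪 := Ideal.Quotient.lift _ _ h0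
    have hε : ∀ x, ε (μ.q E n x) = a1 (E.π μ.Δ e x) := fun x => rfl
    have hg : ∀ g, a1 (E.σ μ.Δ e g) ^ p ^ m = a1 (f (μ.pr n' g)) := fun g => by
      rw [hf.eq]
      exact ng_frob hp (a1.comp (E.σ μ.Δ e)) μ m g
    refine ⟨ε, fun g => hg g, ?_, fun a' ha' => ⟨?_, ?_, ?_⟩⟩
    · have := E.isLocalRing μ.hb e
      obtain ⟨c, hc⟩ := E.pow_le_map μ.hb e m
      refine fun y hy => (Ideal.span_le.2 ?_ :
        _ ≤ (((maximalIdeal (μ.R n')).map (a1.comp f)).radical).comap ε) hy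
      rintro _ ⟨s, rfl⟩
      refine ⟨c, ?_⟩
      have h3 := hc (Ideal.pow_mem_pow (E.es_πX_mem μ.hb e s) c)
      have h4 : (maximalIdeal (AW p k d)).map ((E.σ μ.Δ e).comp (μ.Δ.φ ^ m)) ≤
          ((maximalIdeal (μ.R n')).map (a1.comp f)).comap a1 := by
        rw [Ideal.map_le_iff_le_comap]
        intro b hb
        have := μ.mr_loc n'
        rw [Ideal.mem_comap, Ideal.mem_comap, RingHom.comp_apply, ← hf.eq]
        exact Ideal.mem_map_of_mem (a1.comp f) (map_nonunit (μ.pr n') b hb)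
      have h5 := h4 h3
      rw [Ideal.mem_comap, map_pow] at h5
      exact h5
    · obtain ⟨w, hw⟩ := Ideal.mem_span_singleton'.1 (E.u_mem μ.hb e)
      refine Ideal.mem_span_singleton'.2 ⟨a1 w ^ p ^ m, ?_⟩
      change a1 w ^ p ^ m * a1 (f (μ.pr n' μ.f0)) = a1 (E.π μ.Δ e E.u) ^ p ^ m
      rw [← hg, ← hw, hE, map_mul, mul_pow]
    · let a2 : M →+* 𝒪 := a'
      have h4 : ∀ y, a2 (π y) = a1 y := ha'
      have h3 := (h1 𝒪 a2 hp).1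
      rw [h4, h4] at h3
      exact h3
    · let a2 : M →+* 𝒪 := a'
      have h4 : ∀ y, a2 (π y) = a1 y := ha'
      have h3 := (h1 𝒪 a2 hp).2
      rw [h4] at h3
      exact h3
  · rw [Side.of_algD, hf.ψ]
    exact E.σ_φ_eq_zero μ.hb e hg
  · obtain ⟨N, hN⟩ := h2
    refine ⟨N, fun y hy w => ?_⟩
    rw [← Ideal.map_pow] at hy
    have h3 : (𝔞 ^ N).map (μ.ψ n') ≤ RingHom.ker (π.comp f) := by
      rw [Ideal.map_le_iff_le_comap]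
      intro b hb
      rw [Ideal.mem_comap, RingHom.mem_ker, RingHom.comp_apply, hf.ψ]
      exact hN b hb
    have h4 : algebraMap _ (Side.of f hf.fin π hπ α).M y = 0 := h3 hy
    rw [Algebra.smul_def, h4, zero_mul]

/-- `exists_sop_mod`, `sop_φ`, `es_reg`; `z i = ψ n' (t i)`. -/
theorem Mix.Alg.depth (hf : μ.Alg E n' m f) {a : ℕ} (hac : a + E.c = d)
    (hd : ringKrullDim (AW p k d ⧸ E.𝔣) ≤ a) {M : Type} [CommRing M] (π : E.D μ.Δ e →+* M) (hπ : π.Finite)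
    (α : E.D μ.Δ e) : (Side.of f hf.fin π hπ α).Depth a := by
  have := μ.noeth
  have := E.isLocalRing μ.hb e
  obtain ⟨t, c, ht, hc⟩ := exists_sop_mod (𝔵 := maximalIdeal (AW p k d)) hd le_sup_right
  have h1 := E.es_reg μ.hb e hac (E.sop_φ μ.hb e ht hc)
  refine ⟨fun i => μ.ψ n' (t i), fun i => ?_, ?_⟩
  · have := μ.mr_loc n'
    have := μ.hb.φ_pow_local n'
    exact map_nonunit (μ.pr n') _ (map_nonunit (μ.Δ.φ ^ n') _ (ht i))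
  · rw [← reg_algebraMap_iff (Λ' := (Side.of f hf.fin π hπ α).D)]
    simp only [Side.of_algD, hf.ψ]
    exact h1

/-- `not_mem_pow` gives `K0`; take `4 (K0 + d) ≤ p^k1`.  Otherwise `σ (φ^e (g v)) = T^(p^e)` (`xv_pow`) lies in
`(y)^(p^n' (K0 + d))` for `y = x^(p^m)`, so in `(br y (p^n'))^K0` (`idl_pow_le_br_pow`; if `d = 0` then `g v = 0`),
which is contained in the image of `𝔪^K0` under `σ ∘ φ^e`. -/
theorem Mix.nz (μ : Mix p k d) (E : MEnv p k d) (P : Ideal (AW p k d)) [P.IsPrime] (hP : P ≠ maximalIdeal _) (v : E.V)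
    (hv : E.g v ∉ P) (hker : ∀ (e : ℕ) (b : AW p k d), E.σ μ.Δ e ((μ.Δ.φ ^ e) b) = 0 → b ∈ P) :
    ∃ k1 : ℕ, ∀ n' m e j : ℕ, n' + m = e → n' + k1 ≤ j → j ≤ e →
      E.π μ.Δ e (E.xv v) ^ (4 * p ^ (e - j)) ∉ br (fun i => E.σ μ.Δ e (MvPowerSeries.X i)) (p ^ m) := by
  have hp : p.Prime := Fact.out
  rcases Nat.eq_zero_or_pos d with rfl | hd
  · exfalso
    apply hv
    have h0 := E.g_mem v
    rw [idl, Set.range_eq_empty, Ideal.span_empty, Ideal.mem_bot] at h0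
    rw [h0]
    exact P.zero_mem
  have := μ.noeth
  have := μ.hb.cpl
  have := μ.algClosed
  obtain ⟨K0, hK⟩ := not_mem_pow (AW p k d) P hP hv
  refine ⟨4 * (K0 + d), fun n' m e j he hj hje hT => ?_⟩
  refine hK (E.D μ.Δ e) ((E.σ μ.Δ e).comp (μ.Δ.φ ^ e)) (ng_fin μ E e e) (hker e) ?_
  rw [RingHom.comp_apply, ← E.xv_pow μ.hb e v]
  have h1 : 4 * p ^ (e - j) * (p ^ n' * (K0 + d)) ≤ p ^ e := by
    have h2 : 4 * (K0 + d) ≤ p ^ (4 * (K0 + d)) := (Nat.lt_pow_self hp.one_lt).le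
    calc 4 * p ^ (e - j) * (p ^ n' * (K0 + d)) = p ^ (e - j) * p ^ n' * (4 * (K0 + d)) := by ring
      _ ≤ p ^ (e - j) * p ^ n' * p ^ (4 * (K0 + d)) := Nat.mul_le_mul_left _ h2
      _ = p ^ (e - j + n' + 4 * (K0 + d)) := by rw [pow_add, pow_add]
      _ ≤ p ^ e := Nat.pow_le_pow_right hp.pos (by omega)
  have h2 := idl_pow_le_br_pow hd (fun i => E.σ μ.Δ e (MvPowerSeries.X i) ^ p ^ m) (p ^ n') K0
    (Ideal.pow_mem_pow hT (p ^ n' * (K0 + d)))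
  rw [← pow_mul, br_br, ← pow_add, add_comm m n', he] at h2
  obtain ⟨r, hr⟩ := Nat.exists_eq_add_of_le h1
  rw [hr, pow_add, Ideal.map_pow]
  refine Ideal.mul_mem_right _ _ (Ideal.pow_right_mono (ln_idl_le fun i => ?_) K0 h2)
  have h3 := Ideal.mem_map_of_mem ((E.σ μ.Δ e).comp (μ.Δ.φ ^ e)) (Env.es_X'_mem μ.hb i)
  rwa [RingHom.comp_apply, μ.hb.φ_pow_X, map_pow] at h3

theorem Mix.Good.zero {md : AMdl p k d} {T T' : md.m.E} {𝔣 𝔞 : Ideal (AW p k d)} {k0 : ℕ} {S : Side (μ.R n')}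
    (h : μ.Good md T T' 𝔣 𝔞 n' m k0 S) : μ.Good md 0 T' 𝔣 𝔞 n' m k0 S := by
  refine ⟨fun 𝒪 _ a hp => ?_, h.kerD, h.kil⟩
  obtain ⟨ε, h1, h2, h3⟩ := h.real 𝒪 a hp
  refine ⟨ε, h1, h2, fun a' ha' => ⟨(h3 a' ha').1, ?_, (h3 a' ha').2.2⟩⟩
  rw [map_zero, zero_pow (pow_pos (Fact.out : p.Prime).pos _).ne']
  exact Ideal.zero_mem _

theorem Mix.ψ_finite (μ : Mix p k d) (n' : ℕ) : (μ.ψ n').Finite := by
  exact (RingHom.Finite.of_surjective (μ.pr n') Ideal.Quotient.mk_surjective).comp (μ.φ_finite n')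

end Crest.Agent.R188
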