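import Crest.Agent.R188.EnvW

/-!
# rid 188, file `EnvH`: the second shallow relation

Prefix helper lemmas with `nh_`.
-/

set_option autoImplicit false
set_option linter.unusedSectionVars false

open IsLocalRing MvPolynomial Crest.Agent.R183

namespace Crest.Agent.R188

theorem nh_core {p : ℕ} [Fact p.Prime] {A1 A2 J O : Type} [CommRing A1] [CommRing A2] [CommRing J] [CommRing O]
    (Δ1 : DeltaS A1 p) (Δ2 : DeltaS A2 p) (Δ : DeltaS J p) (i1 : A1 →+* J) (i2 : A2 →+* J)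
    (h1 : ∀ a, i1 (Δ1.φ a) = Δ.φ (i1 a)) (h2 : ∀ a, i2 (Δ2.φ a) = Δ.φ (i2 a))
    (I1 : ℕ → Ideal A1) (I2 : ℕ → Ideal A2) (hm1 : ∀ i, I1 i ≤ I1 (i + 1)) (hm2 : ∀ i, I2 i ≤ I2 (i + 1))
    (hδ1 : ∀ i, ∀ a ∈ I1 i, Δ1.δ a ∈ I1 (i + 1)) (hδ2 : ∀ i, ∀ a ∈ I2 i, Δ2.δ a ∈ I2 (i + 1))
    {u1 : A1} {u2 : A2} (hu : Δ1.φ u1 = u1 ^ p) {𝔫 : Ideal J} (h𝔫 : ∀ a ∈ 𝔫, Δ.δ a ∈ 𝔫) (hun : i1 u1 ∈ 𝔫)
    {y1 : A1} {y2 : A2} (hy : i2 y2 ∈ 𝔫) {c1 : A1} {c2 : A2} (hc1 : ((p : A1) - u1) * (1 + y1) - c1 ∈ I1 0)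
    (hc2 : ((p : A2) - u2) * (1 + y2) - c2 ∈ I2 0) (hc : i1 c1 = i2 c2) {N : ℕ}
    (hN : ∃ b1 ∈ I1 0 ⊔ Ideal.span {(p : A1) - u1}, ∃ b2 ∈ I2 0 ⊔ Ideal.span {(p : A2) - u2},
      i1 b1 + i2 b2 = (p : J) ^ N)
    (F : J →+* O) (hp : (p : O) = 0) (hF : ∀ y ∈ 𝔫, IsNilpotent (F y)) (hF1 : ∀ y ∈ I1 N, F (i1 y) = 0)
    (hF2 : ∀ y ∈ I2 N, F (i2 y) = 0) : F (i1 u1) ^ (N * p ^ N) = 0 := by
  let I : ℕ → Ideal J := fun i => Ideal.span (i1 '' (I1 i) ∪ i2 '' (I2 i))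
  have hI1 : ∀ i, ∀ a ∈ I1 i, i1 a ∈ I i := fun i a ha => Ideal.subset_span (Or.inl ⟨a, ha, rfl⟩)
  have hI2 : ∀ i, ∀ a ∈ I2 i, i2 a ∈ I i := fun i a ha => Ideal.subset_span (Or.inr ⟨a, ha, rfl⟩)
  have hm' : ∀ i, (i1 '' (I1 i) ∪ i2 '' (I2 i)) ⊆ I (i + 1) := by
    rintro i _ (⟨a, ha, rfl⟩ | ⟨a, ha, rfl⟩)
    · exact hI1 _ _ (hm1 i ha)
    · exact hI2 _ _ (hm2 i ha)
  have hm : ∀ i, I i ≤ I (i + 1) := fun i => Ideal.span_le.2 (hm' i)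
  have hδ : ∀ i, ∀ a ∈ I i, Δ.δ a ∈ I (i + 1) := by
    intro i a ha
    refine Δ.δ_mem_span _ _ (hm' i) ?_ ha
    rintro _ (⟨a, ha, rfl⟩ | ⟨a, ha, rfl⟩)
    · have := map_δ Δ1 Δ i1 h1 1 a
      simp only [Function.iterate_one] at this
      rw [← this]
      exact hI1 _ _ (hδ1 i a ha)
    · have := map_δ Δ2 Δ i2 h2 1 a
      simp only [Function.iterate_one] at this
      rw [← this]
      exact hI2 _ _ (hδ2 i a ha)
  have hu' : Δ.φ (i1 u1) = i1 u1 ^ p := by rw [← h1, hu, map_pow]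
  set K : Ideal J := I 0 ⊔ Ideal.span {(p : J) - i1 u1} with hK
  have hK0 : ∀ a ∈ I 0, a ∈ K := fun a ha => Ideal.mem_sup_left ha
  have hKu : (p : J) - i1 u1 ∈ K := Ideal.mem_sup_right (Ideal.mem_span_singleton_self _)
  have e1 := hK0 _ (hI1 0 _ hc1)
  have e2 := hK0 _ (hI2 0 _ hc2)
  simp only [map_sub, map_mul, map_add, map_natCast, map_one] at e1 e2
  have e3 : ((p : J) - i2 u2) * (1 + i2 y2) ∈ K := by
    have := add_mem (sub_mem e2 e1) (K.mul_mem_right (1 + i1 y1) hKu)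
    convert this using 1
    rw [hc]; ring
  obtain ⟨b1, hb1, b2, hb2, e⟩ := hN
  obtain ⟨r1, hr1, s1, hs1, rfl⟩ := Submodule.mem_sup.1 hb1
  obtain ⟨r2, hr2, s2, hs2, rfl⟩ := Submodule.mem_sup.1 hb2
  obtain ⟨t1, rfl⟩ := Ideal.mem_span_singleton'.1 hs1
  obtain ⟨t2, rfl⟩ := Ideal.mem_span_singleton'.1 hs2
  simp only [map_sub, map_mul, map_add, map_natCast] at e
  have e4 : (p : J) ^ N * (1 + i2 y2) ∈ K := by
    have := add_mem (K.mul_mem_right (1 + i2 y2) (add_mem (add_mem (hK0 _ (hI1 0 _ hr1))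
      (K.mul_mem_left (i1 t1) hKu)) (hK0 _ (hI2 0 _ hr2)))) (K.mul_mem_left (i2 t2) e3)
    convert this using 1
    rw [← e]; ring
  have e5 : i1 u1 ^ N * (1 + i2 y2) ∈ K := by
    obtain ⟨w, hw⟩ := sub_dvd_pow_sub_pow (p : J) (i1 u1) N
    have := sub_mem e4 (K.mul_mem_right (w * (1 + i2 y2)) hKu)
    convert this using 1
    rw [← mul_assoc, ← hw]; ring
  obtain ⟨η', hη', e6⟩ := key2 Δ I hm hδ hu' h𝔫 hun (V := i1 u1 ^ N) (η := 1 + i2 y2)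
    (by rw [map_pow, hu', ← pow_mul, ← pow_mul, mul_comm]) (by rwa [add_sub_cancel_left]) e5 N
  obtain ⟨r, hr, s, hs, e7⟩ := Submodule.mem_sup.1 e6
  obtain ⟨t, t', rfl⟩ := Ideal.mem_span_pair.1 hs
  have hFr : F r = 0 := by
    have : I N ≤ RingHom.ker F := by
      rw [Ideal.span_le]
      rintro _ (⟨a, ha, rfl⟩ | ⟨a, ha, rfl⟩)
      · exact hF1 a ha
      · exact hF2 a ha
    exact this hr
  have e8 := congrArg F e7
  simp only [map_add, map_mul, map_pow, map_natCast, hFr, hp, mul_zero, zero_add] at e8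
  have hnil : IsNilpotent (F (η' - 1) - F t' * F (i1 u1) ^ p ^ N) := by
    refine (Commute.all _ _).isNilpotent_sub (hF _ hη') ?_
    exact (Commute.all _ _).isNilpotent_mul_left
      ((hF _ hun).pow_of_pos (pow_pos (Fact.out : p.Prime).pos N).ne')
  have hunit := hnil.isUnit_add_one
  refine (hunit.mul_left_eq_zero).1 ?_
  rw [map_sub, map_one]
  have e9 : F (i1 u1) ^ ((N + 1) * p ^ N) = F (i1 u1) ^ (N * p ^ N) * F (i1 u1) ^ p ^ N := by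
    rw [← pow_add, add_mul, one_mul]
  rw [← pow_mul, e9] at e8
  linear_combination -e8

section

variable {p : ℕ} [Fact p.Prime] {A : Type} [CommRing A] [IsLocalRing A] {d : ℕ} {X' : Fin d → A}
  (m1 m2 : Env p A X') (Δ : DeltaS A p)

/-- `DeltaS.exists_poly` with `δ` of the variables given by renaming `eδX`. -/
theorem exists_joint : ∃ Δ' : DeltaS (MvPolynomial (EV m1.V m1.L ⊕ EV m2.V m2.L) A) p,
    (∀ a, rename Sum.inl ((m1.Δ' Δ).φ a) = Δ'.φ (rename Sum.inl a)) ∧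
    (∀ a, rename Sum.inr ((m2.Δ' Δ).φ a) = Δ'.φ (rename Sum.inr a)) ∧
    ∀ a ∈ Ideal.span (Set.range (X : _ → MvPolynomial (EV m1.V m1.L ⊕ EV m2.V m2.L) A)),
      Δ'.δ a ∈ Ideal.span (Set.range (X : _ → MvPolynomial (EV m1.V m1.L ⊕ EV m2.V m2.L) A)) := by
  obtain ⟨Δ', hφ, -, hδ⟩ := Δ.exists_poly (EV m1.V m1.L ⊕ EV m2.V m2.L)
    (Sum.elim (fun s => rename Sum.inl (eδX s : m1.𝒜)) fun s => rename Sum.inr (eδX s : m2.𝒜))
  refine ⟨Δ', fun a => ?_, fun a => ?_, fun a ha => ?_⟩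
  · have : (rename (R := A) (Sum.inl : EV m1.V m1.L → EV m1.V m1.L ⊕ EV m2.V m2.L)).toRingHom.comp (m1.Δ' Δ).φ =
        Δ'.φ.comp (rename (R := A) (Sum.inl : EV m1.V m1.L → EV m1.V m1.L ⊕ EV m2.V m2.L)).toRingHom := by
      refine MvPolynomial.ringHom_ext (fun r => ?_) fun s => ?_
      · simp only [RingHom.comp_apply, AlgHom.toRingHom_eq_coe, RingHom.coe_coe, m1.φ_C, rename_C, hφ]
      · simp only [RingHom.comp_apply, AlgHom.toRingHom_eq_coe, RingHom.coe_coe, rename_X]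
        rw [(m1.Δ' Δ).spec, Δ'.spec, hδ, m1.δ_X, map_add, map_mul, map_pow, map_natCast, rename_X, Sum.elim_inl]
    exact DFunLike.congr_fun this a
  · have : (rename (R := A) (Sum.inr : EV m2.V m2.L → EV m1.V m1.L ⊕ EV m2.V m2.L)).toRingHom.comp (m2.Δ' Δ).φ =
        Δ'.φ.comp (rename (R := A) (Sum.inr : EV m2.V m2.L → EV m1.V m1.L ⊕ EV m2.V m2.L)).toRingHom := by
      refine MvPolynomial.ringHom_ext (fun r => ?_) fun s => ?_
      · simp only [RingHom.comp_apply, AlgHom.toRingHom_eq_coe, RingHom.coe_coe, m2.φ_C, rename_C, hφ]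
      · simp only [RingHom.comp_apply, AlgHom.toRingHom_eq_coe, RingHom.coe_coe, rename_X]
        rw [(m2.Δ' Δ).spec, Δ'.spec, hδ, m2.δ_X, map_add, map_mul, map_pow, map_natCast, rename_X, Sum.elim_inr]
    exact DFunLike.congr_fun this a
  · refine Δ'.δ_mem_span _ _ Ideal.subset_span ?_ ha
    rintro _ ⟨s, rfl⟩
    rw [hδ]
    rcases s with (v | ⟨l, j⟩) | (v | ⟨l, j⟩)
    · simp [eδX]
    · simp only [eδX, Sum.elim_inl, rename_X]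
      exact Ideal.subset_span ⟨_, rfl⟩
    · simp [eδX]
    · simp only [eδX, Sum.elim_inr, rename_X]
      exact Ideal.subset_span ⟨_, rfl⟩

/-- In the joint ring let `I i` be generated by the images of both `Ir i`.  By `ξ_mul_mem`,
`(p - u2) (1 + y2) ∈ I 0 ⊔ (p - u1)`, so `u1^N (1 + y2) ∈ I 0 ⊔ (p - u1)` (`C_mem`).  Apply `key2` with `n = N`.  Map the
joint ring to `O`; there `η' - u1^(p^N) (…)` is `1 +` nilpotent. -/
theorem u_pow_eq_zero (hg : m1.g m1.u0 = m2.g m2.u0) {N : ℕ} (hN : (p : A) ^ N ∈ m1.𝔣 ⊔ m2.𝔣) {O : Type}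
    [CommRing O] (hp : (p : O) = 0) (a : m1.𝒜 →+* O) (b : m2.𝒜 →+* O) (hab : ∀ g, a (C g) = b (C g))
    (ha : ∀ s, IsNilpotent (a (X s))) (hb : ∀ s, IsNilpotent (b (X s))) (h1 : ∀ y ∈ m1.Ir Δ N, a y = 0)
    (h2 : ∀ y ∈ m2.Ir Δ N, b y = 0) : a m1.u ^ (N * p ^ N) = 0 := by
  obtain ⟨Δ', hφ1, hφ2, h𝔫⟩ := exists_joint m1 m2 Δ
  let i1 : m1.𝒜 →+* MvPolynomial (EV m1.V m1.L ⊕ EV m2.V m2.L) A := (rename (R := A) Sum.inl).toRingHom
  let i2 : m2.𝒜 →+* MvPolynomial (EV m1.V m1.L ⊕ EV m2.V m2.L) A := (rename (R := A) Sum.inr).toRingHom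
  have hC1 : ∀ g, i1 (C g) = C g := fun g => rename_C _ _
  have hC2 : ∀ g, i2 (C g) = C g := fun g => rename_C _ _
  have hX1 : ∀ s, i1 (X s) = X (.inl s) := fun s => rename_X _ _
  have hX2 : ∀ s, i2 (X s) = X (.inr s) := fun s => rename_X _ _
  let F : MvPolynomial (EV m1.V m1.L ⊕ EV m2.V m2.L) A →+* O :=
    eval₂Hom (a.comp C) (Sum.elim (fun s => a (X s)) fun s => b (X s))
  have hF1 : F.comp i1 = a := by
    refine MvPolynomial.ringHom_ext (fun r => ?_) fun s => ?_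
    · rw [RingHom.comp_apply, hC1]
      simp [F]
    · rw [RingHom.comp_apply, hX1]
      simp [F]
  have hF2 : F.comp i2 = b := by
    refine MvPolynomial.ringHom_ext (fun r => ?_) fun s => ?_
    · rw [RingHom.comp_apply, hC2, ← hab]
      simp [F]
    · rw [RingHom.comp_apply, hX2]
      simp [F]
  have hFX : ∀ s, IsNilpotent (F (X s)) := by
    rintro (s | s)
    · rw [← hX1, ← RingHom.comp_apply, hF1]; exact ha s
    · rw [← hX2, ← RingHom.comp_apply, hF2]; exact hb s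
  have key := nh_core (p := p) (m1.Δ' Δ) (m2.Δ' Δ) Δ' i1 i2 hφ1 hφ2 (m1.Ir Δ) (m2.Ir Δ)
    (fun i => m1.Ir_mono (Nat.le_succ i)) (fun i => m2.Ir_mono (Nat.le_succ i)) m1.Ir_δ m2.Ir_δ
    (u1 := m1.u) (u2 := m2.u) m1.φ_u h𝔫 (by rw [Env.u, hX1]; exact Ideal.subset_span ⟨_, rfl⟩)
    (y1 := m1.y (.inr m1.u0) 0) (y2 := m2.y (.inr m2.u0) 0)
    (by rw [Env.y, hX2]; exact Ideal.subset_span ⟨_, rfl⟩) m1.ξ_mul_mem m2.ξ_mul_mem
    (by rw [hC1, hC2, hg]) (N := N) ?_ F hp ?_ ?_ ?_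
  · rwa [← RingHom.comp_apply, hF1] at key
  · obtain ⟨b1, hb1, b2, hb2, e⟩ := Submodule.mem_sup.1 hN
    refine ⟨C b1, m1.C_mem hb1, C b2, m2.C_mem hb2, ?_⟩
    rw [hC1, hC2, ← map_add, e, map_pow, map_natCast]
  · intro y hy
    have : Ideal.span (Set.range (X : _ → MvPolynomial (EV m1.V m1.L ⊕ EV m2.V m2.L) A)) ≤
        (nilradical O).comap F := by
      rw [Ideal.span_le]
      rintro _ ⟨s, rfl⟩
      exact hFX s
    exact this hy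
  · intro y hy
    rw [← RingHom.comp_apply, hF1]; exact h1 y hy
  · intro y hy
    rw [← RingHom.comp_apply, hF2]; exact h2 y hy

end

variable {p : ℕ} [Fact p.Prime] {k : Type} [Field k] [CharP k p] [IsAlgClosed k] {d : ℕ} (μ : Mix p k d)

theorem Mix.sh2_env (E1 E2 : MEnv p k d) (h1 : E1.g E1.u0 = μ.f0) (h2 : E2.g E2.u0 = μ.f0) (h : Prim E1.𝔣 E2.𝔣) :
    ∃ c0 n0 : ℕ, 0 < c0 ∧ ∀ n1 ≥ n0, ∀ n2 ≥ n0, μ.Sh2 (μ.mdl E1 n1) (μ.mdl E2 n2) c0 := by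
  obtain ⟨c, hc⟩ := h
  have hN : (p : AW p k d) ^ (c + 1) ∈ E1.𝔣 ⊔ E2.𝔣 := by
    rw [pow_succ]
    exact Ideal.mul_mem_right _ _ (hc (Ideal.pow_mem_pow μ.p_mem c))
  refine ⟨(c + 1) * p ^ (c + 1), c + 1, Nat.mul_pos (Nat.succ_pos c) (pow_pos (Fact.out : p.Prime).pos _),
    fun n1 hn1 n2 hn2 O _ a b hab ha hb => ?_⟩
  have hp : (p : O) = 0 := by
    have : μ.q E1 n1 (p : E1.𝒜) = 0 := (μ.q_eq_zero E1).2 (Ideal.mem_sup_left (Ideal.mem_span_singleton_self _))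
    rw [← map_natCast (a.comp (μ.q E1 n1)), RingHom.comp_apply, this, map_zero]
  have key := u_pow_eq_zero E1 E2 μ.Δ (h1.trans h2.symm) hN hp (a.comp (μ.q E1 n1)) (b.comp (μ.q E2 n2)) hab
    (fun s => ha _ (Ideal.subset_span ⟨s, rfl⟩)) (fun s => hb _ (Ideal.subset_span ⟨s, rfl⟩))
    (fun y hy => by
      rw [RingHom.comp_apply, (μ.q_eq_zero E1).2 (Ideal.mem_sup_right (E1.Ir_mono hn1 hy)), map_zero])
    (fun y hy => by
      rw [RingHom.comp_apply, (μ.q_eq_zero E2).2 (Ideal.mem_sup_right (E2.Ir_mono hn2 hy)), map_zero])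
  have hf : μ.f0 ∈ E1.𝔣 ⊔ Ideal.span {(p : AW p k d)} := by
    have e : μ.f0 = -((p : AW p k d) - E1.g E1.u0) + p := by rw [h1]; ring
    rw [e]
    exact add_mem (Ideal.mem_sup_left (neg_mem (Ideal.mem_sup_left (Ideal.mem_span_singleton_self _))))
      (Ideal.mem_sup_right (Ideal.mem_span_singleton_self _))
  obtain ⟨t, ht⟩ := Ideal.mem_span_singleton'.1 (μ.mdl_hf E1 n1 hf)
  rw [← ht, map_mul, mul_pow, μ.mdl_U, ← RingHom.comp_apply a (μ.q E1 n1), key, mul_zero]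

theorem Mix.sh2_left {md1 md2 : AMdl p k d} (h : md1.a0 μ.f0 = 0) : μ.Sh2 md1 md2 1 := by
  intro O _ a b _ _ _
  rw [h, map_zero, pow_one]

theorem Mix.sh2_right {md1 md2 : AMdl p k d} (h : md2.a0 μ.f0 = 0) : μ.Sh2 md1 md2 1 := by
  intro O _ a b hab _ _
  rw [hab, h, map_zero, pow_one]

end Crest.Agent.R188
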