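import Crest.Agent.R188.EnvP
import Crest.Agent.R188.ND

/-!
# rid 188, file `EnvI`: `D e` is isogenous to a free module

Prefix helper lemmas with `ni_`.
-/

set_option autoImplicit false
set_option linter.unusedSectionVars false

open IsLocalRing MvPolynomial Crest.Agent.R183

namespace Crest.Agent.R188

variable {p : ℕ} [Fact p.Prime] {k : Type} [Field k] [CharP k p] [IsAlgClosed k] {d : ℕ} (μ : Mix p k d)
  (E : MEnv p k d)

/-- The reduced monomials. -/
noncomputable def Mix.mon (e j : ℕ) (x : (Fin d → Fin (p ^ j)) × (E.V → Fin (p ^ e))) : E.D μ.Δ e :=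
  (∏ i, E.σ μ.Δ e (MvPowerSeries.X i) ^ (x.1 i : ℕ)) * ∏ v, E.π μ.Δ e (E.xv v) ^ (x.2 v : ℕ)

theorem ni_colen {Λ D : Type} [CommRing Λ] [IsLocalRing Λ] [CommRing D] [IsLocalRing D] [Algebra Λ D]
    [IsLocalHom (algebraMap Λ D)] (h : SameRes (algebraMap Λ D)) {a : ℕ} (z : Fin a → Λ) :
    colen Λ (ism (idl z) D) = colen D (idl fun i => algebraMap Λ D (z i)) := by
  rw [← idl_map, colen_eq_restrict_of_local h, ← ism_map_restrict (Λ' := D), gw_ism_self]

theorem ni_abs {Λ D0 D : Type} [CommRing Λ] [IsDomain Λ] [IsLocalRing Λ] [IsNoetherianRing Λ]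
    [CommRing D0] [IsLocalRing D0] [CommRing D] [IsLocalRing D] (Φ : Λ →+* D0) (t : D0 →+* D)
    (hΦf : Φ.Finite) (hΦl : IsLocalHom Φ) (hΦr : SameRes Φ) (htf : t.Finite) (htl : IsLocalHom t)
    (htr : SameRes t) {a : ℕ} {z : Fin a → Λ} (hz : idl z = maximalIdeal Λ) (r0 : Reg (fun i => Φ (z i)) D0)
    (r1 : Reg (fun i => t (Φ (z i))) D) {ι : Type} [Fintype ι] (v : ι → D) {γ : Λ} (hγ : γ ≠ 0)
    (hgen : ∀ y, ∃ c : ι → D0, t (Φ γ) * y = ∑ x, t (c x) * v x)
    (hl : Fintype.card ι * colen D0 (idl fun i => Φ (z i)) ≤ colen D (idl fun i => t (Φ (z i))))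
    (c : ι → D0) (h : ∑ x, t (c x) * v x = 0) : c = 0 := by
  let _ : Algebra Λ D0 := Φ.toAlgebra
  let _ : Algebra Λ D := (t.comp Φ).toAlgebra
  have : Module.Finite Λ D0 := hΦf
  have : Module.Finite Λ D := htf.comp hΦf
  have : IsLocalHom (algebraMap Λ D0) := hΦl
  have : IsLocalHom (algebraMap Λ D) := RingHom.isLocalHom_comp t Φ
  have hr : SameRes (algebraMap Λ D) := fun b => by
    obtain ⟨b0, h0⟩ := htr b
    obtain ⟨b1, h1⟩ := hΦr b0
    refine ⟨b1, ?_⟩
    have e1 : b - algebraMap Λ D b1 = (b - t b0) + t (b0 - Φ b1) := by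
      rw [map_sub, sub_add_sub_cancel]; rfl
    rw [e1]
    exact add_mem h0 (map_nonunit t _ h1)
  let L : (ι → D0) →ₗ[Λ] D :=
    { toFun := fun c => ∑ x, t (c x) * v x
      map_add' := fun c c' => by simp only [Pi.add_apply, map_add, add_mul, Finset.sum_add_distrib]
      map_smul' := fun r c => by
        rw [RingHom.id_apply, Finset.smul_sum]
        refine Finset.sum_congr rfl fun x _ => ?_
        rw [Pi.smul_apply, Algebra.smul_def, Algebra.smul_def, map_mul, mul_assoc]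
        rfl }
  have hN : Reg z (ι → D0) := ((reg_algebraMap_iff (Λ' := D0) z).1 r0).pi ι
  have hD : Reg z D := (reg_algebraMap_iff (Λ' := D) z).1 r1
  have hinj := inj_of_colen hz hN hD L hγ (fun y => by
    obtain ⟨c, hc⟩ := hgen y
    exact ⟨c, hc.symm⟩) (by
    rw [colen_ism_pi, ni_colen (D := D0) hΦr, ni_colen hr]
    exact hl)
  exact hinj (show L c = L 0 by rw [map_zero]; exact h)

theorem ni_colen_surj {A D : Type} [CommRing A] [CommRing D] (s : A →+* D) (hs : Function.Surjective s)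
    {I : Ideal A} {J : Ideal D} (h : ∀ a ∈ I, s a ∈ J) : colen D J ≤ colen A I := by
  let _ : Algebra A D := s.toAlgebra
  rw [colen_eq_restrict_of_surj (Λ := A) hs J]
  refine colen_le_of_surj (Algebra.linearMap A D) hs ?_
  rintro _ ⟨b, hb, rfl⟩
  exact h b hb

theorem ni_complete {A D : Type} [CommRing A] [IsLocalRing A] [IsNoetherianRing A]
    [IsAdicComplete (maximalIdeal A) A] [CommRing D] [IsLocalRing D] (s : A →+* D)
    (hs : Function.Surjective s) : IsAdicComplete (maximalIdeal D) D := by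
  let _ : Algebra A D := s.toAlgebra
  have : Module.Finite A D := RingHom.Finite.of_surjective s hs
  rw [← IsLocalRing.map_maximalIdeal_of_surjective s hs]
  exact (IsAdicComplete.map_algebraMap_iff (maximalIdeal A) D).2 (complete_of_finite _)

/-- `eb_unif`; reduce the exponents of the variables with `xv_pow` and expand the coefficients with
`MBase.span_monomials` (compare `mxb_span` in `R183/MxB.lean`).  For `j ≤ e`, `φ^e = φ^j ∘ φ^(e-j)`. -/
theorem Mix.gen {e j : ℕ} (hj : j ≤ e) : ∃ c : ℕ, ∀ y : E.D μ.Δ e,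
    ∃ cs : (Fin d → Fin (p ^ j)) × (E.V → Fin (p ^ e)) → AW p k d,
      (p : E.D μ.Δ e) ^ c * y = ∑ x, E.σ μ.Δ e ((μ.Δ.φ ^ j) (cs x)) * μ.mon E e j x := by
  classical
  obtain ⟨c, hc⟩ := E.eb_unif μ.hb e
  refine ⟨c, fun y => ?_⟩
  obtain ⟨a, ha⟩ := hc y
  rw [← ha]
  have hq : 0 < p ^ e := pow_pos (Fact.out : p.Prime).pos e
  let _ : Algebra (AW p k d) (E.D μ.Δ e) := ((E.σ μ.Δ e).comp (μ.Δ.φ ^ j)).toAlgebra
  have key : E.eb_ψ μ.Δ e a ∈ Submodule.span (AW p k d) (Set.range (μ.mon E e j)) := by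
    clear ha
    induction a using MvPolynomial.induction_on' with
    | add a b ha hb => rw [map_add]; exact add_mem ha hb
    | monomial β a =>
      obtain ⟨c, hc⟩ := μ.hb.span_monomials j (a * ∏ v, (μ.Δ.φ ^ e) (E.g v) ^ (β v / p ^ e))
      have e2 : ∏ v, E.eb_ψ μ.Δ e (X v ^ β v) =
          E.σ μ.Δ e (∏ v, (μ.Δ.φ ^ e) (E.g v) ^ (β v / p ^ e)) *
            ∏ v, E.π μ.Δ e (E.xv v) ^ (β v % p ^ e) := by
        rw [map_prod, ← Finset.prod_mul_distrib]
        refine Finset.prod_congr rfl fun v _ => ?_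
        rw [map_pow, map_pow, E.eb_ψ_X, ← E.xv_pow μ.hb e v, ← pow_mul, ← pow_add, Nat.div_add_mod]
      have e1 : E.eb_ψ μ.Δ e (monomial β a) = ∑ γ : Fin d → Fin (p ^ j),
          c γ • μ.mon E e j (γ, fun v => ⟨β v % p ^ e, Nat.mod_lt _ hq⟩) := by
        have e3 : E.eb_ψ μ.Δ e (C a) = E.σ μ.Δ e a := E.eb_ψ_C e a
        rw [monomial_eq, map_mul, e3, Finsupp.prod_fintype _ _ (fun _ => pow_zero _), map_prod, e2,
          ← mul_assoc, ← map_mul, hc, map_sum, Finset.sum_mul]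
        refine Finset.sum_congr rfl fun γ _ => ?_
        rw [Algebra.smul_def, RingHom.algebraMap_toAlgebra, RingHom.comp_apply (E.σ μ.Δ e), map_mul, map_prod,
          Mix.mon, mul_assoc]
        simp only [map_pow]
      rw [e1]
      exact Submodule.sum_mem _ fun γ _ => Submodule.smul_mem _ _ (Submodule.subset_span ⟨_, rfl⟩)
  obtain ⟨c, hc⟩ := (Submodule.mem_span_range_iff_exists_fun _).1 key
  exact ⟨c, hc.symm⟩

/-- Let `Λ = W⟦Y_1..Y_n⟧ → D 0`, `Y_j ↦ g (ι j)` (`exists_base_mixed`; `D 0` is a quotient of `A`, so it is complete),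
with parameters `z = (p, Y)`.  View `N = (monomials → D 0)` and `D e` (through `tr`) as `Λ`-modules; both are finite, and
`z` is regular on both (`es_reg`; on `D e` the images are the `q`-th powers of `(u, X_ι)`).  The colength of `z` on `N` is
`q^(d + #V) ℓ`, on `D e` it is `q^(n+1)` (`Reg.colen_br`) times at least `q^(#L) ℓ` (`colen_point`), and
`n + 1 + #L = d + #V`.  Use `inj_of_colen` with `γ = p^c` from `gen`, and `colen_eq_restrict_of_local`. -/
theorem Mix.indep_top {n c : ℕ} (hn : n + 1 + E.c = d) (ι : Fin n → E.V)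
    (hc : maximalIdeal (AW p k d) ^ c ≤ E.𝔣 ⊔ Ideal.span {(p : AW p k d)} ⊔ idl fun j => E.g (ι j)) (e : ℕ)
    (cs : (Fin d → Fin (p ^ e)) × (E.V → Fin (p ^ e)) → AW p k d)
    (h : ∑ x, E.σ μ.Δ e ((μ.Δ.φ ^ e) (cs x)) * μ.mon E e e x = 0) (x : (Fin d → Fin (p ^ e)) × (E.V → Fin (p ^ e))) :
    cs x ∈ E.𝔣 := by
  classical
  have hb := μ.hb
  have := E.isLocalRing hb 0
  have := E.isLocalRing hb e
  have := E.isNoetherianRing hb 0
  have := hb.cpl
  have := hb.rb.noeth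
  have hs0 := E.σ_zero_surj hb
  have hl0 : IsLocalHom (E.σ μ.Δ 0) := E.es_C_local hb 0
  have := ni_complete (E.σ μ.Δ 0) hs0
  have hg : ∀ j, E.g (ι j) ∈ maximalIdeal (AW p k d) := fun j => μ.idl_le (E.g_mem _)
  have hp0 : E.π μ.Δ 0 E.u = (p : E.D μ.Δ 0) := by rw [E.p_eq μ.Δ 0, pow_zero, pow_one]
  have hsop0 := E.sop_u hb 0 hg hc
  rw [hp0] at hsop0
  have hres : SameRes ((E.σ μ.Δ 0).comp (MvPowerSeries.C : WittVector p k →+* AW p k d)) := fun b => by
    obtain ⟨a, rfl⟩ := hs0 b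
    refine ⟨MvPowerSeries.constantCoeff a, ?_⟩
    rw [RingHom.comp_apply (E.σ μ.Δ 0), ← map_sub]
    refine map_nonunit (E.σ μ.Δ 0) _ ?_
    rw [mem_maximalIdeal, mem_nonunits_iff, MvPowerSeries.isUnit_iff_constantCoeff]
    simp
  obtain ⟨Φ, -, hΦX, hΦf, hΦl, hΦr⟩ := exists_base_mixed p _ hres hsop0
  obtain ⟨Δ', h'⟩ := mbase_witt p k n
  have := h'.rb.dom
  have := h'.rb.noeth
  have htσ : ∀ a, E.tr hb (Nat.zero_le e) (E.σ μ.Δ 0 a) = E.σ μ.Δ e ((μ.Δ.φ ^ e) a) := fun a =>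
    E.tr_C hb (Nat.zero_le e) a
  have htf : (E.tr hb (Nat.zero_le e)).Finite := by
    have h1 : ((E.tr hb (Nat.zero_le e)).comp (E.σ μ.Δ 0)).Finite := by
      rw [show (E.tr hb (Nat.zero_le e)).comp (E.σ μ.Δ 0) = (E.σ μ.Δ e).comp (μ.Δ.φ ^ e) from
        RingHom.ext htσ]
      exact (E.finite_C hb e).comp (μ.φ_finite e)
    exact h1.of_comp_finite
  have e0 : (fun i => Φ ((Fin.cons (p : AW p k n) MvPowerSeries.X : Fin (n + 1) → AW p k n) i)) =
      (Fin.cons (p : E.D μ.Δ 0) fun j => E.σ μ.Δ 0 (E.g (ι j)) : Fin (n + 1) → E.D μ.Δ 0) := by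
    funext i
    refine Fin.cases ?_ (fun i => ?_) i
    · simp only [Fin.cons_zero, map_natCast]
    · simp only [Fin.cons_succ, hΦX]
  have e1 : (fun i => E.tr hb (Nat.zero_le e)
        (Φ ((Fin.cons (p : AW p k n) MvPowerSeries.X : Fin (n + 1) → AW p k n) i))) =
      fun i => (Fin.cons (E.π μ.Δ e E.u) fun j => E.π μ.Δ e (E.xv (ι j)) : Fin (n + 1) → E.D μ.Δ e) i ^
        p ^ e := by
    funext i
    refine Fin.cases ?_ (fun i => ?_) i
    · simp only [Fin.cons_zero, map_natCast]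
      exact E.p_eq μ.Δ e
    · simp only [Fin.cons_succ, hΦX]
      rw [htσ, E.xv_pow hb]
  have hq : 0 < p ^ e := pow_pos (Fact.out : p.Prime).pos e
  have rw1 := E.es_reg hb e hn (E.sop_ux hb e ι hc)
  obtain ⟨c', hc'⟩ := μ.gen E (le_refl e)
  have hγ : (p : AW p k n) ^ c' ≠ 0 := pow_ne_zero _ fun h0 =>
    one_ne_zero (Δ'.tf 1 (by rw [h0, zero_mul]))
  have key := ni_abs Φ (E.tr hb (Nat.zero_le e)) hΦf hΦl hΦr htf (E.tr_local hb _) (E.tr_sameRes hb _)
    h'.max (by rw [e0]; exact E.es_reg hb 0 hn hsop0) (by rw [e1]; exact rw1.pow fun _ => hq)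
    (μ.mon E e e) hγ (fun y => by
      obtain ⟨cs, hcs⟩ := hc' y
      refine ⟨fun x => E.σ μ.Δ 0 (cs x), ?_⟩
      simp only [map_pow, map_natCast, htσ]
      exact hcs) (by
      have h1 := rw1.colen_br (p ^ e)
      rw [gw_ism_self, gw_ism_self, br] at h1
      rw [e0, e1, h1]
      have h2 := E.colen_point hb ι e
      have h3 : colen (E.D μ.Δ 0)
          (idl (Fin.cons (p : E.D μ.Δ 0) fun j => E.σ μ.Δ 0 (E.g (ι j)) : Fin (n + 1) → E.D μ.Δ 0)) ≤
          colen (AW p k d) (E.𝔣 ⊔ Ideal.span {(p : AW p k d)} ⊔ idl fun j => E.g (ι j)) := by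
        refine ni_colen_surj (E.σ μ.Δ 0) hs0 fun a ha => ?_
        refine Ideal.mem_comap.1 ((show _ ≤ Ideal.comap (E.σ μ.Δ 0) _ from sup_le (sup_le ?_ ?_) ?_) ha)
        · intro b hb'
          rw [Ideal.mem_comap, (E.σ_zero_eq_zero hb).2 hb']
          exact zero_mem _
        · rw [Ideal.span_singleton_le_iff_mem, Ideal.mem_comap, map_natCast]
          exact Ideal.subset_span ⟨0, rfl⟩
        · refine ln_idl_le fun j => ?_
          exact Ideal.subset_span ⟨j.succ, rfl⟩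
      have h4 : Fintype.card ((Fin d → Fin (p ^ e)) × (E.V → Fin (p ^ e))) =
          (p ^ e) ^ (n + 1) * (p ^ e) ^ Fintype.card E.L := by
        simp only [Fintype.card_prod, Fintype.card_fun, Fintype.card_fin, Fintype.card_sum]
        rw [← pow_add, ← pow_add, ← add_assoc, hn]
      rw [h4, Nat.cast_mul, mul_assoc]
      exact mul_le_mul_right ((mul_le_mul_right h3 _).trans h2) _)
    (fun x => E.σ μ.Δ 0 (cs x)) (by simpa only [htσ] using h)
  exact (E.σ_zero_eq_zero hb).1 (congrFun key x)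

/-- Expand `cs x = ∑_γ φ^n' (c x γ) X^γ` (`span_monomials`); the exponents `γ p^j + γ'` (`finProdFinEquiv`) run through
the numbers below `p^e` once. -/
theorem Mix.indep {n c : ℕ} (hn : n + 1 + E.c = d) (ι : Fin n → E.V)
    (hc : maximalIdeal (AW p k d) ^ c ≤ E.𝔣 ⊔ Ideal.span {(p : AW p k d)} ⊔ idl fun j => E.g (ι j)) {n' j e : ℕ}
    (he : n' + j = e) (cs : (Fin d → Fin (p ^ j)) × (E.V → Fin (p ^ e)) → AW p k d)
    (h : ∑ x, E.σ μ.Δ e ((μ.Δ.φ ^ j) (cs x)) * μ.mon E e j x = 0) (x : (Fin d → Fin (p ^ j)) × (E.V → Fin (p ^ e))) :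
    cs x ∈ E.𝔣.map (μ.Δ.φ ^ n') := by
  classical
  subst he
  choose cc hcc using fun x => μ.hb.span_monomials n' (cs x)
  let E1 : Fin (p ^ n') × Fin (p ^ j) ≃ Fin (p ^ (n' + j)) :=
    finProdFinEquiv.trans (finCongr (pow_add p n' j).symm)
  have hE1 : ∀ a b, (E1 (a, b) : ℕ) = b + p ^ j * a := fun a b => rfl
  let T : ((Fin d → Fin (p ^ j)) × (E.V → Fin (p ^ (n' + j)))) × (Fin d → Fin (p ^ n')) ≃
      (Fin d → Fin (p ^ (n' + j))) × (E.V → Fin (p ^ (n' + j))) :=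
    { toFun := fun y => (fun i => E1 (y.2 i, y.1.1 i), y.1.2)
      invFun := fun y => ((fun i => (E1.symm (y.1 i)).2, y.2), fun i => (E1.symm (y.1 i)).1)
      left_inv := fun y => by simp
      right_inv := fun y => by simp }
  have key := μ.indep_top E hn ι hc (n' + j) (fun y => cc (T.symm y).1 (T.symm y).2) (by
    rw [← T.sum_comp, Fintype.sum_prod_type, ← h]
    refine Finset.sum_congr rfl fun x _ => ?_
    rw [hcc x, map_sum, map_sum, Finset.sum_mul]
    refine Finset.sum_congr rfl fun γ _ => ?_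
    have e1 : ∀ b, (μ.Δ.φ ^ (n' + j)) b = (μ.Δ.φ ^ j) ((μ.Δ.φ ^ n') b) := fun b => by
      rw [add_comm, pow_add, RingHom.mul_def, RingHom.comp_apply]
    have e2 : μ.mon E (n' + j) (n' + j) (T (x, γ)) =
        E.σ μ.Δ (n' + j) ((μ.Δ.φ ^ j) (∏ i, MvPowerSeries.X i ^ (γ i : ℕ))) * μ.mon E (n' + j) j x := by
      rw [Mix.mon, Mix.mon, ← mul_assoc, map_prod, map_prod, ← Finset.prod_mul_distrib]
      congr 1
      refine Finset.prod_congr rfl fun i _ => ?_
      rw [map_pow, μ.hb.φ_pow_X, map_pow, map_pow, ← pow_mul, ← pow_add, add_comm (p ^ j * _), ← hE1]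
      rfl
    rw [T.symm_apply_apply, e1, e2, map_mul, map_mul, mul_assoc])
  rw [hcc x]
  refine Ideal.sum_mem _ fun γ _ => Ideal.mul_mem_right _ _ (Ideal.mem_map_of_mem _ ?_)
  have := key (T (x, γ))
  rwa [T.symm_apply_apply] at this

theorem Mix.ker_le {n c : ℕ} (hn : n + 1 + E.c = d) (ι : Fin n → E.V)
    (hc : maximalIdeal (AW p k d) ^ c ≤ E.𝔣 ⊔ Ideal.span {(p : AW p k d)} ⊔ idl fun j => E.g (ι j)) (e : ℕ)
    {b : AW p k d} (h : E.σ μ.Δ e ((μ.Δ.φ ^ e) b) = 0) : b ∈ E.𝔣 := by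
  classical
  have hq : 0 < p ^ e := pow_pos (Fact.out : p.Prime).pos e
  let x0 : (Fin d → Fin (p ^ e)) × (E.V → Fin (p ^ e)) := (fun _ => ⟨0, hq⟩, fun _ => ⟨0, hq⟩)
  have key := μ.indep_top E hn ι hc e (fun x => if x = x0 then b else 0) (by
    rw [Finset.sum_eq_single x0 (fun x _ hx => by rw [if_neg hx, map_zero, map_zero, zero_mul])
      (fun hx => absurd (Finset.mem_univ _) hx), if_pos rfl, h, zero_mul]) x0
  rwa [if_pos rfl] at key

end Crest.Agent.R188
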