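import Crest.Agent.R188.EnvB

/-!
# rid 188, file `EnvP`: points of the tower

Prefix helper lemmas with `np_`.
-/

set_option autoImplicit false
set_option linter.unusedSectionVars false

open IsLocalRing MvPolynomial Crest.Agent.R183

namespace Crest.Agent.R188

theorem np_root_one (p : ℕ) (hp : 0 < p) (E : Type) [CommRing E] [IsLocalRing E] (c : E)
    (hc : c ∈ maximalIdeal E) :
    ∃ (E' : Type) (_ : CommRing E') (_ : IsLocalRing E') (g : E →+* E') (Y : E'), IsLocalHom g ∧
      Function.Injective g ∧ Y ^ p = g c ∧ Subring.closure (Set.range g ∪ {Y}) = ⊤ ∧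
      Module.length E' E' = (p : ℕ) * Module.length E E := by
  let f : Polynomial E := Polynomial.X ^ p - Polynomial.C c
  have hf : f.Monic := Polynomial.monic_X_pow_sub_C c hp.ne'
  have hdeg : f.natDegree = p := Polynomial.natDegree_X_pow_sub_C
  let E' := AdjoinRoot f
  let g : E →+* E' := algebraMap E E'
  let Y : E' := AdjoinRoot.root f
  have hY : Y ^ p = g c := by
    have h := AdjoinRoot.eval₂_root f
    rw [Polynomial.eval₂_sub, Polynomial.eval₂_pow, Polynomial.eval₂_X, Polynomial.eval₂_C] at h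
    exact sub_eq_zero.1 h
  have hdec : ∀ b : E', ∃ (a : E) (b' : E'), b = g a + Y * b' := by
    intro b
    induction b using AdjoinRoot.induction_on with
    | ih q =>
      refine ⟨q.coeff 0, AdjoinRoot.mk f q.divX, ?_⟩
      conv_lhs => rw [← Polynomial.X_mul_divX_add q]
      rw [map_add, map_mul, AdjoinRoot.mk_X, AdjoinRoot.mk_C, add_comm]
      rfl
  have h0 : f.eval₂ (residue E) 0 = 0 := by
    rw [Polynomial.eval₂_sub, Polynomial.eval₂_pow, Polynomial.eval₂_X, Polynomial.eval₂_C, zero_pow hp.ne',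
      (residue_eq_zero_iff c).2 hc, sub_zero]
  let ρ : E' →+* ResidueField E := AdjoinRoot.lift (residue E) 0 h0
  have hρg : ∀ a, ρ (g a) = residue E a := fun a => AdjoinRoot.lift_of h0
  have hρY : ρ Y = 0 := AdjoinRoot.lift_root h0
  have hρs : Function.Surjective ρ := fun z => by
    obtain ⟨a, rfl⟩ := residue_surjective z
    exact ⟨g a, hρg a⟩
  have hmax : (RingHom.ker ρ).IsMaximal := RingHom.ker_isMaximal_of_surjective ρ hρs
  have hfin : Module.Finite E E' := hf.finite_adjoinRoot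
  have hcomap : ∀ M : Ideal E', M.IsMaximal → ∀ a ∈ maximalIdeal E, g a ∈ M := by
    intro M hM a ha
    have h1 := Ideal.isMaximal_comap_of_isIntegral_of_isMaximal (R := E) M
    rw [← eq_maximalIdeal h1] at ha
    exact ha
  have hloc : IsLocalRing E' := by
    refine of_unique_max_ideal ⟨RingHom.ker ρ, hmax, fun M hM => (hmax.eq_of_le hM.ne_top fun b hb => ?_).symm⟩
    obtain ⟨a, b', rfl⟩ := hdec b
    rw [RingHom.mem_ker, map_add, map_mul, hρY, zero_mul, add_zero, hρg, residue_eq_zero_iff] at hb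
    refine M.add_mem (hcomap M hM a hb) (M.mul_mem_right _ (hM.isPrime.mem_of_pow_mem p ?_))
    rw [hY]
    exact hcomap M hM c hc
  have hg : IsLocalHom g := ⟨fun a ha => by
    by_contra hn
    exact (mem_maximalIdeal _).1 (hcomap _ (maximalIdeal.isMaximal E') a ((mem_maximalIdeal a).2 hn)) ha⟩
  have hYm : Y ∈ maximalIdeal E' := by
    refine (maximalIdeal.isMaximal E').isPrime.mem_of_pow_mem p ?_
    rw [hY]
    exact hcomap _ (maximalIdeal.isMaximal E') c hc
  have hinj : Function.Injective g := by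
    have : Module.Free E E' := Module.Free.of_basis (AdjoinRoot.powerBasis' hf).basis
    exact FaithfulSMul.algebraMap_injective E E'
  refine ⟨E', inferInstance, hloc, g, Y, hg, hinj, hY, ?_, ?_⟩
  · refine eq_top_iff.2 fun b _ => ?_
    induction b using AdjoinRoot.induction_on with
    | ih q =>
      induction q using Polynomial.induction_on with
      | C a => exact Subring.subset_closure (Or.inl ⟨a, rfl⟩)
      | add q r hq hr =>
        rw [map_add]
        exact Subring.add_mem _ (hq trivial) (hr trivial)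
      | monomial n a _ =>
        rw [map_mul, map_pow, AdjoinRoot.mk_X]
        refine Subring.mul_mem _ ?_ (Subring.pow_mem _ ?_ _)
        · exact Subring.subset_closure (Or.inl ⟨a, rfl⟩)
        · exact Subring.subset_closure (Or.inr rfl)
  · have h1 := colen_eq_restrict_of_local (Λ := E) (Λ' := E') (W := E') (fun b => by
      obtain ⟨a, b', rfl⟩ := hdec b
      exact ⟨a, by rw [add_sub_cancel_left]; exact Ideal.mul_mem_right _ _ hYm⟩) ⊥
    rw [Submodule.restrictScalars_bot, ln_colen_bot, ln_colen_bot] at h1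
    rw [h1, (AdjoinRoot.powerBasis' hf).basis.equivFun.length_eq, Module.length_pi, ENat.card_eq_coe_fintype_card,
      Fintype.card_fin, AdjoinRoot.powerBasis'_dim, hdeg]

theorem np_root_fin (p : ℕ) (hp : 0 < p) (n : ℕ) : ∀ (E : Type) [CommRing E] [IsLocalRing E]
    (c : Fin n → E), (∀ l, c l ∈ maximalIdeal E) →
    ∃ (E' : Type) (_ : CommRing E') (_ : IsLocalRing E') (g : E →+* E') (Y : Fin n → E'), IsLocalHom g ∧
      Function.Injective g ∧ (∀ l, Y l ^ p = g (c l)) ∧ Subring.closure (Set.range g ∪ Set.range Y) = ⊤ ∧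
      Module.length E' E' = (p ^ n : ℕ) * Module.length E E := by
  induction n with
  | zero =>
    intro E _ _ c _
    refine ⟨E, inferInstance, inferInstance, RingHom.id E, Fin.elim0, inferInstance, Function.injective_id,
      fun l => l.elim0, ?_, by simp⟩
    exact eq_top_iff.2 fun b _ => Subring.subset_closure (Or.inl ⟨b, rfl⟩)
  | succ n ih =>
    intro E _ _ c hc
    obtain ⟨E1, _, _, g1, Y1, hg1, hi1, hY1, hc1, hl1⟩ := np_root_one p hp E (c 0) (hc 0)
    obtain ⟨E2, _, _, g2, Y2, hg2, hi2, hY2, hc2, hl2⟩ := ih E1 (fun l => g1 (c l.succ))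
      (fun l => map_nonunit g1 _ (hc _))
    refine ⟨E2, inferInstance, inferInstance, g2.comp g1, Fin.cons (g2 Y1) Y2, inferInstance, hi2.comp hi1,
      fun l => ?_, ?_, ?_⟩
    · refine Fin.cases ?_ (fun l => ?_) l
      · rw [Fin.cons_zero, ← map_pow, hY1, RingHom.comp_apply]
      · rw [Fin.cons_succ, hY2, RingHom.comp_apply]
    · rw [eq_top_iff, ← hc2, Subring.closure_le]
      rintro b (⟨a, rfl⟩ | ⟨l, rfl⟩)
      · have ha : a ∈ Subring.closure (Set.range g1 ∪ {Y1}) := hc1 ▸ Subring.mem_top a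
        have hle : Subring.closure (Set.range g1 ∪ {Y1}) ≤ (Subring.closure (Set.range (g2.comp g1) ∪
            Set.range (Fin.cons (g2 Y1) Y2 : Fin (n + 1) → E2))).comap g2 := by
          rw [Subring.closure_le]
          rintro b (⟨a, rfl⟩ | rfl)
          · exact Subring.subset_closure (Or.inl ⟨a, rfl⟩)
          · exact Subring.subset_closure (Or.inr ⟨0, rfl⟩)
        exact hle ha
      · exact Subring.subset_closure (Or.inr ⟨l.succ, rfl⟩)
    · rw [hl2, hl1, ← mul_assoc, pow_succ, Nat.cast_mul]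

/-- `exists_root_ext` of `R183/MxS.lean` with injectivity: copy the three proofs (`AdjoinRoot` of a monic polynomial of
positive degree is free of positive rank). -/
theorem exists_root_ext' (p : ℕ) (hp : 0 < p) (L : Type) [Fintype L] (E : Type) [CommRing E] [IsLocalRing E]
    (c : L → E) (hc : ∀ l, c l ∈ maximalIdeal E) :
    ∃ (E' : Type) (_ : CommRing E') (_ : IsLocalRing E') (g : E →+* E') (Y : L → E'), IsLocalHom g ∧
      Function.Injective g ∧ (∀ l, Y l ^ p = g (c l)) ∧ Subring.closure (Set.range g ∪ Set.range Y) = ⊤ ∧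
      Module.length E' E' = (p ^ Fintype.card L : ℕ) * Module.length E E := by
  let e := Fintype.equivFin L
  obtain ⟨E', _, _, g, Y, hg, hi, hY, hcl, hl⟩ := np_root_fin p hp (Fintype.card L) E (fun i => c (e.symm i))
    (fun i => hc _)
  refine ⟨E', inferInstance, inferInstance, g, fun l => Y (e l), hg, hi, fun l => ?_, ?_, hl⟩
  · rw [hY, Equiv.symm_apply_apply]
  · rw [← hcl]
    congr 2
    exact e.surjective.range_comp Y

theorem np_φ_pow {p : ℕ} {A B : Type} [CommRing A] [CommRing B] (Δ : DeltaS A p) (s : A →+* B) (hp : s p = 0)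
    (e : ℕ) (b : A) : s ((Δ.φ ^ e) b) = s b ^ p ^ e := by
  induction e with
  | zero => simp
  | succ e ih =>
    rw [pow_succ', RingHom.mul_def, RingHom.comp_apply, Δ.spec, map_add, map_mul, hp, zero_mul, add_zero, map_pow, ih,
      ← pow_mul, ← pow_succ]

namespace Env

variable {p : ℕ} [Fact p.Prime] {A : Type} [CommRing A] [IsLocalRing A] {d : ℕ} {X' : Fin d → A}
  (m : Env p A X') {Δ : DeltaS A p}

/-- One step; this is the proof of `colen_zU_succ` in `R183/MxS.lean` with `ρ = G ∘ π e`. -/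
theorem point_succ (h : MBase p A X' Δ) (e : ℕ) {S : Type} [CommRing S] [IsLocalRing S] (G : m.D Δ e →+* S)
    [IsLocalHom G] (hu : G (m.π Δ e m.u) = 0) :
    ∃ (S' : Type) (_ : CommRing S') (_ : IsLocalRing S') (g : S →+* S') (G' : m.D Δ (e + 1) →+* S'),
      Function.Injective g ∧ IsLocalHom G' ∧ (∀ a ∈ eSub A m.V m.L e, G' (m.π Δ (e + 1) a) = g (G (m.π Δ e a))) ∧
      (Function.Surjective G → Function.Surjective G') ∧
      Module.length S' S' = (p ^ Fintype.card m.L : ℕ) * Module.length S S := by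
  classical
  have := m.isLocalRing h e
  let ρ : m.𝒜 →+* S := G.comp (m.π Δ e)
  have hρm : ∀ a ∈ mxM A (EV m.V m.L), ρ a ∈ maximalIdeal _ := fun a ha =>
    map_nonunit G _ ((m.π_mem_iff h e a).2 ha)
  have hρu : ρ m.u = 0 := hu
  have hρp : ρ p = 0 := by
    rw [RingHom.comp_apply, map_natCast, m.p_eq Δ e, map_pow]
    exact pow_eq_zero_of_le (pow_pos (Fact.out : p.Prime).pos e) (by rw [pow_one]; exact hρu)
  have hρξ : ∀ i, ρ (m.ξ i) = 0 := m.es_ξ_mem (RingHom.ker ρ) hρp hρu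
  choose a ha ham b _ c _ habc using fun l => m.r_mod Δ h l e
  obtain ⟨E', _, _, g, Y, hg, hinj, hY, hcl, hlen⟩ := exists_root_ext' p (Fact.out : p.Prime).pos m.L _
    (fun l => -ρ (a l)) fun l => neg_mem (hρm _ (ham l))
  let val : EV m.V m.L → E' := Sum.elim (fun v => g (ρ (X (.inl v))))
    fun li => if li.2 = e then Y li.1 else g (ρ (X (.inr li)))
  let ψ : m.𝒜 →+* E' := eval₂Hom (g.comp (ρ.comp C)) val
  have hψC : ∀ a, ψ (C a) = g (ρ (C a)) := fun a => eval₂Hom_C _ _ a
  have hψX : ∀ s, ψ (X s) = val s := fun s => eval₂Hom_X' _ _ s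
  have hψX' : ∀ s, eLev s ≠ e + 1 → ψ (X s) = g (ρ (X s)) := by
    rintro (v | ⟨l, i⟩) hs
    · exact hψX _
    · rw [hψX]
      exact if_neg fun hi => hs (congrArg (· + 1) hi)
  have hψy : ∀ l, ψ (m.y l e) = Y l := fun l => (hψX _).trans (if_pos rfl)
  have hψ : ∀ a ∈ eSub A m.V m.L e, ψ a = g (ρ a) := fun a ha =>
    mxs_hom_eq ψ (g.comp ρ) hψC (fun s hs => hψX' s (Nat.lt_succ_of_le hs).ne) ha
  have hψu : ψ m.u = 0 := by rw [hψ m.u (m.er_u_mem e), hρu, map_zero]
  have hψp : ψ p = 0 := by rw [hψ _ (natCast_mem _ p), hρp, map_zero]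
  have hψξ : ∀ i, ψ (m.ξ i) = 0 := m.es_ξ_mem (RingHom.ker ψ) hψp hψu
  have hψr : ∀ l i, i ≤ e + 1 → ψ (m.r Δ l i) = 0 := by
    intro l i hi
    rcases Nat.lt_or_eq_of_le hi with hi | rfl
    · have h1 := hψ _ (m.er_sub_mono (Nat.le_of_lt_succ hi) (m.r_sub Δ l i))
      have h2 : ρ (m.r Δ l i) = 0 := by rw [RingHom.comp_apply, m.π_r Δ (Nat.le_of_lt_succ hi), map_zero]
      rwa [map_sub, map_mul, hψξ, zero_mul, sub_zero, map_sub ρ, map_mul ρ, hρξ, zero_mul, sub_zero, h2,
        map_zero] at h1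
    · rw [habc l, map_add, map_add, map_add, map_add, map_mul, map_mul, map_mul, hψξ, hψp, hψu, map_pow, hψy, hY,
        hψ _ (ha l), map_neg]
      ring
  have hψm : ∀ s, ψ (X s) ∈ maximalIdeal E' := by
    intro s
    by_cases hs : eLev s = e + 1
    · obtain (v | ⟨l, i⟩) := s
      · exact absurd hs (Nat.succ_ne_zero e).symm
      · obtain rfl : i = e := Nat.succ_injective hs
        refine (maximalIdeal.isMaximal E').isPrime.mem_of_pow_mem p ?_
        rw [show ψ (X (.inr (l, i))) = Y l from hψy l, hY]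
        exact map_nonunit g _ (neg_mem (hρm _ (ham l)))
    · rw [hψX' s hs]
      exact map_nonunit g _ (hρm _ (m.er_X_mxM s))
  have hsubC : ∀ s, ψ (s - C (constantCoeff s)) ∈ maximalIdeal E' := fun s =>
    mxs_sub_C (t := Set.univ) ((maximalIdeal E').comap ψ) (fun s _ => hψm s) (by rw [supported_univ]; trivial)
  have hunit : ∀ s, s ∉ mxM A (EV m.V m.L) → IsUnit (ψ s) := by
    intro s hs
    have h1 := hsubC s
    have h2 : IsUnit (ψ (C (constantCoeff s))) := ((notMem_maximalIdeal.1 hs).map C).map ψ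
    by_contra hn
    have h3 := Ideal.sub_mem _ ((mem_maximalIdeal _).2 hn) h1
    rw [map_sub, sub_sub_cancel] at h3
    exact (mem_maximalIdeal _).1 h3 h2
  have hnon : ∀ s ∈ mxM A (EV m.V m.L), ψ s ∈ maximalIdeal E' := by
    intro s hs
    have h2 : ψ (C (constantCoeff s)) ∈ maximalIdeal E' := by
      rw [hψC]
      exact map_nonunit g _ (hρm _ ((m.et_C_mxM _).2 hs))
    have h3 := Ideal.add_mem _ (hsubC s) h2
    rwa [map_sub, sub_add_cancel] at h3
  have hrel : ∀ s, mxLev s ≤ e + 1 → ψ (m.rel Δ (e + 1) s) = 0 := by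
    rintro ((_ | l) | ⟨l, i⟩) hs
    · exact hψξ _
    · exact hψr l 0 (Nat.zero_le _)
    · exact hψr l (i + 1) hs
  have hhigh : ∀ s, e + 1 < eLev s → ψ (X s) = 0 := by
    intro s hs
    rw [hψX' s hs.ne']
    obtain (v | ⟨l, i⟩) := s
    · exact absurd hs (Nat.not_lt_zero _)
    · have h1 : ρ (X (.inr (l, i))) = 0 := by
        rw [RingHom.comp_apply]
        exact (congrArg _ (m.π_y Δ (Nat.lt_of_succ_lt_succ hs).le l)).trans (map_zero _)
      rw [h1, map_zero]
  obtain ⟨G', hG'⟩ := m.exists_lift Δ (e + 1) ψ hunit hrel hhigh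
  refine ⟨E', inferInstance, inferInstance, g, G', hinj, ⟨fun z hz => ?_⟩, fun a ha => (hG' a).trans (hψ a ha),
    fun hG z => ?_, hlen⟩
  · obtain ⟨a, -, rfl⟩ := m.π_surj h (e + 1) z
    refine m.π_isUnit Δ (e + 1) fun ha => ?_
    rw [hG'] at hz
    exact (mem_maximalIdeal _).1 (hnon a ha) hz
  · have hle : Subring.closure (Set.range g ∪ Set.range Y) ≤ G'.range := by
      rw [Subring.closure_le]
      rintro _ (⟨z, rfl⟩ | ⟨l, rfl⟩)
      · obtain ⟨z, rfl⟩ := hG z
        obtain ⟨a, ha, rfl⟩ := m.π_surj h e z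
        exact ⟨m.π Δ (e + 1) a, (hG' a).trans (hψ a ha)⟩
      · exact ⟨m.π Δ (e + 1) (m.y l e), (hG' _).trans (hψy l)⟩
    exact hle (hcl ▸ Subring.mem_top z)

/-- Induct on `e`; at level `0` use `σ_zero_surj`, `σ_zero_eq_zero`. -/
theorem exists_point (h : MBase p A X' Δ) {S : Type} [CommRing S] [IsLocalRing S] (s : A →+* S) [IsLocalHom s]
    (hs : ∀ b ∈ m.𝔣 ⊔ Ideal.span {(p : A)}, s b = 0) (e : ℕ) :
    ∃ (S' : Type) (_ : CommRing S') (_ : IsLocalRing S') (g : S →+* S') (G : m.D Δ e →+* S'),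
      Function.Injective g ∧ IsLocalHom G ∧ (∀ b, G (m.σ Δ e b) = g (s b)) ∧
      (∀ v, G (m.π Δ e (m.xv v)) = g (s (m.g v))) ∧ G (m.π Δ e m.u) = 0 ∧
      (Function.Surjective s → Function.Surjective G) ∧
      Module.length S' S' = ((p ^ e) ^ Fintype.card m.L : ℕ) * Module.length S S := by
  induction e with
  | zero =>
    have hk : RingHom.ker (m.σ Δ 0) ≤ RingHom.ker s := fun b hb =>
      hs b (Ideal.mem_sup_left ((m.σ_zero_eq_zero h).1 hb))
    let G : m.D Δ 0 →+* S := RingHom.liftOfSurjective _ (m.σ_zero_surj h) ⟨s, hk⟩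
    have hG : ∀ b, G (m.σ Δ 0 b) = s b := fun b => RingHom.liftOfSurjective_comp_apply _ (m.σ_zero_surj h) ⟨s, hk⟩ b
    have hx : ∀ v, G (m.π Δ 0 (m.xv v)) = s (m.g v) := fun v => by rw [m.σ_zero_xv, hG]
    refine ⟨S, inferInstance, inferInstance, RingHom.id S, G, Function.injective_id, ⟨fun z hz => ?_⟩, hG, hx, ?_,
      fun hsurj z => ?_, by simp⟩
    · obtain ⟨b, rfl⟩ := m.σ_zero_surj h z
      rw [hG] at hz
      exact (IsLocalHom.map_nonunit b hz).map _
    · refine (hx m.u0).trans (hs _ ?_)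
      have h1 : m.g m.u0 = p - (p - m.g m.u0) := by ring
      rw [h1]
      exact sub_mem (Ideal.mem_sup_right (Ideal.mem_span_singleton_self _))
        (Ideal.mem_sup_left (Ideal.mem_sup_left (Ideal.mem_span_singleton_self _)))
    · obtain ⟨b, rfl⟩ := hsurj z
      exact ⟨_, hG b⟩
  | succ e ih =>
    obtain ⟨S1, _, _, g1, G1, hi1, hl1, hb1, hx1, hu1, hs1, hlen1⟩ := ih
    obtain ⟨S2, _, _, g2, G2, hi2, hl2, ha2, hs2, hlen2⟩ := m.point_succ h e G1 hu1
    refine ⟨S2, inferInstance, inferInstance, g2.comp g1, G2, hi2.comp hi1, hl2, fun b => ?_, fun v => ?_, ?_,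
      fun hsurj => hs2 (hs1 hsurj), ?_⟩
    · exact (ha2 _ (m.er_C_mem e b)).trans (congrArg g2 (hb1 b))
    · exact (ha2 _ (m.er_X_mem (s := .inl v) (Nat.zero_le e))).trans (congrArg g2 (hx1 v))
    · rw [ha2 _ (m.er_u_mem e), hu1, map_zero]
    · rw [hlen2, hlen1, ← mul_assoc, pow_succ', mul_pow, Nat.cast_mul]

/-- Take `S = A / P`; there `φ^e b = b^(p^e)`. -/
theorem mem_of_point (h : MBase p A X' Δ) (P : Ideal A) [P.IsPrime] (hP : m.𝔣 ⊔ Ideal.span {(p : A)} ≤ P) (e : ℕ)
    {b : A} (hb : m.σ Δ e ((Δ.φ ^ e) b) = 0) : b ∈ P := by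
  have : IsLocalRing (A ⧸ P) := IsLocalRing.of_surjective' (Ideal.Quotient.mk P) Ideal.Quotient.mk_surjective
  have : IsLocalHom (Ideal.Quotient.mk P) := IsLocalHom.of_surjective _ Ideal.Quotient.mk_surjective
  have hs : ∀ b ∈ m.𝔣 ⊔ Ideal.span {(p : A)}, Ideal.Quotient.mk P b = 0 := fun b hb =>
    Ideal.Quotient.eq_zero_iff_mem.2 (hP hb)
  obtain ⟨S', _, _, g, G, hi, -, hG, -⟩ := m.exists_point h (Ideal.Quotient.mk P) hs e
  have h1 := hG ((Δ.φ ^ e) b)
  rw [hb, map_zero, np_φ_pow Δ _ (hs _ (Ideal.mem_sup_right (Ideal.mem_span_singleton_self _))), ← map_zero g] at h1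
  exact Ideal.Quotient.eq_zero_iff_mem.1 (pow_eq_zero_iff (pow_pos (Fact.out : p.Prime).pos e).ne' |>.1 (hi h1).symm)

/-- Take `S = A / I` (if `I = ⊤` the left side is `0`); `mxs_len_le`, `mxs_len_quot`. -/
theorem colen_point (h : MBase p A X' Δ) {n : ℕ} (ι : Fin n → m.V) (e : ℕ) :
    ((p ^ e) ^ Fintype.card m.L : ℕ) * colen A (m.𝔣 ⊔ Ideal.span {(p : A)} ⊔ idl fun j => m.g (ι j)) ≤
      colen (m.D Δ e) (idl (Fin.cons (m.π Δ e m.u) fun j => m.π Δ e (m.xv (ι j)) : Fin (n + 1) → m.D Δ e)) := by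
  generalize hI : (m.𝔣 ⊔ Ideal.span {(p : A)} ⊔ idl fun j => m.g (ι j)) = I
  by_cases ht : I = ⊤
  · rw [ht, ln_colen_top, mul_zero]
    exact zero_le
  have : Nontrivial (A ⧸ I) := Ideal.Quotient.nontrivial_iff.2 ht
  have : IsLocalRing (A ⧸ I) := IsLocalRing.of_surjective' (Ideal.Quotient.mk I) Ideal.Quotient.mk_surjective
  have : IsLocalHom (Ideal.Quotient.mk I) := IsLocalHom.of_surjective _ Ideal.Quotient.mk_surjective
  obtain ⟨S', _, _, g, G, -, -, -, hx, hu, hs, hlen⟩ := m.exists_point h (Ideal.Quotient.mk I)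
    (fun b hb => Ideal.Quotient.eq_zero_iff_mem.2 (hI ▸ Ideal.mem_sup_left hb)) e
  rw [← mxs_len_quot, ← hlen]
  refine mxs_len_le G (hs Ideal.Quotient.mk_surjective) _ (ln_idl_le (I := RingHom.ker G) fun i => ?_)
  refine Fin.cases hu (fun j => ?_) i
  refine (hx (ι j)).trans ?_
  rw [Ideal.Quotient.eq_zero_iff_mem.2 (hI ▸ Ideal.mem_sup_right (ln_mem_idl (fun j => m.g (ι j)) j)), map_zero]

end Env

end Crest.Agent.R188
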