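import Crest.Agent.R183.MxS
import Crest.Agent.R188.Defs

/-!
# rid 188, file `EnvR`: the relations of the truncated prismatic envelope (port of `R183/MxR`)

`𝒜 = A[X_v, y_{l,i}]` with `φ X_v = X_v^p` and `δ y_{l,i} = y_{l,i+1}`; `u = X_{u0}`, `ξ = p - u`,
`r_{l,0} = ξ y_{l,0} - F0 l`, `r_{l,i+1} = δ r_{l,i}`, where the `F0 l` are the `f l` and the `X_v - g v`.
-/

set_option autoImplicit false
set_option linter.unusedSectionVars false
set_option maxHeartbeats 400000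

open IsLocalRing MvPolynomial Crest.Agent.R183

namespace Crest.Agent.R188

/-- The data of an envelope: equations `f`, and elements `g v` that acquire compatible `p`-power roots. -/
structure Env (p : ℕ) (A : Type) [CommRing A] [IsLocalRing A] {d : ℕ} (X' : Fin d → A) where
  V : Type
  [fin : Fintype V]
  [dec : DecidableEq V]
  u0 : V
  c : ℕ
  f : Fin c → A
  g : V → A
  f_mem : ∀ l, f l ∈ idl X'
  g_mem : ∀ v, g v ∈ idl X'

attribute [instance] Env.fin Env.dec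

/-- The index set of all variables. -/
abbrev EV (V L : Type) : Type := V ⊕ L × ℕ

/-- The level of a variable. -/
def eLev {V L : Type} : EV V L → ℕ
  | .inl _ => 0
  | .inr (_, i) => i + 1

/-- `δ` of the variables. -/
noncomputable def eδX {A V L : Type} [CommRing A] : EV V L → MvPolynomial (EV V L) A
  | .inl _ => 0
  | .inr (l, i) => X (.inr (l, i + 1))

/-- Polynomials in the variables of level `≤ i`. -/
noncomputable def eSub (A V L : Type) [CommRing A] (i : ℕ) : Subalgebra A (MvPolynomial (EV V L) A) :=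
  supported A {s | eLev s ≤ i}

namespace Env

variable {p : ℕ} [Fact p.Prime] {A : Type} [CommRing A] [IsLocalRing A] {d : ℕ} {X' : Fin d → A}
  (m : Env p A X') (Δ : DeltaS A p)

/-- The index set of the equations. -/
abbrev L : Type := Fin m.c ⊕ m.V

/-- The equations at level `0`. -/
noncomputable def F0 : m.L → MvPolynomial m.V A
  | .inl l => C (m.f l)
  | .inr v => X v - C (m.g v)

/-- The ideal `(p - g u0, f)` of `A`. -/
noncomputable def 𝔣 : Ideal A := Ideal.span {(p : A) - m.g m.u0} ⊔ idl m.f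

/-- The big polynomial ring. -/
abbrev 𝒜 : Type := MvPolynomial (EV m.V m.L) A

/-- The Frobenius lift on the big ring. -/
noncomputable def Δ' : DeltaS m.𝒜 p := Classical.choose (Δ.exists_poly (EV m.V m.L) eδX)

theorem φ_C (a : A) : (m.Δ' Δ).φ (C a) = C (Δ.φ a) := (Classical.choose_spec (Δ.exists_poly (EV m.V m.L) eδX)).1 a

theorem δ_C (a : A) : (m.Δ' Δ).δ (C a) = C (Δ.δ a) :=
  (Classical.choose_spec (Δ.exists_poly (EV m.V m.L) eδX)).2.1 a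

theorem δ_X (s : EV m.V m.L) : (m.Δ' Δ).δ (X s) = eδX s :=
  (Classical.choose_spec (Δ.exists_poly (EV m.V m.L) eδX)).2.2 s

/-- The variable `u`. -/
noncomputable def u : m.𝒜 := X (.inl (m.u0))

/-- The variable `y_{l,i}`. -/
noncomputable def y (l : m.L) (i : ℕ) : m.𝒜 := X (.inr (l, i))

/-- `φ^e ξ = p - u^(p^e)`. -/
noncomputable def ξ (e : ℕ) : m.𝒜 := p - m.u ^ p ^ e

/-- The relations. -/
noncomputable def r (l : m.L) : ℕ → m.𝒜
  | 0 => m.ξ 0 * m.y l 0 - rename Sum.inl (m.F0 l)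
  | i + 1 => (m.Δ' Δ).δ (r l i)

theorem φ_inl (v : m.V) : (m.Δ' Δ).φ (X (.inl v)) = X (.inl v) ^ p := by
  rw [(m.Δ' Δ).spec, m.δ_X]
  simp [eδX]

theorem φ_ξ (e : ℕ) : (m.Δ' Δ).φ (m.ξ e) = m.ξ (e + 1) := by
  have hu : (m.Δ' Δ).φ m.u = m.u ^ p := m.φ_inl Δ _
  rw [ξ, ξ, map_sub, map_natCast, map_pow, hu, ← pow_mul, ← pow_succ']

theorem er_X_mem {i : ℕ} {s : EV m.V m.L} (h : eLev s ≤ i) : (X s : m.𝒜) ∈ eSub A m.V m.L i :=
  Algebra.subset_adjoin ⟨s, h, rfl⟩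

theorem er_C_mem (i : ℕ) (a : A) : (C a : m.𝒜) ∈ eSub A m.V m.L i := (eSub A m.V m.L i).algebraMap_mem a

theorem er_sub_mono {i j : ℕ} (h : i ≤ j) {a : m.𝒜} (ha : a ∈ eSub A m.V m.L i) : a ∈ eSub A m.V m.L j :=
  supported_mono (fun _ hs => le_trans hs h) ha

theorem er_u_mem (i : ℕ) : m.u ∈ eSub A m.V m.L i := m.er_X_mem (Nat.zero_le i)

theorem er_y_mem (l : m.L) {j i : ℕ} (h : j < i) : m.y l j ∈ eSub A m.V m.L i := m.er_X_mem h

theorem er_ξ_mem (e i : ℕ) : m.ξ e ∈ eSub A m.V m.L i :=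
  sub_mem (natCast_mem _ p) (pow_mem (m.er_u_mem i) _)

theorem er_rename_mem (i : ℕ) (f : MvPolynomial (m.V) A) :
    (rename Sum.inl f : m.𝒜) ∈ eSub A m.V m.L i := by
  induction f using MvPolynomial.induction_on with
  | C a => rw [rename_C]; exact m.er_C_mem i a
  | add f g hf hg => rw [map_add]; exact add_mem hf hg
  | mul_X f v hf => rw [map_mul, rename_X]; exact mul_mem hf (m.er_X_mem (Nat.zero_le i))

theorem er_δ_sub {i j : ℕ} (hij : i ≤ j)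
    (h : ∀ s : EV m.V m.L, eLev s ≤ i → (eδX s : m.𝒜) ∈ eSub A m.V m.L j) {a : m.𝒜}
    (ha : a ∈ eSub A m.V m.L i) : (m.Δ' Δ).δ a ∈ eSub A m.V m.L j := by
  refine (m.Δ' Δ).δ_mem_closure _ (eSub A m.V m.L j).toSubring ?_ ?_ (Algebra.mem_adjoin_iff.1 ha)
  · rintro _ (⟨a, rfl⟩ | ⟨s, hs, rfl⟩)
    · exact m.er_C_mem j a
    · exact m.er_X_mem (le_trans hs hij)
  · rintro _ (⟨a, rfl⟩ | ⟨s, hs, rfl⟩)
    · rw [algebraMap_eq, m.δ_C]
      exact m.er_C_mem j _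
    · rw [m.δ_X]
      exact h s hs

theorem er_cross_mem {i : ℕ} {a b : m.𝒜} (ha : a ∈ eSub A m.V m.L i) (hb : b ∈ eSub A m.V m.L i) :
    cross p a b ∈ eSub A m.V m.L i :=
  cross_mem_subring (eSub A m.V m.L i).toSubring ha hb

theorem δ_mem_sub {i : ℕ} {a : m.𝒜} (ha : a ∈ eSub A m.V m.L i) : (m.Δ' Δ).δ a ∈ eSub A m.V m.L (i + 1) := by
  refine m.er_δ_sub Δ (Nat.le_succ i) ?_ ha
  rintro (v | ⟨l, j⟩) hs
  · exact zero_mem _
  · exact m.er_X_mem (by simpa [eLev] using hs)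

theorem δ_mem_sub_zero {a : m.𝒜} (ha : a ∈ eSub A m.V m.L 0) : (m.Δ' Δ).δ a ∈ eSub A m.V m.L 0 := by
  refine m.er_δ_sub Δ le_rfl ?_ ha
  rintro (v | ⟨l, j⟩) hs
  · exact zero_mem _
  · simp [eLev] at hs

theorem φ_mem_sub {i : ℕ} {a : m.𝒜} (ha : a ∈ eSub A m.V m.L i) : (m.Δ' Δ).φ a ∈ eSub A m.V m.L (i + 1) := by
  rw [(m.Δ' Δ).spec]
  exact add_mem (pow_mem (m.er_sub_mono (Nat.le_succ i) ha) _)
    (mul_mem (natCast_mem _ p) (m.δ_mem_sub Δ ha))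

theorem φ_mem_sub_zero {a : m.𝒜} (ha : a ∈ eSub A m.V m.L 0) : (m.Δ' Δ).φ a ∈ eSub A m.V m.L 0 := by
  rw [(m.Δ' Δ).spec]
  exact add_mem (pow_mem ha _) (mul_mem (natCast_mem _ p) (m.δ_mem_sub_zero Δ ha))

theorem er_δ_y (l : m.L) (i : ℕ) : (m.Δ' Δ).δ (m.y l i) = m.y l (i + 1) := m.δ_X Δ _

theorem er_δ_inl (v : m.V) : (m.Δ' Δ).δ (X (.inl v)) = 0 := m.δ_X Δ _

theorem er_G_zero (l : m.L) : m.r Δ l 0 - m.ξ 0 * m.y l 0 = -rename Sum.inl (m.F0 l) := by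
  rw [r]; ring

theorem er_G_succ (l : m.L) (i : ℕ) : m.r Δ l (i + 1) - m.ξ (i + 1) * m.y l (i + 1) =
    (m.Δ' Δ).δ (m.ξ i) * m.y l i ^ p + ((m.Δ' Δ).δ (m.r Δ l i - m.ξ i * m.y l i) -
      cross p (m.ξ i * m.y l i) (m.r Δ l i - m.ξ i * m.y l i)) := by
  have h1 := (m.Δ' Δ).δ_add (m.ξ i * m.y l i) (m.r Δ l i - m.ξ i * m.y l i)
  have h2 := (m.Δ' Δ).δ_mul (m.y l i) (m.ξ i)
  rw [m.φ_ξ, m.er_δ_y, mul_comm (m.y l i)] at h2
  rw [add_sub_cancel, h2] at h1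
  rw [r, h1]
  ring

/-- `r_{i+1} = δ (ξ_i y_i) + δ G_i - cross`, and `δ (ξ_i y_i) = ξ_{i+1} y_{i+1} + δ(ξ_i) y_i^p`. -/
theorem r_sub (l : m.L) (i : ℕ) : m.r Δ l i - m.ξ i * m.y l i ∈ eSub A m.V m.L i := by
  induction i with
  | zero =>
    rw [m.er_G_zero]
    exact neg_mem (m.er_rename_mem 0 _)
  | succ i ih =>
    have hy : m.y l i ∈ eSub A m.V m.L (i + 1) := m.er_y_mem l (Nat.lt_succ_self i)
    rw [m.er_G_succ]
    exact add_mem (mul_mem (m.δ_mem_sub Δ (m.er_ξ_mem i i)) (pow_mem hy _))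
      (sub_mem (m.δ_mem_sub Δ ih) (m.er_cross_mem (mul_mem (m.er_ξ_mem i _) hy)
        (m.er_sub_mono (Nat.le_succ i) ih)))

theorem er_X_mxM (v : EV m.V m.L) : (X v : m.𝒜) ∈ mxM A (EV m.V m.L) := by
  simp [mxM]

variable {Δ} in
theorem er_C_mxM (h : MBase p A X' Δ) (j : Fin d) : (C (X' j) : m.𝒜) ∈ mxM A (EV m.V m.L) := by
  have := ln_mem_idl (Fin.cons (p : A) X' : Fin (d + 1) → A) j.succ
  rw [h.max, Fin.cons_succ] at this
  simpa only [mxM, Ideal.mem_comap, constantCoeff_C] using this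

variable {Δ} in
theorem er_p_mxM (h : MBase p A X' Δ) : (p : m.𝒜) ∈ mxM A (EV m.V m.L) := by
  have := ln_mem_idl (Fin.cons (p : A) X' : Fin (d + 1) → A) 0
  rw [h.max, Fin.cons_zero] at this
  simpa only [mxM, Ideal.mem_comap, map_natCast] using this

variable {Δ} in
theorem er_δ_CX (h : MBase p A X' Δ) (j : Fin d) : (m.Δ' Δ).δ (C (X' j)) = 0 := by
  rw [m.δ_C, Δ.δ_eq_zero (h.φX j), map_zero]

/-- The ideal `(X', all variables)` is stable under `δ` (`DeltaS.δ_mem_span`) and contains `r_{l,0}`. -/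
theorem r_mem_mxM (h : MBase p A X' Δ) (l : m.L) (i : ℕ) : m.r Δ l i ∈ mxM A (EV m.V m.L) := by
  let s : Set m.𝒜 := Set.range (fun i => C (X' i)) ∪ Set.range X
  have hX : ∀ v, (X v : m.𝒜) ∈ Ideal.span s := fun v => Ideal.subset_span (Or.inr ⟨v, rfl⟩)
  have hle : Ideal.span s ≤ mxM A (EV m.V m.L) := by
    rw [Ideal.span_le]
    rintro _ (⟨j, rfl⟩ | ⟨v, rfl⟩)
    · exact m.er_C_mxM h j
    · exact m.er_X_mxM v
  refine hle ?_
  induction i with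
  | zero =>
    rw [r]
    refine sub_mem (Ideal.mul_mem_left _ _ (hX _)) ?_
    have h1 : ∀ a ∈ idl X', (C a : m.𝒜) ∈ Ideal.span s := fun a ha =>
      (ln_idl_le (I := (Ideal.span s).comap (C : A →+* m.𝒜)) fun j =>
        Ideal.subset_span (Or.inl ⟨j, rfl⟩)) ha
    rcases l with l | v
    · rw [F0, rename_C]
      exact h1 _ (m.f_mem l)
    · rw [F0, map_sub, rename_C, rename_X]
      exact sub_mem (hX _) (h1 _ (m.g_mem v))
  | succ i ih =>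
    rw [r]
    refine (m.Δ' Δ).δ_mem_span s _ Ideal.subset_span ?_ ih
    rintro _ (⟨j, rfl⟩ | ⟨v, rfl⟩)
    · rw [m.er_δ_CX h]
      exact zero_mem _
    · rw [m.δ_X]
      rcases v with v | ⟨l, j⟩
      · exact zero_mem _
      · exact hX _

theorem φ_mem_mxM (h : MBase p A X' Δ) (a : m.𝒜) : (m.Δ' Δ).φ a ∈ mxM A (EV m.V m.L) ↔ a ∈ mxM A (EV m.V m.L) := by
  rw [(m.Δ' Δ).spec, Ideal.add_mem_iff_left _ (Ideal.mul_mem_right _ _ (m.er_p_mxM h))]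
  exact (mxM_isMaximal A (EV m.V m.L)).isPrime.pow_mem_iff_mem p (Fact.out : p.Prime).pos

/-- level `i` modulo `(p, u)` times level `i + 1` -/
def erQ (i : ℕ) (x : m.𝒜) : Prop :=
  ∃ a ∈ eSub A m.V m.L i, ∃ b ∈ eSub A m.V m.L (i + 1), ∃ c ∈ eSub A m.V m.L (i + 1), x = a + p * b + m.u * c

variable {m} in
theorem erQ.add {i : ℕ} {x y : m.𝒜} (hx : m.erQ i x) (hy : m.erQ i y) : m.erQ i (x + y) := by
  obtain ⟨a, ha, b, hb, c, hc, rfl⟩ := hx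
  obtain ⟨a', ha', b', hb', c', hc', rfl⟩ := hy
  exact ⟨a + a', add_mem ha ha', b + b', add_mem hb hb', c + c', add_mem hc hc', by ring⟩

theorem er_Q_of_mem {i : ℕ} {x : m.𝒜} (hx : x ∈ eSub A m.V m.L i) : m.erQ i x :=
  ⟨x, hx, 0, zero_mem _, 0, zero_mem _, by ring⟩

theorem er_Q_p {i : ℕ} {x : m.𝒜} (hx : x ∈ eSub A m.V m.L (i + 1)) : m.erQ i (p * x) :=
  ⟨0, zero_mem _, x, hx, 0, zero_mem _, by ring⟩

theorem er_Q_u {i : ℕ} {x : m.𝒜} (hx : x ∈ eSub A m.V m.L (i + 1)) : m.erQ i (m.u * x) :=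
  ⟨0, zero_mem _, 0, zero_mem _, x, hx, by ring⟩

theorem er_Q_ξ {i : ℕ} (e : ℕ) {x : m.𝒜} (hx : x ∈ eSub A m.V m.L (i + 1)) : m.erQ i (m.ξ e * x) := by
  obtain ⟨k, hk⟩ : ∃ k, p ^ e = k + 1 := ⟨p ^ e - 1, by
    have := pow_pos (Fact.out : p.Prime).pos e
    omega⟩
  refine ⟨0, zero_mem _, x, hx, -(m.u ^ k * x), neg_mem (mul_mem (pow_mem (m.er_u_mem _) _) hx), ?_⟩
  rw [ξ, hk]
  ring

theorem er_Q_δ_add {i : ℕ} {x y : m.𝒜} (hx : x ∈ eSub A m.V m.L i) (hy : y ∈ eSub A m.V m.L i)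
    (h1 : m.erQ i ((m.Δ' Δ).δ x)) (h2 : m.erQ i ((m.Δ' Δ).δ y)) : m.erQ i ((m.Δ' Δ).δ (x + y)) := by
  rw [(m.Δ' Δ).δ_add, sub_eq_add_neg]
  exact (h1.add h2).add (m.er_Q_of_mem (neg_mem (m.er_cross_mem hx hy)))

theorem er_cross_dvd {i : ℕ} {a b : m.𝒜} (ha : a ∈ eSub A m.V m.L i) (hb : b ∈ eSub A m.V m.L i) :
    ∃ c ∈ eSub A m.V m.L i, cross p a b = a * c := by
  obtain ⟨c, hc⟩ := Ideal.mem_span_singleton'.1
    (cross_mem_left (p := p) (⟨a, ha⟩ : eSub A m.V m.L i) ⟨b, hb⟩)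
  refine ⟨c, c.2, ?_⟩
  have := congrArg (eSub A m.V m.L i).val hc
  simp only [cross, map_sum, map_mul, map_pow, map_natCast, Subalgebra.coe_val] at this
  rw [cross, ← this, mul_comm]

theorem er_δξ (e i : ℕ) : ∃ a ∈ eSub A m.V m.L i, ∃ b ∈ eSub A m.V m.L i,
    (m.Δ' Δ).δ (m.ξ e) = 1 + p * a + m.u * b := by
  obtain ⟨a, ha, b, hb, h⟩ := (m.Δ' Δ).δ_xi (u := m.u) (m.φ_inl Δ _)
    (pow_pos (Fact.out : p.Prime).pos e)
  have hle : Subring.closure {m.u} ≤ (eSub A m.V m.L i).toSubring :=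
    Subring.closure_le.2 (Set.singleton_subset_iff.2 (m.er_u_mem i))
  exact ⟨a, hle ha, b, hle hb, h⟩

theorem er_shape (l : m.L) (i : ℕ) (h : m.erQ i ((m.Δ' Δ).δ (m.r Δ l i - m.ξ i * m.y l i))) :
    m.erQ i (m.r Δ l (i + 1) - m.ξ (i + 1) * m.y l (i + 1) - m.y l i ^ p) := by
  have hy : m.y l i ∈ eSub A m.V m.L (i + 1) := m.er_y_mem l (Nat.lt_succ_self i)
  obtain ⟨a, ha, b, hb, e⟩ := m.er_δξ Δ i (i + 1)
  obtain ⟨c, hc, e'⟩ := m.er_cross_dvd (mul_mem (m.er_ξ_mem i _) hy)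
    (m.er_sub_mono (Nat.le_succ i) (m.r_sub Δ l i))
  have := ((h.add (m.er_Q_p (mul_mem ha (pow_mem hy p)))).add
    (m.er_Q_u (mul_mem hb (pow_mem hy p)))).add (m.er_Q_ξ i (neg_mem (mul_mem hy hc)))
  convert this using 1
  rw [m.er_G_succ, e, e']
  ring

theorem er_Q_δG (l : m.L) (i : ℕ) : m.erQ i ((m.Δ' Δ).δ (m.r Δ l i - m.ξ i * m.y l i)) := by
  induction i with
  | zero => exact m.er_Q_of_mem (m.δ_mem_sub_zero Δ (m.r_sub Δ l 0))
  | succ i ih =>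
    obtain ⟨a, ha, b, hb, c, hc, e⟩ := m.er_shape Δ l i ih
    have hy : m.y l i ∈ eSub A m.V m.L (i + 1) := m.er_y_mem l (Nat.lt_succ_self i)
    have ha' := m.er_sub_mono (Nat.le_succ i) ha
    have hp : (p : m.𝒜) ∈ eSub A m.V m.L (i + 1) := natCast_mem _ p
    have hu := m.er_u_mem (i + 1)
    have e' : m.r Δ l (i + 1) - m.ξ (i + 1) * m.y l (i + 1) =
        m.y l i ^ p + a + b * p + c * m.u := by linear_combination e
    rw [e']
    refine m.er_Q_δ_add Δ (add_mem (add_mem (pow_mem hy _) ha') (mul_mem hb hp)) (mul_mem hc hu)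
      (m.er_Q_δ_add Δ (add_mem (pow_mem hy _) ha') (mul_mem hb hp)
        (m.er_Q_δ_add Δ (pow_mem hy _) ha' ?_ (m.er_Q_of_mem (m.δ_mem_sub Δ ha))) ?_) ?_
    · obtain ⟨c', hc', e2⟩ := (m.Δ' Δ).δ_pow_p (eSub A m.V m.L (i + 1 + 1)).toSubring
        (m.er_sub_mono (Nat.le_succ _) hy) (m.δ_mem_sub Δ hy)
      rw [e2]
      exact m.er_Q_p hc'
    · rw [(m.Δ' Δ).δ_mul, map_natCast, (m.Δ' Δ).δ_p]
      exact (m.er_Q_of_mem (mul_mem (pow_mem hb _) (sub_mem (one_mem _) (pow_mem hp _)))).add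
        (m.er_Q_p (m.δ_mem_sub Δ hb))
    · have h1 : (m.Δ' Δ).δ m.u = 0 := m.er_δ_inl Δ _
      have h2 : (m.Δ' Δ).φ m.u = m.u * m.u ^ (p - 1) := by
        rw [← pow_succ', Nat.sub_add_cancel (Fact.out : p.Prime).pos]
        exact m.φ_inl Δ _
      rw [(m.Δ' Δ).δ_mul, h1, h2, mul_zero, zero_add, mul_assoc]
      exact m.er_Q_u (mul_mem (pow_mem (m.er_u_mem _) _) (m.δ_mem_sub Δ hc))

/-- The shape of the relations modulo `(p, u)`.  Induct, carrying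
`G_{i+1} = r_{i+1} - ξ_{i+1} y_{i+1} = y_i^p + a + p b + u c` with `a` of level `i` and `b`, `c` of level `i + 1`:
`δ (y_i^p) ∈ p · level (i+2)` (`δ_pow_p`), `δ a` has level `i + 1`, `δ (p b) = p (…) + b^p δ p`,
`δ (u c) = u^p δ c`, the cross terms among these have level `i + 1`, the cross term with `ξ y` lies in `(ξ)`, and
`δ ξ = 1 + p (…) + u (…)` (`δ_xi`).  `a ∈ 𝔪` because all other terms are. -/
theorem r_mod (h : MBase p A X' Δ) (l : m.L) (i : ℕ) :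
    ∃ a ∈ eSub A m.V m.L i, a ∈ mxM A (EV m.V m.L) ∧ ∃ b ∈ eSub A m.V m.L (i + 1), ∃ c ∈ eSub A m.V m.L (i + 1),
      m.r Δ l (i + 1) = m.ξ (i + 1) * m.y l (i + 1) + m.y l i ^ p + a + p * b + m.u * c := by
  obtain ⟨a, ha, b, hb, c, hc, e⟩ := m.er_shape Δ l i (m.er_Q_δG Δ l i)
  refine ⟨a, ha, ?_, b, hb, c, hc, by linear_combination e⟩
  have e' : a = m.r Δ l (i + 1) - m.ξ (i + 1) * m.y l (i + 1) - m.y l i ^ p - p * b - m.u * c := by
    linear_combination -e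
  rw [e']
  refine sub_mem (sub_mem (sub_mem (sub_mem (m.r_mem_mxM Δ h l _)
    (Ideal.mul_mem_left _ _ (m.er_X_mxM _)))
    (Ideal.pow_mem_of_mem _ (m.er_X_mxM _) _ (Fact.out : p.Prime).pos))
    (Ideal.mul_mem_right _ _ (m.er_p_mxM h))) (Ideal.mul_mem_right _ _ (m.er_X_mxM _))
end Env

end Crest.Agent.R188
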