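import Crest.Agent.R188.EnvB
import Crest.Agent.R188.AppA

/-!
# rid 188, file `EnvW`: approximate equations in the model of an envelope

Prefix helper lemmas with `nw_`.
-/

set_option autoImplicit false
set_option linter.unusedSectionVars false

open IsLocalRing MvPolynomial Crest.Agent.R183

namespace Crest.Agent.R188

variable {p : ℕ} [Fact p.Prime] {k : Type} [Field k] [CharP k p] [IsAlgClosed k] {d : ℕ} (μ : Mix p k d)
  (E : MEnv p k d)

theorem nw_max : maximalIdeal (WittVector p k) = Ideal.span {(p : WittVector p k)} :=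
  (WittVector.irreducible p).maximalIdeal_eq

theorem nw_map : (maximalIdeal (WittVector p k)).map (MvPowerSeries.C : WittVector p k →+* AW p k d) =
    Ideal.span {(p : AW p k d)} := by
  rw [nw_max, Ideal.map_span, Set.image_singleton, map_natCast]

theorem nw_cpl : IsAdicComplete (maximalIdeal (WittVector p k)) (WittVector p k) := by
  rw [nw_max]
  infer_instance

theorem nw_q_p (n : ℕ) : μ.q E n (p : E.𝒜) = 0 :=
  (μ.q_eq_zero E).2 (Ideal.mem_sup_left (Ideal.mem_span_singleton_self _))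

theorem nw_q_Ir {i n : ℕ} (h : i ≤ n) {a : E.𝒜} (ha : a ∈ E.Ir μ.Δ i) : μ.q E n a = 0 :=
  (μ.q_eq_zero E).2 (Ideal.mem_sup_right (E.Ir_mono h ha))

theorem nw_q (n : ℕ) {a : E.𝒜} (ha : a ∈ E.Ir μ.Δ 0 ⊔ Ideal.span {(p : E.𝒜) - E.u}) :
    μ.q E n a ∈ Ideal.span {(μ.mdl E n).m.U} := by
  refine (?_ : _ ≤ (Ideal.span {(μ.mdl E n).m.U}).comap (μ.q E n)) ha
  refine sup_le (fun a ha => ?_) ((Ideal.span_singleton_le_iff_mem _).2 ?_)
  · rw [Ideal.mem_comap, nw_q_Ir μ E n.zero_le ha]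
    exact zero_mem _
  · rw [Ideal.mem_comap, map_sub, nw_q_p, zero_sub]
    exact neg_mem (Ideal.mem_span_singleton_self _)

theorem Mix.mdl_hf (n : ℕ) {b : AW p k d} (hb : b ∈ E.𝔣 ⊔ Ideal.span {(p : AW p k d)}) :
    (μ.mdl E n).a0 b ∈ Ideal.span {(μ.mdl E n).m.U} := by
  refine (?_ : _ ≤ (Ideal.span {(μ.mdl E n).m.U}).comap (μ.mdl E n).a0) hb
  refine sup_le (fun a ha => nw_q μ E n (E.C_mem ha)) ((Ideal.span_singleton_le_iff_mem _).2 ?_)
  rw [Ideal.mem_comap, μ.mdl_a0, map_natCast, nw_q_p]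
  exact zero_mem _

theorem Mix.mdl_xv_sub (n : ℕ) (v : E.V) :
    μ.q E n (E.xv v) - (μ.mdl E n).a0 (E.g v) ∈ Ideal.span {(μ.mdl E n).m.U} := by
  rw [μ.mdl_a0, ← map_sub]
  exact nw_q μ E n (E.xv_sub_mem v)

theorem nw_map_Hn {A B : Type} [CommRing A] [CommRing B] (f : A →+* B) (u : A) (n : ℕ) :
    f (Hn p u n) = Hn p (f u) n := by
  simp [Hn]

/-- The universal ring.  `B = W[Y_0, …, Y_n]` with the variables of rank one (`exists_delta_witt`,
`DeltaS.exists_poly` with `v = 0`) and `B[Z]` (`exists_delta_poly`).  Put `G' = δ^n0 (C (Hn Y_0) * G(Y_succ; Z))`.  The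
map `θ : B[Z] → 𝒜` commutes with `φ` (`μ.hC`, `φ_C`, `φ_inl`, `MBase.φX`), so with `δ` (`map_δ`).  The leading
coefficient is `δ^n0 (Hn Y_0)`, which is `1` modulo `(p, Y_0)` by `key3`. -/
theorem Mix.exists_poly_δ {n N : ℕ} (ι : Fin n → E.V) (i : Fin d) (G : Polynomial (MvPolynomial (Fin n) (WittVector p k)))
    (hG : G.Monic) (hN : G.natDegree = N) (n0 : ℕ) :
    ∃ G' : Polynomial (MvPolynomial (Fin (n + 1)) (WittVector p k)), G'.natDegree ≤ N * p ^ n0 ∧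
      (constantCoeff (G'.coeff (N * p ^ n0))).coeff 0 = 1 ∧
      Polynomial.eval₂ (eval₂Hom ((C : AW p k d →+* E.𝒜).comp MvPowerSeries.C)
          (Fin.cons E.u fun j => E.xv (ι j) : Fin (n + 1) → E.𝒜)) (C (MvPowerSeries.X i)) G' =
        (E.Δ' μ.Δ).δ^[n0] (Hn p E.u n0 * Polynomial.eval₂ (eval₂Hom ((C : AW p k d →+* E.𝒜).comp MvPowerSeries.C)
          fun j => E.xv (ι j)) (C (MvPowerSeries.X i)) G) := by
  obtain ⟨Δ0, h0⟩ := exists_delta_witt (p := p) k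
  obtain ⟨Δ1, h1C, -, h1X⟩ := Δ0.exists_poly (Fin (n + 1)) 0
  have h1 : ∀ j, Δ1.φ (X j) = X j ^ p := fun j => by rw [Δ1.spec, h1X]; simp
  obtain ⟨Δ2, h2C, h2X, h2⟩ := exists_delta_poly Δ1
  let ρ : MvPolynomial (Fin n) (WittVector p k) →+* MvPolynomial (Fin (n + 1)) (WittVector p k) :=
    (rename Fin.succ).toRingHom
  let G0 := Polynomial.C (Hn p (X 0 : MvPolynomial (Fin (n + 1)) (WittVector p k)) n0) * G.map ρ
  have hd : G0.natDegree ≤ N :=
    (Polynomial.natDegree_C_mul_le _ _).trans (Polynomial.natDegree_map_le.trans hN.le)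
  have hc : G0.coeff N = Hn p (X 0) n0 * 1 := by
    rw [Polynomial.coeff_C_mul, Polynomial.coeff_map, ← hN, hG.coeff_natDegree, map_one]
  refine ⟨Δ2.δ^[n0] G0, (h2 n0 N G0 hd).1, ?_, ?_⟩
  · rw [(h2 n0 N G0 hd).2, hc]
    have h3 := key3 Δ1 (h1 0) 1 n0
    have h4 : Ideal.span {(p : MvPolynomial (Fin (n + 1)) (WittVector p k)), X 0} ≤
        RingHom.ker ((WittVector.constantCoeff : WittVector p k →+* k).comp constantCoeff) := by
      rw [Ideal.span_le]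
      rintro _ (rfl | rfl)
      · exact (map_natCast _ p).trans (CharP.cast_eq_zero k p)
      · simp
    have h5 := h4 h3
    rw [RingHom.mem_ker, map_sub, one_pow, map_one, sub_eq_zero] at h5
    exact h5
  · set θ1 : MvPolynomial (Fin (n + 1)) (WittVector p k) →+* E.𝒜 :=
      eval₂Hom ((C : AW p k d →+* E.𝒜).comp MvPowerSeries.C)
        (Fin.cons E.u fun j => E.xv (ι j) : Fin (n + 1) → E.𝒜) with hθ1
    have e1 : θ1.comp Δ1.φ = (E.Δ' μ.Δ).φ.comp θ1 := by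
      refine MvPolynomial.ringHom_ext (fun w => ?_) fun j => ?_
      · simp only [RingHom.comp_apply, h1C, hθ1, eval₂Hom_C, E.φ_C, μ.hC, h0]
      · simp only [RingHom.comp_apply, h1, map_pow, hθ1, eval₂Hom_X']
        refine Fin.cases ?_ (fun j => ?_) j
        · exact (E.φ_inl μ.Δ _).symm
        · exact (E.φ_inl μ.Δ _).symm
    let θ := Polynomial.eval₂RingHom θ1 (C (MvPowerSeries.X i))
    have e2 : θ.comp Δ2.φ = (E.Δ' μ.Δ).φ.comp θ := by
      refine Polynomial.ringHom_ext (fun a => ?_) ?_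
      · simp only [RingHom.comp_apply, h2C, θ, Polynomial.coe_eval₂RingHom, Polynomial.eval₂_C]
        exact RingHom.congr_fun e1 a
      · simp only [RingHom.comp_apply, h2X, θ, Polynomial.coe_eval₂RingHom,
          Polynomial.eval₂_X, E.φ_C, μ.hb.φX, map_pow]
    have e3 : θ1.comp ρ = eval₂Hom ((C : AW p k d →+* E.𝒜).comp MvPowerSeries.C) fun j => E.xv (ι j) :=
      MvPolynomial.ringHom_ext (fun w => by simp [hθ1, ρ]) fun j => by simp [hθ1, ρ]
    refine (map_δ Δ2 (E.Δ' μ.Δ) θ (RingHom.congr_fun e2) n0 G0).trans ?_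
    congr 1
    simp only [G0, θ, Polynomial.coe_eval₂RingHom, Polynomial.eval₂_mul, Polynomial.eval₂_C, Polynomial.eval₂_map,
      e3]
    rw [nw_map_Hn, hθ1, eval₂Hom_X', Fin.cons_zero]

theorem nw_b {n : ℕ} (ι : Fin n → E.V) (v v' : E.V) (N K : ℕ) (i : Fin d)
    (G : Polynomial (MvPolynomial (Fin n) (WittVector p k)))
    (hG : Polynomial.eval₂ (eval₂Hom (MvPowerSeries.C : WittVector p k →+* AW p k d) fun j => E.g (ι j))
      (MvPowerSeries.X i) G ∈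
      col (E.𝔣 ⊔ Ideal.span {E.g v, E.g v'}) ((p : AW p k d) ^ N) ⊔ (idl fun j => E.g (ι j)) ^ K) :
    E.u ^ N * Polynomial.eval₂ (eval₂Hom ((C : AW p k d →+* E.𝒜).comp MvPowerSeries.C)
      fun j => E.xv (ι j)) (C (MvPowerSeries.X i)) G ∈
      E.Ir μ.Δ 0 ⊔ Ideal.span {E.xv v, E.xv v'} ⊔ (idl fun j => E.xv (ι j)) ^ K ⊔ Ideal.span {(p : E.𝒜) - E.u} := by
  set 𝔍 := E.Ir μ.Δ 0 ⊔ Ideal.span {E.xv v, E.xv v'} ⊔ (idl fun j => E.xv (ι j)) ^ K ⊔
    Ideal.span {(p : E.𝒜) - E.u} with h𝔍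
  have l1 : E.Ir μ.Δ 0 ⊔ Ideal.span {(p : E.𝒜) - E.u} ≤ 𝔍 :=
    sup_le_sup_right (le_sup_of_le_left le_sup_left) _
  let π := Ideal.Quotient.mk 𝔍
  let ψ := π.comp (C : AW p k d →+* E.𝒜)
  have hx : ∀ w, π (E.xv w) = ψ (E.g w) := fun w => Ideal.Quotient.eq.2 (l1 (E.xv_sub_mem w))
  have hu : π E.u = ψ p := by
    rw [map_natCast, ← map_natCast π]
    exact (Ideal.Quotient.eq.2 (Ideal.mem_sup_right (Ideal.mem_span_singleton_self _))).symm
  have e : π.comp (eval₂Hom ((C : AW p k d →+* E.𝒜).comp MvPowerSeries.C) fun j => E.xv (ι j)) =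
      ψ.comp (eval₂Hom (MvPowerSeries.C : WittVector p k →+* AW p k d) fun j => E.g (ι j)) :=
    MvPolynomial.ringHom_ext (fun w => by simp [ψ]) fun j => by
      simp only [RingHom.comp_apply, eval₂Hom_X', hx]
  have k1 : E.𝔣 ⊔ Ideal.span {E.g v, E.g v'} ≤ RingHom.ker ψ := by
    refine sup_le (fun b hb => Ideal.Quotient.eq_zero_iff_mem.2 (l1 (E.C_mem hb))) ?_
    rw [Ideal.span_le]
    rintro _ (rfl | rfl)
    · exact (hx v).symm.trans (Ideal.Quotient.eq_zero_iff_mem.2 (Ideal.mem_sup_left (Ideal.mem_sup_left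
        (Ideal.mem_sup_right (Ideal.subset_span (by simp))))))
    · exact (hx v').symm.trans (Ideal.Quotient.eq_zero_iff_mem.2 (Ideal.mem_sup_left (Ideal.mem_sup_left
        (Ideal.mem_sup_right (Ideal.subset_span (by simp))))))
  have k2 : (idl fun j => E.g (ι j)) ^ K ≤ RingHom.ker ψ := by
    rw [← Ideal.map_eq_bot_iff_le_ker, Ideal.map_pow, ← rg2_idl_map]
    simp only [← hx]
    rw [rg2_idl_map, ← Ideal.map_pow, Ideal.map_eq_bot_iff_le_ker, Ideal.mk_ker]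
    exact le_sup_of_le_left le_sup_right
  rw [← Ideal.Quotient.eq_zero_iff_mem]
  change π _ = 0
  rw [map_mul, map_pow, hu, Polynomial.hom_eval₂, e]
  change _ * Polynomial.eval₂ _ (ψ (MvPowerSeries.X i)) G = 0
  rw [← Polynomial.hom_eval₂, ← map_pow, ← map_mul]
  obtain ⟨z1, h1, z2, h2, h3⟩ := Submodule.mem_sup.1 hG
  rw [← h3, mul_add, map_add, k1 (mem_col.1 h1), k2 (Ideal.mul_mem_left _ _ h2), add_zero]

theorem nw_δ {n : ℕ} (ι : Fin n → E.V) (v v' : E.V) (K n0 : ℕ) {b : E.𝒜}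
    (hb : b ∈ E.Ir μ.Δ 0 ⊔ Ideal.span {E.xv v, E.xv v'} ⊔ (idl fun j => E.xv (ι j)) ^ K ⊔
      Ideal.span {(p : E.𝒜) - E.u}) :
    (E.Δ' μ.Δ).δ^[n0] (Hn p E.u n0 * b) ∈ E.Ir μ.Δ n0 ⊔ Ideal.span {E.xv v, E.xv v'} ⊔
      (idl fun j => E.xv (ι j)) ^ K ⊔ Ideal.span {(p : E.𝒜), E.u ^ ((n0 + 1) * p ^ n0)} := by
  refine key0 (E.Δ' μ.Δ) (fun j => E.Ir μ.Δ j ⊔ Ideal.span {E.xv v, E.xv v'} ⊔ (idl fun j => E.xv (ι j)) ^ K)
    (fun j => sup_le_sup_right (sup_le_sup_right (E.Ir_mono j.le_succ) _) _) (fun j a ha => ?_) E.φ_u hb n0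
  refine δ_mem_sup _ (sup_le_sup_right (E.Ir_mono j.le_succ) _) le_rfl (fun a ha => ?_) (fun a ha => ?_) ha
  · refine δ_mem_sup _ (E.Ir_mono j.le_succ) le_rfl (E.Ir_δ j) (fun a ha => δ_mem_span_rank_one _ ?_ ha) ha
    rintro _ (rfl | rfl) <;> exact E.φ_inl μ.Δ _
  · refine δ_mem_pow _ (fun a ha => δ_mem_span_rank_one _ ?_ ha) K ha
    rintro _ ⟨j, rfl⟩
    exact E.φ_inl μ.Δ _

/-- `app_base` for `𝔟` and `t = g ∘ ι` gives `N0` and `G`; put `n0 = N + L N0`, `c' = N p^n0`.  The element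
`b = u^N G(X_ι; x_i)` lies in `I 0 ⊔ (p - u)` for the chain `I j = Ir j ⊔ (X_v, X_v') ⊔ (X_ι)^K` (`C_mem`, `xv_sub_mem`;
compute in the quotient ring).  Apply `key0`, `iter_δ_rank_one`, `exists_poly_δ`, and reduce the coefficients of `G'`
along `WittVector.constantCoeff`.  The base is `(U, X_ι)` (`mdl_xv_sub` for `hb`), the degree is `N0 p^n0`. -/
theorem Mix.appW {n : ℕ} (ι : Fin n → E.V) (v v' : E.V) (N : ℕ) {c : ℕ}
    (hc : maximalIdeal (AW p k d) ^ c ≤ col (E.𝔣 ⊔ Ideal.span {E.g v, E.g v'}) ((p : AW p k d) ^ N) ⊔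
      Ideal.span {(p : AW p k d)} ⊔ idl fun j => E.g (ι j)) (L : ℕ) :
    ∃ n0 c' : ℕ, (N = 0 → c' = 0) ∧ ∀ n1 ≥ n0,
      AppW (μ.mdl E n1).m (n + 1) L c' (μ.q E n1 (E.xv v)) (μ.q E n1 (E.xv v')) := by
  have := nw_cpl (p := p) (k := k)
  obtain ⟨N0, hN0, hG⟩ := app_base _ (fun j => E.g (ι j)) (fun j => μ.idl_le (E.g_mem _)) (by rw [nw_map]; exact hc)
  refine ⟨N + L * N0, N * p ^ (N + L * N0), fun h => by rw [h, zero_mul], fun n1 hn1 => ?_⟩
  generalize hn0 : N + L * N0 = n0 at hn1 ⊢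
  refine ⟨N0 * p ^ n0, fun K => ?_⟩
  obtain ⟨G, hG⟩ := hG K
  choose G' d1 d2 d3 using fun i => μ.exists_poly_δ E ι i (G i) (hG i).1 (hG i).2.1 n0
  have e1 : (idl MvPowerSeries.X).map (μ.mdl E n1).a0 = idl (μ.mdl E n1).m.x := by
    rw [← rg2_idl_map]; simp only [(μ.mdl E n1).hX]
  let b : Fin (n + 1) → (μ.mdl E n1).m.E := fun j =>
    μ.q E n1 ((Fin.cons E.u fun j => E.xv (ι j) : Fin (n + 1) → E.𝒜) j)
  refine ⟨⟨b, fun j => ?_, N0 * p ^ n0, Nat.mul_pos hN0 (pow_pos (Fact.out : p.Prime).pos _),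
    fun i => (G' i).map (MvPolynomial.map WittVector.constantCoeff),
    fun i => Polynomial.natDegree_map_le.trans (d1 i), fun i => ?_⟩, rfl, fun i => ?_⟩
  · refine Fin.cases (Ideal.mem_sup_right (Ideal.mem_span_singleton_self _)) (fun j => ?_) j
    have h1 := Submodule.add_mem_sup (e1 ▸ Ideal.mem_map_of_mem (μ.mdl E n1).a0 (E.g_mem (ι j)))
      (μ.mdl_xv_sub E n1 (ι j))
    rwa [add_sub_cancel] at h1
  · rw [Polynomial.coeff_map, constantCoeff_map]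
    exact d2 i
  have e : (aeval b : MvPolynomial (Fin (n + 1)) k →ₐ[k] (μ.mdl E n1).m.E).toRingHom.comp
      (MvPolynomial.map WittVector.constantCoeff) = (μ.q E n1).comp
      (eval₂Hom ((C : AW p k d →+* E.𝒜).comp MvPowerSeries.C)
        (Fin.cons E.u fun j => E.xv (ι j) : Fin (n + 1) → E.𝒜)) := by
    refine MvPolynomial.ringHom_ext (fun w => ?_) fun j => by simp [b]
    have := (μ.mdl E n1).hC w
    rw [μ.mdl_a0] at this
    simp [this]
  have hu : (E.Δ' μ.Δ).φ (E.u ^ N) = (E.u ^ N) ^ p := by rw [map_pow, E.φ_u, ← pow_mul, ← pow_mul, mul_comm]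
  simp only [PD.val]
  rw [Polynomial.eval₂_map, e, ← (μ.mdl E n1).hX, μ.mdl_a0, ← Polynomial.hom_eval₂, d3, μ.mdl_U,
    ← map_pow _ _ (N * p ^ n0), ← map_mul, pow_mul, ← iter_δ_rank_one _ hu, mul_left_comm (E.u ^ N)]
  refine Ideal.mem_comap.1 (SetLike.le_def.1 ?_ (nw_δ μ E ι v v' K n0 (nw_b μ E ι v v' N K i (G i) (hG i).2.2)))
  refine sup_le (sup_le (sup_le (fun a ha => ?_) ?_) ?_) ?_
  · rw [Ideal.mem_comap, nw_q_Ir μ E hn1 ha]
    exact zero_mem _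
  · rw [Ideal.span_le]
    rintro _ (rfl | rfl) <;> exact Ideal.mem_sup_left (Ideal.subset_span (by simp))
  · rw [← Ideal.map_le_iff_le_comap, Ideal.map_pow, ← rg2_idl_map]
    exact le_sup_of_le_right (Ideal.pow_right_mono (ln_idl_le fun j => ln_mem_idl b j.succ) K)
  · rw [Ideal.span_le]
    rintro _ (rfl | rfl)
    · rw [SetLike.mem_coe, Ideal.mem_comap, nw_q_p]
      exact zero_mem _
    · rw [SetLike.mem_coe, Ideal.mem_comap, map_pow,
        show (n0 + 1) * p ^ n0 = N * p ^ n0 + L * (N0 * p ^ n0) + p ^ n0 by rw [add_mul, ← hn0]; ring,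
        pow_add _ _ (p ^ n0)]
      exact Ideal.mem_sup_left (Ideal.mul_mem_right _ _ (Ideal.subset_span (by simp)))

/-- `appU_of` with `res = WittVector.constantCoeff`; the parameters come from `exists_sop_mod` with `𝔵 = idl X`. -/
theorem AMdl.appU (md : AMdl p k d) {σ1 σ2 : md.m.E} (𝔟 : Ideal (AW p k d)) (hp : (p : AW p k d) ∈ 𝔟)
    (h𝔟 : ∀ b ∈ 𝔟, md.a0 b ∈ Ideal.span {md.m.U, σ1, σ2}) {n : ℕ} (hn : ringKrullDim (AW p k d ⧸ 𝔟) ≤ n) :
    AppU md.m n σ1 σ2 := by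
  have := nw_cpl (p := p) (k := k)
  obtain ⟨t, c, ht, hc⟩ := exists_sop_mod (𝔵 := idl MvPowerSeries.X) hn (by
    rw [ps_maximal, nw_map]
    exact sup_le_sup_right ((Ideal.span_singleton_le_iff_mem _).2 hp) _)
  exact appU_of WittVector.constantCoeff md.m md.a0 md.hX md.hC 𝔟 h𝔟 t ht
    (hc.trans (sup_le_sup_right le_sup_left _))

end Crest.Agent.R188
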