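import Crest.Agent.R188.MixC
import Crest.Agent.R188.ClV
import Crest.Agent.R188.AppA

/-!
# rid 188, file `EqA`: models and relations in equal characteristic

Prefix helper lemmas with `qa_`.
-/

set_option autoImplicit false
set_option linter.unusedSectionVars false

open IsLocalRing Crest.Agent.R183

namespace Crest.Agent.R188

open MvPowerSeries

variable {k : Type} [Field k] {d : ℕ}

/-- The model `A / 𝔣` with `U = 0`. -/
noncomputable def eqMdl (𝔣 : Ideal (MvPowerSeries (Fin d) k)) : Mdl k d where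
  E := MvPowerSeries (Fin d) k ⧸ 𝔣
  x i := Ideal.Quotient.mk 𝔣 (X i)
  U := 0

/-- The projection. -/
noncomputable def eqMk (𝔣 : Ideal (MvPowerSeries (Fin d) k)) : MvPowerSeries (Fin d) k →+* (eqMdl 𝔣).E :=
  Ideal.Quotient.mk 𝔣

theorem qa_cpl : IsAdicComplete (maximalIdeal k) k := by
  rw [maximalIdeal_eq_bot]
  infer_instance

theorem qa_mk_zero {𝔣 : Ideal (MvPowerSeries (Fin d) k)} {g : MvPowerSeries (Fin d) k} (hg : g ∈ 𝔣) :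
    eqMk 𝔣 g = 0 := Ideal.Quotient.eq_zero_iff_mem.2 hg

/-- `exists_sop_mod`, `appU_of` (`res = id`), `cov_of_U` with `c = 1`, `η = 1`. -/
theorem eq_cov (𝔣 : Ideal (MvPowerSeries (Fin d) k)) (σ1 σ2 : MvPowerSeries (Fin d) k) {n : ℕ}
    (h : ringKrullDim (MvPowerSeries (Fin d) k ⧸ (𝔣 ⊔ Ideal.span {σ1, σ2})) ≤ n) (L : ℕ) :
    Cov (eqMdl 𝔣) n L (eqMk 𝔣 σ1) (eqMk 𝔣 σ2) := by
  have := qa_cpl (k := k)
  obtain ⟨t, c, ht, hc⟩ := exists_sop_mod (𝔵 := idl MvPowerSeries.X) h (by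
    rw [ps_maximal, maximalIdeal_eq_bot, Ideal.map_bot, bot_sup_eq]
    exact le_sup_right)
  have hA : AppU (eqMdl 𝔣) n (eqMk 𝔣 σ1) (eqMk 𝔣 σ2) := by
    refine appU_of (RingHom.id k) (eqMdl 𝔣) (eqMk 𝔣) (fun _ => rfl) (fun _ => rfl) _ (fun g hg => ?_) t ht
      (hc.trans (sup_le_sup_right le_sup_left _))
    obtain ⟨a, ha, b, hb, rfl⟩ := Submodule.mem_sup.1 hg
    obtain ⟨u, w, rfl⟩ := Ideal.mem_span_pair.1 hb
    rw [map_add, qa_mk_zero ha, zero_add, map_add, map_mul, map_mul]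
    exact add_mem (Ideal.mul_mem_left _ _ (Ideal.subset_span (by simp)))
      (Ideal.mul_mem_left _ _ (Ideal.subset_span (by simp)))
  refine cov_of_U hA (c := 1) (η := 1) (by rw [sub_self]; exact zero_mem _) ?_
  rw [pow_one, mul_one]
  exact zero_mem _

theorem eq_sh1 {𝔣1 𝔣2 : Ideal (MvPowerSeries (Fin d) k)} (h : Prim 𝔣1 𝔣2) : Sh1 (eqMdl 𝔣1) (eqMdl 𝔣2) := by
  refine sh1_of (RingHom.id k) (eqMk 𝔣1) (eqMk 𝔣2) (fun _ => rfl) (fun _ => rfl) (fun _ => rfl) (fun _ => rfl)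
    (fun g hg => ?_) (fun g hg => ?_) h
  · rw [qa_mk_zero hg]
    exact zero_mem _
  · rw [qa_mk_zero hg]
    exact zero_mem _

/-- `exists_transl` with `ρ0 = id`, `N = 2 r - 1`; `Λ = A`, `ϖ = t = 0`, `c = r`. -/
theorem eq_setup (v : Fin d → k) {r : ℕ} (hr : 0 < r) : ∃ U : Setup (MvPowerSeries (Fin d) k), U.OK ∧ U.ϖ = 0 ∧
    U.t = 0 ∧ U.c = r ∧ U.r = r ∧ (∀ c, U.j2 (C c) = U.j1 (C c)) ∧
    (∀ i, U.j2 (X i) = U.j1 (X i) + U.j1 (C (v i)) * U.s) ∧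
    ∀ (𝒪 : Type) [CommRing 𝒪] (f : MvPowerSeries (Fin d) k →+* 𝒪) (σ : 𝒪), σ ^ (2 * r - 1) = 0 →
      ∃ θ : U.O →+* 𝒪, (∀ l, θ (U.j1 l) = f l) ∧ θ U.s = σ := by
  have := qa_cpl (k := k)
  obtain ⟨O, _, j, ev, s, τ0, hT, hC, hX, hev, hU⟩ := exists_transl (RingHom.id (MvPowerSeries (Fin d) k))
    Function.surjective_id (show 0 < 2 * r - 1 by omega) v
  exact ⟨{ Λ := MvPowerSeries (Fin d) k, O := O, ρ := RingHom.id _, j := j, τ := τ0, ev := ev, ϖ := 0, t := 0,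
           s := s, c := r, r := r },
    ⟨Function.surjective_id, fun x => by simp, zero_mem _, hr, hr, hT, hev, Or.inl ⟨rfl, rfl⟩⟩, rfl, rfl, rfl, rfl,
    hC, hX, hU⟩

theorem eq_relS {R : Type} [CommRing R] {U : Setup R} (ht : U.t = 0) (X1 X2 : Type) [CommRing X1] [Algebra R X1]
    [CommRing X2] [Algebra R X2] : U.RelS X1 X2 1 := by
  intro 𝒪 _ θ a b _
  have : θ (U.tO ^ 1) = 0 := by rw [pow_one, Setup.tO, ht, map_zero, map_zero, map_zero]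
  rw [this]
  exact Ideal.zero_mem _

/-- Give `𝒪` the `k`-algebra structure through `θ ∘ j1 ∘ C`; the models map to `𝒪` through `M1`, `M2`.  The coordinates
are nilpotent by `nil_of_compat`.  Apply `VAt` with `n = 0`: `s0 = -θ s`, and all generators except `T1 T2` vanish. -/
theorem eq_relC {U : Setup (MvPowerSeries (Fin d) k)} (hU : U.OK) {v : Fin d → k} {i0 : Fin d} (hv : v i0 = 1)
    (hC : ∀ c, U.j2 (C c) = U.j1 (C c)) (hX : ∀ i, U.j2 (X i) = U.j1 (X i) + U.j1 (C (v i)) * U.s)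
    {𝔣1 𝔣2 : Ideal (MvPowerSeries (Fin d) k)} (hP : Prim 𝔣1 𝔣2) {T1 T1' T2 T2' : MvPowerSeries (Fin d) k}
    {L κ M : ℕ} (hL : 0 < L) (hκ : 0 < κ) (hr : κ * M + 1 ≤ U.r)
    (hV : VAt (eqMdl 𝔣1) (eqMdl 𝔣2) L (eqMk 𝔣1 T1) (eqMk 𝔣1 T1') (eqMk 𝔣2 T2) (eqMk 𝔣2 T2') v i0 κ M)
    {M1 M2 : Type} [CommRing M1] [Algebra (MvPowerSeries (Fin d) k) M1] [CommRing M2]
    [Algebra (MvPowerSeries (Fin d) k) M2] (f1 : ∀ g ∈ 𝔣1, algebraMap _ M1 g = 0)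
    (f2 : ∀ g ∈ 𝔣2, algebraMap _ M2 g = 0) (t1 : algebraMap _ M1 T1' = 0) (t2 : algebraMap _ M2 T2' = 0) :
    U.RelC (algebraMap _ M1 T1) (algebraMap _ M2 T2) := by
  intro 𝒪 _ θ a b hc
  have hP' : Prim (RingHom.ker (algebraMap (MvPowerSeries (Fin d) k) M1))
      (RingHom.ker (algebraMap (MvPowerSeries (Fin d) k) M2)) := by
    obtain ⟨c, hc⟩ := hP
    exact ⟨c, hc.trans (sup_le_sup (fun g hg => f1 g hg) fun g hg => f2 g hg)⟩
  obtain ⟨-, h2⟩ := nil_of_compat hU hc hP'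
  let _ : Algebra k 𝒪 := ((θ.comp U.j1).comp C).toAlgebra
  obtain ⟨ε1, e1⟩ : ∃ ε : (eqMdl 𝔣1).E →+* 𝒪, ∀ g, ε (eqMk 𝔣1 g) = a (algebraMap _ M1 g) :=
    ⟨Ideal.Quotient.lift 𝔣1 (a.comp (algebraMap _ M1)) fun g hg => by rw [RingHom.comp_apply, f1 g hg, map_zero],
      fun _ => rfl⟩
  obtain ⟨ε2, e2⟩ : ∃ ε : (eqMdl 𝔣2).E →+* 𝒪, ∀ g, ε (eqMk 𝔣2 g) = b (algebraMap _ M2 g) :=
    ⟨Ideal.Quotient.lift 𝔣2 (b.comp (algebraMap _ M2)) fun g hg => by rw [RingHom.comp_apply, f2 g hg, map_zero],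
      fun _ => rfl⟩
  have c1 : ∀ x, ε1 (algebraMap k _ x) = algebraMap k 𝒪 x := fun x => (e1 (C x)).trans (hc.1 _).symm
  have c2 : ∀ x, ε2 (algebraMap k _ x) = algebraMap k 𝒪 x := fun x =>
    (e2 (C x)).trans ((hc.2 _).symm.trans (congrArg θ (hC x)))
  have x1 : ∀ i, ε1 ((eqMdl 𝔣1).x i) = θ (U.j1 (X i)) := fun i => (e1 (X i)).trans (hc.1 _).symm
  have x2 : ∀ i, ε2 ((eqMdl 𝔣2).x i) = θ (U.j2 (X i)) := fun i => (e2 (X i)).trans (hc.2 _).symm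
  have hXm : ∀ i, (X i : MvPowerSeries (Fin d) k) ∈ maximalIdeal (MvPowerSeries (Fin d) k) := fun i => by
    rw [ps_maximal]
    exact Ideal.mem_sup_right (Ideal.subset_span ⟨i, rfl⟩)
  have key := hV 𝒪 ⟨ε1, c1⟩ ⟨ε2, c2⟩ (fun i => (e1 (X i)).symm ▸ (h2 _ (hXm i)).1)
    (fun i => (e2 (X i)).symm ▸ (h2 _ (hXm i)).2) 0
  have hs : ε1 ((eqMdl 𝔣1).x i0) - ε2 ((eqMdl 𝔣2).x i0) = -θ U.s := by
    rw [x1, x2, hX, hv]
    simp
  have hle : idl (gens (⟨ε1, c1⟩ : (eqMdl 𝔣1).E →ₐ[k] 𝒪) (⟨ε2, c2⟩ : (eqMdl 𝔣2).E →ₐ[k] 𝒪) v i0 L κ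
      (eqMk 𝔣1 T1) (eqMk 𝔣1 T1') (eqMk 𝔣2 T2) (eqMk 𝔣2 T2')) ≤
      Ideal.span {a (algebraMap _ M1 T1) * b (algebraMap _ M2 T2)} := by
    rw [idl, Ideal.span_le]
    rintro _ ⟨i, rfl⟩
    refine Fin.addCases (fun i => ?_) (fun i => ?_) i
    · have : ε1 ((eqMdl 𝔣1).x i) - ε2 ((eqMdl 𝔣2).x i) -
          algebraMap k 𝒪 (v i) * (ε1 ((eqMdl 𝔣1).x i0) - ε2 ((eqMdl 𝔣2).x i0)) = 0 := by
        rw [hs, x1, x2, hX, map_add, map_mul, show algebraMap k 𝒪 (v i) = θ (U.j1 (C (v i))) from rfl]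
        ring
      simp only [gens, Fin.append_left]
      change (ε1 _ - ε2 _ - _ * (ε1 _ - ε2 _)) ^ κ ∈ Ideal.span _
      rw [this, zero_pow hκ.ne']
      exact zero_mem _
    · simp only [gens, Fin.append_right]
      fin_cases i
      · change ε1 0 ^ (L * κ) ∈ Ideal.span _
        rw [map_zero, zero_pow (Nat.mul_pos hL hκ).ne']
        exact zero_mem _
      · change ε2 0 ^ (L * κ) ∈ Ideal.span _
        rw [map_zero, zero_pow (Nat.mul_pos hL hκ).ne']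
        exact zero_mem _
      · change ε1 _ * ε2 _ ∈ Ideal.span _
        rw [e1, e2]
        exact Ideal.mem_span_singleton_self _
      · change ε1 _ ∈ Ideal.span _
        rw [e1, t1, map_zero]
        exact zero_mem _
      · change ε2 _ ∈ Ideal.span _
        rw [e2, t2, map_zero]
        exact zero_mem _
  rw [zero_add, zero_add, pow_one] at key
  have k2 := hle key
  change ((ε1 _ - ε2 _) ^ κ) ^ M ∈ _ at k2
  rw [hs, ← pow_mul] at k2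
  refine Ideal.mem_sup_left ?_
  have k3 := Ideal.mul_mem_left _ ((-1) ^ (κ * M) * θ U.s ^ (U.r - 1 - κ * M)) k2
  rwa [mul_right_comm, ← mul_pow, neg_one_mul, neg_neg, ← pow_add, show κ * M + (U.r - 1 - κ * M) = U.r - 1 by omega,
    ← map_pow] at k3

end Crest.Agent.R188
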