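import Crest.Agent.R188.ResEx
import Crest.Agent.R183.Grow
import Crest.Agent.R183.Ord
import Crest.Agent.R183.Kos
import Crest.Agent.R183.PS

/-!
# rid 188, file `RL`: regular local rings

Prefix helper lemmas with `rl_`.
-/

set_option autoImplicit false

open IsLocalRing Crest.Agent.R183

namespace Crest.Agent.R188

variable {R : Type} [CommRing R] [IsLocalRing R] [IsNoetherianRing R] {d : ℕ}

section aux
variable {A : Type} [CommRing A]

theorem rl_idlLt_zero (x : Fin (d + 1) → A) : idlLt x 0 = ⊥ := by simp [idlLt]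

theorem rl_idlLt_succ (x : Fin (d + 1) → A) (j : Fin d) :
    idlLt x j.succ = idlLt (fun i => x i.succ) j ⊔ Ideal.span {x 0} := by
  unfold idlLt
  rw [← Ideal.span_union]
  congr 1
  ext y
  constructor
  · rintro ⟨i, hi, rfl⟩
    induction i using Fin.cases with
    | zero => exact Or.inr rfl
    | succ i => exact Or.inl ⟨i, Fin.succ_lt_succ_iff.1 hi, rfl⟩
  · rintro (⟨i, hi, rfl⟩ | rfl)
    · exact ⟨i.succ, Fin.succ_lt_succ_iff.2 hi, rfl⟩
    · exact ⟨0, Fin.succ_pos j, rfl⟩

theorem rl_idl_succ (x : Fin (d + 1) → A) : idl x = idl (fun i => x i.succ) ⊔ Ideal.span {x 0} := by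
  unfold idl
  rw [← Ideal.span_union]
  congr 1
  ext y
  constructor
  · rintro ⟨i, rfl⟩
    induction i using Fin.cases with
    | zero => exact Or.inr rfl
    | succ i => exact Or.inl ⟨i, rfl⟩
  · rintro (⟨i, rfl⟩ | rfl)
    · exact ⟨i.succ, rfl⟩
    · exact ⟨0, rfl⟩

theorem rl_reg_succ (x : Fin (d + 1) → A) : Reg x A ↔ (∀ w, x 0 * w = 0 → w = 0) ∧
    Reg (fun i : Fin d => Ideal.Quotient.mk (Ideal.span {x 0}) (x i.succ)) (A ⧸ Ideal.span {x 0}) := by
  rw [rg2_reg_self, rg2_reg_self, Fin.forall_fin_succ, rl_idlLt_zero]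
  refine and_congr (by simp only [Ideal.mem_bot]) (forall_congr' fun j => ?_)
  rw [rg2_idlLt_map (Ideal.Quotient.mk (Ideal.span {x 0})) (fun i => x i.succ), rl_idlLt_succ]
  constructor
  · intro h w hw
    obtain ⟨w, rfl⟩ := Ideal.Quotient.mk_surjective w
    rw [← map_mul, Ideal.mem_quotient_iff_mem_sup] at hw
    rw [Ideal.mem_quotient_iff_mem_sup]
    exact h w hw
  · intro h w hw
    have := h (Ideal.Quotient.mk _ w) (by rwa [← map_mul, Ideal.mem_quotient_iff_mem_sup])
    rwa [Ideal.mem_quotient_iff_mem_sup] at this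

end aux

omit [IsNoetherianRing R] in
theorem rl_local_quot {y : R} (hy : y ∈ maximalIdeal R) : IsLocalRing (R ⧸ Ideal.span {y}) := by
  have : Nontrivial (R ⧸ Ideal.span {y}) := Ideal.Quotient.nontrivial_iff.2 fun h =>
    (mem_maximalIdeal y).1 hy (Ideal.span_singleton_eq_top.1 h)
  exact IsLocalRing.of_surjective' (Ideal.Quotient.mk _) Ideal.Quotient.mk_surjective

omit [IsNoetherianRing R] in
theorem rl_max_quot {y : R} {z : Fin d → R} (hm : idl z ⊔ Ideal.span {y} = maximalIdeal R)
    [IsLocalRing (R ⧸ Ideal.span {y})] :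
    idl (fun i => Ideal.Quotient.mk (Ideal.span {y}) (z i)) = maximalIdeal (R ⧸ Ideal.span {y}) := by
  rw [← IsLocalRing.map_maximalIdeal_of_surjective (Ideal.Quotient.mk (Ideal.span {y})) Ideal.Quotient.mk_surjective,
    ← hm, Ideal.map_sup, Ideal.map_quotient_self, sup_bot_eq, idl_map]

omit [IsNoetherianRing R] in
theorem rl_sop {x : Fin d → R} (hx : idl x = maximalIdeal R) : Sop x :=
  ⟨fun i => hx ▸ Ideal.subset_span ⟨i, rfl⟩, 1, by rw [pow_one, hx]⟩

/-- `ord_mul` and Krull's intersection theorem. -/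
theorem RegL.isDomain (h : RegL R d) : IsDomain R := by
  obtain ⟨x, hx, hm⟩ := h
  have key : ∀ a : R, a ≠ 0 → ∃ i, a ∉ idl x ^ (i + 1) := by
    intro a ha
    by_contra hc
    push Not at hc
    apply ha
    rw [← Ideal.mem_bot, ← Ideal.iInf_pow_eq_bot_of_isLocalRing (maximalIdeal R) (maximalIdeal.isMaximal R).ne_top,
      Ideal.mem_iInf]
    intro i
    exact Ideal.pow_le_pow_right (Nat.le_succ i) (hm ▸ hc i)
  have : NoZeroDivisors R := ⟨fun {a b} hab => by
    by_contra hc
    push Not at hc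
    obtain ⟨i, hi⟩ := key a hc.1
    obtain ⟨j, hj⟩ := key b hc.2
    exact ord_mul hx (hm ▸ inferInstance) hi hj (hab ▸ Ideal.zero_mem _)⟩
  exact NoZeroDivisors.to_isDomain R

/-- The quotient by the first element of a regular system of parameters (`Reg.quot_append`). -/
theorem regL_quot {x : Fin (d + 1) → R} (hx : Reg x R) (hm : idl x = maximalIdeal R)
    [IsLocalRing (R ⧸ Ideal.span {x 0})] : RegL (R ⧸ Ideal.span {x 0}) d :=
  ⟨_, ((rl_reg_succ x).1 hx).2, rl_max_quot (by rw [← rl_idl_succ, hm])⟩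

/-- `≤` by `dim_le_of_sop`; `≥` by induction: `R` is a domain, `x 0 ≠ 0`, so `dim (R / x 0) + 1 ≤ dim R`. -/
theorem RegL.dim (h : RegL R d) : ringKrullDim R = d := by
  induction d generalizing R with
  | zero =>
    obtain ⟨x, -, hm⟩ := h
    exact le_antisymm (dim_le_of_sop (rl_sop hm)) ringKrullDim_nonneg_of_nontrivial
  | succ d ih =>
    obtain ⟨x, hx, hm⟩ := h
    have h0 : x 0 ∈ maximalIdeal R := (rl_sop hm).1 0
    have := rl_local_quot h0
    have hr : IsSMulRegular R (x 0) := IsSMulRegular.of_right_eq_zero_of_smul ((rl_reg_succ x).1 hx).1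
    rw [← ringKrullDim_quotient_span_singleton_succ_eq_ringKrullDim hr h0, ih (regL_quot hx hm)]
    push_cast
    rfl

/-- Induct on `d`.  Choose `y ≡ x 0` modulo `(x 1, …) + 𝔪^2` outside all minimal primes (`davis`; a minimal prime
containing `(x) + 𝔪^2` would be `𝔪`).  Then `y, x 1, …` generate `𝔪` (Nakayama: write `y = x 0 + b + c` with
`b ∈ (x 1, …)`, `c ∈ 𝔪^2`), `R / y` has dimension `d - 1` (`≤` from the generators, `≥` from
`dim_le_of_sop` after lifting `exists_sop`), so it is a domain by induction; a minimal prime `𝔭 ≤ (y)` does not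
contain `y`, so `𝔭 = y 𝔭 = 0` and `y` is regular.  Finally a regular sequence of `R / y` lifts. -/
theorem regL_of_dim {x : Fin d → R} (hx : idl x = maximalIdeal R) (hd : ringKrullDim R = d) : RegL R d := by
  induction d generalizing R with
  | zero => exact ⟨x, fun j => j.elim0, hx⟩
  | succ d ih =>
    have hfin := minimalPrimes.finite_of_isNoetherianRing R
    rw [rl_idl_succ] at hx
    obtain ⟨b, hb, hy⟩ := davis hfin.toFinset (fun P hP => (hfin.mem_toFinset.1 hP).1.1) (x 0) (idl fun i => x i.succ)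
      fun P hP hle => by
        have hP' := hfin.mem_toFinset.1 hP
        rw [sup_comm, hx] at hle
        have e : P = maximalIdeal R := ((maximalIdeal.isMaximal R).eq_of_le hP'.1.1.ne_top hle).symm
        have h0 : (maximalIdeal R).height = 0 := Ideal.height_eq_zero_iff.2 (e ▸ hP')
        rw [← maximalIdeal_height_eq_ringKrullDim, h0] at hd
        exact absurd hd (by norm_cast)
    set y := x 0 + b with hydef
    have hm : idl (fun i => x i.succ) ⊔ Ideal.span {y} = maximalIdeal R := by
      rw [← hx]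
      refine le_antisymm (sup_le le_sup_left ?_) (sup_le le_sup_left ?_) <;>
        rw [Ideal.span_le, Set.singleton_subset_iff]
      · exact Ideal.add_mem _ (Ideal.mem_sup_right (Ideal.mem_span_singleton_self _)) (Ideal.mem_sup_left hb)
      · have : x 0 = y - b := by simp [hydef]
        rw [this]
        exact Ideal.sub_mem _ (Ideal.mem_sup_right (Ideal.mem_span_singleton_self _)) (Ideal.mem_sup_left hb)
    have hym : y ∈ maximalIdeal R := hm ▸ Ideal.mem_sup_right (Ideal.mem_span_singleton_self _)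
    have := rl_local_quot hym
    have hm' := rl_max_quot hm
    have hd' : ringKrullDim (R ⧸ Ideal.span {y}) = d := by
      refine le_antisymm (dim_le_of_sop (rl_sop hm')) ?_
      have h1 := ringKrullDim_le_ringKrullDim_quotient_add_encard ({y} : Set R)
        (by rw [Set.singleton_subset_iff, ringJacobson_eq_maximalIdeal]; exact hym)
      rw [hd, Set.encard_singleton] at h1
      have h2 : ringKrullDim (R ⧸ Ideal.span {y}) ≠ ⊥ := ringKrullDim_ne_bot
      have h3 : ringKrullDim (R ⧸ Ideal.span {y}) ≠ ⊤ := ringKrullDim_ne_top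
      obtain ⟨n, hn⟩ := WithBot.ne_bot_iff_exists.1 h2
      rw [← hn] at h1 h3 ⊢
      lift n to ℕ using fun h => h3 (by rw [h]; rfl)
      have h4 : d + 1 ≤ n + 1 := by exact_mod_cast h1
      exact_mod_cast Nat.le_of_succ_le_succ h4
    have hq := ih hm' hd'
    have hdom := hq.isDomain
    have hp : (Ideal.span {y}).IsPrime := (Ideal.Quotient.isDomain_iff_prime _).1 hdom
    obtain ⟨P, hP, hPy⟩ := Ideal.exists_minimalPrimes_le (I := ⊥) (J := Ideal.span {y}) bot_le
    have hyP : y ∉ P := hy P (hfin.mem_toFinset.2 hP)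
    have hPp := hP.1.1
    have hP0 : P = ⊥ := by
      refine Submodule.eq_bot_of_le_smul_of_le_jacobson_bot (maximalIdeal R) P (IsNoetherian.noetherian P) ?_
        (maximalIdeal_le_jacobson _)
      intro a ha
      obtain ⟨c, rfl⟩ := Ideal.mem_span_singleton'.1 (hPy ha)
      rw [mul_comm]
      exact Submodule.smul_mem_smul hym ((hPp.mem_or_mem ha).resolve_right hyP)
    obtain ⟨z', hz', hzm⟩ := hq
    choose z hz using fun i => Ideal.Quotient.mk_surjective (z' i)
    have hz2 : (fun i => Ideal.Quotient.mk (Ideal.span {y}) (z i)) = z' := funext hz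
    refine ⟨Fin.cons y z, (rl_reg_succ _).2 ⟨fun w hw => ?_, ?_⟩, ?_⟩
    · rw [hP0] at hPp hyP
      exact (hPp.mem_or_mem (show y * w ∈ (⊥ : Ideal R) from hw)).resolve_left hyP
    · change Reg (fun i => Ideal.Quotient.mk (Ideal.span {y}) (z i)) (R ⧸ Ideal.span {y})
      rwa [hz2]
    · rw [rl_idl_succ]
      change idl z ⊔ Ideal.span {y} = _
      have h1 : (idl z).map (Ideal.Quotient.mk (Ideal.span {y})) =
          (maximalIdeal R).map (Ideal.Quotient.mk (Ideal.span {y})) := by
        rw [idl_map, hz2, hzm, IsLocalRing.map_maximalIdeal_of_surjective _ Ideal.Quotient.mk_surjective]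
      have h2 := congrArg (Ideal.comap (Ideal.Quotient.mk (Ideal.span {y}))) h1
      rw [Ideal.comap_map_of_surjective _ Ideal.Quotient.mk_surjective,
        Ideal.comap_map_of_surjective _ Ideal.Quotient.mk_surjective, ← RingHom.ker_eq_comap_bot, Ideal.mk_ker] at h2
      rw [h2, sup_eq_left, Ideal.span_le, Set.singleton_subset_iff]
      exact hym

theorem regL_of_regular (R : Type) [CommRing R] [IsRegularLocalRing R] {d : ℕ} (hd : ringKrullDim R = d) :
    RegL R d := by
  obtain ⟨s, hs, hsp⟩ := Submodule.FG.exists_span_finset_card_eq_spanFinrank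
    (maximalIdeal R).fg_of_isNoetherianRing
  have h1 := IsRegularLocalRing.spanFinrank_maximalIdeal (R := R)
  rw [hd, ← hs] at h1
  have h2 : s.card = d := by exact_mod_cast h1
  refine regL_of_dim (x := fun i => (s.equivFinOfCardEq h2).symm i) ?_ hd
  rw [← hsp, idl]
  congr 1
  ext y
  constructor
  · rintro ⟨i, rfl⟩
    exact ((s.equivFinOfCardEq h2).symm i).2
  · intro hy
    exact ⟨s.equivFinOfCardEq h2 ⟨y, hy⟩, by simp⟩

/-- `inf_ism_of_reg` and Nakayama. -/
theorem inj_of_reg {B : Type} [CommRing B] [Nontrivial B] (f : R →+* B) (hf : Function.Surjective f)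
    {x : Fin d → R} (hx : idl x = maximalIdeal R) (h : Reg (fun i => f (x i)) B) : Function.Injective f := by
  let _ := f.toAlgebra
  have hr : Reg x B := (reg_algebraMap_iff x).1 h
  have h1 := inf_ism_of_reg (Algebra.linearMap R B) hf hr
  have h2 : LinearMap.ker (Algebra.linearMap R B) ≤ ism (idl x) R := by
    rw [ism, smul_eq_mul, Ideal.mul_top, hx]
    exact le_maximalIdeal (RingHom.ker_ne_top f)
  rw [inf_eq_left.2 h2, hx] at h1
  have h3 := Submodule.eq_bot_of_le_smul_of_le_jacobson_bot (maximalIdeal R) _ (IsNoetherian.noetherian _) h1.le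
    (maximalIdeal_le_jacobson _)
  exact LinearMap.ker_eq_bot.1 h3

/-- A finite algebra on which a regular system of parameters is regular has a basis (`free_of_reg`). -/
theorem basis_of_reg {B : Type} [CommRing B] [Nontrivial B] (f : R →+* B) (hf : f.Finite) {x : Fin d → R}
    (hx : idl x = maximalIdeal R) (h : Reg (fun i => f (x i)) B) :
    f.Flat ∧ ∃ (κ : ℕ) (b : Fin κ → B), 0 < κ ∧ (∀ y, ∃ c : Fin κ → R, y = ∑ i, f (c i) * b i) ∧
      ∀ c : Fin κ → R, ∑ i, f (c i) * b i = 0 → c = 0 := by
  let _ := f.toAlgebra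
  have : Module.Finite R B := hf
  have hr : Reg x B := (reg_algebraMap_iff x).1 h
  obtain ⟨r, ⟨e⟩, -⟩ := free_of_reg hx hr
  let b := Module.Basis.ofEquivFun e
  have : Module.Free R B := Module.Free.of_basis b
  refine ⟨(inferInstance : Module.Flat R B), r, b, ?_, fun y => ⟨b.repr y, ?_⟩, fun c hc => ?_⟩
  · rcases Nat.eq_zero_or_pos r with rfl | h0
    · exact absurd (e.injective (Subsingleton.elim _ _)) (zero_ne_one (α := B))
    · exact h0
  · conv_lhs => rw [← b.sum_repr y]
    rfl
  · exact funext (Fintype.linearIndependent_iff.1 b.linearIndependent c hc)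

theorem cls_ps (k : Type) [Field k] [IsAlgClosed k] (d : ℕ) : Cls (MvPowerSeries (Fin d) k) d := by
  have hm : idl (MvPowerSeries.X : Fin d → MvPowerSeries (Fin d) k) = maximalIdeal _ := by
    rw [ps_maximal, IsLocalRing.maximalIdeal_eq_bot, Ideal.map_bot, bot_sup_eq]
  have : IsAdicComplete (maximalIdeal k) k := by
    rw [maximalIdeal_eq_bot]
    infer_instance
  refine ⟨inferInstance, ⟨_, reg_X_ps d k, hm⟩, ps_complete k d, ?_⟩
  let φ : k →+* ResidueField (MvPowerSeries (Fin d) k) := (residue _).comp MvPowerSeries.C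
  have hs : Function.Surjective φ := by
    intro y
    obtain ⟨g, rfl⟩ := residue_surjective y
    refine ⟨MvPowerSeries.constantCoeff g, ?_⟩
    change residue _ (MvPowerSeries.C _) = _
    rw [← sub_eq_zero, ← map_sub, residue_eq_zero_iff, mem_maximalIdeal, mem_nonunits_iff,
      MvPowerSeries.isUnit_iff_constantCoeff]
    simp
  exact IsAlgClosed.of_ringEquiv k _ (RingEquiv.ofBijective φ ⟨φ.injective, hs⟩)

end Crest.Agent.R188
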