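import Crest.Agent.R188.Lift

/-!
# rid 188, file `SL`: the chain maps attached to a side

Prefix helper lemmas with `sl_`.
-/

set_option autoImplicit false

open IsLocalRing Crest.Agent.R183

namespace Crest.Agent.R188

open Matrix

theorem sl_mu {O D M : Type} [CommRing O] [CommRing D] [CommRing M] [Algebra O D] [Algebra O M] (π : D →ₐ[O] M)
    (α : D) (h1 : ∀ y, ∃ d, π α * y = π d) (h2 : ∀ d, π d = 0 → α * d = 0) :
    ∃ μ : M →ₗ[O] D, μ 1 = α ^ 2 ∧ ∀ y, π (μ y) = π α ^ 2 * y := by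
  choose d hd using h1
  have key : ∀ y e, π α * y = π e → α * d y = α * e := fun y e h => by
    rw [← sub_eq_zero, ← mul_sub]
    exact h2 _ (by rw [map_sub, ← hd, h, sub_self])
  refine ⟨⟨⟨fun y => α * d y, fun y z => ?_⟩, fun r y => ?_⟩, ?_, fun y => ?_⟩
  · rw [key _ (d y + d z) (by rw [map_add, mul_add, hd, hd]), mul_add]
  · simp only [RingHom.id_apply]
    rw [key _ (r • d y) (by rw [map_smul, mul_smul_comm, hd]), mul_smul_comm]
  · exact (key 1 α (mul_one _)).trans (sq α).symm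
  · change π (α * d y) = _
    rw [map_mul, ← hd, sq, mul_assoc]

theorem sl_exact {O D M : Type} [CommRing O] [CommRing D] [CommRing M] [Algebra O D] [Algebra O M] (π : D →ₐ[O] M)
    (α : D) (h1 : ∀ y, ∃ d, π α * y = π d) (h2 : ∀ d, π d = 0 → α * d = 0) {n n' : ℕ} {FD : MC O n} {FM : MC O n'}
    {εD : (FD.ι → O) →ₗ[O] D} {εM : (FM.ι → O) →ₗ[O] M} (hD : FD.Res εD) (hM : FM.Res εM)
    {L : Matrix FM.ι FM.ι O} (hL : IsChain FM FM L) (hL' : ∀ w, εM (L *ᵥ w) = π α ^ 2 * εM w) :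
    ∃ (πt : Matrix FM.ι FD.ι O) (μt : Matrix FD.ι FM.ι O), IsChain FD FM πt ∧ IsChain FM FD μt ∧
      Htp FM FM (πt * μt) L ∧ ∀ e, εM e = 1 → εD (μt *ᵥ e) = α ^ 2 := by
  obtain ⟨μ, m1, m2⟩ := sl_mu π α h1 h2
  obtain ⟨πt, p1, p2⟩ := exists_chain hD.εD hD.ε0 hM π.toLinearMap
  obtain ⟨μt, q1, q2⟩ := exists_chain hM.εD hM.ε0 hD μ
  refine ⟨πt, μt, p1, q1, htp_of_res hM (p1.mul q1) hL fun w => ?_, fun e he => by rw [q2, he, m1]⟩
  rw [← Matrix.mulVec_mulVec, p2, q2, hL', AlgHom.toLinearMap_apply, m2]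

theorem sl_hom {R Λ : Type} [CommRing R] [CommRing Λ] (ρ : R →+* Λ) (hρ : Function.Surjective ρ) {ϖ : R}
    (hk : ∀ x, ρ x = 0 ↔ x ∈ Ideal.span {ϖ}) (D : Type) [CommRing D] [Algebra R D] :
    ∃ φ : Λ →+* D ⧸ Ideal.span {algebraMap R D ϖ}, ∀ r, φ (ρ r) = Ideal.Quotient.mk _ (algebraMap R D r) :=
  ⟨ρ.liftOfSurjective hρ ⟨(Ideal.Quotient.mk _).comp (algebraMap R D), fun x hx => by
      obtain ⟨y, rfl⟩ := Ideal.mem_span_singleton'.1 ((hk x).1 hx)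
      rw [RingHom.mem_ker, RingHom.comp_apply, Ideal.Quotient.eq_zero_iff_mem, map_mul]
      exact Ideal.mul_mem_left _ _ (Ideal.mem_span_singleton_self _)⟩,
    fun r => ρ.liftOfRightInverse_comp_apply _ _ _ r⟩

theorem sl_red {R Λ D D' : Type} [CommRing R] [CommRing Λ] [CommRing D] [CommRing D'] [Algebra R D] [Algebra Λ D']
    (ρ : R →+* Λ) (hρ : Function.Surjective ρ) {ϖ : R} (hk : ∀ x, ρ x = 0 ↔ x ∈ Ideal.span {ϖ})
    (h1 : ∀ x : R, ϖ * x = 0 → x = 0) (h2 : ∀ d : D, ϖ • d = 0 → d = 0) (q : D →+* D') (hq : Function.Surjective q)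
    (ha : ∀ r, algebraMap Λ D' (ρ r) = q (algebraMap R D r))
    (hq' : ∀ y, q y = 0 ↔ y ∈ Ideal.span {algebraMap R D ϖ}) {n : ℕ} {F : MC R n} {ε : (F.ι → R) →ₗ[R] D}
    (hF : F.Res ε) : ∃ ε' : ((F.map ρ).ι → Λ) →ₗ[Λ] D', (F.map ρ).Res ε' ∧
      ∀ w : F.ι → R, ε' (fun a => ρ (w a)) = q (ε w) :=
  res_quot hF ρ hρ hk h1 h2 ⟨⟨q, q.map_add⟩, fun r x => by simp only [Algebra.smul_def, map_mul, ha]⟩ hq fun y => by
    simp only [LinearMap.coe_mk, AddHom.coe_mk, hq', Ideal.mem_span_singleton, Algebra.smul_def, dvd_def]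

/-- For `y : M` pick `d` with `π α * y ≡ π d` and put `μ y = α * d`; by the second half of `Sand` this is a
well-defined `R`-linear map modulo `ϖ` with `μ 1 = α^2` and `π (μ y) = (π α)^2 y`.
If the sandwich is exact (`Sand 0`), `μ : M →ₗ[R] D`; lift `π` and `μ` over `R` (`exists_chain`, `htp_of_res`) and
map along `ρ`.  Otherwise `FD.map ρ`, `FM.map ρ` resolve `D / ϖ` and `M / ϖ` over `Λ` (`res_quot`; make these
quotients `Λ`-modules through the ring homomorphisms induced by `ρ`), and lift over `Λ`. -/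
theorem side_lift {R Λ : Type} [CommRing R] [CommRing Λ] (S : Side R) (ρ : R →+* Λ) (hρ : Function.Surjective ρ)
    {ϖ : R} (hk : ∀ x, ρ x = 0 ↔ x ∈ Ideal.span {ϖ}) (hS : S.Kind ϖ) {n n' : ℕ} {FD : MC R n} {FM : MC R n'}
    {εD : (FD.ι → R) →ₗ[R] S.D} {εM : (FM.ι → R) →ₗ[R] S.M} (hD : FD.Res εD) (hM : FM.Res εM)
    (A : Act FM (algebraMap R S.M) (RingHom.id R)) (hA : ∀ y w, εM (A.L y *ᵥ w) = y * εM w) :
    ∃ (πt : Matrix FM.ι FD.ι Λ) (μt : Matrix FD.ι FM.ι Λ), IsChain (FD.map ρ) (FM.map ρ) πt ∧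
      IsChain (FM.map ρ) (FD.map ρ) μt ∧
      Htp (FM.map ρ) (FM.map ρ) (πt * μt) ((A.L (S.π S.α ^ 2)).map ρ) ∧
      ∀ e : FM.ι → R, εM e = 1 → ∃ w : FD.ι → R, (fun a => ρ (w a)) = μt *ᵥ (fun b => ρ (e b)) ∧
        εD w - S.α ^ 2 ∈ Ideal.span {algebraMap R S.D ϖ} := by
  have hL : ∀ {ι κ : Type} [Fintype κ] (B : Matrix ι κ R) (w : κ → R),
      (fun a => ρ ((B *ᵥ w) a)) = B.map ρ *ᵥ fun b => ρ (w b) := fun B w =>
    funext fun a => RingHom.map_mulVec ρ B w a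
  rcases hS with ⟨h1, h2⟩ | ⟨⟨h1, h2⟩, r1, r2, r3⟩
  · simp only [map_zero, Ideal.mem_span_singleton, zero_dvd_iff, sub_eq_zero] at h1 h2
    obtain ⟨πt, μt, c1, c2, c3, c4⟩ := sl_exact S.π S.α h1 h2 hD hM (A.chain _) (hA _)
    refine ⟨πt.map ρ, μt.map ρ, c1.map ρ, c2.map ρ, ?_, fun e he => ⟨μt *ᵥ e, hL _ _, ?_⟩⟩
    · rw [← Matrix.map_mul]
      exact c3.map ρ
    · rw [c4 e he, sub_self]
      exact zero_mem _
  · obtain ⟨φD, hφD⟩ := sl_hom ρ hρ hk S.D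
    obtain ⟨φM, hφM⟩ := sl_hom ρ hρ hk S.M
    let := φD.toAlgebra
    let := φM.toAlgebra
    obtain ⟨εD', d1, d2⟩ := sl_red ρ hρ hk r1 r2 _ Ideal.Quotient.mk_surjective hφD
      (fun _ => Ideal.Quotient.eq_zero_iff_mem) hD
    obtain ⟨εM', m1, m2⟩ := sl_red ρ hρ hk r1 r3 _ Ideal.Quotient.mk_surjective hφM
      (fun _ => Ideal.Quotient.eq_zero_iff_mem) hM
    have hle : Ideal.span {algebraMap R S.D ϖ} ≤ (Ideal.span {algebraMap R S.M ϖ}).comap (S.π : S.D →+* S.M) :=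
      (Ideal.span_singleton_le_iff_mem _).2 (by
        rw [Ideal.mem_comap, RingHom.coe_coe, AlgHom.commutes]
        exact Ideal.mem_span_singleton_self _)
    let π' : (S.D ⧸ Ideal.span {algebraMap R S.D ϖ}) →ₐ[Λ] (S.M ⧸ Ideal.span {algebraMap R S.M ϖ}) :=
      ⟨Ideal.quotientMap _ (S.π : S.D →+* S.M) hle, fun l => by
        obtain ⟨r, rfl⟩ := hρ l
        change Ideal.quotientMap _ (S.π : S.D →+* S.M) hle (φD (ρ r)) = φM (ρ r)
        rw [hφD, hφM, Ideal.quotientMap_mk, RingHom.coe_coe, AlgHom.commutes]⟩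
    have hπ : ∀ d, π' (Ideal.Quotient.mk _ d) = Ideal.Quotient.mk _ (S.π d) := fun _ => rfl
    obtain ⟨πt, μt, c1, c2, c3, c4⟩ := sl_exact π' (Ideal.Quotient.mk _ S.α) (fun y => by
        obtain ⟨y, rfl⟩ := Ideal.Quotient.mk_surjective y
        obtain ⟨d, hd⟩ := h1 y
        exact ⟨Ideal.Quotient.mk _ d, Ideal.Quotient.eq.2 hd⟩)
      (fun d hd => by
        obtain ⟨d, rfl⟩ := Ideal.Quotient.mk_surjective d
        exact Ideal.Quotient.eq_zero_iff_mem.2 (h2 d (Ideal.Quotient.eq_zero_iff_mem.1 hd)))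
      d1 m1 ((A.chain (S.π S.α ^ 2)).map ρ) fun w => by
        choose v hv using fun a => hρ (w a)
        obtain rfl : w = fun a => ρ (v a) := funext fun a => (hv a).symm
        refine (congrArg εM' (hL (A.L (S.π S.α ^ 2)) v).symm).trans ((m2 _).trans
          (Eq.trans ?_ (congrArg (_ * ·) (m2 v).symm)))
        exact (congrArg _ (hA _ _)).trans (by rw [hπ, map_mul, map_pow])
    refine ⟨πt, μt, c1, c2, c3, fun e he => ?_⟩
    choose v hv using fun a => hρ ((μt *ᵥ fun b => ρ (e b)) a)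
    exact ⟨v, funext hv, Ideal.Quotient.eq.1 ((d2 v).symm.trans ((congrArg εD' (funext hv)).trans
      ((c4 _ ((m2 e).trans (by rw [he, map_one]))).trans (map_pow _ _ _).symm)))⟩

end Crest.Agent.R188
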