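import Crest.Agent.R188.MidA
import Crest.Agent.R188.SL
import Crest.Agent.R188.RL

/-!
# rid 188, file `MidB`: vanishing and positivity from the relations

Prefix helper lemmas with `mb_`.
-/

set_option autoImplicit false

open IsLocalRing Crest.Agent.R183

namespace Crest.Agent.R188

open Matrix Kronecker

variable {R : Type} [CommRing R] [IsLocalRing R] [IsNoetherianRing R] {U : Setup R} {d : ℕ}

omit [IsLocalRing R] [IsNoetherianRing R] in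
theorem mb_kil {D M : Type} [CommRing D] [Algebra R D] [CommRing M] [Algebra R M] (π : D →ₐ[R] M) :
    Kil (RingHom.ker (algebraMap R D)) M :=
  ⟨1, fun y hy w => by
    rw [pow_one, RingHom.mem_ker] at hy
    rw [Algebra.smul_def, ← π.commutes, hy, map_zero, zero_mul]⟩

omit [IsLocalRing R] [IsNoetherianRing R] in
theorem mb_sum {ι D K : Type} [Fintype ι] [DecidableEq ι] [CommRing D] [Algebra R D] [CommRing K]
    (ε : (ι → R) →ₗ[R] D) (l : D →+ K) (f : R → K) (hl : ∀ r y, l (algebraMap R D r * y) = f r * l y)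
    (w : ι → R) : ∑ a, f (w a) * l (ε (Pi.single a 1)) = l (ε w) := by
  conv_rhs => rw [← lf_single w, map_sum, map_sum]
  exact Finset.sum_congr rfl fun a _ => by rw [map_smul, Algebra.smul_def, hl]

omit [IsLocalRing R] [IsNoetherianRing R] in
theorem mb_col {n : ℕ} {F : MC R n} {D K : Type} [CommRing D] [Algebra R D] [CommRing K]
    {ε : (F.ι → R) →ₗ[R] D} (hF : F.Res ε) (l : D →+ K) (f : R → K)
    (hl : ∀ r y, l (algebraMap R D r * y) = f r * l y) (b : F.ι) :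
    ∑ a, f (F.D a b) * l (ε (Pi.single a 1)) = 0 := by
  have := mb_sum ε l f hl (F.D *ᵥ Pi.single b 1)
  rw [hF.εD, map_zero] at this
  simpa using this

omit [IsLocalRing R] [IsNoetherianRing R] in
theorem mb_eta {n n' : ℕ} (F1 : MC R n) (F2 : MC R n') {K : Type} [CommRing K] (θ : U.O →+* K) (η1 : F1.ι → K)
    (η2 : F2.ι → K) (h1 : ∀ b, ∑ a, θ (U.j1 (F1.D a b)) * η1 a = 0)
    (h2 : ∀ b, ∑ a, θ (U.j2 (F2.D a b)) * η2 a = 0) (b : F1.ι × F2.ι) :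
    ∑ a : F1.ι × F2.ι, θ ((U.G F1 F2).D a b) * (η1 a.1 * η2 a.2) = 0 := by
  have e : ∀ a : F1.ι × F2.ι, (U.G F1 F2).D a b = U.j1 (F1.D a.1 b.1) * (1 : Matrix F2.ι F2.ι U.O) a.2 b.2 +
      ((F1.map U.ρ).map U.j).sgn a.1 b.1 * U.j2 (F2.D a.2 b.2) := fun a => rfl
  calc ∑ a : F1.ι × F2.ι, θ ((U.G F1 F2).D a b) * (η1 a.1 * η2 a.2)
      = (∑ a, θ (U.j1 (F1.D a b.1)) * η1 a) * (∑ a, θ ((1 : Matrix F2.ι F2.ι U.O) a b.2) * η2 a) +
        (∑ a : F1.ι, θ (((F1.map U.ρ).map U.j).sgn a b.1) * η1 a) * ∑ a, θ (U.j2 (F2.D a b.2)) * η2 a := by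
        rw [Finset.sum_mul_sum, Finset.sum_mul_sum, Fintype.sum_prod_type, ← Finset.sum_add_distrib]
        refine Finset.sum_congr rfl fun a1 _ => ?_
        rw [← Finset.sum_add_distrib]
        refine Finset.sum_congr rfl fun a2 _ => ?_
        rw [e, map_add, map_mul, map_mul]
        ring
    _ = 0 := by rw [h1, h2, zero_mul, mul_zero, add_zero]

theorem mb_kron {O α β γ δ : Type} [CommRing O] [Fintype β] [Fintype δ] (A : Matrix α β O) (B : Matrix γ δ O)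
    (u : β → O) (v : δ → O) (p : α × γ) :
    ((A ⊗ₖ B) *ᵥ fun q => u q.1 * v q.2) p = (A *ᵥ u) p.1 * (B *ᵥ v) p.2 := by
  simp only [mulVec, dotProduct, Fintype.sum_prod_type, Finset.sum_mul_sum, kroneckerMap_apply]
  exact Finset.sum_congr rfl fun _ _ => Finset.sum_congr rfl fun _ _ => by ring

theorem mb_prod {α β K : Type} [CommRing K] [Fintype α] [Fintype β] (u η1 : α → K) (v η2 : β → K) :
    ∑ a : α × β, u a.1 * v a.2 * (η1 a.1 * η2 a.2) = (∑ a, u a * η1 a) * ∑ a, v a * η2 a := by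
  rw [Finset.sum_mul_sum, Fintype.sum_prod_type]
  exact Finset.sum_congr rfl fun _ _ => Finset.sum_congr rfl fun _ _ => by ring

omit [IsLocalRing R] [IsNoetherianRing R] in
theorem mb_one {n : ℕ} {F : MC R n} {M : Type} [CommRing M] [Algebra R M] {ε : (F.ι → R) →ₗ[R] M}
    (hF : F.Res ε) : ∃ e : F.ι → R, ε e = 1 ∧ ∀ a, F.deg a ≠ 0 → e a = 0 := by
  obtain ⟨e, he⟩ := hF.surj 1
  exact ⟨prj R F.deg R 0 e, by rw [lf_eps_prj hF.ε0, he], fun a ha => by rw [prj_apply, if_neg ha]⟩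

/-- `exists_res`, `exists_act`, `Setup.exists_acts`, `kill_of_rel`, `lv_one`, `tor_ne_top`, `core_van`, `lv_chi`. -/
theorem mid_van (h : U.OK) (hR : RegL R d) (M1 M2 : Type) [CommRing M1] [Algebra R M1] [Module.Finite R M1]
    [CommRing M2] [Algebra R M2] [Module.Finite R M2]
    (hP : Prim (RingHom.ker (algebraMap R M1)) (RingHom.ker (algebraMap R M2))) {c0 : ℕ} (hc0 : c0 * U.r ≤ U.c)
    (hS : U.RelS M1 M2 c0) (hC : U.RelC (0 : M1) (0 : M2)) : chi R d M1 M2 = 0 := by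
  have := hR.isDomain
  obtain ⟨F1, ε1, r1⟩ := exists_res hR M1
  obtain ⟨F2, ε2, r2⟩ := exists_res hR M2
  obtain ⟨B1, -⟩ := exists_act r1
  obtain ⟨B2, -⟩ := exists_act r2
  obtain ⟨A1, A2, -, hc⟩ := U.exists_acts B1 B2
  have hK : ∀ J ≤ U.r, (U.G F1 F2).Kill U.s U.tO U.c J := fun J hJ =>
    kill_of_rel _ A1 A2 hc hS ((Nat.mul_le_mul_left _ hJ).trans hc0)
  rw [← h.lv_chi hR r1 r2 (hK 1 h.rpos)]
  refine core_van R _ h.rpos h.tok hK A1 A2 hc (fun i => ?_) hC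
  exact (h.lv_one r1 r2 (hK 1 h.rpos) i).trans_ne
    (tor_ne_top hR (mb_kil (AlgHom.id R M1)) (mb_kil (AlgHom.id R M2)) hP i)

omit [IsNoetherianRing R] in
/-- A functional on `D / 𝔪 D`. -/
theorem exists_functional {D : Type} [CommRing D] [Algebra R D] {γ : D}
    (h : γ ∉ (maximalIdeal R).map (algebraMap R D)) :
    ∃ l : D →+ ResidueField R, (∀ (r : R) (y : D), l (algebraMap R D r * y) = residue R r * l y) ∧ l γ ≠ 0 := by
  let φ : ResidueField R →+* D ⧸ (maximalIdeal R).map (algebraMap R D) :=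
    Ideal.quotientMap _ (algebraMap R D) Ideal.le_comap_map
  let := φ.toAlgebra
  have h0 : Ideal.Quotient.mk ((maximalIdeal R).map (algebraMap R D)) γ ≠ 0 :=
    fun h0 => h (Ideal.Quotient.eq_zero_iff_mem.1 h0)
  obtain ⟨f, hf⟩ : ∃ f : Module.Dual (ResidueField R) (D ⧸ (maximalIdeal R).map (algebraMap R D)),
      f (Ideal.Quotient.mk _ γ) ≠ 0 := by
    by_contra hcon
    push Not at hcon
    exact h0 ((Module.forall_dual_apply_eq_zero_iff _ _).1 hcon)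
  refine ⟨f.toAddMonoidHom.comp (Ideal.Quotient.mk _ : D →+* _).toAddMonoidHom, fun r y => ?_, hf⟩
  change f (Ideal.Quotient.mk _ (algebraMap R D r * y)) = residue R r * f (Ideal.Quotient.mk _ y)
  rw [← smul_eq_mul (residue R r), ← map_smul, map_mul]
  rfl

/-- Take `π = π1 ⊗ π2`, `μ = μ1 ⊗ μ2` from `side_lift` (mapped along `j` and `τ`; `IsChain.ten`, `Htp.ten`), and
`tor_cm` for the vanishing on the `D` side.  For `hNV` take `x = e1 ⊗ e2` with `ε e = 1` in degree `0`.  First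
case: `nv_D` with `res = residue ∘ ev` and `η (a, b) = l1 (ε1 e_a) * l2 (ε2 e_b)`.  Second case: `nv_O` with
`η (a, b) = a (ε1 e_a) * b (ε2 e_b)`.  In both cases `∑ D η = 0` because `ε D = 0`. -/
theorem mid_pos (h : U.OK) (hR : RegL R d) (S1 S2 : Side R) (k1 : S1.Kind U.ϖ) (k2 : S2.Kind U.ϖ) {a b : ℕ}
    (d1 : S1.Depth a) (d2 : S2.Depth b) (hab : d ≤ a + b)
    (hP : Prim (RingHom.ker (algebraMap R S1.D)) (RingHom.ker (algebraMap R S2.D))) {c0 : ℕ}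
    (hc0 : c0 * U.r ≤ U.c) (hS : U.RelS S1.D S2.D c0) (hC : U.RelC (S1.π S1.α ^ 2) (S2.π S2.α ^ 2))
    (hNV : (S1.α ^ 2 ∉ (maximalIdeal R).map (algebraMap R S1.D) ∧
        S2.α ^ 2 ∉ (maximalIdeal R).map (algebraMap R S2.D)) ∨
      ∃ (𝒪 : Type) (_ : CommRing 𝒪) (θ : U.O →+* 𝒪) (a : S1.M →+* 𝒪) (b : S2.M →+* 𝒪),
        Compat (algebraMap R S1.M) (algebraMap R S2.M) U.j1 U.j2 θ a b ∧
        θ (U.s ^ (U.r - 1)) ∉ (lev U.s U.tO U.c 1 U.r).map θ) :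
    0 < chi R d S1.M S2.M := by
  have := hR.isDomain
  obtain ⟨FD1, εD1, rD1⟩ := exists_res hR S1.D
  obtain ⟨FD2, εD2, rD2⟩ := exists_res hR S2.D
  obtain ⟨FM1, εM1, rM1⟩ := exists_res hR S1.M
  obtain ⟨FM2, εM2, rM2⟩ := exists_res hR S2.M
  obtain ⟨BD1, -⟩ := exists_act rD1
  obtain ⟨BD2, -⟩ := exists_act rD2
  obtain ⟨BM1, hB1⟩ := exists_act rM1
  obtain ⟨BM2, hB2⟩ := exists_act rM2
  obtain ⟨AD1, AD2, -, hcD⟩ := U.exists_acts BD1 BD2
  obtain ⟨AM1, AM2, hA, hcM⟩ := U.exists_acts BM1 BM2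
  have kD : ∀ J ≤ U.r, (U.G FD1 FD2).Kill U.s U.tO U.c J := fun J hJ =>
    kill_of_rel _ AD1 AD2 hcD hS ((Nat.mul_le_mul_left _ hJ).trans hc0)
  have kM : ∀ J ≤ U.r, (U.G FM1 FM2).Kill U.s U.tO U.c J := fun J hJ =>
    kill_of_rel _ AM1 AM2 hcM (hS.map S1.π S2.π) ((Nat.mul_le_mul_left _ hJ).trans hc0)
  obtain ⟨π1, μ1, p1, m1, t1, u1⟩ := side_lift S1 U.ρ h.surj h.ker k1 rD1 rM1 BM1 hB1
  obtain ⟨π2, μ2, p2, m2, t2, u2⟩ := side_lift S2 U.ρ h.surj h.ker k2 rD2 rM2 BM2 hB2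
  have hπ : IsChain (U.G FD1 FD2) (U.G FM1 FM2) (π1.map U.j ⊗ₖ π2.map U.τ) := (p1.map U.j).ten (p2.map U.τ)
  have hμ : IsChain (U.G FM1 FM2) (U.G FD1 FD2) (μ1.map U.j ⊗ₖ μ2.map U.τ) := (m1.map U.j).ten (m2.map U.τ)
  have hπμ : Htp (U.G FM1 FM2) (U.G FM1 FM2) ((π1.map U.j ⊗ₖ π2.map U.τ) * (μ1.map U.j ⊗ₖ μ2.map U.τ))
      (AM1.L (S1.π S1.α ^ 2) * AM2.L (S2.π S2.α ^ 2)) := by
    have e : (π1.map U.j ⊗ₖ π2.map U.τ) * (μ1.map U.j ⊗ₖ μ2.map U.τ) =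
        (π1 * μ1).map U.j ⊗ₖ (π2 * μ2).map U.τ := by
      rw [Matrix.map_mul, Matrix.map_mul, Matrix.mul_kronecker_mul]
    rw [hA]
    exact e ▸ Htp.ten ((p1.mul m1).map U.j) (((BM1.chain _).map U.ρ).map U.j) ((p2.mul m2).map U.τ)
      (((BM2.chain _).map U.ρ).map U.τ) (t1.map U.j) (t2.map U.τ)
  obtain ⟨z1, hz1, rz1⟩ := d1
  obtain ⟨z2, hz2, rz2⟩ := d2
  have hD : ∀ i, 1 ≤ i → (U.lv (U.G FD1 FD2) 1).h i = 0 := fun i hi =>
    (h.lv_one rD1 rD2 (kD 1 h.rpos) i).trans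
      (tor_cm hR (mb_kil (AlgHom.id R S1.D)) (mb_kil (AlgHom.id R S2.D)) hP hz1 hz2 rz1 rz2 (by omega))
  rw [← h.lv_chi hR rM1 rM2 (kM 1 h.rpos)]
  refine core_pos R _ _ h.rpos h.tok kD kM AM1 AM2 hcM hπ hμ hπμ hD (fun i => ?_) hC ?_
  · exact (h.lv_one rM1 rM2 (kM 1 h.rpos) i).trans_ne (tor_ne_top hR (mb_kil S1.π) (mb_kil S2.π) hP i)
  obtain ⟨e1, he1, hd1⟩ := mb_one rM1
  obtain ⟨e2, he2, hd2⟩ := mb_one rM2
  let x : FM1.ι × FM2.ι → U.O := fun q => U.j (U.ρ (e1 q.1)) * U.τ (U.ρ (e2 q.2))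
  have hx : ∀ q : FM1.ι × FM2.ι, (U.G FM1 FM2).deg q ≠ 0 → x q = 0 := fun q hq => by
    change FM1.deg q.1 + FM2.deg q.2 ≠ 0 at hq
    by_cases h1 : FM1.deg q.1 = 0
    · simp only [x, hd2 q.2 (by omega), map_zero, mul_zero]
    · simp only [x, hd1 q.1 h1, map_zero, zero_mul]
  rcases hNV with ⟨n1, n2⟩ | ⟨𝒪, _, θ, a', b', hc, hn⟩
  · obtain ⟨l1, hl1, hl1'⟩ := exists_functional n1
    obtain ⟨l2, hl2, hl2'⟩ := exists_functional n2
    let res0 : U.Λ →+* ResidueField R := U.ρ.liftOfSurjective h.surj ⟨residue R, fun y hy => by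
      rw [RingHom.mem_ker, residue_eq_zero_iff]
      exact (Ideal.span_singleton_le_iff_mem _).2 h.ϖm ((h.ker y).1 hy)⟩
    have hres0 : ∀ r, res0 (U.ρ r) = residue R r := fun r => U.ρ.liftOfRightInverse_comp_apply _ _ _ r
    let res : U.O →+* ResidueField R := res0.comp U.ev
    have hj : ∀ r, res (U.j (U.ρ r)) = residue R r := fun r => by
      rw [RingHom.comp_apply, h.thick.ev_j, hres0]
    have hτ : ∀ r, res (U.τ (U.ρ r)) = residue R r := fun r => by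
      rw [RingHom.comp_apply, h.evτ, hres0]
    have hϖ : residue R U.ϖ = 0 := (residue_eq_zero_iff _).2 h.ϖm
    refine nv_D R _ _ h.rpos h.tok kD hμ (hD 1 le_rfl) res ?_ ?_
      (fun q : FD1.ι × FD2.ι => l1 (εD1 (Pi.single q.1 1)) * l2 (εD2 (Pi.single q.2 1))) ?_ x hx ?_
    · rw [RingHom.comp_apply, (h.thick.ker_ev _).2 (Ideal.mem_span_singleton_self _), map_zero]
    · refine (hj _).trans ((residue_eq_zero_iff _).2 ?_)
      rcases h.cases with ⟨-, ht⟩ | ⟨-, ht, -⟩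
      · rw [ht]; exact zero_mem _
      · exact ht
    · exact mb_eta FD1 FD2 res _ _ (mb_col rD1 l1 (fun r => res (U.j1 r)) fun r y => (hl1 r y).trans (by
        rw [← hj]; rfl)) (mb_col rD2 l2 (fun r => res (U.j2 r)) fun r y => (hl2 r y).trans (by rw [← hτ]; rfl))
    · obtain ⟨w1, hw1, hw1'⟩ := u1 e1 he1
      obtain ⟨w2, hw2, hw2'⟩ := u2 e2 he2
      have e : ∀ q : FD1.ι × FD2.ι, res (((μ1.map U.j ⊗ₖ μ2.map U.τ) *ᵥ x) q) =
          residue R (w1 q.1) * residue R (w2 q.2) := fun q => by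
        rw [mb_kron (μ1.map U.j) (μ2.map U.τ) (fun b => U.j (U.ρ (e1 b))) (fun b => U.τ (U.ρ (e2 b))) q, map_mul,
          ← hj, ← hτ, congrFun hw1 q.1, congrFun hw2 q.2, RingHom.map_mulVec U.j, RingHom.map_mulVec U.τ]
        rfl
      have v1 : l1 (εD1 w1) = l1 (S1.α ^ 2) := by
        obtain ⟨y, hy⟩ := Ideal.mem_span_singleton'.1 hw1'
        rw [← sub_eq_zero, ← map_sub, ← hy, mul_comm, hl1, hϖ, zero_mul]
      have v2 : l2 (εD2 w2) = l2 (S2.α ^ 2) := by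
        obtain ⟨y, hy⟩ := Ideal.mem_span_singleton'.1 hw2'
        rw [← sub_eq_zero, ← map_sub, ← hy, mul_comm, hl2, hϖ, zero_mul]
      have e' : ∑ q : FD1.ι × FD2.ι, res (((μ1.map U.j ⊗ₖ μ2.map U.τ) *ᵥ x) q) *
          (l1 (εD1 (Pi.single q.1 1)) * l2 (εD2 (Pi.single q.2 1))) = l1 (S1.α ^ 2) * l2 (S2.α ^ 2) := by
        simp only [e]
        rw [mb_prod (fun a => residue R (w1 a)) (fun a => l1 (εD1 (Pi.single a 1))) (fun a => residue R (w2 a))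
          (fun a => l2 (εD2 (Pi.single a 1))), mb_sum εD1 l1 _ hl1, mb_sum εD2 l2 _ hl2, v1, v2]
      exact e'.trans_ne (mul_ne_zero hl1' hl2')
  · have ha : ∀ (r : R) (y : S1.M), a'.toAddMonoidHom (algebraMap R S1.M r * y) =
        θ (U.j1 r) * a'.toAddMonoidHom y := fun r y => by
      rw [hc.1]; exact map_mul a' _ _
    have hb : ∀ (r : R) (y : S2.M), b'.toAddMonoidHom (algebraMap R S2.M r * y) =
        θ (U.j2 r) * b'.toAddMonoidHom y := fun r y => by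
      rw [hc.2]; exact map_mul b' _ _
    refine nv_O R _ θ (fun q : FM1.ι × FM2.ι =>
      a'.toAddMonoidHom (εM1 (Pi.single q.1 1)) * b'.toAddMonoidHom (εM2 (Pi.single q.2 1))) ?_ x hx ?_ hn
    · exact mb_eta FM1 FM2 θ _ _ (mb_col rM1 _ (fun r => θ (U.j1 r)) ha) (mb_col rM2 _ (fun r => θ (U.j2 r)) hb)
    · have e : ∀ q : FM1.ι × FM2.ι, θ (x q) = θ (U.j1 (e1 q.1)) * θ (U.j2 (e2 q.2)) := fun q => map_mul θ _ _
      have e' : ∑ q : FM1.ι × FM2.ι, θ (x q) * (a'.toAddMonoidHom (εM1 (Pi.single q.1 1)) *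
          b'.toAddMonoidHom (εM2 (Pi.single q.2 1))) = 1 := by
        simp only [e]
        rw [mb_prod (fun a => θ (U.j1 (e1 a))) (fun a => a'.toAddMonoidHom (εM1 (Pi.single a 1)))
          (fun a => θ (U.j2 (e2 a))) (fun a => b'.toAddMonoidHom (εM2 (Pi.single a 1))),
          mb_sum εM1 _ _ ha, mb_sum εM2 _ _ hb, he1, he2]
        simp
      exact e'

end Crest.Agent.R188
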