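import Crest.Agent.R188.Avoid
import Crest.Agent.R188.BC

/-!
# rid 188, file `Tr`: transfer of vanishing and positivity

Prefix helper lemmas with `tr_`.
-/

set_option autoImplicit false

open IsLocalRing Crest.Agent.R183

namespace Crest.Agent.R188

variable {R : Type} [CommRing R] [IsLocalRing R] {d : ℕ}

omit [IsLocalRing R] in
theorem tr_kil (P : Ideal R) : Kil P (R ⧸ P) := Kil.quot (c := 1) (pow_one P).le

/-- Dévissage in both variables (`exists_chiL`, `AddFn.eq_zero`, `chi_symm`). -/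
theorem chi_low {n : ℕ} (hV : VanLt d n) (hR : Cls R d) {M N : Type} [AddCommGroup M] [Module R M]
    [Module.Finite R M] [AddCommGroup N] [Module R N] [Module.Finite R N] {I J : Ideal R} (hM : Kil I M)
    (hN : Kil J N) (hIJ : Prim I J) {a b : ℕ} (ha : ringKrullDim (R ⧸ I) ≤ a) (hb : ringKrullDim (R ⧸ J) ≤ b)
    (hab : a + b < n) : chi R d M N = 0 := by
  have := hR.noeth
  obtain ⟨φ, hφ⟩ := exists_chiL hR.reg hN hIJ
  rw [← hφ]
  refine φ.eq_zero hM fun P hP hIP _ => ?_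
  obtain ⟨ψ, hψ⟩ := exists_chiL hR.reg (tr_kil P) (hIJ.mono hIP le_rfl).symm
  rw [hφ, chi_symm hR.reg, ← hψ]
  refine ψ.eq_zero hN fun Q hQ hJQ _ => ?_
  rw [hψ]
  exact hV R hR Q P b a hQ hP ((dim_quot_anti hJQ).trans hb) ((dim_quot_anti hIP).trans ha) (by omega)
    (hIJ.mono hIP hJQ).symm

/-- `chi (·, N)` vanishes on primes of dimension `< a`. -/
theorem exists_chiL_low {a b : ℕ} (hV : VanLt d (a + b)) (hR : Cls R d) {N : Type} [AddCommGroup N] [Module R N]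
    [Module.Finite R N] {I J : Ideal R} (hN : Kil J N) (hIJ : Prim I J) (hb : ringKrullDim (R ⧸ J) ≤ b) :
    ∃ φ : AddFn R I, φ.Low a ∧ ∀ (M : Type) [AddCommGroup M] [Module R M], φ.φ M = chi R d M N := by
  have := hR.noeth
  obtain ⟨φ, hφ⟩ := exists_chiL hR.reg hN hIJ
  refine ⟨φ, fun P hP hIP hd => ?_, hφ⟩
  obtain ⟨e, he⟩ := exists_dim_prime P
  have : e < a := by
    rw [he] at hd
    exact_mod_cast hd
  rw [hφ]
  exact chi_low hV hR (tr_kil P) hN (hIJ.mono hIP le_rfl) he.le hb (by omega)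

theorem tr_one {a b : ℕ} (hV : VanLt d (a + b)) (hR : Cls R d) {P 𝔞 𝔮 : Ideal R} (h1 : Near P 𝔞 𝔮 a)
    {N : Type} [AddCommGroup N] [Module R N] [Module.Finite R N] {J : Ideal R} (hN : Kil J N) (hPJ : Prim P J)
    (hb : ringKrullDim (R ⧸ J) ≤ b) : ∃ l : ℕ, 0 < l ∧ chi R d (R ⧸ 𝔮) N = l * chi R d (R ⧸ P) N := by
  have := hR.noeth
  have := h1.prime
  obtain ⟨c, hc⟩ := h1.pow
  obtain ⟨φ, hlow, hφ⟩ := exists_chiL_low hV hR hN hPJ hb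
  obtain ⟨l, e, hl⟩ := φ.mult (Kil.quot hc) P h1.prime fun P' hP' hle _ hne =>
    hlow P' hP' hle (dim_lt_of_lt (lt_of_le_of_ne hle hne.symm) ((dim_quot_anti h1.le).trans h1.dim))
  rw [Ideal.annihilator_quotient] at hl
  rw [hφ, hφ] at e
  exact ⟨l, hl h1.qle fun P' hP' h2 h3 => le_antisymm h3 (hP'.le_of_pow_le (hc.trans h2)), e⟩

/-- `chi (R / 𝔮1, R / 𝔮2) = l1 l2 chi (R / P, R / Q)` with `l1, l2 > 0` (`AddFn.mult`, `dim_lt_of_lt`). -/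
theorem chi_primary {a b : ℕ} (hV : VanLt d (a + b)) (hR : Cls R d) {P Q 𝔞1 𝔞2 𝔮1 𝔮2 : Ideal R}
    (h1 : Near P 𝔞1 𝔮1 a) (h2 : Near Q 𝔞2 𝔮2 b) (hPQ : Prim P Q) :
    ∃ l : ℕ, 0 < l ∧ chi R d (R ⧸ 𝔮1) (R ⧸ 𝔮2) = l * chi R d (R ⧸ P) (R ⧸ Q) := by
  have := hR.noeth
  obtain ⟨c, hc⟩ := h2.pow
  obtain ⟨l1, p1, e1⟩ := tr_one hV hR h1 (Kil.quot hc) hPQ ((dim_quot_anti h2.le).trans h2.dim)
  obtain ⟨l2, p2, e2⟩ := tr_one (add_comm a b ▸ hV) hR h2 (tr_kil P) hPQ.symm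
    ((dim_quot_anti h1.le).trans h1.dim)
  refine ⟨l1 * l2, Nat.mul_pos p1 p2, ?_⟩
  rw [e1, chi_symm hR.reg, e2, chi_symm hR.reg]
  push_cast
  ring

variable {R' : Type} [CommRing R'] [IsLocalRing R']

omit [IsLocalRing R] [IsLocalRing R'] in
theorem tr_kil_map (f : R →+* R') {P 𝔞 𝔮 : Ideal R} {a : ℕ} (h : Near P 𝔞 𝔮 a) :
    Kil (𝔞.map f) (R' ⧸ 𝔮.map f) := by
  obtain ⟨c, hc⟩ := h.pow
  refine Kil.quot (c := c) ?_
  rw [← Ideal.map_pow]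
  exact Ideal.map_mono ((Ideal.pow_right_mono h.le c).trans hc)

theorem tr_bc {a b : ℕ} (hV : VanLt d (a + b)) (hR : Cls R d) (hR' : Cls R' d) (f : R →+* R')
    [IsLocalHom f] (hf : f.Flat) {c : ℕ} (hc : maximalIdeal R' ^ c ≤ (maximalIdeal R).map f)
    {P Q 𝔞1 𝔞2 𝔮1 𝔮2 : Ideal R} (h1 : Near P 𝔞1 𝔮1 a) (h2 : Near Q 𝔞2 𝔮2 b) (h𝔞 : Prim 𝔞1 𝔞2) :
    ∃ l : ℕ, 0 < l ∧ chi R' d (R' ⧸ 𝔮2.map f) (R' ⧸ 𝔮1.map f) = l * chi R d (R ⧸ P) (R ⧸ Q) := by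
  have := hR.noeth
  have := hR'.noeth
  have hPQ : Prim P Q := h𝔞.mono h1.le h2.le
  obtain ⟨c1, hc1⟩ := h1.pow
  obtain ⟨c2, hc2⟩ := h2.pow
  obtain ⟨ρ, p1, e1⟩ := chi_bc hR.reg f hf hc
  obtain ⟨l, p2, e2⟩ := chi_primary hV hR h1 h2 hPQ
  refine ⟨ρ * l, Nat.mul_pos p1 p2, ?_⟩
  rw [chi_symm hR'.reg, e1 _ _ ((hPQ.pow c1 c2).mono hc1 hc2), e2]
  push_cast
  ring

/-- Replace `M1`, then `M2`, by the base changed quotients (`exists_chiL_low`, `chi_symm`; the dimensions by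
`dim_map_le_of_finite`), use `chi_bc` and `chi_primary`. -/
theorem transfer_pos {a b : ℕ} (hV : VanLt d (a + b)) (hR : Cls R d) (hR' : Cls R' d) (f : R →+* R')
    [IsLocalHom f] (hf : f.Flat) (hfin : f.Finite) {c : ℕ} (hc : maximalIdeal R' ^ c ≤ (maximalIdeal R).map f)
    {P Q 𝔞1 𝔞2 𝔮1 𝔮2 : Ideal R} (h1 : Near P 𝔞1 𝔮1 a) (h2 : Near Q 𝔞2 𝔮2 b) (h𝔞 : Prim 𝔞1 𝔞2)
    {M1 M2 : Type} [AddCommGroup M1] [Module R' M1] [Module.Finite R' M1] [AddCommGroup M2] [Module R' M2]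
    [Module.Finite R' M2] (k1 : Kil (𝔞1.map f) M1) (k2 : Kil (𝔞2.map f) M2)
    (c1 : ClPos (𝔞1.map f) a M1 (R' ⧸ 𝔮1.map f)) (c2 : ClPos (𝔞2.map f) b M2 (R' ⧸ 𝔮2.map f))
    (h : 0 < chi R' d M1 M2) : 0 < chi R d (R ⧸ P) (R ⧸ Q) := by
  have := hR'.noeth
  have hI := h𝔞.map f hc
  obtain ⟨φ, l1, hφ⟩ := exists_chiL_low hV hR' k2 hI ((dim_map_le_of_finite f hfin 𝔞2).trans h2.dim)
  obtain ⟨ψ, l2, hψ⟩ := exists_chiL_low (add_comm a b ▸ hV) hR' (tr_kil_map f h1) hI.symm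
    ((dim_map_le_of_finite f hfin 𝔞1).trans h1.dim)
  obtain ⟨l, -, e⟩ := tr_bc hV hR hR' f hf hc h1 h2 h𝔞
  have a1 := c1 φ l1 (by rwa [hφ])
  rw [hφ, chi_symm hR'.reg, ← hψ] at a1
  have a2 := c2 ψ l2 a1
  rw [hψ, e] at a2
  exact pos_of_mul_pos_right a2 (Int.natCast_nonneg l)

theorem transfer_van {a b : ℕ} (hV : VanLt d (a + b)) (hR : Cls R d) (hR' : Cls R' d) (f : R →+* R')
    [IsLocalHom f] (hf : f.Flat) (hfin : f.Finite) {c : ℕ} (hc : maximalIdeal R' ^ c ≤ (maximalIdeal R).map f)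
    {P Q 𝔞1 𝔞2 𝔮1 𝔮2 : Ideal R} (h1 : Near P 𝔞1 𝔮1 a) (h2 : Near Q 𝔞2 𝔮2 b) (h𝔞 : Prim 𝔞1 𝔞2)
    {M1 M2 : Type} [AddCommGroup M1] [Module R' M1] [Module.Finite R' M1] [AddCommGroup M2] [Module R' M2]
    [Module.Finite R' M2] (k1 : Kil (𝔞1.map f) M1) (k2 : Kil (𝔞2.map f) M2)
    (c1 : ClVan (𝔞1.map f) a M1 (R' ⧸ 𝔮1.map f)) (c2 : ClVan (𝔞2.map f) b M2 (R' ⧸ 𝔮2.map f))
    (h : chi R' d M1 M2 = 0) : chi R d (R ⧸ P) (R ⧸ Q) = 0 := by
  have := hR'.noeth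
  have hI := h𝔞.map f hc
  obtain ⟨φ, l1, hφ⟩ := exists_chiL_low hV hR' k2 hI ((dim_map_le_of_finite f hfin 𝔞2).trans h2.dim)
  obtain ⟨ψ, l2, hψ⟩ := exists_chiL_low (add_comm a b ▸ hV) hR' (tr_kil_map f h1) hI.symm
    ((dim_map_le_of_finite f hfin 𝔞1).trans h1.dim)
  obtain ⟨l, hl, e⟩ := tr_bc hV hR hR' f hf hc h1 h2 h𝔞
  have a1 := c1 φ l1 (by rwa [hφ])
  rw [hφ, chi_symm hR'.reg, ← hψ] at a1
  have a2 := c2 ψ l2 a1
  rw [hψ, e, mul_eq_zero] at a2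
  exact a2.resolve_left (by exact_mod_cast hl.ne')

/-- From primes to modules (`AddFn.pos`, `AddFn.nonneg`, `exists_prime_dim`, `exists_dim_prime`). -/
theorem pos_modules [IsNoetherianRing R] (hR : RegL R d)
    (hvan : ∀ (P Q : Ideal R) (a b : ℕ), P.IsPrime → Q.IsPrime → ringKrullDim (R ⧸ P) ≤ a →
      ringKrullDim (R ⧸ Q) ≤ b → a + b < d → Prim P Q → chi R d (R ⧸ P) (R ⧸ Q) = 0)
    (hpos : ∀ (P Q : Ideal R) (a b : ℕ), P.IsPrime → Q.IsPrime → ringKrullDim (R ⧸ P) = a →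
      ringKrullDim (R ⧸ Q) = b → a + b = d → Prim P Q → 0 < chi R d (R ⧸ P) (R ⧸ Q))
    {M N : Type} [AddCommGroup M] [Module R M] [Module.Finite R M] [AddCommGroup N] [Module R N]
    [Module.Finite R N] {a b : ℕ} (ha : ringKrullDim (R ⧸ Module.annihilator R M) = a)
    (hb : ringKrullDim (R ⧸ Module.annihilator R N) = b) (hab : a + b = d)
    (h : Prim (Module.annihilator R M) (Module.annihilator R N)) : 0 < chi R d M N := by
  have kM : Kil (Module.annihilator R M) M :=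
    ⟨1, fun y hy => Module.mem_annihilator.1 (by rwa [pow_one] at hy)⟩
  have kN : Kil (Module.annihilator R N) N :=
    ⟨1, fun y hy => Module.mem_annihilator.1 (by rwa [pow_one] at hy)⟩
  have h0 : ∀ P Q : Ideal R, P.IsPrime → Q.IsPrime → Module.annihilator R M ≤ P →
      Module.annihilator R N ≤ Q → 0 ≤ chi R d (R ⧸ P) (R ⧸ Q) := by
    intro P Q hP hQ h1 h2
    obtain ⟨e, he⟩ := exists_dim_prime P
    obtain ⟨e', he'⟩ := exists_dim_prime Q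
    have a1 : e ≤ a := by exact_mod_cast he.symm.trans_le ((dim_quot_anti h1).trans ha.le)
    have a2 : e' ≤ b := by exact_mod_cast he'.symm.trans_le ((dim_quot_anti h2).trans hb.le)
    rcases (show e + e' < d ∨ e + e' = d by omega) with hlt | heq
    · exact (hvan P Q e e' hP hQ he.le he'.le hlt (h.mono h1 h2)).ge
    · exact (hpos P Q e e' hP hQ he he' heq (h.mono h1 h2)).le
  obtain ⟨P0, hP0, a1, a2⟩ := exists_prime_dim ha
  obtain ⟨Q0, hQ0, b1, b2⟩ := exists_prime_dim hb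
  obtain ⟨φ, hφ⟩ := exists_chiL hR kN h
  rw [← hφ]
  refine φ.pos kM (fun P hP h1 _ => ?_) hP0 a1 fun P hP h1 h2 => ?_
  · obtain ⟨ψ, hψ⟩ := exists_chiL hR (tr_kil P) (h.mono h1 le_rfl).symm
    rw [hφ, chi_symm hR, ← hψ]
    refine ψ.nonneg kN fun Q hQ h3 _ => ?_
    rw [hψ, chi_symm hR]
    exact h0 P Q hP hQ h1 h3
  · obtain ⟨ψ, hψ⟩ := exists_chiL hR (tr_kil P) (h.mono h1 le_rfl).symm
    rw [hφ, chi_symm hR, ← hψ]
    refine ψ.pos kN (fun Q hQ h3 _ => ?_) hQ0 b1 fun Q hQ h3 h4 => ?_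
    · rw [hψ, chi_symm hR]
      exact h0 P Q hP hQ h1 h3
    · rw [hψ, chi_symm hR]
      exact hpos P Q a b hP hQ
        (le_antisymm ((dim_quot_anti h1).trans ha.le) (a2.symm.trans_le (dim_quot_anti h2)))
        (le_antisymm ((dim_quot_anti h3).trans hb.le) (b2.symm.trans_le (dim_quot_anti h4))) hab
        (h.mono h1 h3)

theorem tr_max (e : R ≃+* R') : maximalIdeal R' ^ 1 ≤ (maximalIdeal R).map (e : R →+* R') := by
  intro y hy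
  rw [pow_one] at hy
  rw [← e.apply_symm_apply y]
  refine Ideal.mem_map_of_mem (e : R →+* R') fun hu => hy ?_
  simpa using hu.map e

/-- Transport along an isomorphism (`chi_bc`). -/
theorem chi_equiv [IsNoetherianRing R] (hR : RegL R d) (e : R ≃+* R') :
    ∃ ρ : ℕ, 0 < ρ ∧ ∀ I J : Ideal R', Prim I J → Prim (I.comap e) (J.comap e) ∧
      chi R' d (R' ⧸ I) (R' ⧸ J) = ρ * chi R d (R ⧸ I.comap e) (R ⧸ J.comap e) := by
  have : IsNoetherianRing R' := isNoetherianRing_of_ringEquiv R e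
  have : IsLocalHom (e : R →+* R') := ⟨fun a ha => by simpa using ha.map e.symm⟩
  obtain ⟨ρ, hρ, h⟩ := chi_bc hR (e : R →+* R') (RingHom.Flat.of_bijective e.bijective) (tr_max e)
  refine ⟨ρ, hρ, fun I J hIJ => ?_⟩
  have h1 : Prim (I.comap e) (J.comap e) := by
    have := hIJ.map (e.symm : R' →+* R) (tr_max e.symm)
    rwa [Ideal.map_coe, Ideal.map_coe, Ideal.map_symm, Ideal.map_symm] at this
  have h2 := h _ _ h1
  have e1 : ∀ K : Ideal R', (K.comap e).map (e : R →+* R') = K := fun K => by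
    rw [Ideal.map_coe, Ideal.map_comap_of_surjective e e.surjective]
  rw [e1, e1] at h2
  exact ⟨h1, h2⟩

/-- The case of a module of full dimension: `Q = 0` (`dim_quot_le_of_domain`), `P` is `𝔪`-primary, `chi_self`. -/
theorem pos_full [IsNoetherianRing R] [IsDomain R] (hR : RegL R d) (hd : ringKrullDim R = d) {P Q : Ideal R}
    (hP : P.IsPrime) (hQ : ringKrullDim (R ⧸ Q) = d) (h : Prim P Q) : 0 < chi R d (R ⧸ P) (R ⧸ Q) := by
  obtain ⟨Q0, hQ0, a1, a2⟩ := exists_prime_dim hQ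
  have h0 : Q0 = ⊥ := by
    by_contra hne
    have : (⊥ : Ideal R).IsPrime := Ideal.isPrime_bot
    exact (dim_lt_of_lt (bot_lt_iff_ne_bot.2 hne) ((ringKrullDim_quotient_le _).trans hd.le)).ne a2
  obtain rfl : Q = ⊥ := le_bot_iff.1 (h0 ▸ a1)
  obtain ⟨c, hc⟩ := h
  rw [sup_bot_eq] at hc
  have : Nontrivial (R ⧸ P) := Ideal.Quotient.nontrivial_iff.2 hP.ne_top
  rw [chi_congr (LinearEquiv.refl R (R ⧸ P)) (Submodule.quotEquivOfEqBot (⊥ : Ideal R) rfl), chi_self]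
  exact_mod_cast ENat.toNat_pos (Module.length_pos (R := R) (M := R ⧸ P)).ne'
    (ne_top_of_le_ne_top (gw_colen_pow (R := R) c) (colen_anti hc))

end Crest.Agent.R188
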