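import Crest.Agent.R188.EqA
import Crest.Agent.R188.MidB
import Crest.Agent.R188.Tr
import Crest.Agent.R188.ENV
import Crest.Agent.R188.ND
import Crest.Agent.R183.MxS

/-!
# rid 188, file `EqB`: vanishing and positivity in equal characteristic

Prefix helper lemmas with `qb_`.
-/

set_option autoImplicit false
set_option linter.unusedSectionVars false

open IsLocalRing Crest.Agent.R183

namespace Crest.Agent.R188

open MvPowerSeries

variable {k : Type} [Field k] [IsAlgClosed k] {d : ℕ}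

theorem qb_mono {A : Type} [CommRing A] {I J : Ideal A} (h : I ≤ J) :
    ringKrullDim (A ⧸ J) ≤ ringKrullDim (A ⧸ I) :=
  ringKrullDim_le_of_surjective (Ideal.Quotient.factor h) (Ideal.Quotient.factor_surjective h)

theorem qb_ker {A : Type} [CommRing A] (I : Ideal A) : RingHom.ker (algebraMap A (A ⧸ I)) = I := by
  rw [Ideal.Quotient.algebraMap_eq, Ideal.mk_ker]

theorem qb_side_ker {A : Type} [CommRing A] (𝔣 : Ideal A) (h g : A) :
    algebraMap A (Side.ofQuot A (A ⧸ 𝔣) (Ideal.Quotient.mk 𝔣 h)).M g = 0 ↔ g ∈ col 𝔣 h := by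
  show Ideal.Quotient.mk (col ⊥ (Ideal.Quotient.mk 𝔣 h)) (Ideal.Quotient.mk 𝔣 g) = 0 ↔ _
  rw [Ideal.Quotient.eq_zero_iff_mem, mem_col, mem_col, Ideal.mem_bot, ← map_mul, Ideal.Quotient.eq_zero_iff_mem]

theorem qb_le_col {A : Type} [CommRing A] (𝔣 : Ideal A) (h : A) : 𝔣 ≤ col 𝔣 h :=
  fun _ hy => mem_col.2 (Ideal.mul_mem_left _ _ hy)

theorem qb_col_le {A : Type} [CommRing A] {𝔣 P : Ideal A} (hP : P.IsPrime) (hle : 𝔣 ≤ P) {h : A} (hh : h ∉ P) :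
    col 𝔣 h ≤ P :=
  fun _ hy => (hP.mem_or_mem (hle (mem_col.1 hy))).resolve_left hh

/-- `claimV` with `L = 1` and all `T = 0` (`eq_cov`, `eq_sh1`); `κ = κ0 + 1`, `r = κ M + 1`; `eq_setup`, `eq_relS`,
`eq_relC`, `mid_van` with `c0 = 1` (`cls_ps`). -/
theorem eq_van (P Q : Ideal (MvPowerSeries (Fin d) k)) {a b : ℕ}
    (hP : ringKrullDim (MvPowerSeries (Fin d) k ⧸ P) ≤ a) (hQ : ringKrullDim (MvPowerSeries (Fin d) k ⧸ Q) ≤ b)
    (hab : a + b < d) (h : Prim P Q) :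
    chi (MvPowerSeries (Fin d) k) d (MvPowerSeries (Fin d) k ⧸ P) (MvPowerSeries (Fin d) k ⧸ Q) = 0 := by
  have hA := cls_ps k d
  have c1 : Cov (eqMdl P) a 1 (eqMk P 0) (eqMk P 0) := eq_cov P 0 0 ((qb_mono le_sup_left).trans hP) 1
  have c2 : Cov (eqMdl Q) b 1 (eqMk Q 0) (eqMk Q 0) := eq_cov Q 0 0 ((qb_mono le_sup_left).trans hQ) 1
  obtain ⟨v, i0, hv, κ0, hκ⟩ := claimV one_pos (eq_sh1 h) c1 c1 c2 c2 hab hab
  obtain ⟨M, hV⟩ := hκ (κ0 + 1) (Nat.le_succ _)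
  obtain ⟨U, hU, -, ht, hc, hr, hC, hX, -⟩ := eq_setup (k := k) v (r := (κ0 + 1) * M + 1) (Nat.succ_pos _)
  have hrel := eq_relC hU hv hC hX h one_pos (Nat.succ_pos κ0) hr.ge hV
    (M1 := MvPowerSeries (Fin d) k ⧸ P) (M2 := MvPowerSeries (Fin d) k ⧸ Q)
    (fun g hg => Ideal.Quotient.eq_zero_iff_mem.2 hg) (fun g hg => Ideal.Quotient.eq_zero_iff_mem.2 hg)
    (map_zero _) (map_zero _)
  rw [map_zero, map_zero] at hrel
  refine mid_van hU hA.reg _ _ ?_ (c0 := 1) (by rw [hc, hr, one_mul]) (eq_relS ht _ _) hrel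
  rwa [qb_ker, qb_ker]

/-- `avoid_many` for `P`, `c = d - a`, and the two ideals `⊥` and `I`. -/
theorem eq_exists_f {A : Type} [CommRing A] [IsLocalRing A] [IsNoetherianRing A] (hd : ringKrullDim A ≤ d)
    (P : Ideal A) {a n : ℕ} (hP : ringKrullDim (A ⧸ P) ≤ a) (I : Ideal A) (hI : ringKrullDim (A ⧸ I) ≤ n)
    (hn : n + a ≤ d) (hPI : Prim P I) : ∃ (c : ℕ) (f : Fin c → A), a + c = d ∧ idl f ≤ P ∧
      ringKrullDim (A ⧸ idl f) ≤ a ∧ Prim (idl f) I := by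
  obtain ⟨f, hf, hav⟩ := avoid_many P (fun i : Bool => cond i ⊥ I) (fun i => cond i d n)
    (by
      rintro (_ | _)
      · exact hI
      · exact (ringKrullDim_quotient_le _).trans hd) (d - a)
  have hfP : idl f ≤ P := by
    rw [idl, Ideal.span_le]
    rintro _ ⟨l, rfl⟩
    exact hf l
  refine ⟨d - a, f, by omega, hfP, dim_le_of_primes fun 𝔭 h𝔭 hle => ?_, prim_of_dim (dim_le_of_primes fun 𝔭 h𝔭 hle => ?_)⟩
  · by_cases hP𝔭 : P ≤ 𝔭
    · exact (qb_mono hP𝔭).trans hP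
    · obtain ⟨e, he, he'⟩ := hav true 𝔭 h𝔭 (sup_le bot_le hle) hP𝔭
      have : e ≤ a := by
        simp only [cond_true] at he'
        omega
      exact he.trans (by exact_mod_cast this)
  · by_cases hP𝔭 : P ≤ 𝔭
    · exact (qb_mono (sup_le hP𝔭 (le_sup_right.trans hle))).trans hPI.dim
    · obtain ⟨e, he, he'⟩ := hav false 𝔭 h𝔭 (sup_le (le_sup_right.trans hle) (le_sup_left.trans hle)) hP𝔭
      have : e ≤ 0 := by
        simp only [cond_false] at he'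
        omega
      exact he.trans (by exact_mod_cast this)

/-- `exists_sop_mod`; `f` followed by the parameters is regular (`Reg.of_sop`, `mxs_reg_ci`, `Reg.quot_append`). -/
theorem eq_depth {A : Type} [CommRing A] [IsLocalRing A] [IsNoetherianRing A] (hA : RegL A d) {a c : ℕ}
    (hac : a + c = d) (f : Fin c → A) (hf : idl f ≤ maximalIdeal A) (hd : ringKrullDim (A ⧸ idl f) ≤ a) :
    ∃ z : Fin a → A, (∀ i, z i ∈ maximalIdeal A) ∧ Reg z (A ⧸ idl f) := by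
  obtain rfl : d = c + a := by omega
  obtain ⟨x, hx, hm⟩ := hA
  obtain ⟨t, e, ht, he⟩ := exists_sop_mod hd (𝔵 := maximalIdeal A) le_sup_right
  have hle : idl f ⊔ idl t ≤ idl (Fin.append f t) := by
    refine sup_le ?_ ?_
    · rw [idl, Ideal.span_le]
      rintro _ ⟨j, rfl⟩
      exact Ideal.subset_span ⟨Fin.castAdd a j, Fin.append_left _ _ _⟩
    · rw [idl, Ideal.span_le]
      rintro _ ⟨j, rfl⟩
      exact Ideal.subset_span ⟨Fin.natAdd c j, Fin.append_right _ _ _⟩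
  have hreg : Reg (Fin.append f t) A := by
    refine hx.of_sop (fun i => ?_) fun i => ⟨e, hle (he (Ideal.pow_mem_pow ?_ e))⟩
    · refine Fin.addCases (fun j => ?_) (fun j => ?_) i
      · rw [Fin.append_left]
        exact hf (Ideal.subset_span ⟨j, rfl⟩)
      · rw [Fin.append_right]
        exact ht j
    · rw [← hm]
      exact Ideal.subset_span ⟨i, rfl⟩
  exact ⟨t, ht, (reg_algebraMap_iff (Λ' := A ⧸ idl f) t).1 hreg.quot_append⟩

/-- `(A / 𝔣) / (0 : h) = A / (𝔣 : h)`. -/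
theorem eq_quot_equiv {A : Type} [CommRing A] (𝔣 : Ideal A) (h : A) :
    Nonempty ((Side.ofQuot A (A ⧸ 𝔣) (Ideal.Quotient.mk 𝔣 h)).M ≃ₐ[A] A ⧸ col 𝔣 h) := by
  have hs : Function.Surjective (Algebra.ofId A (Side.ofQuot A (A ⧸ 𝔣) (Ideal.Quotient.mk 𝔣 h)).M) := by
    intro y
    obtain ⟨y, rfl⟩ := Ideal.Quotient.mk_surjective (I := col ⊥ (Ideal.Quotient.mk 𝔣 h)) y
    obtain ⟨y, rfl⟩ := Ideal.Quotient.mk_surjective y
    exact ⟨y, rfl⟩
  have hk : RingHom.ker (Algebra.ofId A (Side.ofQuot A (A ⧸ 𝔣) (Ideal.Quotient.mk 𝔣 h)).M) = col 𝔣 h :=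
    Ideal.ext fun g => qb_side_ker 𝔣 h g
  exact ⟨(Ideal.quotientKerAlgEquivOfSurjective hs).symm.trans (Ideal.quotientEquivAlgOfEq A hk)⟩

theorem qb_hw {A : Type} [CommRing A] [IsLocalRing A] [IsNoetherianRing A] {𝔣 P : Ideal A} [P.IsPrime] {a : ℕ}
    (ha : 0 < a) (hle : 𝔣 ≤ P) (h1 : ringKrullDim (A ⧸ 𝔣) ≤ a) (hP : ringKrullDim (A ⧸ P) = a) :
    ∃ h w : A, h * w ∈ 𝔣 ∧ Near P 𝔣 (col 𝔣 h) a ∧ ¬ ringKrullDim (A ⧸ col 𝔣 h) < a ∧
      ringKrullDim (A ⧸ (𝔣 ⊔ Ideal.span {w, w})) ≤ a ∧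
      ringKrullDim (A ⧸ (𝔣 ⊔ Ideal.span {h ^ 2, w})) ≤ (a - 1 : ℕ) := by
  obtain ⟨h, w, N, -, -, hh, hN, hw, hd⟩ := exists_hw (𝔵 := maximalIdeal A) hle h1 (by rw [hP]; exact lt_irrefl _)
    (fun 𝔭 _ _ hm => by
      have h0 : ringKrullDim (A ⧸ 𝔭) ≤ (0 : ℕ) :=
        dim_le_of_pow_le (c := 1) (t := Fin.elim0) (fun j => j.elim0) ((pow_one _).le.trans (hm.trans le_sup_left))
      exact h0.trans_lt (by exact_mod_cast ha))
  have hc := qb_col_le ‹P.IsPrime› hle hh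
  refine ⟨h, w, hw, ⟨‹_›, hle, h1, hc, N, hN⟩, fun hlt => ?_, (qb_mono le_sup_left).trans h1, ?_⟩
  · have := (qb_mono hc).trans_lt hlt
    rw [hP] at this
    exact lt_irrefl _ this
  · refine dim_le_of_primes fun 𝔭 h𝔭 hle' => ?_
    have h2 : 𝔣 ⊔ Ideal.span {h, w} ≤ 𝔭 := by
      refine sup_le (le_sup_left.trans hle') ?_
      have h3 := le_sup_right.trans hle'
      rw [Ideal.span_le, Set.insert_subset_iff, Set.singleton_subset_iff] at h3 ⊢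
      exact ⟨h𝔭.mem_of_pow_mem 2 h3.1, h3.2⟩
    obtain ⟨a', rfl⟩ : ∃ a', a = a' + 1 := ⟨a - 1, by omega⟩
    rw [Nat.add_sub_cancel, ← lt_succ_iff_le]
    exact (qb_mono h2).trans_lt hd

theorem qb_lift {A 𝒪 : Type} [CommRing A] [CommRing 𝒪] (𝔣 : Ideal A) (h : A) (f : A →+* 𝒪)
    (hf : ∀ y ∈ col 𝔣 h, f y = 0) :
    ∃ a : (Side.ofQuot A (A ⧸ 𝔣) (Ideal.Quotient.mk 𝔣 h)).M →+* 𝒪, ∀ y, a (algebraMap A _ y) = f y := by
  obtain ⟨e⟩ := eq_quot_equiv 𝔣 h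
  refine ⟨(Ideal.Quotient.lift _ f hf).comp e.toRingEquiv.toRingHom, fun y => ?_⟩
  show Ideal.Quotient.lift _ f hf (e (algebraMap A _ y)) = f y
  rw [e.commutes]
  rfl

/-- `eq_exists_f` for `P` with `I = Q`, then for `Q` with `I = 𝔣1`; `exists_hw` with `𝔵 = 𝔪`.  The sides are
`Side.ofQuot A (A / 𝔣) h`; `T = h^2`, `T' = w`; covers by `eq_cov`.  For `hNV` use the second case with `exists_nv` for
`𝔮 = col 𝔣 h`, the universal property in `eq_setup` and `ps_ext_nil`.  Finish with `chi_congr` and `chi_primary`. -/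
theorem eq_pos (hV : VanLt d d) (P Q : Ideal (MvPowerSeries (Fin d) k)) [P.IsPrime] [Q.IsPrime] {a b : ℕ}
    (ha : 0 < a) (hb : 0 < b) (hab : a + b = d) (hP : ringKrullDim (MvPowerSeries (Fin d) k ⧸ P) = a)
    (hQ : ringKrullDim (MvPowerSeries (Fin d) k ⧸ Q) = b) (h : Prim P Q) :
    0 < chi (MvPowerSeries (Fin d) k) d (MvPowerSeries (Fin d) k ⧸ P) (MvPowerSeries (Fin d) k ⧸ Q) := by
  have hA := cls_ps k d
  have hd := hA.reg.dim
  obtain ⟨c1, f1, hc1, hf1, hd1, hp1⟩ := eq_exists_f hd.le P hP.le Q hQ.le (by omega) h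
  obtain ⟨c2, f2, hc2, hf2, hd2, hp2⟩ := eq_exists_f hd.le Q hQ.le (idl f1) hd1 hab.le hp1.symm
  have hp := hp2.symm
  obtain ⟨h1, w1, hw1, n1, nl1, e1, e1'⟩ := qb_hw ha hf1 hd1 hP
  obtain ⟨h2, w2, hw2, n2, nl2, e2, e2'⟩ := qb_hw hb hf2 hd2 hQ
  obtain ⟨v, i0, hv, κ0, hκ⟩ := claimV one_pos (eq_sh1 hp) (eq_cov _ _ _ e1 1) (eq_cov _ _ _ e1' 1)
    (eq_cov _ _ _ e2 1) (eq_cov _ _ _ e2' 1) (by omega) (by omega)
  obtain ⟨M, hVA⟩ := hκ (κ0 + 1) (Nat.le_succ _)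
  obtain ⟨U, hU, -, ht, hc, hr, hC, hX, huniv⟩ := eq_setup (k := k) v (r := (κ0 + 1) * M + 1) (Nat.succ_pos _)
  have hrel := eq_relC hU hv hC hX hp one_pos (Nat.succ_pos κ0) hr.ge hVA
    (M1 := (Side.ofQuot _ (_ ⧸ idl f1) (Ideal.Quotient.mk (idl f1) h1)).M)
    (M2 := (Side.ofQuot _ (_ ⧸ idl f2) (Ideal.Quotient.mk (idl f2) h2)).M)
    (fun g hg => (qb_side_ker _ _ g).2 (qb_le_col _ _ hg)) (fun g hg => (qb_side_ker _ _ g).2 (qb_le_col _ _ hg))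
    ((qb_side_ker _ _ _).2 (mem_col.2 hw1)) ((qb_side_ker _ _ _).2 (mem_col.2 hw2))
  rw [map_pow, map_pow] at hrel
  have hPm : P ≤ maximalIdeal _ := le_maximalIdeal (Ideal.IsPrime.ne_top ‹_›)
  have hQm : Q ≤ maximalIdeal _ := le_maximalIdeal (Ideal.IsPrime.ne_top ‹_›)
  obtain ⟨𝒪, _, f, g, σ, hf, hg, hfg, hgX, hgn, hσ, hσ'⟩ := exists_nv (col (idl f1) h1) (col (idl f2) h2)
    (hp.mono (qb_le_col _ _) (qb_le_col _ _)) nl1 nl2 hab.ge v i0 hv (r := (κ0 + 1) * M + 1) (Nat.succ_pos _)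
  obtain ⟨θ, hθ, hθs⟩ := huniv 𝒪 f σ (pow_eq_zero_of_le (by omega) hσ)
  obtain ⟨α, hα⟩ := qb_lift _ _ f hf
  obtain ⟨β, hβ⟩ := qb_lift _ _ g hg
  have hj2 : θ.comp U.j2 = g := by
    have hXX : ∀ i, (θ.comp U.j2) (X i) = g (X i) := fun i => by
      rw [RingHom.comp_apply, hX, map_add, map_mul, hθ, hθ, hθs, hgX]
    refine ps_ext_nil _ _ (fun c => ?_) hXX fun i => ?_
    · rw [RingHom.comp_apply, hC, hθ, hfg]
    · rw [hXX]
      exact hgn i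
  have hpos := mid_pos hU hA.reg (Side.ofQuot _ (_ ⧸ idl f1) (Ideal.Quotient.mk (idl f1) h1))
    (Side.ofQuot _ (_ ⧸ idl f2) (Ideal.Quotient.mk (idl f2) h2)) (Or.inl (Side.ofQuot_sand _ _ _))
    (Or.inl (Side.ofQuot_sand _ _ _)) (a := a) (b := b) (eq_depth hA.reg hc1 f1 (hf1.trans hPm) hd1)
    (eq_depth hA.reg hc2 f2 (hf2.trans hQm) hd2) hab.ge
    (by
      have := hp
      rw [← qb_ker (idl f1), ← qb_ker (idl f2)] at this
      exact this)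
    (c0 := 1) (by rw [hc, hr, one_mul]) (eq_relS ht _ _) hrel
    (Or.inr ⟨𝒪, inferInstance, θ, α, β, ⟨fun r => by rw [hθ, hα], fun r => by
      rw [hβ, ← hj2, RingHom.comp_apply]⟩, fun hm => by
        have h0 : U.tO = 0 := by rw [Setup.tO, ht, map_zero, map_zero]
        have hb : (lev U.s U.tO U.c 1 U.r).map θ = ⊥ := by
          rw [lev, Ideal.map_span, Ideal.span_eq_bot]
          rintro _ ⟨y, hy, rfl⟩
          rcases hy with rfl | rfl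
          · rw [h0, one_mul, zero_pow hU.cpos.ne', map_zero]
          · rw [map_pow, hθs, hr, hσ]
        rw [hb, Ideal.mem_bot, map_pow, hθs, hr] at hm
        exact hσ' hm⟩)
  obtain ⟨e1⟩ := eq_quot_equiv (idl f1) h1
  obtain ⟨e2⟩ := eq_quot_equiv (idl f2) h2
  rw [chi_congr e1.toLinearEquiv e2.toLinearEquiv] at hpos
  obtain ⟨l, hl, hχ⟩ := chi_primary (hab.symm ▸ hV : VanLt d (a + b)) hA n1 n2 h
  rw [hχ] at hpos
  exact (mul_pos_iff_of_pos_left (by exact_mod_cast hl)).1 hpos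

end Crest.Agent.R188
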