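import Crest.Agent.R188.RL
import Crest.Agent.R188.Defs2
import Crest.Agent.R183.Cohen

/-!
# rid 188, file `Pres`: Cohen presentations

Prefix helper lemmas with `pr_`.
-/

set_option autoImplicit false

open IsLocalRing Crest.Agent.R183

namespace Crest.Agent.R188

/-- Copy the proof of `mbase_witt` and keep the formula on constants. -/
theorem exists_delta (p : ℕ) [Fact p.Prime] (k : Type) [Field k] [CharP k p] [IsAlgClosed k] (d : ℕ) :
    ∃ Δ : DeltaS (AW p k d) p, MBase p (AW p k d) MvPowerSeries.X Δ ∧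
      ∀ w, Δ.φ (MvPowerSeries.C w) = MvPowerSeries.C (WittVector.frobenius w) := by
  have hp : p ≠ 0 := (Fact.out : p.Prime).ne_zero
  have hm : maximalIdeal (WittVector p k) = Ideal.span {(p : WittVector p k)} :=
    (WittVector.irreducible p).maximalIdeal_eq
  have hC : (MvPowerSeries.C (p : WittVector p k) : MvPowerSeries (Fin d) (WittVector p k)) = p :=
    map_natCast _ p
  have : IsAdicComplete (maximalIdeal (WittVector p k)) (WittVector p k) := by
    rw [hm]
    infer_instance
  let φ : MvPowerSeries (Fin d) (WittVector p k) →+* MvPowerSeries (Fin d) (WittVector p k) :=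
    (MvPowerSeries.expand p hp : MvPowerSeries (Fin d) (WittVector p k) →ₐ[WittVector p k] _).toRingHom.comp
      (MvPowerSeries.map WittVector.frobenius)
  have hφ : ∀ f, φ f = MvPowerSeries.expand p hp (MvPowerSeries.map WittVector.frobenius f) := fun f => rfl
  have hF : (WittVector.constantCoeff : WittVector p k →+* k).comp WittVector.frobenius =
      (frobenius k p).comp WittVector.constantCoeff := by
    ext w
    simp [frobenius_def]
  have key : ∀ f, ∃ g, φ f = f ^ p + p * g := fun f => by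
    have h1 : MvPowerSeries.map (WittVector.constantCoeff : WittVector p k →+* k) (φ f - f ^ p) = 0 := by
      rw [map_sub, map_pow, hφ, MvPowerSeries.map_expand, ← RingHom.comp_apply (MvPowerSeries.map _),
        ← MvPowerSeries.map_comp, hF, MvPowerSeries.map_comp, RingHom.comp_apply,
        ← MvPowerSeries.map_expand, MvPowerSeries.map_frobenius_expand, sub_self]
    have h2 : ∀ β, ∃ c, c * p = MvPowerSeries.coeff β (φ f - f ^ p) := fun β => by
      rw [← Ideal.mem_span_singleton', ← WittVector.ker_constantCoeff, RingHom.mem_ker,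
        ← MvPowerSeries.coeff_map, h1, map_zero]
    choose c hc using h2
    obtain ⟨g, hg⟩ : ∃ g : MvPowerSeries (Fin d) (WittVector p k), ∀ β, MvPowerSeries.coeff β g = c β :=
      ⟨fun β => c β, fun _ => rfl⟩
    refine ⟨g, ?_⟩
    rw [← sub_eq_iff_eq_add', ← hC]
    ext β : 1
    rw [MvPowerSeries.coeff_C_mul, hg, mul_comm, hc]
  choose δ hδ using key
  refine ⟨⟨φ, δ, hδ, fun a ha => ?_⟩, ⟨?_, ?_, ps_complete _ d, fun i => ?_, fun b => ?_⟩, fun w => ?_⟩
  · ext β : 1
    have h1 := congrArg (MvPowerSeries.coeff β) ha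
    rw [← hC, MvPowerSeries.coeff_C_mul, map_zero, mul_comm] at h1
    rw [WittVector.eq_zero_of_p_mul_eq_zero _ h1, map_zero]
  · rw [← hC]
    exact rbase_ps_dvr _ (WittVector.irreducible p) d
  · rw [ps_maximal, hm, Ideal.map_span, Set.image_singleton, idl, idl, Fin.range_cons,
      Ideal.span_insert, hC]
  · change φ _ = _
    rw [hφ, MvPowerSeries.map_X, MvPowerSeries.expand_X]
  · obtain ⟨w, hw⟩ := (WittVector.frobenius_bijective p k).2 (MvPowerSeries.constantCoeff b)
    refine ⟨MvPowerSeries.C w, ?_⟩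
    change b - φ _ ∈ _
    rw [hφ, MvPowerSeries.map_C, MvPowerSeries.expand_C, hw, mem_maximalIdeal, mem_nonunits_iff,
      MvPowerSeries.isUnit_iff_constantCoeff]
    simp
  · change φ _ = _
    rw [hφ, MvPowerSeries.map_C, MvPowerSeries.expand_C]

theorem pr_surj {P R : Type} [CommRing P] [CommRing R] [IsLocalRing R] (ψ : P →+* R) (hfin : ψ.Finite)
    (hres : SameRes ψ) (hm : maximalIdeal R ≤ ((maximalIdeal R).comap ψ).map ψ) : Function.Surjective ψ := by
  let _ := ψ.toAlgebra
  have : Module.Finite P R := hfin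
  obtain ⟨r, hr, h⟩ := Submodule.exists_sub_one_mem_and_smul_le_of_fg_of_le_sup
    (I := (maximalIdeal R).comap ψ) (N := LinearMap.range (Algebra.linearMap P R)) (N' := ⊤) (P := ⊤)
    Module.Finite.fg_top le_rfl fun b _ => by
      obtain ⟨a, ha⟩ := hres b
      rw [show b = ψ a + (b - ψ a) by ring]
      refine Submodule.add_mem_sup ⟨a, rfl⟩ ?_
      rw [Ideal.smul_top_eq_map]
      exact hm ha
  have hu : IsUnit (ψ r) := by
    by_contra hn
    have h1 : ψ r ∈ maximalIdeal R := hn
    have h2 : ψ (r - 1) ∈ maximalIdeal R := hr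
    rw [map_sub, map_one] at h2
    exact (maximalIdeal.isMaximal R).ne_top ((Ideal.eq_top_iff_one _).2 (by simpa using Ideal.sub_mem _ h1 h2))
  intro y
  obtain ⟨z, rfl⟩ := hu.dvd (a := y)
  exact h (Submodule.smul_mem_pointwise_smul _ r ⊤ trivial)
/-- If the residue field has characteristic `0`, or `p = 0` in `R`, there is a coefficient field (`cohen0`, `cohenP`);
`k⟦x⟧ → R` is surjective (`ch_base`, Nakayama; see `mxp_surj`) and injective (`inj_of_reg`).  Otherwise use `cohenW`:
`Θ : W⟦x⟧ → R` is surjective, `p = Θ f0` with `f0 ∈ (X)`; `f0 ∉ (p)` since `p ≠ 0` (if `f0 = p g` then `g` has constant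
term `0`); `R 0 → R` is injective by `inj_of_reg` because `X` generates the maximal ideal of `R 0`. -/
theorem exists_pres (R : Type) [CommRing R] [IsLocalRing R] {d : ℕ} (h : Cls R d) :
    (∃ (k : Type) (_ : Field k) (_ : IsAlgClosed k), Nonempty (MvPowerSeries (Fin d) k ≃+* R)) ∨
    ∃ (p : ℕ) (_ : Fact p.Prime) (k : Type) (_ : Field k) (_ : CharP k p) (_ : IsAlgClosed k) (μ : Mix p k d),
      Nonempty (μ.R 0 ≃+* R) := by
  have := h.noeth
  have := h.cpl
  have := h.alg
  obtain ⟨x, hreg, hx⟩ := h.reg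
  have hxm : ∀ i, x i ∈ maximalIdeal R := fun i => hx ▸ Ideal.subset_span ⟨i, rfl⟩
  have hsurj : ∀ {C : Type} [CommRing C] (Φ : MvPowerSeries (Fin d) C →+* R),
      (∀ i, Φ (MvPowerSeries.X i) = x i) → Φ.Finite → SameRes Φ → Function.Surjective Φ := by
    intro C _ Φ hX hfin hres
    refine pr_surj Φ hfin hres ?_
    conv_lhs => rw [← hx, idl]
    rw [Ideal.span_le]
    rintro _ ⟨i, rfl⟩
    rw [← hX]
    exact Ideal.mem_map_of_mem _ (by rw [Ideal.mem_comap, hX]; exact hxm i)
  have heq : ∀ s : ResidueField R →+* R, (∀ a, residue R (s a) = a) →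
      Nonempty (MvPowerSeries (Fin d) (ResidueField R) ≃+* R) := fun s hs => by
    obtain ⟨Φ, -, hX, hfin, -, hres⟩ :=
      exists_base_eq s (ch_sameRes_of_section hs) (ch_sop_of_eq hx.symm)
    have h1 := hsurj Φ hX hfin hres
    refine ⟨RingEquiv.ofBijective Φ ⟨inj_of_reg Φ h1 (x := MvPowerSeries.X) ?_ ?_, h1⟩⟩
    · rw [ps_maximal, IsLocalRing.maximalIdeal_eq_bot, Ideal.map_bot, bot_sup_eq]
    · simpa only [hX] using hreg
  obtain ⟨p, hp⟩ := CharP.exists (ResidueField R)
  rcases CharP.char_is_prime_or_zero (ResidueField R) p with hpp | rfl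
  swap
  · have := CharP.charP_to_charZero (ResidueField R)
    obtain ⟨s, hs⟩ := cohen0 R
    exact Or.inl ⟨ResidueField R, inferInstance, inferInstance, heq s hs⟩
  have := Fact.mk hpp
  by_cases h0 : (p : R) = 0
  · have : CharP R p := (CharP.charP_iff_prime_eq_zero hpp).mpr h0
    obtain ⟨s, hs⟩ := cohenP R p
    exact Or.inl ⟨ResidueField R, inferInstance, inferInstance, heq s hs⟩
  have hsop : Sop (Fin.cons (p : R) x : Fin (d + 1) → R) := by
    refine ch_sop_of_eq ?_
    rw [ch_idl_cons, hx, eq_comm, sup_eq_right, Ideal.span_singleton_le_iff_mem]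
    exact ch_p_mem R p
  obtain ⟨φ, hφ⟩ := cohenW R p
  obtain ⟨Φ, hC, hX, hfin, hloc, hres⟩ := exists_base_mixed p φ (ch_sameRes_witt hφ) hsop
  have h1 := hsurj Φ hX hfin hres
  have h2 : (p : R) ∈ (idl (MvPowerSeries.X : Fin d → AW p (ResidueField R) d)).map Φ := by
    rw [← rg2_idl_map]
    simp only [hX]
    exact hx ▸ ch_p_mem R p
  obtain ⟨f0, hf0, hf⟩ := (Ideal.mem_map_iff_of_surjective Φ h1).1 h2
  have h3 : f0 ∉ Ideal.span {(p : AW p (ResidueField R) d)} := fun hm => by
    obtain ⟨g, rfl⟩ := Ideal.mem_span_singleton'.1 hm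
    have h4 : idl (MvPowerSeries.X : Fin d → AW p (ResidueField R) d) ≤
        RingHom.ker MvPowerSeries.constantCoeff := by
      rw [idl, Ideal.span_le]
      rintro _ ⟨i, rfl⟩
      exact MvPowerSeries.constantCoeff_X i
    have h5 := h4 hf0
    rw [RingHom.mem_ker, map_mul, map_natCast] at h5
    have h6 : g ∈ maximalIdeal (AW p (ResidueField R) d) := by
      rw [mem_maximalIdeal, mem_nonunits_iff, MvPowerSeries.isUnit_iff_constantCoeff,
        WittVector.eq_zero_of_p_mul_eq_zero _ h5]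
      exact not_isUnit_zero
    have h7 := isUnit_one_sub_self_of_mem_nonunits _ (map_nonunit Φ g h6)
    rw [map_mul, map_natCast] at hf
    exact h0 (h7.mul_right_eq_zero.1 (by rw [sub_mul, one_mul, hf, sub_self]))
  obtain ⟨Δ, hb, hΔ⟩ := exists_delta p (ResidueField R) d
  let μ : Mix p (ResidueField R) d := ⟨Δ, hb, hΔ, f0, hf0, h3⟩
  have hξ : μ.ξ 0 = p - f0 := rfl
  have := hb.rb.noeth
  let Θ : μ.R 0 →+* R := Ideal.Quotient.lift _ Φ fun a ha => by
    obtain ⟨g, rfl⟩ := Ideal.mem_span_singleton'.1 ha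
    rw [map_mul, hξ, map_sub, map_natCast, hf, sub_self, mul_zero]
  have hΘ : ∀ a, Θ (μ.pr 0 a) = Φ a := fun _ => rfl
  have h8 : Function.Surjective Θ := fun y => by
    obtain ⟨a, rfl⟩ := h1 y
    exact ⟨μ.pr 0 a, rfl⟩
  refine Or.inr ⟨p, inferInstance, ResidueField R, inferInstance, inferInstance, inferInstance, μ,
    ⟨RingEquiv.ofBijective Θ ⟨inj_of_reg Θ h8 (x := fun i => μ.pr 0 (MvPowerSeries.X i)) ?_ ?_, h8⟩⟩⟩
  · rw [← map_maximalIdeal_of_surjective (μ.pr 0) Ideal.Quotient.mk_surjective, ← hb.max, ch_idl_cons,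
      Ideal.map_sup, rg2_idl_map, eq_comm, sup_eq_right, Ideal.map_span, Set.image_singleton,
      Ideal.span_singleton_le_iff_mem,
      show μ.pr 0 p = μ.pr 0 f0 from Ideal.Quotient.eq.2 (Ideal.mem_span_singleton_self _)]
    exact Ideal.mem_map_of_mem _ hf0
  · simpa only [hΘ, hX] using hreg

end Crest.Agent.R188
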