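import Crest.Agent.R188.RL
import Crest.Agent.R183.Gonf

/-!
# rid 188, file `Red`: reduction to complete rings with algebraically closed residue field

Prefix helper lemmas with `rd_`.
-/

set_option autoImplicit false

open IsLocalRing Crest.Agent.R183

namespace Crest.Agent.R188

theorem rd_mem_smul {B : Type} [CommRing B] {n : ℕ} {J : Ideal B} {w : Fin n → B} :
    w ∈ (J • ⊤ : Submodule B (Fin n → B)) ↔ ∀ i, w i ∈ J := by
  refine ⟨fun h i => ?_, fun h => ?_⟩
  · refine Submodule.smul_induction_on (p := fun w => w i ∈ J) h (fun r hr v _ => ?_) fun v w hv hw => ?_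
    · exact J.mul_mem_right _ hr
    · exact J.add_mem hv hw
  · rw [pi_eq_sum_univ' w]
    exact Submodule.sum_mem _ fun i _ => Submodule.smul_mem_smul (h i) trivial
/-- Equational criterion (`Module.Flat.iff_forall_isTrivialRelation` or `iff_rTensor_injective`).  Let
`∑ a i * b i = 0` in `B` and `K = ker (R^n → R)`.  Modulo `𝔪^N` the relation is trivial, so
`b ∈ K_N B + 𝔪^N B^n` with `K_N = {r | ∑ a i r i ∈ 𝔪^N} ≤ K + 𝔪^(N - c) R^n` (Artin–Rees,
`Ideal.exists_pow_inf_eq_pow_smul`).  Krull's intersection theorem in `B^n / K B` finishes. -/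
theorem flat_of_quot {R B : Type} [CommRing R] [IsLocalRing R] [IsNoetherianRing R] [CommRing B] [IsLocalRing B]
    [IsNoetherianRing B] (f : R →+* B) [IsLocalHom f]
    (h : ∀ (N n : ℕ) (a : Fin n → R) (b : Fin n → B), ∑ i, f (a i) * b i ∈ (maximalIdeal R ^ N).map f →
      ∃ (m : ℕ) (r : Fin m → Fin n → R) (y : Fin m → B), (∀ j, ∑ i, a i * r j i ∈ maximalIdeal R ^ N) ∧
        ∀ i, b i - ∑ j, f (r j i) * y j ∈ (maximalIdeal R ^ N).map f) : f.Flat := by
  let _ := f.toAlgebra
  have hf : ∀ r, algebraMap R B r = f r := fun _ => rfl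
  refine (Module.Flat.of_forall_isTrivialRelation fun {n a b} hab => ?_ : Module.Flat R B)
  simp only [Algebra.smul_def, hf] at hab
  let α : (Fin n → R) →ₗ[R] R := Fintype.linearCombination R a
  have hα : ∀ r, α r = ∑ i, a i * r i := fun r => by
    simp only [α, Fintype.linearCombination_apply, smul_eq_mul, mul_comm]
  let KB : Submodule B (Fin n → B) := Submodule.span B ((fun r i => f (r i)) '' {r | α r = 0})
  obtain ⟨c, hc⟩ := (maximalIdeal R).exists_pow_inf_eq_pow_smul (LinearMap.range α)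
  have h1 : ∀ N : ℕ, KB.mkQ b ∈ (maximalIdeal B ^ N • ⊤ : Submodule B ((Fin n → B) ⧸ KB)) := fun N => by
    obtain ⟨m, r, y, hr, hy⟩ := h (N + c) n a b (by rw [hab]; exact Ideal.zero_mem _)
    have h2 : ∀ j, ∃ r' : Fin n → R, (∀ i, r' i ∈ maximalIdeal R ^ N) ∧ α r' = α (r j) := fun j => by
      have h3 : α (r j) ∈ (maximalIdeal R ^ (N + c) • ⊤ ⊓ LinearMap.range α : Submodule R R) :=
        ⟨by rw [smul_eq_mul, Ideal.mul_top, hα]; exact hr j, ⟨_, rfl⟩⟩
      rw [hc _ (Nat.le_add_left c N), Nat.add_sub_cancel] at h3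
      have h4 := Submodule.smul_mono (le_refl (maximalIdeal R ^ N)) inf_le_right h3
      rw [LinearMap.range_eq_map, ← Submodule.map_smul''] at h4
      obtain ⟨r', h5, h6⟩ := h4
      exact ⟨r', rd_mem_smul.1 h5, h6⟩
    choose r' hr' hα' using h2
    have hle : ∀ M, (maximalIdeal R ^ M).map f ≤ maximalIdeal B ^ M := fun M => by
      rw [Ideal.map_pow]
      exact Ideal.pow_right_mono (((local_hom_TFAE f).out 0 2).mp ‹_›) M
    have h7 : ∑ j, y j • (fun i => f ((r j - r' j) i)) ∈ KB :=
      Submodule.sum_mem _ fun j _ => KB.smul_mem _ (Submodule.subset_span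
        ⟨r j - r' j, by rw [Set.mem_ofPred_eq, map_sub, hα', sub_self], rfl⟩)
    have h8 : b - ∑ j, y j • (fun i => f ((r j - r' j) i)) ∈
        (maximalIdeal B ^ N • ⊤ : Submodule B (Fin n → B)) := rd_mem_smul.2 fun i => by
      have e : (b - ∑ j, y j • (fun i => f ((r j - r' j) i))) i =
          (b i - ∑ j, f (r j i) * y j) + ∑ j, f (r' j i) * y j := by
        simp only [Pi.sub_apply, Finset.sum_apply, Pi.smul_apply, smul_eq_mul, map_sub, mul_sub,
          Finset.sum_sub_distrib, mul_comm]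
        ring
      rw [e]
      exact Ideal.add_mem _ (Ideal.pow_le_pow_right (Nat.le_add_right N c) (hle _ (hy i)))
        (Ideal.sum_mem _ fun j _ => Ideal.mul_mem_right _ _ (hle _ (Ideal.mem_map_of_mem f (hr' j i))))
    have h9 := Submodule.mem_map_of_mem (f := KB.mkQ) h8
    rw [map_sub, Submodule.mkQ_apply _ (∑ j, _), (Submodule.Quotient.mk_eq_zero KB).2 h7, sub_zero,
      Submodule.map_smul''] at h9
    exact Submodule.smul_mono le_rfl le_top h9
  have h2 : b ∈ KB := by
    have h3 := (Submodule.mem_iInf _).2 h1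
    rwa [Ideal.iInf_pow_smul_eq_bot_of_isLocalRing _ (maximalIdeal.isMaximal B).ne_top, Submodule.mem_bot,
      Submodule.mkQ_apply, Submodule.Quotient.mk_eq_zero] at h3
  obtain ⟨k, y, g, hg⟩ := Submodule.mem_span_set'.1 h2
  choose r hr hrg using fun j => (g j).2
  refine ⟨k, fun i j => r j i, y, fun i => ?_, fun j => (hα _).symm.trans (hr j)⟩
  rw [← hg, Finset.sum_apply]
  refine Finset.sum_congr rfl fun j _ => ?_
  rw [← hrg, Algebra.smul_def (r j i), hf, mul_comm]
  rfl

/-- Follow `exists_gonf`: `gf_exists R` gives a flat unramified `B0`; let `B` be its completion.  Every element of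
`B` is congruent to one of `B0` modulo `𝔪^N B`, and `𝔪^N B ∩ B0 = 𝔪^N B0`, so the hypothesis of `flat_of_quot`
follows from the flatness of `B0` (apply the equational criterion to the relation extended by generators of
`𝔪^N`).  `Reg.of_flat` gives regularity. -/
theorem exists_cls_ext (R : Type) [CommRing R] [IsLocalRing R] [IsNoetherianRing R] {d : ℕ} (h : RegL R d) :
    ∃ (B : Type) (_ : CommRing B) (_ : IsLocalRing B) (f : R →+* B), f.Flat ∧ Unram f ∧ Cls B d := by
  obtain ⟨B, _, _, ψ, h1, h2, h3⟩ := gf_exists R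
  have fg : (maximalIdeal B).FG := h2 ▸ (maximalIdeal R).fg_of_isNoetherianRing.map _
  have i1 := AdicCompletion.isLocalRing_of_fg fg
  have i2 := AdicCompletion.algebraMap_isLocalHom_of_fg fg
  have i3 := AdicCompletion.isAdicComplete_of_fg fg
  have h5 : Unram (algebraMap B (AdicCompletion (maximalIdeal B) B)) :=
    (AdicCompletion.maximalIdeal_eq_map_of_fg fg).symm
  have h6 := AdicCompletion.residueField_map_bijective_of_fg fg
  have i4 : IsAlgClosed (ResidueField (AdicCompletion (maximalIdeal B) B)) :=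
    IsAlgClosed.of_ringEquiv (k := ResidueField B) _ (RingEquiv.ofBijective _ h6)
  have h7 := gf_comp h2 h5
  have i5 := gf_local h7
  have i6 : IsNoetherianRing (AdicCompletion (maximalIdeal B) B) := noeth_of_perfect _ (h5 ▸ fg.map _)
  set ι := algebraMap B (AdicCompletion (maximalIdeal B) B) with hι
  have h9 : ∀ (N : ℕ) (y : AdicCompletion (maximalIdeal B) B), y ∈ (maximalIdeal R ^ N).map (ι.comp ψ) ↔
      AdicCompletion.eval (maximalIdeal B) B N y = 0 := fun N y => by
    rw [← LinearMap.mem_ker, ← AdicCompletion.pow_smul_top_eq_ker_eval fg, Ideal.smul_top_eq_map,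
      ← Ideal.map_map, Ideal.map_pow (I := maximalIdeal R), h2]
    rfl
  have h10 : ∀ (N : ℕ) (y : B), AdicCompletion.eval (maximalIdeal B) B N (ι y) = Submodule.Quotient.mk y :=
    fun _ _ => rfl
  have hfl : (ι.comp ψ).Flat := by
    refine flat_of_quot _ fun N n a b hab => ?_
    choose b0 hb0 using fun i => Submodule.Quotient.mk_surjective _
      (AdicCompletion.eval (maximalIdeal B) B N (b i))
    have e1 : ∀ i, b i - ι (b0 i) ∈ (maximalIdeal R ^ N).map (ι.comp ψ) := fun i => by
      rw [h9, map_sub, h10, hb0, sub_self]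
    have e2 : ι (∑ i, ψ (a i) * b0 i) ∈ (maximalIdeal R ^ N).map (ι.comp ψ) := by
      have e3 := Ideal.sub_mem _ hab (Ideal.sum_mem _ fun i (_ : i ∈ Finset.univ) =>
        Ideal.mul_mem_left _ ((ι.comp ψ) (a i)) (e1 i))
      simpa only [mul_sub, Finset.sum_sub_distrib, sub_sub_cancel, map_sum, map_mul,
        RingHom.comp_apply] using e3
    rw [h9, h10, Submodule.Quotient.mk_eq_zero, smul_eq_mul, Ideal.mul_top, ← h2, ← Ideal.map_pow,
      Ideal.map] at e2
    obtain ⟨m, c, g, hg⟩ := Submodule.mem_span_set'.1 e2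
    choose t ht htg using fun j => (g j).2
    let _ := ψ.toAlgebra
    have : Module.Flat R B := h1
    have hψ : ∀ r, algebraMap R B r = ψ r := fun _ => rfl
    obtain ⟨k, e, y, e4, e5⟩ := Module.Flat.isTrivialRelation_of_sum_smul_eq_zero (R := R) (M := B)
      (f := Sum.elim a fun j => -t j) (x := Sum.elim b0 c) (by
        simp only [Fintype.sum_sum_type, Sum.elim_inl, Sum.elim_inr, Algebra.smul_def, hψ, ← hg, map_neg,
          htg, neg_mul, Finset.sum_neg_distrib, Algebra.algebraMap_self, RingHom.id_apply]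
        simp only [mul_comm, add_neg_cancel])
    refine ⟨k, fun j i => e (Sum.inl i) j, fun j => ι (y j), fun j => ?_, fun i => ?_⟩
    · have e6 := e5 j
      simp only [Fintype.sum_sum_type, Sum.elim_inl, Sum.elim_inr, neg_mul, Finset.sum_neg_distrib,
        add_neg_eq_zero] at e6
      rw [e6]
      exact Ideal.sum_mem _ fun l _ => Ideal.mul_mem_right _ _ (ht l)
    · have e6 : b0 i = _ := e4 (Sum.inl i)
      have e7 := e1 i
      rw [e6] at e7
      simpa only [map_sum, Algebra.smul_def, hψ, map_mul, RingHom.comp_apply] using e7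
  obtain ⟨x, hx, hxm⟩ := h
  refine ⟨_, inferInstance, i1, ι.comp ψ, hfl, h7, i6, ⟨fun i => (ι.comp ψ) (x i), ?_, ?_⟩, i3, i4⟩
  · let _ := (ι.comp ψ).toAlgebra
    have : Module.Flat R (AdicCompletion (maximalIdeal B) B) := hfl
    exact hx.of_flat
  · rw [rg2_idl_map, hxm, h7]

end Crest.Agent.R188
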