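import Crest.Agent.R188.MixC
import Crest.Agent.R188.MidB
import Crest.Agent.R188.Tr
import Crest.Agent.R188.ClV

/-!
# rid 188, file `MixM`: combination of two sides in mixed characteristic

Prefix helper lemmas with `mm_`.
-/

set_option autoImplicit false

open IsLocalRing Crest.Agent.R183

namespace Crest.Agent.R188

variable {p : ℕ} [Fact p.Prime] {k : Type} [Field k] [CharP k p] [IsAlgClosed k] {d : ℕ} (μ : Mix p k d)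

theorem Near.map_pr {P 𝔞 𝔮 : Ideal (AW p k d)} {a : ℕ} (h : Near P 𝔞 𝔮 a) (hP : μ.ξ 0 ∈ P) :
    Near (P.map (μ.pr 0)) (𝔞.map (μ.pr 0)) (𝔮.map (μ.pr 0)) a := by
  have := h.prime
  obtain ⟨N, hN⟩ := h.pow
  refine ⟨Ideal.map_isPrime_of_surjective Ideal.Quotient.mk_surjective ?_, Ideal.map_mono h.le,
    (dim_map_le_of_finite _ (RingHom.Finite.of_surjective _ Ideal.Quotient.mk_surjective) _).trans h.dim,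
    Ideal.map_mono h.qle, N, ?_⟩
  · rwa [Ideal.mk_ker, Ideal.span_singleton_le_iff_mem]
  · rw [← Ideal.map_pow]
    exact Ideal.map_mono hN

theorem mm_prim {I J : Ideal (AW p k d)} (h : Prim I J) : Prim (I.map (μ.pr 0)) (J.map (μ.pr 0)) :=
  h.map _ (c := 1) (by rw [pow_one, map_maximalIdeal_of_surjective _ Ideal.Quotient.mk_surjective])

/-- the transition map `R 0 → R n` -/
theorem mm_tr (n : ℕ) : ∃ τ : μ.R 0 →+* μ.R n, (∀ I : Ideal (AW p k d), (I.map (μ.pr 0)).map τ = I.map (μ.ψ n)) ∧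
    IsLocalHom τ ∧ τ.Finite ∧ τ.Flat ∧ ∃ c : ℕ, maximalIdeal (μ.R n) ^ c ≤ (maximalIdeal (μ.R 0)).map τ := by
  obtain ⟨τ, h1, h2, h3, h4, h5, -⟩ := μ.exists_tr (zero_add n)
  refine ⟨τ, fun I => ?_, h2, h3, h4, h5⟩
  rw [Ideal.map_map]
  exact congrArg (fun f => I.map f) (RingHom.ext h1)

theorem mm_sh1 {md1 md2 : AMdl p k d} {𝔣1 𝔣2 : Ideal (AW p k d)}
    (f1 : ∀ g ∈ 𝔣1, md1.a0 g ∈ Ideal.span {md1.m.U}) (f2 : ∀ g ∈ 𝔣2, md2.a0 g ∈ Ideal.span {md2.m.U})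
    (h : Prim 𝔣1 𝔣2) : Sh1 md1.m md2.m :=
  sh1_of WittVector.constantCoeff md1.a0 md2.a0 md1.hX md2.hX md1.hC md2.hC f1 f2 h

/-- the choice of `k0`, `n'`, `m` and of the deformation -/
theorem mm_setup {md1 md2 : AMdl p k d} {T1 T1' : md1.m.E} {T2 T2' : md2.m.E} {𝔣1 𝔣2 𝔞1 𝔞2 : Ideal (AW p k d)}
    (h𝔣 : Prim 𝔣1 𝔣2) {c0 : ℕ} (hc0 : 0 < c0) (hS : μ.Sh2 md1 md2 c0)
    (hV : VOut md1.m md2.m (c0 * (d + 7) + (d + 7)) T1 T1' T2 T2') (n0 : ℕ) :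
    ∃ n' ≥ n0, ∃ k0 : ℕ, ∀ m0 : ℕ, ∃ m ≥ m0, ∃ U : Setup (μ.R n'), U.OK ∧ U.ϖ = p ∧ c0 * U.r ≤ U.c ∧
      ∀ S1 S2 : Side (μ.R n'), μ.Good md1 T1 T1' 𝔣1 𝔞1 n' m k0 S1 → μ.Good md2 T2 T2' 𝔣2 𝔞2 n' m k0 S2 →
        U.RelS S1.D S2.D c0 ∧ ∀ (γ1 : S1.M) (γ2 : S2.M),
          (γ1 = S1.π S1.α ^ 2 ∧ γ2 = S2.π S2.α ^ 2) ∨ T1 = 0 → U.RelC γ1 γ2 := by
  obtain ⟨v, i0, hv, κ0, hκ⟩ := hV
  have hp : ∀ n : ℕ, n ≤ p ^ n := fun n => (Nat.lt_pow_self (Fact.out : p.Prime).one_lt).le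
  obtain ⟨M, hM⟩ := hκ _ (hp κ0)
  obtain ⟨n', e⟩ : ∃ n', n' = n0 + 4 * (c0 * (d + 7)) + 2 * (d + 7) := ⟨_, rfl⟩
  have h1 := hp n'
  obtain ⟨U, hU, hϖ, ht, hc, hr, hC, hX⟩ := μ.exists_setup n' (c := c0 * (d + 7)) (r := d + 7)
    (by positivity) (by positivity) (by omega) (by omega) v
  refine ⟨n', by omega, κ0, fun m0 => ⟨m0 + M + κ0, by omega, U, hU, hϖ, by rw [hc, hr], fun S1 S2 g1 g2 =>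
    ⟨Mix.relS hU hϖ ht g1 g2 h𝔣 hS, fun γ1 γ2 hγ => ?_⟩⟩⟩
  refine Mix.relC hU hϖ ht hr hv hC hX g1 g2 h𝔣 (M := M) (by rwa [hc, hr]) (by omega)
    (le_trans ?_ (hp _)) hγ
  omega

/-- Put `r = d + 7`, `c = c0 r`, `L = c + r`.  `sh1_of` and `claimV` give `v, i0, κ0`; choose `k0` with
`κ0 ≤ p^k0`, get `M`; choose `n'` large (`exists_setup`), then `m` large, get the two sides; `relS`, `relC`,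
`mid_pos`, and `transfer_pos` along `exists_tr : R 0 → R n'`. -/
theorem mix_pos (hV : VanLt d d) {P Q 𝔣1 𝔣2 𝔞1 𝔞2 𝔮1 𝔮2 : Ideal (AW p k d)} {a b : ℕ} (ha : 0 < a) (hb : 0 < b)
    (hab : a + b = d) (hP : μ.ξ 0 ∈ P) (hQ : μ.ξ 0 ∈ Q) (n1 : Near P 𝔞1 𝔮1 a) (n2 : Near Q 𝔞2 𝔮2 b)
    (h𝔣 : Prim 𝔣1 𝔣2) (h𝔞 : Prim 𝔞1 𝔞2) {c0 : ℕ} (hc0 : 0 < c0)
    (h : ∀ L : ℕ, ∃ (md1 md2 : AMdl p k d) (T1 T1' : md1.m.E) (T2 T2' : md2.m.E), μ.Sh2 md1 md2 c0 ∧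
      μ.UPos md1 T1 T1' 𝔣1 𝔞1 𝔮1 a L ∧ μ.UPos md2 T2 T2' 𝔣2 𝔞2 𝔮2 b L) :
    0 < chi (μ.R 0) d (μ.R 0 ⧸ P.map (μ.pr 0)) (μ.R 0 ⧸ Q.map (μ.pr 0)) := by
  obtain ⟨md1, md2, T1, T1', T2, T2', hS, u1, u2⟩ := h (c0 * (d + 7) + (d + 7))
  obtain ⟨m1, f1⟩ := u1.fam
  obtain ⟨m2, f2⟩ := u2.fam
  obtain ⟨n', hn, k0, H⟩ := mm_setup μ (𝔞1 := 𝔞1) (𝔞2 := 𝔞2) h𝔣 hc0 hS
    (claimV (by positivity) (mm_sh1 u1.hf u2.hf h𝔣) u1.full u1.cut u2.full u2.cut (by omega) (by omega))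
    (m1 + m2)
  obtain ⟨l1, f1⟩ := f1 n' (by omega) k0
  obtain ⟨l2, f2⟩ := f2 n' (by omega) k0
  obtain ⟨m, hm, U, hU, hϖ, hc, H⟩ := H (l1 + l2)
  obtain ⟨S1, g1, q1⟩ := f1 m (by omega)
  obtain ⟨S2, g2, q2⟩ := f2 m (by omega)
  obtain ⟨r1, r2⟩ := H S1 S2 g1 g2
  have := (μ.cls n').noeth
  have key := mid_pos hU (μ.cls n').reg S1 S2 (hϖ ▸ q1.kind) (hϖ ▸ q2.kind) q1.depth q2.depth hab.ge
    (g1.prim g2 h𝔣) hc r1 (r2 _ _ (Or.inl ⟨rfl, rfl⟩)) (Or.inl ⟨q1.nz, q2.nz⟩)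
  obtain ⟨τ, e, _, h3, h4, c, h5⟩ := mm_tr μ n'
  refine transfer_pos (hab ▸ hV) (μ.cls 0) (μ.cls n') τ h4 h3 h5 (n1.map_pr μ hP) (n2.map_pr μ hQ)
    (mm_prim μ h𝔞) ?_ ?_ ?_ ?_ key
  · exact (e _).symm ▸ g1.kil
  · exact (e _).symm ▸ g2.kil
  · rw [e, e]
    exact q1.cl
  · rw [e, e]
    exact q2.cl

/-- The same with `T1 = T2 = 0` (`Cov.zero`), `mid_van` (`RelS.map`, `Prim.mono`) and `transfer_van`. -/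
theorem mix_van {a b : ℕ} (hV : VanLt d (a + b)) {P Q 𝔣1 𝔣2 𝔞1 𝔞2 𝔮1 𝔮2 : Ideal (AW p k d)} (hab : a + b < d)
    (hP : μ.ξ 0 ∈ P) (hQ : μ.ξ 0 ∈ Q) (n1 : Near P 𝔞1 𝔮1 a) (n2 : Near Q 𝔞2 𝔮2 b)
    (h𝔣 : Prim 𝔣1 𝔣2) (h𝔞 : Prim 𝔞1 𝔞2) {c0 : ℕ} (hc0 : 0 < c0)
    (h : ∀ L : ℕ, ∃ (md1 md2 : AMdl p k d) (T1' : md1.m.E) (T2' : md2.m.E), μ.Sh2 md1 md2 c0 ∧
      μ.UVan md1 T1' 𝔣1 𝔞1 𝔮1 a L ∧ μ.UVan md2 T2' 𝔣2 𝔞2 𝔮2 b L) :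
    chi (μ.R 0) d (μ.R 0 ⧸ P.map (μ.pr 0)) (μ.R 0 ⧸ Q.map (μ.pr 0)) = 0 := by
  obtain ⟨md1, md2, T1', T2', hS, u1, u2⟩ := h (c0 * (d + 7) + (d + 7))
  obtain ⟨n', -, k0, H⟩ := mm_setup μ (𝔞1 := 𝔞1) (𝔞2 := 𝔞2) h𝔣 hc0 hS
    (claimV (by positivity) (mm_sh1 u1.hf u2.hf h𝔣) u1.full u1.full.zero u2.full u2.full.zero hab hab) 0
  obtain ⟨l1, f1⟩ := u1.fam n' k0
  obtain ⟨l2, f2⟩ := u2.fam n' k0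
  obtain ⟨m, hm, U, hU, -, hc, H⟩ := H (l1 + l2)
  obtain ⟨S1, g1, q1⟩ := f1 m (by omega)
  obtain ⟨S2, g2, q2⟩ := f2 m (by omega)
  obtain ⟨r1, r2⟩ := H S1 S2 g1 g2
  have := (μ.cls n').noeth
  have hk : ∀ S : Side (μ.R n'), RingHom.ker (algebraMap _ S.D) ≤ RingHom.ker (algebraMap (μ.R n') S.M) :=
    fun S r hr => by rw [RingHom.mem_ker, ← S.π.commutes, RingHom.mem_ker.1 hr, map_zero]
  have key := mid_van hU (μ.cls n').reg S1.M S2.M ((g1.prim g2 h𝔣).mono (hk S1) (hk S2)) hc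
    (r1.map S1.π S2.π) (r2 _ _ (Or.inr rfl))
  obtain ⟨τ, e, _, h3, h4, c, h5⟩ := mm_tr μ n'
  refine transfer_van hV (μ.cls 0) (μ.cls n') τ h4 h3 h5 (n1.map_pr μ hP) (n2.map_pr μ hQ)
    (mm_prim μ h𝔞) ?_ ?_ ?_ ?_ key
  · exact (e _).symm ▸ g1.kil
  · exact (e _).symm ▸ g2.kil
  · rw [e, e]
    exact q1
  · rw [e, e]
    exact q2

end Crest.Agent.R188
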