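import Crest.Agent.R188.SideC
import Crest.Agent.R188.EnvP
import Crest.Agent.R188.EnvG

/-!
# rid 188, file `SideK`: primes that contain `p`; the side for positivity

Prefix helper lemmas with `sk_`.
-/

set_option autoImplicit false
set_option linter.unusedSectionVars false

open IsLocalRing Crest.Agent.R183

namespace Crest.Agent.R188

variable {p : ℕ} [Fact p.Prime] {k : Type} [Field k] [CharP k p] [IsAlgClosed k] {d : ℕ} (μ : Mix p k d)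

/-- `exists_hw` with `𝔵 = idl X` (`max_le`); `V = Fin 2`, `g = (f0, h)`. -/
theorem Mix.exists_KD (P : Ideal (AW p k d)) [P.IsPrime] (hξ : μ.ξ 0 ∈ P) (hp : (p : AW p k d) ∈ P) {a c : ℕ}
    (ha : 0 < a) (hac : a + c = d) (hP : ringKrullDim (AW p k d ⧸ P) = a) (f : Fin c → AW p k d)
    (hf : ∀ l, f l ∈ P ∧ f l ∈ idl (MvPowerSeries.X : Fin d → AW p k d))
    (hdim : ringKrullDim (AW p k d ⧸ (Ideal.span {μ.ξ 0} ⊔ idl f)) ≤ a)
    (other : ∀ 𝔭 : Ideal (AW p k d), 𝔭.IsPrime → Ideal.span {μ.ξ 0} ⊔ idl f ⊔ Ideal.span {(p : AW p k d)} ≤ 𝔭 →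
      𝔭 ≠ P → ringKrullDim (AW p k d ⧸ 𝔭) < a) :
    ∃ (E : MEnv p k d) (N : ℕ) (vT : E.V), E.𝔣 = Ideal.span {μ.ξ 0} ⊔ idl f ∧ μ.KD E P a N vT := by
  have := μ.noeth
  have h0 : ∀ 𝔭 : Ideal (AW p k d), maximalIdeal (AW p k d) ≤ 𝔭 → ringKrullDim (AW p k d ⧸ 𝔭) < a := fun 𝔭 h𝔭 => by
    have h1 : ringKrullDim (AW p k d ⧸ 𝔭) ≤ (0 : ℕ) :=
      dim_le_of_pow_le (c := 1) (t := Fin.elim0) (fun j => j.elim0) (by rw [pow_one]; exact le_sup_of_le_left h𝔭)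
    exact h1.trans_lt (by exact_mod_cast ha)
  have hle : Ideal.span {μ.ξ 0} ⊔ idl f ≤ P :=
    sup_le ((Ideal.span_singleton_le_iff_mem _).2 hξ) (ln_idl_le fun l => (hf l).1)
  obtain ⟨h, w, N, h1, -, h2, h3, -⟩ := exists_hw (𝔵 := idl (MvPowerSeries.X : Fin d → AW p k d)) hle hdim
    (by rw [hP]; exact lt_irrefl _)
    fun 𝔭 _ a1 a2 => h0 𝔭 ((μ.max_le 0).trans (sup_le (le_sup_left.trans a1) a2))
  let E : MEnv p k d :=
    { V := Fin 2, u0 := 0, c := c, f := f, g := ![μ.f0, h], f_mem := fun l => (hf l).2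
      g_mem := fun v => by
        fin_cases v
        exacts [μ.f0_mem, h1] }
  have hE : E.𝔣 = Ideal.span {μ.ξ 0} ⊔ idl f := by
    rw [μ.ξ_zero]
    rfl
  refine ⟨E, N, (1 : Fin 2), hE, rfl, hac, ha, ‹_›, fun e => ?_, hp, hE ▸ hle, hP.le, hE ▸ hdim, hE ▸ other, h2, ?_⟩
  · exact (h0 P e.ge).ne hP
  · rw [hE]
    exact mem_col.1 (h3 (Ideal.pow_mem_pow hp N))

variable {μ} {E : MEnv p k d} {P : Ideal (AW p k d)} {a N : ℕ} {vT : E.V}

theorem Mix.KD.sk_le (h : μ.KD E P a N vT) : E.𝔣 ⊔ Ideal.span {(p : AW p k d)} ≤ P :=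
  sup_le h.le ((Ideal.span_singleton_le_iff_mem _).2 h.p_mem)

theorem Mix.KD.sk_f0 (h : μ.KD E P a N vT) : μ.f0 ∈ P := by
  have h1 : (p : AW p k d) - E.g E.u0 ∈ P := h.le (Ideal.mem_sup_left (Ideal.mem_span_singleton_self _))
  have h2 := P.sub_mem h.p_mem h1
  rwa [sub_sub_cancel, h.hE] at h2

theorem sk_U {B : Type} [CommRing B] {U σ1 σ2 y : B} (h : y ∈ Ideal.span {U}) : y ∈ Ideal.span {U, σ1, σ2} :=
  Ideal.span_mono (by simp) h

theorem sk_cov {n n1 L : ℕ} {σ : (μ.mdl E n).m.E} (h : AppU (μ.mdl E n).m n1 σ (μ.q E n (E.u ^ N))) :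
    Cov (μ.mdl E n).m n1 L σ (μ.q E n (E.u ^ N)) :=
  cov_of_U h (c := N) (η := 1) (by simp) (by
    rw [mul_one, μ.mdl_U, ← map_pow]
    exact Ideal.subset_span (by simp))

theorem Mix.KD.near (h : μ.KD E P a N vT) : Near P (E.𝔣 ⊔ Ideal.span {(p : AW p k d)}) P a := by
  refine ⟨h.prime, h.sk_le, dim_le_of_primes fun 𝔭 h1 h2 => ?_, le_rfl, 1, by rw [pow_one]⟩
  by_cases e : 𝔭 = P
  · exact e ▸ h.dim
  · exact (h.other 𝔭 h1 h2 e).le

/-- `cov_of_U` (`c = N`, `η = 1`) and `AMdl.appU` with `𝔟 = 𝔣 ⊔ (p)`. -/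
theorem Mix.KD.cov_full (h : μ.KD E P a N vT) (L n : ℕ) :
    Cov (μ.mdl E n).m a L (μ.q E n (E.u ^ N)) (μ.q E n (E.u ^ N)) := by
  exact sk_cov ((μ.mdl E n).appU _ (Ideal.mem_sup_right (Ideal.mem_span_singleton_self _))
    (fun b hb => sk_U (μ.mdl_hf E n hb)) h.near.dim)

/-- The same with `𝔟 = 𝔣 ⊔ (p) ⊔ (h)` (`mdl_xv_sub`, `dim_lt_of_primes`). -/
theorem Mix.KD.cov_cut (h : μ.KD E P a N vT) (L n : ℕ) :
    Cov (μ.mdl E n).m (a - 1) L (μ.q E n (E.xv vT)) (μ.q E n (E.u ^ N)) := by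
  have := μ.noeth
  refine sk_cov ((μ.mdl E n).appU (E.𝔣 ⊔ Ideal.span {(p : AW p k d)} ⊔ Ideal.span {E.g vT})
    (Ideal.mem_sup_left (Ideal.mem_sup_right (Ideal.mem_span_singleton_self _))) (fun b hb => ?_) ?_)
  · obtain ⟨b1, h1, b2, h2, rfl⟩ := Submodule.mem_sup.1 hb
    obtain ⟨c, rfl⟩ := Ideal.mem_span_singleton'.1 h2
    rw [map_add, map_mul]
    refine Ideal.add_mem _ (sk_U (μ.mdl_hf E n h1)) (Ideal.mul_mem_left _ _ ?_)
    rw [← sub_sub_cancel (μ.q E n (E.xv vT)) ((μ.mdl E n).a0 (E.g vT))]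
    exact Ideal.sub_mem _ (Ideal.subset_span (by simp)) (sk_U (μ.mdl_xv_sub E n vT))
  · rw [← lt_succ_iff_le, Nat.sub_add_cancel h.pos]
    refine dim_lt_of_primes fun 𝔭 h1 h2 => h.other 𝔭 h1 (le_sup_left.trans h2) fun e => h.h_not ?_
    exact e ▸ h2 (Ideal.mem_sup_right (Ideal.mem_span_singleton_self _))

/-- Let `k1` come from `nz` (`mem_of_point`); `j = n' + k0 + k1 + 2 N + 1`, `e = n' + m` with `p^j ≤ e - j + 1`,
`q = p^e`, `s = p^(e-j)`; then `2 N s ≤ q`.  By `key_p`, `(T U^N)^s = U^q z`.  Put `α = T^s - U^(q - N s) z`, so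
`α U^(N s) = 0`, and `M = D / col ⊥ α` (`Side.of`, `of_sand0`).  In `M`: `U^(N s) = 0`, so `p = U^q = 0` and `α = T^s`.
For `nz`: `U ∈ (x)` (`u_mem`), `q - N s ≥ d p^m` because `p^n' ≥ 2 d`, so `U^(q - N s) ∈ br x (p^m)`
(`idl_pow_le_br`).  The class by `clPos_K`. -/
theorem Mix.KD.fam (h : μ.KD E P a N vT) (n : ℕ) {n' : ℕ} (hn' : 2 * d ≤ n') (k0 : ℕ) :
    ∃ m0 : ℕ, ∀ m ≥ m0, ∃ S : Side (μ.R n'),
      μ.Good (μ.mdl E n) (μ.q E n (E.xv vT)) (μ.q E n (E.u ^ N)) E.𝔣 (E.𝔣 ⊔ Ideal.span {(p : AW p k d)}) n' m k0 S ∧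
      μ.GoodPos (E.𝔣 ⊔ Ideal.span {(p : AW p k d)}) P a n' S := by
  have := h.prime
  have hp1 : 1 < p := (Fact.out : p.Prime).one_lt
  obtain ⟨k1, hk1⟩ := μ.nz E P h.ne vT h.h_not fun e b hb => E.mem_of_point μ.hb P h.sk_le e hb
  obtain ⟨j, hj⟩ : ∃ j, j = n' + k0 + k1 + 2 * N + 1 := ⟨_, rfl⟩
  refine ⟨j + p ^ j + n, fun m hm => ?_⟩
  obtain ⟨e, he⟩ : ∃ e, n' + m = e := ⟨_, rfl⟩
  obtain ⟨f, hf⟩ := μ.exists_alg h.hE he
  have hje : j ≤ e := by omega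
  obtain ⟨z, hz⟩ := Ideal.mem_span_singleton'.1 (E.key_p μ.hb vT h.hN hje (by omega))
  have hnz := hk1 n' m e j he (by omega) hje
  have hpU := E.p_eq μ.Δ e
  have hUm := E.u_mem μ.hb e
  generalize hs : p ^ (e - j) = s at hz hnz
  have hq1 : p ^ e = s * p ^ j := by rw [← hs, ← pow_add, Nat.sub_add_cancel hje]
  have hq2 : p ^ e = p ^ n' * p ^ m := by rw [← pow_add, he]
  have hq3 : p ^ (m - k0) = s * p ^ (k1 + 2 * N + 1) := by
    rw [← hs, ← pow_add]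
    congr 1
    omega
  have l1 : 2 * N ≤ p ^ j := by have := Nat.lt_pow_self (n := j) hp1; omega
  have l2 : 2 * d ≤ p ^ n' := by have := Nat.lt_pow_self (n := n') hp1; omega
  have l3 : 2 ≤ p ^ (k1 + 2 * N + 1) := hp1.trans_le (Nat.le_self_pow (by omega) p)
  have l4 : 2 * (N * s) ≤ p ^ e := by rw [hq1]; nlinarith
  have l5 : 2 * (d * p ^ m) ≤ p ^ e := by rw [hq2, ← mul_assoc]; exact Nat.mul_le_mul_right _ l2
  have l6 : s * 2 ≤ p ^ (m - k0) := hq3 ▸ Nat.mul_le_mul_left s l3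
  generalize hT : E.π μ.Δ e (E.xv vT) = T at hz hnz
  generalize hU : E.π μ.Δ e E.u = U at hz hpU hUm
  obtain ⟨t, ht⟩ : ∃ t, p ^ e = t + N * s := ⟨p ^ e - N * s, by omega⟩
  obtain ⟨α, hα⟩ : ∃ α, α = T ^ s - U ^ t * z := ⟨_, rfl⟩
  obtain ⟨M, _, π, hπ, hker⟩ : ∃ (M : Type) (_ : CommRing M) (π : E.D μ.Δ e →+* M), Function.Surjective π ∧
      ∀ y, π y = 0 ↔ α * y = 0 :=
    ⟨_, _, Ideal.Quotient.mk (col ⊥ α), Ideal.Quotient.mk_surjective, fun y => Ideal.Quotient.eq_zero_iff_mem⟩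
  have u1 : π U ^ (N * s) = 0 := by
    rw [← map_pow, hker, hα]
    rw [mul_pow, ← pow_mul, ht, pow_add] at hz
    linear_combination -hz
  have u2 : π α = π T ^ s := by
    rw [hα, map_sub, map_mul, map_pow π U, pow_eq_zero_of_le (by omega) u1, zero_mul, sub_zero, map_pow]
  have u3 : (p : M) = 0 := by
    rw [← map_natCast π, hpU, map_pow]
    exact pow_eq_zero_of_le (by omega) u1
  have hG := hf.good h.hE (show n ≤ e by omega) (E.xv vT) (E.u ^ N) π (RingHom.Finite.of_surjective π hπ) α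
    (𝔞 := E.𝔣 ⊔ Ideal.span {(p : AW p k d)}) (k0 := k0) (fun 𝒪 _ a' _ => ⟨by
      rw [hT, map_pow π, u2, ← pow_mul, map_pow]
      exact Ideal.mem_span_singleton.2 (pow_dvd_pow _ l6), by
      rw [map_pow, hU, map_pow π, ← map_pow a', ← pow_mul, pow_eq_zero_of_le (Nat.mul_le_mul_left N (by omega)) u1,
        map_zero]⟩) ⟨1, fun b hb => by
      rw [pow_one] at hb
      obtain ⟨b1, h1, b2, h2, rfl⟩ := Submodule.mem_sup.1 hb
      obtain ⟨c, rfl⟩ := Ideal.mem_span_singleton'.1 h2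
      rw [map_add, map_add, E.σ_φ_eq_zero μ.hb e h1, zero_add, map_mul, map_mul, map_mul, map_natCast, map_natCast,
        map_natCast, u3, mul_zero]⟩
  refine ⟨_, hG, Or.inl (Side.of_sand0 _ _ _ _ _ hπ fun y hy => (hker y).1 hy), hf.depth h.hac h.dimf _ _ _, ?_,
    μ.clPos_K P h.sk_f0 h.sk_le (Ideal.mem_sup_right (Ideal.mem_span_singleton_self _)) h.other n' hG.kil⟩
  change α ^ 2 ∉ (maximalIdeal (μ.R n')).map f
  rw [hf.map_max]
  intro hc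
  have v1 : U ∈ idl fun i => E.σ μ.Δ e (MvPowerSeries.X i) := by
    rw [← idl_map]
    exact (Ideal.span_singleton_le_iff_mem _).2 (Ideal.mem_map_of_mem _ (E.g_mem E.u0)) hUm
  have v2 : U ^ t ∈ br (fun i => E.σ μ.Δ e (MvPowerSeries.X i)) (p ^ m) :=
    idl_pow_le_br (by have := h.hac; have := h.pos; omega) _ _
      (Ideal.pow_le_pow_right (by omega) (Ideal.pow_mem_pow v1 t))
  refine hnz ?_
  have e1 : T ^ (4 * s) = T ^ (2 * s) * (α ^ 2 + z * (2 * T ^ s - U ^ t * z) * U ^ t) := by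
    rw [hα]
    ring
  rw [e1]
  exact Ideal.mul_mem_left _ _ (Ideal.add_mem _ hc (Ideal.mul_mem_left _ _ v2))

theorem Mix.KD.upos (h : μ.KD E P a N vT) (L n : ℕ) :
    μ.UPos (μ.mdl E n) (μ.q E n (E.xv vT)) (μ.q E n (E.u ^ N)) E.𝔣 (E.𝔣 ⊔ Ideal.span {(p : AW p k d)}) P a L := by
  exact ⟨fun g hg => μ.mdl_hf E n (Ideal.mem_sup_left hg), h.cov_full L n, h.cov_cut L n,
    2 * d, fun n' hn' k0 => h.fam n hn' k0⟩

end Crest.Agent.R188
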