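import Crest.Agent.R188.SideF3
import Crest.Agent.R188.SideK
import Crest.Agent.R188.EnvH
import Crest.Agent.R188.MixM

/-!
# rid 188, file `Sel`: vanishing and positivity in mixed characteristic

Prefix helper lemmas with `se_`.
-/

set_option autoImplicit false
set_option linter.unusedSectionVars false

open IsLocalRing Crest.Agent.R183

namespace Crest.Agent.R188

variable {p : ℕ} [Fact p.Prime] {k : Type} [Field k] [CharP k p] [IsAlgClosed k] {d : ℕ} (μ : Mix p k d)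

theorem se_anti {A : Type} [CommRing A] {I J : Ideal A} (h : I ≤ J) :
    ringKrullDim (A ⧸ J) ≤ ringKrullDim (A ⧸ I) :=
  ringKrullDim_le_of_surjective (Ideal.Quotient.factor h) (Ideal.Quotient.factor_surjective h)

theorem se_symm {A : Type} [CommRing A] [IsLocalRing A] {I J : Ideal A} (h : Prim I J) : Prim J I := by
  obtain ⟨c, hc⟩ := h
  exact ⟨c, sup_comm I J ▸ hc⟩

/-- `avoid_many` for the ideal `P ⊓ idl X`, `c = d - a`, and the three ideals `(ξ 0)` (dimension `d`: `cls 0`,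
`RegL.dim`), `(p, f0)` (dimension `≤ d - 1`: `dim_pf`) and `I`.  A prime that contains `ξ 0` and `idl X` is maximal
(`max_le`).  `dim_le_of_primes`, `dim_lt_of_lt`, `prim_of_dim`, `Prim.dim`. -/
theorem Mix.exists_f (P : Ideal (AW p k d)) [P.IsPrime] (hξ : μ.ξ 0 ∈ P) {a n : ℕ} (ha : 0 < a)
    (hP : ringKrullDim (AW p k d ⧸ P) = a) (I : Ideal (AW p k d)) (hI : ringKrullDim (AW p k d ⧸ I) ≤ n)
    (hn : n + a ≤ d) (hPI : Prim P I) : ∃ (c : ℕ) (f : Fin c → AW p k d), a + c = d ∧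
      (∀ l, f l ∈ P ∧ f l ∈ idl (MvPowerSeries.X : Fin d → AW p k d)) ∧
      ringKrullDim (AW p k d ⧸ (Ideal.span {μ.ξ 0} ⊔ idl f)) ≤ a ∧
      (∀ 𝔭 : Ideal (AW p k d), 𝔭.IsPrime → Ideal.span {μ.ξ 0} ⊔ idl f ⊔ Ideal.span {(p : AW p k d)} ≤ 𝔭 →
        𝔭 ≠ P → ringKrullDim (AW p k d ⧸ 𝔭) < a) ∧
      Prim (Ideal.span {μ.ξ 0} ⊔ idl f) I := by
  have := μ.noeth
  obtain ⟨d', rfl⟩ : ∃ d', d = d' + 1 := ⟨d - 1, by omega⟩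
  have h0 : ringKrullDim (AW p k (d' + 1) ⧸ Ideal.span {μ.ξ 0}) ≤ (d' + 1 : ℕ) := by
    have := (μ.cls 0).noeth
    exact (μ.cls 0).reg.dim.le
  obtain ⟨f, hf, H⟩ := avoid_many (ι := Fin 3) (P ⊓ idl (MvPowerSeries.X : Fin (d' + 1) → AW p k (d' + 1)))
    ![Ideal.span {μ.ξ 0}, Ideal.span {(p : AW p k (d' + 1)), μ.f0}, I] ![d' + 1, d', n]
    (fun i => by
      fin_cases i
      · exact h0
      · exact lt_succ_iff_le.1 μ.dim_pf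
      · exact hI) (d' + 1 - a)
  have key : ∀ 𝔭 : Ideal (AW p k (d' + 1)), 𝔭.IsPrime → μ.ξ 0 ∈ 𝔭 →
      P ⊓ idl (MvPowerSeries.X : Fin (d' + 1) → AW p k (d' + 1)) ≤ 𝔭 → P ≤ 𝔭 := by
    intro 𝔭 h𝔭 h1 h2
    rcases h𝔭.inf_le.1 h2 with h | h
    · exact h
    · exact (le_maximalIdeal (Ideal.IsPrime.ne_top inferInstance)).trans ((μ.max_le 0).trans
        (sup_le ((Ideal.span_singleton_le_iff_mem _).2 h1) h))
  refine ⟨d' + 1 - a, f, by omega, fun l => hf l, dim_le_of_primes fun 𝔭 h𝔭 hle => ?_,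
    fun 𝔭 h𝔭 hle hne => ?_, prim_of_dim (dim_le_of_primes fun 𝔭 h𝔭 hle => ?_)⟩
  · by_cases h : P ⊓ idl (MvPowerSeries.X : Fin (d' + 1) → AW p k (d' + 1)) ≤ 𝔭
    · exact (se_anti (key 𝔭 h𝔭 (hle (Ideal.mem_sup_left (Ideal.mem_span_singleton_self _))) h)).trans hP.le
    · obtain ⟨e, h1, h2⟩ := H 0 𝔭 h𝔭 hle h
      exact h1.trans (by simp at h2; exact_mod_cast (by omega : e ≤ a))
  · have h1 : μ.ξ 0 ∈ 𝔭 := hle (Ideal.mem_sup_left (Ideal.mem_sup_left (Ideal.mem_span_singleton_self _)))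
    have h2 : (p : AW p k (d' + 1)) ∈ 𝔭 := hle (Ideal.mem_sup_right (Ideal.mem_span_singleton_self _))
    by_cases h : P ⊓ idl (MvPowerSeries.X : Fin (d' + 1) → AW p k (d' + 1)) ≤ 𝔭
    · exact dim_lt_of_lt (lt_of_le_of_ne (key 𝔭 h𝔭 h1 h) hne.symm) hP.le
    · have h3 : μ.f0 ∈ 𝔭 := by
        have := 𝔭.sub_mem h2 h1
        rwa [μ.ξ_zero, sub_sub_cancel] at this
      obtain ⟨e, h4, h5⟩ := H 1 𝔭 h𝔭 (sup_le (Ideal.span_le.2 (by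
        rintro _ (rfl | rfl)
        exacts [h2, h3])) (le_sup_right.trans (le_sup_left.trans hle))) h
      exact h4.trans_lt (by simp at h5; exact_mod_cast (by omega : e < a))
  · by_cases h : P ⊓ idl (MvPowerSeries.X : Fin (d' + 1) → AW p k (d' + 1)) ≤ 𝔭
    · exact (se_anti (sup_le (key 𝔭 h𝔭
        (hle (Ideal.mem_sup_left (Ideal.mem_sup_left (Ideal.mem_span_singleton_self _)))) h)
        (le_sup_right.trans hle))).trans hPI.dim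
    · obtain ⟨e, h1, h2⟩ := H 2 𝔭 h𝔭 (sup_le (le_sup_right.trans hle)
        (le_sup_right.trans (le_sup_left.trans hle))) h
      exact h1.trans (by simp at h2; exact_mod_cast (by omega : e ≤ 0))

/-- `exists_f`, then `exists_FD` or `exists_KD`. -/
theorem Mix.side_pos (P : Ideal (AW p k d)) [P.IsPrime] (hξ : μ.ξ 0 ∈ P) {a n : ℕ} (ha : 0 < a)
    (hP : ringKrullDim (AW p k d ⧸ P) = a) (I : Ideal (AW p k d)) (hI : ringKrullDim (AW p k d ⧸ I) ≤ n)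
    (hn : n + a ≤ d) (hPI : Prim P I) : ∃ (E : MEnv p k d) (𝔞 𝔮 : Ideal (AW p k d)), E.g E.u0 = μ.f0 ∧
      Near P 𝔞 𝔮 a ∧ E.𝔣 ≤ 𝔞 ∧ ringKrullDim (AW p k d ⧸ E.𝔣) ≤ a ∧ Prim E.𝔣 I ∧
      ∀ L : ℕ, ∃ n0 : ℕ, ∀ n1 ≥ n0, ∃ T T' : (μ.mdl E n1).m.E, μ.UPos (μ.mdl E n1) T T' E.𝔣 𝔞 𝔮 a L := by
  have := μ.noeth
  obtain ⟨c, f, hac, hf, h1, h2, h3⟩ := μ.exists_f P hξ ha hP I hI hn hPI
  by_cases hp : (p : AW p k d) ∈ P
  · obtain ⟨E, N, vT, hE, h⟩ := μ.exists_KD P hξ hp ha hac hP f hf h1 h2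
    exact ⟨E, _, _, h.hE, h.near, le_sup_left, h.dimf, hE ▸ h3, fun L => ⟨0, fun n1 _ => ⟨_, _, h.upos L n1⟩⟩⟩
  · obtain ⟨E, vT, vT', hE, h⟩ := μ.exists_FD P hξ hp hac hP f hf (dim_lt_of_primes fun 𝔭 h𝔭 hle =>
      h2 𝔭 h𝔭 hle fun e => hp (e ▸ hle (Ideal.mem_sup_right (Ideal.mem_span_singleton_self _))))
    refine ⟨E, _, _, h.hE, h.near, h.le, h.dimf, hE ▸ h3, fun L => ?_⟩
    obtain ⟨n0, h4⟩ := h.upos_uvan L
    exact ⟨n0, fun n1 h5 => ⟨_, _, (h4 n1 h5).1⟩⟩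

/-- If `p ∈ P` use `sideC`.  Otherwise `0 < a` (a prime of dimension `0` is maximal); use `exists_f`, `exists_FD`. -/
theorem Mix.side_van (P : Ideal (AW p k d)) [P.IsPrime] (hξ : μ.ξ 0 ∈ P) {a n : ℕ}
    (hP : ringKrullDim (AW p k d ⧸ P) = a) (I : Ideal (AW p k d)) (hI : ringKrullDim (AW p k d ⧸ I) ≤ n)
    (hn : n + a ≤ d) (hPI : Prim P I) : ∃ 𝔣 𝔞 𝔮 : Ideal (AW p k d),
      Near P 𝔞 𝔮 a ∧ 𝔣 ≤ 𝔞 ∧ ringKrullDim (AW p k d ⧸ 𝔣) ≤ a ∧ Prim 𝔣 I ∧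
      ((∃ E : MEnv p k d, E.g E.u0 = μ.f0 ∧ E.𝔣 = 𝔣 ∧
          ∀ L : ℕ, ∃ n0 : ℕ, ∀ n1 ≥ n0, ∃ T' : (μ.mdl E n1).m.E, μ.UVan (μ.mdl E n1) T' 𝔣 𝔞 𝔮 a L) ∨
        ∃ md : AMdl p k d, md.a0 μ.f0 = 0 ∧ ∀ L : ℕ, μ.UVan md 0 𝔣 𝔞 𝔮 a L) := by
  have := μ.noeth
  by_cases hp : (p : AW p k d) ∈ P
  · have h3 : μ.f0 ∈ P := by
      have := P.sub_mem hp hξ
      rwa [μ.ξ_zero, sub_sub_cancel] at this
    exact ⟨P, P, P, ⟨inferInstance, le_rfl, hP.le, le_rfl, 1, by simp⟩, le_rfl, hP.le, hPI,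
      Or.inr (μ.sideC P hp h3 hP.le)⟩
  have ha : 0 < a := by
    refine Nat.pos_of_ne_zero fun h => ?_
    subst h
    have h1 : P < maximalIdeal (AW p k d) :=
      lt_of_le_of_ne (le_maximalIdeal (Ideal.IsPrime.ne_top inferInstance)) fun e => hp (e ▸ μ.p_mem)
    exact av_nonneg (maximalIdeal.isMaximal _).ne_top (dim_lt_of_lt h1 hP.le)
  obtain ⟨c, f, hac, hf, h1, h2, h3⟩ := μ.exists_f P hξ ha hP I hI hn hPI
  obtain ⟨E, vT, vT', hE, h⟩ := μ.exists_FD P hξ hp hac hP f hf (dim_lt_of_primes fun 𝔭 h𝔭 hle =>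
    h2 𝔭 h𝔭 hle fun e => hp (e ▸ hle (Ideal.mem_sup_right (Ideal.mem_span_singleton_self _))))
  refine ⟨E.𝔣, _, _, h.near, h.le, h.dimf, hE ▸ h3, Or.inl ⟨E, h.hE, rfl, fun L => ?_⟩⟩
  obtain ⟨n0, h4⟩ := h.upos_uvan L
  exact ⟨n0, fun n1 h5 => ⟨_, (h4 n1 h5).2⟩⟩

/-- Pull the primes back to `A` (`Ideal.map_comap_of_surjective`, `dim_map_of_surj`). -/
theorem Mix.pull {P Q : Ideal (μ.R 0)} (h : Prim P Q) :
    Prim (P.comap (μ.pr 0)) (Q.comap (μ.pr 0)) ∧ μ.ξ 0 ∈ P.comap (μ.pr 0) ∧ (P.comap (μ.pr 0)).map (μ.pr 0) = P ∧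
      ringKrullDim (AW p k d ⧸ P.comap (μ.pr 0)) = ringKrullDim (μ.R 0 ⧸ P) := by
  have := μ.noeth
  have hs : Function.Surjective (μ.pr 0) := Ideal.Quotient.mk_surjective
  have e := Ideal.map_comap_of_surjective (μ.pr 0) hs P
  refine ⟨?_, ?_, e, ?_⟩
  · obtain ⟨c, hc⟩ := h
    refine ⟨c, fun g hg => ?_⟩
    have h1 : (maximalIdeal (AW p k d)).map (μ.pr 0) ≤ maximalIdeal (μ.R 0) := by
      have := μ.mr_loc 0
      exact Ideal.map_le_iff_le_comap.2 fun x hx => map_nonunit _ _ hx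
    have h2 : μ.pr 0 g ∈ P ⊔ Q :=
      hc (Ideal.pow_right_mono h1 c (Ideal.map_pow (μ.pr 0) _ c ▸ Ideal.mem_map_of_mem _ hg))
    obtain ⟨x, hx, y, hy, hxy⟩ := Submodule.mem_sup.1 h2
    obtain ⟨x', rfl⟩ := hs x
    refine Submodule.mem_sup.2 ⟨x', hx, g - x', ?_, by ring⟩
    rw [Ideal.mem_comap, map_sub, ← hxy, add_sub_cancel_left]; exact hy
  · rw [Ideal.mem_comap, μ.mr_ξ]; exact P.zero_mem
  · rw [← dim_map_of_surj (μ.pr 0) hs (Ideal.ker_le_comap _), e]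

/-- `side_pos` for `P` with `I = Q`, then for `Q` with `I = 𝔣1`; `sh2_env`, `mix_pos`. -/
theorem Mix.pos (hV : VanLt d d) (P Q : Ideal (μ.R 0)) [P.IsPrime] [Q.IsPrime] {a b : ℕ} (ha : 0 < a) (hb : 0 < b)
    (hab : a + b = d) (hP : ringKrullDim (μ.R 0 ⧸ P) = a) (hQ : ringKrullDim (μ.R 0 ⧸ Q) = b) (h : Prim P Q) :
    0 < chi (μ.R 0) d (μ.R 0 ⧸ P) (μ.R 0 ⧸ Q) := by
  obtain ⟨p1, p2, p3, p4⟩ := μ.pull h
  obtain ⟨-, q2, q3, q4⟩ := μ.pull (se_symm h)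
  obtain ⟨E1, 𝔞1, 𝔮1, e1, n1, l1, d1, r1, u1⟩ := μ.side_pos _ p2 ha (p4.trans hP) _ (q4.trans hQ).le
    (by omega) p1
  obtain ⟨E2, 𝔞2, 𝔮2, e2, n2, l2, -, r2, u2⟩ := μ.side_pos _ q2 hb (q4.trans hQ) _ d1 (by omega) (se_symm r1)
  obtain ⟨c0, n0, hc0, hS⟩ := μ.sh2_env E1 E2 e1 e2 (se_symm r2)
  have := mix_pos μ hV ha hb hab p2 q2 n1 n2 (se_symm r2) ((se_symm r2).mono l1 l2) hc0 fun L => by
    obtain ⟨m1, h1⟩ := u1 L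
    obtain ⟨m2, h2⟩ := u2 L
    obtain ⟨T1, T1', h1⟩ := h1 (max n0 m1) (le_max_right _ _)
    obtain ⟨T2, T2', h2⟩ := h2 (max n0 m2) (le_max_right _ _)
    exact ⟨_, _, T1, T1', T2, T2', hS _ (le_max_left _ _) _ (le_max_left _ _), h1, h2⟩
  rwa [p3, q3] at this

/-- `side_van` twice; `sh2_env`, `sh2_left`, `sh2_right`, `mix_van`. -/
theorem Mix.van {a b : ℕ} (hV : VanLt d (a + b)) (P Q : Ideal (μ.R 0)) [P.IsPrime] [Q.IsPrime] (hab : a + b < d)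
    (hP : ringKrullDim (μ.R 0 ⧸ P) = a) (hQ : ringKrullDim (μ.R 0 ⧸ Q) = b) (h : Prim P Q) :
    chi (μ.R 0) d (μ.R 0 ⧸ P) (μ.R 0 ⧸ Q) = 0 := by
  obtain ⟨p1, p2, p3, p4⟩ := μ.pull h
  obtain ⟨-, q2, q3, q4⟩ := μ.pull (se_symm h)
  obtain ⟨𝔣1, 𝔞1, 𝔮1, n1, l1, d1, r1, u1⟩ := μ.side_van _ p2 (p4.trans hP) _ (q4.trans hQ).le (by omega) p1
  obtain ⟨𝔣2, 𝔞2, 𝔮2, n2, l2, -, r2, u2⟩ := μ.side_van _ q2 (q4.trans hQ) _ d1 (by omega) (se_symm r1)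
  have key : ∃ c0 : ℕ, 0 < c0 ∧ ∀ L : ℕ, ∃ (md1 md2 : AMdl p k d) (T1' : md1.m.E) (T2' : md2.m.E),
      μ.Sh2 md1 md2 c0 ∧ μ.UVan md1 T1' 𝔣1 𝔞1 𝔮1 a L ∧ μ.UVan md2 T2' 𝔣2 𝔞2 𝔮2 b L := by
    rcases u1 with ⟨E1, e1, rfl, u1⟩ | ⟨md1, e1, u1⟩ <;> rcases u2 with ⟨E2, e2, rfl, u2⟩ | ⟨md2, e2, u2⟩
    · obtain ⟨c0, n0, hc0, hS⟩ := μ.sh2_env E1 E2 e1 e2 (se_symm r2)
      refine ⟨c0, hc0, fun L => ?_⟩
      obtain ⟨m1, h1⟩ := u1 L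
      obtain ⟨m2, h2⟩ := u2 L
      obtain ⟨T1', h1⟩ := h1 (max n0 m1) (le_max_right _ _)
      obtain ⟨T2', h2⟩ := h2 (max n0 m2) (le_max_right _ _)
      exact ⟨_, _, T1', T2', hS _ (le_max_left _ _) _ (le_max_left _ _), h1, h2⟩
    · refine ⟨1, one_pos, fun L => ?_⟩
      obtain ⟨m1, h1⟩ := u1 L
      obtain ⟨T1', h1⟩ := h1 m1 le_rfl
      exact ⟨_, _, T1', 0, μ.sh2_right e2, h1, u2 L⟩
    · refine ⟨1, one_pos, fun L => ?_⟩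
      obtain ⟨m2, h2⟩ := u2 L
      obtain ⟨T2', h2⟩ := h2 m2 le_rfl
      exact ⟨_, _, 0, T2', μ.sh2_left e1, u1 L, h2⟩
    · exact ⟨1, one_pos, fun L => ⟨_, _, 0, 0, μ.sh2_left e1, u1 L, u2 L⟩⟩
  obtain ⟨c0, hc0, H⟩ := key
  have := mix_van μ hV hab p2 q2 n1 n2 (se_symm r2) ((se_symm r2).mono l1 l2) hc0 H
  rwa [p3, q3] at this

end Crest.Agent.R188
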