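import Crest.Agent.R188.EqB
import Crest.Agent.R188.Sel
import Crest.Agent.R188.Pres
import Crest.Agent.R188.Red

/-!
# rid 188, file `Main`: the induction and the reduction

Prefix helper lemmas with `mn_`.
-/

set_option autoImplicit false
set_option linter.unusedSectionVars false

open IsLocalRing Crest.Agent.R183

namespace Crest.Agent.R188

theorem mn_dim {A B : Type} [CommRing A] [CommRing B] (e : A ≃+* B) (I : Ideal B) :
    ringKrullDim (A ⧸ I.comap e) = ringKrullDim (B ⧸ I) :=
  ringKrullDim_eq_of_ringEquiv (Ideal.quotientEquiv (I.comap e) I e (by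
    rw [Ideal.map_coe, Ideal.map_comap_of_surjective e e.surjective]))

/-- Replace `a`, `b` by the exact dimensions (`exists_dim_prime`).  If they add up to `n`, use `exists_pres`,
`chi_equiv`, and `eq_van` or `Mix.van`. -/
theorem van_step {d n : ℕ} (h : VanLt d n) (hn : n < d) : VanLt d (n + 1) := by
  intro R _ _ hR P Q a b hP hQ ha hb hab hPQ
  have := hR.noeth
  obtain ⟨a', ha'⟩ := exists_dim_prime P
  obtain ⟨b', hb'⟩ := exists_dim_prime Q
  have a1 : a' ≤ a := by exact_mod_cast ha'.symm.trans_le ha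
  have b1 : b' ≤ b := by exact_mod_cast hb'.symm.trans_le hb
  by_cases hlt : a' + b' < n
  · exact h R hR P Q a' b' hP hQ ha'.le hb'.le hlt hPQ
  have heq : n = a' + b' := by omega
  subst heq
  rcases exists_pres R hR with ⟨k, _, _, ⟨e⟩⟩ | ⟨p, _, k, _, _, _, μ, ⟨e⟩⟩
  · have := (cls_ps k d).noeth
    obtain ⟨ρ, -, hρ⟩ := chi_equiv (cls_ps k d).reg e
    obtain ⟨h1, h2⟩ := hρ P Q hPQ
    rw [h2, eq_van _ _ ((mn_dim e P).trans ha').le ((mn_dim e Q).trans hb').le hn h1, mul_zero]
  · have := (μ.cls 0).noeth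
    obtain ⟨ρ, -, hρ⟩ := chi_equiv (μ.cls 0).reg e
    obtain ⟨h1, h2⟩ := hρ P Q hPQ
    rw [h2, μ.van h _ _ hn ((mn_dim e P).trans ha') ((mn_dim e Q).trans hb') h1, mul_zero]

theorem vanLt (d n : ℕ) (hn : n ≤ d) : VanLt d n := by
  induction n with
  | zero => exact fun R _ _ _ P Q a b _ _ _ _ hab => absurd hab (Nat.not_lt_zero _)
  | succ n ih => exact van_step (ih (by omega)) (by omega)

/-- If `a = 0` or `b = 0` use `pos_full` (`chi_symm`, `RegL.isDomain`, `RegL.dim`); otherwise `exists_pres`, `chi_equiv`,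
and `eq_pos` or `Mix.pos`. -/
theorem posAll (d : ℕ) : PosAll d := by
  intro R _ _ hR P Q a b hP hQ ha hb hab hPQ
  have := hR.noeth
  have := hR.reg.isDomain
  rcases Nat.eq_zero_or_pos a with rfl | ha0
  · rw [zero_add] at hab
    subst hab
    exact pos_full hR.reg hR.reg.dim hP hb hPQ
  rcases Nat.eq_zero_or_pos b with rfl | hb0
  · rw [add_zero] at hab
    subst hab
    rw [chi_symm hR.reg]
    exact pos_full hR.reg hR.reg.dim hQ ha hPQ.symm
  rcases exists_pres R hR with ⟨k, _, _, ⟨e⟩⟩ | ⟨p, _, k, _, _, _, μ, ⟨e⟩⟩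
  · have := (cls_ps k d).noeth
    obtain ⟨ρ, hρ0, hρ⟩ := chi_equiv (cls_ps k d).reg e
    obtain ⟨h1, h2⟩ := hρ P Q hPQ
    rw [h2]
    exact mul_pos (by exact_mod_cast hρ0) (eq_pos (vanLt d d le_rfl) _ _ ha0 hb0 hab ((mn_dim e P).trans ha)
      ((mn_dim e Q).trans hb) h1)
  · have := (μ.cls 0).noeth
    obtain ⟨ρ, hρ0, hρ⟩ := chi_equiv (μ.cls 0).reg e
    obtain ⟨h1, h2⟩ := hρ P Q hPQ
    rw [h2]
    exact mul_pos (by exact_mod_cast hρ0) (μ.pos (vanLt d d le_rfl) _ _ ha0 hb0 hab ((mn_dim e P).trans ha)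
      ((mn_dim e Q).trans hb) h1)

variable {R : Type} [CommRing R] [IsLocalRing R] [IsNoetherianRing R] {d : ℕ}

/-- `exists_cls_ext`, `chi_bc`, `dim_map_of_flat`, `Prim.map`, `chi_low`. -/
theorem van_reg (hR : RegL R d) (P Q : Ideal R) {a b : ℕ} (hP : ringKrullDim (R ⧸ P) ≤ a)
    (hQ : ringKrullDim (R ⧸ Q) ≤ b) (hab : a + b < d) (h : Prim P Q) : chi R d (R ⧸ P) (R ⧸ Q) = 0 := by
  obtain ⟨B, _, _, f, hf, hu, hB⟩ := exists_cls_ext R hR
  have := hB.noeth
  have := gf_local hu
  have hc : maximalIdeal B ^ 1 ≤ (maximalIdeal R).map f := by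
    rw [pow_one]
    exact le_of_eq hu.symm
  obtain ⟨ρ, hρ0, hρ⟩ := chi_bc hR f hf hc
  have h1 := hρ P Q h
  rw [chi_low (vanLt d d le_rfl) hB (tr_kil _) (tr_kil _) (h.map f hc)
    ((dim_map_of_flat f hf hc P).trans_le hP) ((dim_map_of_flat f hf hc Q).trans_le hQ) hab] at h1
  exact (mul_eq_zero.1 h1.symm).resolve_left (by exact_mod_cast hρ0.ne')

/-- The same with `pos_modules` over the extension. -/
theorem pos_reg (hR : RegL R d) (P Q : Ideal R) {a b : ℕ} (hP : ringKrullDim (R ⧸ P) = a)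
    (hQ : ringKrullDim (R ⧸ Q) = b) (hab : a + b = d) (h : Prim P Q) : 0 < chi R d (R ⧸ P) (R ⧸ Q) := by
  obtain ⟨B, _, _, f, hf, hu, hB⟩ := exists_cls_ext R hR
  have := hB.noeth
  have := gf_local hu
  have hc : maximalIdeal B ^ 1 ≤ (maximalIdeal R).map f := by
    rw [pow_one]
    exact le_of_eq hu.symm
  obtain ⟨ρ, hρ0, hρ⟩ := chi_bc hR f hf hc
  have h1 := hρ P Q h
  have h2 : 0 < chi B d (B ⧸ P.map f) (B ⧸ Q.map f) := by
    refine pos_modules hB.reg (vanLt d d le_rfl B hB) (posAll d B hB) (a := a) (b := b) ?_ ?_ hab ?_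
    · rw [Ideal.annihilator_quotient]
      exact (dim_map_of_flat f hf hc P).trans hP
    · rw [Ideal.annihilator_quotient]
      exact (dim_map_of_flat f hf hc Q).trans hQ
    · rw [Ideal.annihilator_quotient, Ideal.annihilator_quotient]
      exact h.map f hc
  rw [h1] at h2
  exact (pos_iff_pos_of_mul_pos h2).1 (by exact_mod_cast hρ0)

omit [IsNoetherianRing R] in
theorem mn_kil {M : Type} [AddCommGroup M] [Module R M] (h : IsFiniteLength R M) :
    ∃ c : ℕ, maximalIdeal R ^ c ≤ Module.annihilator R M := by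
  obtain ⟨_, _⟩ := isFiniteLength_iff_isNoetherian_isArtinian.1 h
  obtain ⟨c, hc⟩ := IsArtinian.monotone_stabilizes (R := R) (M := M)
    ⟨fun n => OrderDual.toDual (maximalIdeal R ^ n • (⊤ : Submodule R M)), fun m n hmn =>
      Submodule.smul_mono_left (Ideal.pow_le_pow_right hmn)⟩
  have h1 : (maximalIdeal R ^ c • (⊤ : Submodule R M)) = maximalIdeal R ^ (c + 1) • (⊤ : Submodule R M) :=
    hc (c + 1) (Nat.le_succ c)
  have h2 : (maximalIdeal R ^ c • (⊤ : Submodule R M)) = ⊥ := by
    refine Submodule.eq_bot_of_le_smul_of_le_jacobson_bot (maximalIdeal R) _ (IsNoetherian.noetherian _) ?_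
      (maximalIdeal_le_jacobson _)
    rw [← Submodule.mul_smul, ← pow_succ']
    exact h1.le
  refine ⟨c, fun y hy => Module.mem_annihilator.2 fun m => ?_⟩
  have h3 : y • m ∈ (maximalIdeal R ^ c • (⊤ : Submodule R M)) := Submodule.smul_mem_smul hy trivial
  rwa [h2, Submodule.mem_bot] at h3

theorem mn_add {x y : WithBot ℕ∞} {d : ℕ} (h : x + y = d) : ∃ a b : ℕ, x = a ∧ y = b ∧ a + b = d := by
  induction x using WithBot.recBotCoe with
  | bot => simp at h
  | coe x =>
    induction y using WithBot.recBotCoe with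
    | bot => simp at h
    | coe y =>
      have h1 : x + y = (d : ℕ∞) := by exact_mod_cast h
      have hx : x ≠ ⊤ := by
        rintro rfl
        simp at h1
      have hy : y ≠ ⊤ := by
        rintro rfl
        simp at h1
      lift x to ℕ using hx
      lift y to ℕ using hy
      exact ⟨x, y, rfl, rfl, by exact_mod_cast h1⟩

/-- A prime that contains both annihilators lies in the support of `M ⊗ N` (`Module.support_tensorProduct` or
localise and use Nakayama); a module of finite length is killed by a power of `𝔪`.  Then `prim_of_dim` or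
`Ideal.exists_pow_le_of_le_radical_of_fg`. -/
theorem prim_ann {M N : Type} [AddCommGroup M] [Module R M] [Module.Finite R M] [AddCommGroup N] [Module R N]
    [Module.Finite R N] (h : IsFiniteLength R (TensorProduct R M N)) :
    Prim (Module.annihilator R M) (Module.annihilator R N) := by
  obtain ⟨c, hc⟩ := mn_kil h
  refine prim_of_dim (dim_le_of_primes fun P hP hle => ?_)
  have h1 : (⟨P, hP⟩ : PrimeSpectrum R) ∈ Module.support R M :=
    Module.mem_support_iff_of_finite.2 (le_sup_left.trans hle)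
  have h2 : (⟨P, hP⟩ : PrimeSpectrum R) ∈ Module.support R N :=
    Module.mem_support_iff_of_finite.2 (le_sup_right.trans hle)
  have h3 : (⟨P, hP⟩ : PrimeSpectrum R) ∈ Module.support R (TensorProduct R M N) := by
    rw [Module.mem_support_iff_nontrivial_residueField_tensorProduct] at h1 h2 ⊢
    rw [(TensorProduct.AlgebraTensorModule.distribBaseChange R _ M N).nontrivial_congr]
    infer_instance
  have h4 : maximalIdeal R ^ c ≤ P := hc.trans (Module.mem_support_iff_of_finite.1 h3)
  have h5 : Prim P ⊥ := ⟨c, h4.trans le_sup_left⟩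
  have h6 := h5.dim
  rwa [sup_bot_eq] at h6

/-- `Module.supportDim_eq_ringKrullDim_quotient_annihilator`; both dimensions are natural numbers. -/
theorem serre (hR : RegL R d) {M N : Type} [AddCommGroup M] [Module R M] [Module.Finite R M] [AddCommGroup N]
    [Module R N] [Module.Finite R N] (hlen : IsFiniteLength R (TensorProduct R M N))
    (hdim : Module.supportDim R M + Module.supportDim R N = d) : 0 < chi R d M N := by
  rw [Module.supportDim_eq_ringKrullDim_quotient_annihilator,
    Module.supportDim_eq_ringKrullDim_quotient_annihilator] at hdim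
  obtain ⟨a, b, ha, hb, hab⟩ := mn_add hdim
  exact pos_modules hR (fun P Q a b _ _ => van_reg hR P Q) (fun P Q a b _ _ => pos_reg hR P Q) ha hb hab
    (prim_ann hlen)

end Crest.Agent.R188
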