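import Crest.Agent.R188.TorB
import Crest.Agent.R188.CoreB

/-!
# rid 188, file `MidA`: level one computes `Tor`

Prefix helper lemmas with `ma_`.
-/

set_option autoImplicit false

open IsLocalRing Crest.Agent.R183

namespace Crest.Agent.R188

open Matrix Kronecker

variable {R : Type} [CommRing R] [IsLocalRing R] {U : Setup R} {n n' : ℕ}

omit [IsLocalRing R] in
theorem ma_tO (U : Setup R) (m : ℕ) : U.tO ^ m = U.j (U.ρ (U.t ^ m)) := by
  rw [Setup.tO, map_pow, map_pow]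

theorem ma_comap (h : U.OK) {m : ℕ} (hm : m ≤ 4 * U.c) {y : R} (hy : U.ρ y ∈ Ideal.span {U.ρ (U.t ^ m)}) :
    y ∈ Ideal.span {U.t ^ m} := by
  obtain ⟨l, hl⟩ := Ideal.mem_span_singleton'.1 hy
  obtain ⟨l0, rfl⟩ := h.surj l
  have h1 : y - l0 * U.t ^ m ∈ Ideal.span {U.ϖ} := (h.ker _).1 (by rw [map_sub, map_mul, hl, sub_self])
  have h2 : U.ϖ ∈ Ideal.span {U.t ^ m} := by
    rcases h.cases with ⟨h0, -⟩ | ⟨-, -, h4⟩
    · rw [h0]; exact zero_mem _
    · exact Ideal.span_singleton_le_span_singleton.2 (pow_dvd_pow _ hm) h4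
  have h3 := (Ideal.span_singleton_le_iff_mem _).2 h2 h1
  simpa using add_mem h3 (Ideal.mul_mem_left _ l0 (Ideal.mem_span_singleton_self (U.t ^ m)))

theorem ma_lev (h : U.OK) (k : ℕ) (b : U.O) :
    U.ev b ∈ Ideal.span {U.ρ (U.t ^ (k * U.c))} ↔ b ∈ lev U.s U.tO U.c k 1 := by
  have hs : U.ev U.s = 0 := (h.thick.ker_ev _).2 (Ideal.mem_span_singleton_self _)
  rw [cb_mem, ma_tO, pow_one, Ideal.mem_span_singleton']
  constructor
  · rintro ⟨l, hl⟩
    obtain ⟨u, hu⟩ := Ideal.mem_span_singleton'.1 ((h.thick.ker_ev (b - U.j l * U.j (U.ρ (U.t ^ (k * U.c))))).1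
      (by rw [map_sub, map_mul, h.thick.ev_j, h.thick.ev_j, hl, sub_self]))
    exact ⟨U.j l, u, by rw [hu]; ring⟩
  · rintro ⟨y, u, rfl⟩
    exact ⟨U.ev y, by rw [map_add, map_mul, map_mul, h.thick.ev_j, hs, mul_zero, add_zero]⟩

theorem ma_t_ne (h : U.OK) (h0 : U.ϖ ≠ 0) (h4 : U.ϖ ∈ Ideal.span {U.t ^ (4 * U.c)}) : U.t ≠ 0 := by
  intro ht
  rw [ht, zero_pow (by have := h.cpos; omega), Ideal.span_singleton_zero] at h4
  exact h0 h4

theorem Setup.OK.tok [IsDomain R] (h : U.OK) : TOK U.s U.tO U.c (2 * U.r - 1) := by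
  refine ⟨h.cpos, fun j k J b hJ hb => ?_, ?_⟩
  · unfold lev at hb ⊢
    rw [ma_tO] at hb ⊢
    exact h.thick.P1 _ k J b hJ hb
  · rcases h.cases with ⟨-, ht⟩ | ⟨h0, -, h4⟩
    · left
      rw [Setup.tO, ht, map_zero, map_zero]
    · right
      intro J hJ y hy
      unfold lev at hy ⊢
      rw [ma_tO, ma_tO] at hy
      rw [ma_tO]
      refine h.thick.P2 _ _ _ (fun z hz => ?_) J hJ y hy
      obtain ⟨z, rfl⟩ := h.surj z
      rw [← map_mul] at hz
      obtain ⟨b, hb⟩ := Ideal.mem_span_singleton'.1 (ma_comap h le_rfl hz)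
      have e : z = b * U.t ^ (2 * U.c) := by
        apply mul_left_cancel₀ (pow_ne_zero (2 * U.c) (ma_t_ne h h0 h4))
        rw [← hb]; ring
      rw [e, map_mul]
      exact Ideal.mul_mem_left _ _ (Ideal.mem_span_singleton_self _)

omit [IsLocalRing R] in
theorem ma_hon (F : MC R n) (I2 : Ideal R) (i : ℕ) : (F.vcx R ⊥ I2 ⊥).h i = F.tl R i := by
  have e : (⊥ : Submodule R (F.ι → R)).comap LinearMap.id = piI R F.ι ⊥ := by
    ext w
    rw [mem_piI]
    simp [funext_iff]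
  exact h_eq_of_surj (F.vcx R ⊥ I2 ⊥) (hon (F.cx R R)) LinearMap.id Function.surjective_id
    ⟨fun _ => rfl, fun _ _ => rfl⟩ e e i

omit [IsLocalRing R] in
theorem ma_tf {ι : Type} {t : R} (ht : ∀ y : R, t * y = 0 → y = 0) (m : ℕ) {w : ι → R} (h : t ^ m • w = 0) :
    w = 0 := by
  induction m with
  | zero => simpa using h
  | succ m ih =>
    refine ih (funext fun a => ht _ ?_)
    have := congrFun h a
    simp only [Pi.smul_apply, smul_eq_mul, Pi.zero_apply] at this ⊢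
    rw [← this]; ring

omit [IsLocalRing R] in
theorem ma_div {ι : Type} {u : R} {w : ι → R} (h : ∀ a, w a ∈ Ideal.span {u}) : ∃ y : ι → R, w = u • y := by
  choose y hy using fun a => Ideal.mem_span_singleton'.1 (h a)
  exact ⟨y, funext fun a => by rw [← hy a, Pi.smul_apply, smul_eq_mul, mul_comm]⟩

/-- Virtual homology of a `t`-torsion-free complex whose homology is killed by `t^c`.  Use `h_eq_of_map` for the
identity.  If `D x = t^(3c) y` then `D y = 0`, `t^c y = D w`, and `x - t^(2c) w` is a cycle.  If a cycle is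
`D y + t^c w` then `D w = 0`. -/
theorem h_virtual (F : MC R n) {t : R} {c : ℕ} (ht : ∀ y : R, t * y = 0 → y = 0)
    (hK : ∀ w : F.ι → R, F.D *ᵥ w = 0 → ∃ v, F.D *ᵥ v = t ^ c • w) (I2 : Ideal R) (i : ℕ) :
    (F.vcx R (Ideal.span {t ^ c}) I2 (Ideal.span {t ^ (3 * c)})).h i = F.tl R i := by
  rw [← ma_hon F ⊥ i]
  symm
  refine h_eq_of_map _ _ LinearMap.id i (fun x hx => ?_) (fun z hz => ?_) (fun x hx => ?_)
  · rw [LinearMap.id_apply, MC.mem_Z]
    rw [MC.mem_Z] at hx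
    exact ⟨hx.1, fun a => bot_le (a := Ideal.span {t ^ (3 * c)}) (hx.2 a)⟩
  · rw [MC.mem_Z] at hz
    obtain ⟨y, hy⟩ := ma_div hz.2
    have hDy : F.D *ᵥ y = 0 := ma_tf ht (3 * c) (by rw [← mulVec_smul, ← hy, cb_DD])
    obtain ⟨w, hw⟩ := hK y hDy
    have hc : F.D *ᵥ (z - t ^ (2 * c) • w) = 0 := by
      rw [mulVec_sub, mulVec_smul, hw, hy, smul_smul, ← pow_add, show 2 * c + c = 3 * c by ring, sub_self]
    refine ⟨prj R F.deg R i (z - t ^ (2 * c) • w), ?_, ?_⟩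
    · rw [MC.mem_Z]
      refine ⟨fun a ha => by rw [prj_apply, if_neg ha], fun a => ?_⟩
      cases i with
      | zero => rw [lf_D_prj0]; exact zero_mem _
      | succ i => rw [lf_D_prj, hc, map_zero]; exact zero_mem _
    · rw [MC.mem_N]
      refine ⟨0, fun a => ?_⟩
      rw [mulVec_zero, LinearMap.id_apply, Pi.zero_apply, sub_zero, Pi.sub_apply, prj_apply]
      split_ifs with ha
      · rw [Pi.sub_apply, sub_sub_cancel, Pi.smul_apply, smul_eq_mul, two_mul, pow_add, mul_assoc]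
        exact Ideal.mul_mem_right _ _ (Ideal.mem_span_singleton_self _)
      · rw [hz.1 a ha, sub_zero]
        exact zero_mem _
  · rw [LinearMap.id_apply, MC.mem_N, MC.mem_N]
    rw [MC.mem_Z] at hx
    have hx0 : F.D *ᵥ x = 0 := funext fun a => hx.2 a
    constructor
    · rintro ⟨y, hy⟩
      obtain ⟨w, hw⟩ := ma_div (w := x - F.D *ᵥ y) hy
      have hDw : F.D *ᵥ w = 0 := ma_tf ht c (by rw [← mulVec_smul, ← hw, mulVec_sub, hx0, cb_DD, sub_zero])
      obtain ⟨v, hv⟩ := hK w hDw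
      refine ⟨y + v, fun a => ?_⟩
      rw [mulVec_add, hv, ← hw]
      simp
    · rintro ⟨y, hy⟩
      exact ⟨y, fun a => bot_le (a := Ideal.span {t ^ c}) (hy a)⟩

theorem ma_surj {S O O' : Type} [CommRing S] [CommRing O] [CommRing O'] [Algebra S O] [Algebra S O']
    (f : O →+* O') (hf : Function.Surjective f) (ha : ∀ r, f (algebraMap S O r) = algebraMap S O' r) (G : MC O n)
    {I1 I2 I3 : Ideal O} {I1' I2' I3' : Ideal O'} (h1 : ∀ b, f b ∈ I1' ↔ b ∈ I1) (h3 : ∀ b, f b ∈ I3' ↔ b ∈ I3)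
    (i : ℕ) : (G.vcx S I1 I2 I3).h i = ((G.map f).vcx S I1' I2' I3').h i := by
  let g : (G.ι → O) →ₗ[S] (G.ι → O') :=
    { toFun := fun w a => f (w a)
      map_add' := fun w w' => funext fun a => map_add f _ _
      map_smul' := fun r w => funext fun a => by
        simp only [Pi.smul_apply, Algebra.smul_def, map_mul, ha, RingHom.id_apply] }
  have e : ∀ {I : Ideal O} {I' : Ideal O'}, (∀ b, f b ∈ I' ↔ b ∈ I) →
      (piI S G.ι I').comap g = piI S G.ι I := fun hI => by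
    ext w
    rw [Submodule.mem_comap, mem_piI, mem_piI]
    exact forall_congr' fun a => hI _
  refine h_eq_of_surj (G.vcx S I1 I2 I3) ((G.map f).vcx S I1' I2' I3') g (fun w => ?_) ⟨fun x => ?_, fun j x => ?_⟩
    (e h1) (e h3) i
  · choose v hv using fun a => hf (w a)
    exact ⟨v, funext hv⟩
  · change g (mact S G.D O x) = mact S (G.D.map f) O' (g x)
    rw [mact_self, mact_self]
    exact funext fun a => RingHom.map_mulVec f G.D x a
  · funext a
    change f (prj S G.deg O j x a) = prj S G.deg O' j (g x) a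
    rw [prj_apply, prj_apply]
    split_ifs
    · rfl
    · exact map_zero f

theorem ma_D (h : U.OK) (F1 : MC R n) (F2 : MC R n') :
    (U.G F1 F2).D.map U.ev = (F1.ten F2).D.map U.ρ := by
  refine (ten_map_D ((F1.map U.ρ).map U.j) ((F2.map U.ρ).map U.τ) U.ev).trans ?_
  rw [ten_map_D, tn_D, tn_D]
  have e1 : (((F1.map U.ρ).map U.j).map U.ev).D = (F1.map U.ρ).D := by
    ext a b
    exact h.thick.ev_j _
  have e2 : (((F2.map U.ρ).map U.τ).map U.ev).D = (F2.map U.ρ).D := by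
    ext a b
    exact h.evτ _
  rw [e1, e2]
  rfl

theorem ma_G (h : U.OK) (F1 : MC R n) (F2 : MC R n') : (U.G F1 F2).map U.ev = (F1.ten F2).map U.ρ := by
  have key : ∀ (G : MC U.Λ (n + n')) (D D' : Matrix G.ι G.ι U.Λ) (_ : D = D') h1 h2 h1' h2',
      (⟨G.ι, G.deg, G.deg_le, D, h1, h2⟩ : MC U.Λ (n + n')) = ⟨G.ι, G.deg, G.deg_le, D', h1', h2'⟩ := by
    intro G D D' e h1 h2 h1' h2'
    subst e
    rfl
  exact key ((F1.ten F2).map U.ρ) _ _ (ma_D h F1 F2) ((U.G F1 F2).map U.ev).hD ((U.G F1 F2).map U.ev).sq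
    ((F1.ten F2).map U.ρ).hD ((F1.ten F2).map U.ρ).sq

theorem ma_kill [IsNoetherianRing R] (h : U.OK) (ht : ∀ y : R, U.t * y = 0 → y = 0) (hm : U.t ∈ maximalIdeal R)
    (F1 : MC R n) (F2 : MC R n') (hK : (U.G F1 F2).Kill U.s U.tO U.c 1) (w : (F1.ten F2).ι → R)
    (hw : (F1.ten F2).D *ᵥ w = 0) : ∃ v, (F1.ten F2).D *ᵥ v = U.t ^ U.c • w := by
  let F := F1.ten F2
  have hev : ∀ (x : F.ι → U.O) (y : F.ι → R), (∀ a, U.ev (x a) = U.ρ (y a)) → ∀ a,
      U.ev (((U.G F1 F2).D *ᵥ x) a) = U.ρ ((F.D *ᵥ y) a) := fun x y hxy a => by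
    have e1 := RingHom.map_mulVec U.ev (U.G F1 F2).D x a
    have e2 := RingHom.map_mulVec U.ρ F.D y a
    rw [ma_D h] at e1
    rw [e1, e2]
    congr 1
    exact funext hxy
  have step : ∀ z : F.ι → R, F.D *ᵥ z = 0 → ∃ v z', F.D *ᵥ z' = 0 ∧
      U.t ^ U.c • z = F.D *ᵥ v + U.t ^ U.c • U.t ^ U.c • z' := fun z hz => by
    obtain ⟨v, hv⟩ := hK (fun a => U.j (U.ρ (z a))) fun a => (ma_lev h 2 _).1 (by
      have := hev (fun a => U.j (U.ρ (z a))) z (fun a => h.thick.ev_j _) a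
      rw [hz] at this
      exact (this.trans (map_zero U.ρ)) ▸ zero_mem _)
    choose v' hv' using fun a => h.surj (U.ev (v a))
    have h2 : ∀ a, (U.t ^ U.c • z - F.D *ᵥ v') a ∈ Ideal.span {U.t ^ (2 * U.c)} := fun a => by
      refine ma_comap h (by omega) ?_
      have := (ma_lev h 2 _).2 (hv a)
      rw [map_sub, map_mul, ma_tO, h.thick.ev_j, h.thick.ev_j] at this
      have e := hev v v' (fun a => (hv' a).symm) a
      rw [Pi.sub_apply, Pi.smul_apply, smul_eq_mul, map_sub, map_mul, ← e]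
      exact this
    obtain ⟨z', hz'⟩ := ma_div h2
    refine ⟨v', z', ma_tf ht (2 * U.c) ?_, ?_⟩
    · rw [← mulVec_smul, ← hz', mulVec_sub, mulVec_smul, hz, cb_DD, smul_zero, sub_zero]
    · rw [smul_smul, ← pow_add, ← two_mul, ← hz', add_sub_cancel]
  have hle : (LinearMap.ker F.D.mulVecLin).map (LinearMap.lsmul R (F.ι → R) (U.t ^ U.c)) ≤
      LinearMap.range F.D.mulVecLin := by
    refine Submodule.le_of_le_smul_of_le_jacobson_bot (IsNoetherian.noetherian _) (maximalIdeal_le_jacobson ⊥) ?_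
    rintro _ ⟨z, hz, rfl⟩
    obtain ⟨v, z', h1, h2⟩ := step z hz
    rw [LinearMap.lsmul_apply, h2]
    exact Submodule.add_mem_sup ⟨v, rfl⟩
      (Submodule.smul_mem_smul (Ideal.pow_mem_of_mem _ hm _ h.cpos) ⟨z', h1, rfl⟩)
  exact hle ⟨w, hw, rfl⟩

/-- Let `F = F1.ten F2` over `R`.  The maps `ev : O → Λ` and `ρ : R → Λ` are surjective and `R`-linear; by
`h_eq_of_surj` (twice; `ten_map_D`, `evτ`; give `Λ` the algebra structure `ρ`) the level one homology is that of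
`F.vcx R (t^c, ϖ) _ (t^(3c), ϖ)`.  If `ϖ = t = 0` this is honest.  Otherwise `ϖ ∈ (t^(4c))`, and `Kill` at level
one gives `t^c Z ≤ B + t^(2c) Z` for the honest cycles and boundaries of `F`, so `t^c Z ≤ B` by Nakayama; use
`h_virtual`.  Finish with `tl_ten_right` and `tor_eq_tl`. -/
theorem Setup.OK.lv_one [IsNoetherianRing R] [IsDomain R] (h : U.OK) {X1 X2 : Type} [AddCommGroup X1] [Module R X1]
    [AddCommGroup X2] [Module R X2] {F1 : MC R n} {F2 : MC R n'} {ε1 : (F1.ι → R) →ₗ[R] X1}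
    {ε2 : (F2.ι → R) →ₗ[R] X2} (h1 : F1.Res ε1) (h2 : F2.Res ε2) (hK : (U.G F1 F2).Kill U.s U.tO U.c 1)
    (i : ℕ) : (U.lv (U.G F1 F2) 1).h i = tor R i X1 X2 := by
  let : Algebra R U.Λ := U.ρ.toAlgebra
  have hρ : ∀ k, k ≤ 4 → ∀ b : R, U.ρ b ∈ Ideal.span {U.ρ (U.t ^ (k * U.c))} ↔
      b ∈ Ideal.span {U.t ^ (k * U.c)} := fun k hk b =>
    ⟨ma_comap h (Nat.mul_le_mul_right _ hk), fun hb => by
      obtain ⟨y, rfl⟩ := Ideal.mem_span_singleton'.1 hb
      rw [map_mul]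
      exact Ideal.mul_mem_left _ _ (Ideal.mem_span_singleton_self _)⟩
  have e1 := ma_surj (S := R) U.ev (fun l => ⟨U.j l, h.thick.ev_j l⟩) (fun r => h.thick.ev_j _) (U.G F1 F2)
    (I2 := lev U.s U.tO U.c 2 1) (I2' := ⊥) (ma_lev h 1) (ma_lev h 3) i
  have e2 := ma_surj (S := R) U.ρ h.surj (fun r => rfl) (F1.ten F2)
    (I2 := ⊥) (I2' := ⊥) (hρ 1 (by norm_num)) (hρ 3 (by norm_num)) i
  rw [ma_G h] at e1
  rw [tor_eq_tl h2, ← tl_ten_right h1]
  refine (e1.trans e2.symm).trans ?_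
  rw [one_mul]
  rcases h.cases with ⟨-, ht⟩ | ⟨h0, hm, h4⟩
  · have hc := h.cpos
    rw [ht, zero_pow hc.ne', zero_pow (by omega), Ideal.span_singleton_zero]
    exact ma_hon _ _ _
  · have ht : ∀ y : R, U.t * y = 0 → y = 0 := fun y hy =>
      (mul_eq_zero.1 hy).resolve_left (ma_t_ne h h0 h4)
    exact h_virtual _ ht (ma_kill h ht hm F1 F2 hK) _ _

theorem Setup.OK.lv_chi [IsNoetherianRing R] [IsDomain R] (h : U.OK) {d : ℕ} (hR : RegL R d) {X1 X2 : Type}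
    [AddCommGroup X1] [Module R X1] [AddCommGroup X2] [Module R X2] [Module.Finite R X2] {F1 F2 : MC R d}
    {ε1 : (F1.ι → R) →ₗ[R] X1} {ε2 : (F2.ι → R) →ₗ[R] X2} (h1 : F1.Res ε1) (h2 : F2.Res ε2)
    (hK : (U.G F1 F2).Kill U.s U.tO U.c 1) : (U.lv (U.G F1 F2) 1).chi = chi R d X1 X2 := by
  unfold VCx.chi chi
  simp only [h.lv_one h1 h2 hK]
  symm
  refine Finset.sum_subset (Finset.range_subset_range.2 (by omega)) fun i _ hi => ?_
  rw [tor_gt hR (by simpa using hi)]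
  simp

omit [IsLocalRing R] in
/-- `Act.exists_map`, `Act.exists_tenL`, `Act.exists_tenR`; the two actions commute on the nose. -/
theorem Setup.exists_acts (U : Setup R) {X1 X2 : Type} [CommRing X1] [Algebra R X1] [CommRing X2] [Algebra R X2]
    {F1 : MC R n} {F2 : MC R n'} (B1 : Act F1 (algebraMap R X1) (RingHom.id R))
    (B2 : Act F2 (algebraMap R X2) (RingHom.id R)) :
    ∃ (A1 : Act (U.G F1 F2) (algebraMap R X1) U.j1) (A2 : Act (U.G F1 F2) (algebraMap R X2) U.j2),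
      (∀ y1 y2, A1.L y1 * A2.L y2 = (((B1.L y1).map U.ρ).map U.j) ⊗ₖ (((B2.L y2).map U.ρ).map U.τ)) ∧
      ∀ y1 y2, Htp (U.G F1 F2) (U.G F1 F2) (A1.L y1 * A2.L y2) (A2.L y2 * A1.L y1) := by
  obtain ⟨C1, c1⟩ := B1.exists_map U.ρ U.ρ fun _ => rfl
  obtain ⟨D1, d1⟩ := C1.exists_map U.j U.j1 fun _ => rfl
  obtain ⟨C2, c2⟩ := B2.exists_map U.ρ U.ρ fun _ => rfl
  obtain ⟨D2, d2⟩ := C2.exists_map U.τ U.j2 fun _ => rfl
  obtain ⟨A1, a1⟩ := D1.exists_tenL ((F2.map U.ρ).map U.τ)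
  obtain ⟨A2, a2⟩ := D2.exists_tenR ((F1.map U.ρ).map U.j)
  have e1 : ∀ y1 y2, A1.L y1 * A2.L y2 = D1.L y1 ⊗ₖ D2.L y2 := fun y1 y2 => by
    rw [a1, a2]
    exact (Matrix.mul_kronecker_mul _ _ _ _).symm.trans (by rw [Matrix.mul_one, Matrix.one_mul])
  have e2 : ∀ y1 y2, A2.L y2 * A1.L y1 = D1.L y1 ⊗ₖ D2.L y2 := fun y1 y2 => by
    rw [a1, a2]
    exact (Matrix.mul_kronecker_mul _ _ _ _).symm.trans (by rw [Matrix.mul_one, Matrix.one_mul])
  refine ⟨A1, A2, fun y1 y2 => (e1 y1 y2).trans (by rw [d1, d2, c1, c2]; rfl), fun y1 y2 => ?_⟩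
  have e : A2.L y2 * A1.L y1 = A1.L y1 * A2.L y2 := (e2 y1 y2).trans (e1 y1 y2).symm
  exact e ▸ Htp.refl _

omit [IsLocalRing R] in
theorem Setup.RelS.map {X1 X2 Y1 Y2 : Type} [CommRing X1] [Algebra R X1] [CommRing X2] [Algebra R X2]
    [CommRing Y1] [Algebra R Y1] [CommRing Y2] [Algebra R Y2] {c0 : ℕ} (h : U.RelS X1 X2 c0) (f1 : X1 →ₐ[R] Y1)
    (f2 : X2 →ₐ[R] Y2) : U.RelS Y1 Y2 c0 := by
  intro 𝒪 _ θ a b hc
  have := h 𝒪 θ (a.comp (f1 : X1 →+* Y1)) (b.comp (f2 : X2 →+* Y2))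
    ⟨fun r => by rw [hc.1 r, RingHom.comp_apply, RingHom.coe_coe, AlgHom.commutes],
      fun r => by rw [hc.2 r, RingHom.comp_apply, RingHom.coe_coe, AlgHom.commutes]⟩
  simpa only [map_zero] using this

end Crest.Agent.R188
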