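import Crest.Agent.R188.MixR

/-!
# rid 188, file `MixC`: the relations in mixed characteristic

Prefix helper lemmas with `mc_`.
-/

set_option autoImplicit false

open IsLocalRing Crest.Agent.R183

namespace Crest.Agent.R188

variable {p : ℕ} [Fact p.Prime] {k : Type} [Field k] [CharP k p] [IsAlgClosed k] {d : ℕ} {μ : Mix p k d}
  {md1 md2 : AMdl p k d} {T1 T1' : md1.m.E} {T2 T2' : md2.m.E} {𝔣1 𝔣2 𝔞1 𝔞2 : Ideal (AW p k d)} {n' m k0 : ℕ}
  {S1 S2 : Side (μ.R n')} {U : Setup (μ.R n')}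

theorem Mix.Good.prim (g1 : μ.Good md1 T1 T1' 𝔣1 𝔞1 n' m k0 S1) (g2 : μ.Good md2 T2 T2' 𝔣2 𝔞2 n' m k0 S2)
    (hP : Prim 𝔣1 𝔣2) :
    Prim (RingHom.ker (algebraMap (μ.R n') S1.D)) (RingHom.ker (algebraMap (μ.R n') S2.D)) := by
  obtain ⟨c, hc⟩ := hP
  obtain ⟨c', hc'⟩ := μ.max_pow_le n'
  have h1 : maximalIdeal (μ.R n') ≤ (maximalIdeal (AW p k d)).map (μ.pr n') := by
    rw [← μ.max_eq n', ← idl_map]
    exact Ideal.map_mono μ.idl_le
  have h2 : maximalIdeal (μ.R n') ^ c' ≤ (maximalIdeal (AW p k d)).map (μ.ψ n') := by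
    refine (Ideal.pow_right_mono h1 c').trans ?_
    rw [← Ideal.map_pow, Mix.ψ, ← Ideal.map_map]
    exact Ideal.map_mono hc'
  refine ⟨c' * c, ?_⟩
  rw [pow_mul]
  refine (Ideal.pow_right_mono h2 c).trans ?_
  rw [← Ideal.map_pow]
  refine (Ideal.map_mono hc).trans ?_
  rw [Ideal.map_sup]
  exact sup_le_sup (Ideal.map_le_iff_le_comap.2 fun g hg => g1.kerD g hg)
    (Ideal.map_le_iff_le_comap.2 fun g hg => g2.kerD g hg)

/-- Modulo `θ s` the two structure maps agree (`evτ`, `ker_ev`), and `θ s` is nilpotent. -/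
theorem nil_of_compat {R : Type} [CommRing R] [IsLocalRing R] {U : Setup R} (hU : U.OK) {X1 X2 𝒪 : Type}
    [CommRing X1] [Algebra R X1] [CommRing X2] [Algebra R X2] [CommRing 𝒪] {θ : U.O →+* 𝒪} {a : X1 →+* 𝒪}
    {b : X2 →+* 𝒪} (h : Compat (algebraMap R X1) (algebraMap R X2) U.j1 U.j2 θ a b)
    (hP : Prim (RingHom.ker (algebraMap R X1)) (RingHom.ker (algebraMap R X2))) :
    (∀ r, a (algebraMap R X1 r) - b (algebraMap R X2 r) ∈ Ideal.span {θ U.s}) ∧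
    ∀ r ∈ maximalIdeal R, IsNilpotent (a (algebraMap R X1 r)) ∧ IsNilpotent (b (algebraMap R X2 r)) := by
  have h1 : ∀ r, a (algebraMap R X1 r) - b (algebraMap R X2 r) ∈ Ideal.span {θ U.s} := fun r => by
    have : U.j1 r - U.j2 r ∈ Ideal.span {U.s} := by
      rw [← hU.thick.ker_ev]
      simp [Setup.j1, Setup.j2, hU.thick.ev_j, hU.evτ]
    obtain ⟨e, he⟩ := Ideal.mem_span_singleton'.1 this
    rw [← h.1, ← h.2, ← map_sub, ← he, map_mul]
    exact Ideal.mul_mem_left _ _ (Ideal.mem_span_singleton_self _)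
  have h2 : ∀ y ∈ Ideal.span {θ U.s}, IsNilpotent y := fun y hy => by
    obtain ⟨e, rfl⟩ := Ideal.mem_span_singleton'.1 hy
    exact (Commute.all _ _).isNilpotent_mul_left (IsNilpotent.map ⟨_, hU.thick.nil⟩ θ)
  refine ⟨h1, fun r hr => ?_⟩
  obtain ⟨c, hc⟩ := hP
  obtain ⟨y, hy, z, hz, e⟩ := Submodule.mem_sup.1 (hc (Ideal.pow_mem_pow hr c))
  rw [RingHom.mem_ker] at hy hz
  constructor
  · refine IsNilpotent.of_pow (m := c) (h2 _ ?_)
    have := h1 z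
    rwa [← map_pow, ← map_pow, ← e, map_add, hy, zero_add, ← sub_zero (a _), ← map_zero b, ← hz]
  · refine IsNilpotent.of_pow (m := c) (h2 _ ?_)
    have := neg_mem (h1 y)
    rwa [← map_pow, ← map_pow, ← e, map_add, hz, add_zero, ← sub_zero (b _), ← map_zero a, ← hy, ← neg_sub]

theorem mc_p_zero (hU : U.OK) (hϖ : U.ϖ = p) {𝒪 : Type} [CommRing 𝒪] (θ : U.O →+* 𝒪) : (p : 𝒪) = 0 := by
  have : U.ρ p = 0 := (hU.ker _).2 (hϖ ▸ Ideal.mem_span_singleton_self _)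
  rw [← map_natCast ((θ.comp U.j).comp U.ρ), RingHom.comp_apply, this, map_zero]

theorem mc_nil {R 𝒪 : Type} [CommRing R] [CommRing 𝒪] {I : Ideal R} {f : R →+* 𝒪} (h : ∀ r ∈ I, IsNilpotent (f r))
    {y : 𝒪} (hy : y ∈ (I.map f).radical) : IsNilpotent y := by
  obtain ⟨n, hn⟩ := hy
  have : I.map f ≤ nilradical 𝒪 := Ideal.map_le_iff_le_comap.2 fun r hr => mem_nilradical.2 (h r hr)
  exact IsNilpotent.of_pow (m := n) (mem_nilradical.1 (this hn))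

/-- Work in `𝒪 / θ s`.  Compose the realisations with the `p^m`-th power map (`exists_frob`); they agree on `A`. -/
theorem Mix.relS (hU : U.OK) (hϖ : U.ϖ = p) (ht : U.t = μ.pr n' μ.f0)
    (g1 : μ.Good md1 T1 T1' 𝔣1 𝔞1 n' m k0 S1) (g2 : μ.Good md2 T2 T2' 𝔣2 𝔞2 n' m k0 S2) (hP : Prim 𝔣1 𝔣2)
    {c0 : ℕ} (h : μ.Sh2 md1 md2 c0) : U.RelS S1.D S2.D c0 := by
  intro 𝒪 _ θ a b hc
  obtain ⟨h1, h2⟩ := nil_of_compat hU hc (g1.prim g2 hP)
  set q := Ideal.Quotient.mk (Ideal.span {θ U.s}) with hq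
  have hp := mc_p_zero hU hϖ (q.comp θ)
  obtain ⟨ε1, e1, n1, -⟩ := g1.real _ (q.comp a) hp
  obtain ⟨ε2, e2, n2, -⟩ := g2.real _ (q.comp b) hp
  obtain ⟨F, hF⟩ := exists_frob hp m
  have key := h _ (F.comp ε1) (F.comp ε2) (fun g => ?_)
    (fun y hy => (mc_nil (fun r hr => (h2 r hr).1.map q) (n1 y hy)).map F)
    (fun y hy => (mc_nil (fun r hr => (h2 r hr).2.map q) (n2 y hy)).map F)
  · rw [RingHom.comp_apply, hF, e1, RingHom.comp_apply, ← hc.1, ← ht, ← map_pow, ← map_pow,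
      Ideal.Quotient.eq_zero_iff_mem] at key
    refine Ideal.mem_sup_right ?_
    rwa [Ideal.map_span, Set.image_singleton]
  · rw [RingHom.comp_apply, RingHom.comp_apply, hF, hF, e1, e2]
    exact Ideal.Quotient.eq.2 (h1 _)

/-- Give `𝒪` the `k`-algebra structure through `ε1`; `ε1` and `ε2` agree on `k` because their `p^m`-th powers do and
`k` is perfect.  Apply `VAt` with `κ = p^k0`, `n = (d + 5) p^j`, `j = m - k0`, and `idl_pow_le_br`:
`s0^((d+6) p^m)` lies in the ideal generated by the `p^j`-th powers of `gens`.  Now `s0^(p^m) = -θ s` (`v i0 = 1`),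
`δ'_i^(p^m) = 0` (apply `Real` to `C (teichmuller (v i))`), `U^(c p^m) ∈ (θ t^c)`; for the second `U` use
`b t ≡ a t` modulo `θ s`... more precisely `(b t)^c` must be controlled: see the hint in `lev`: since
`b t - a t ∈ (θ s)` we only get `(b t)^L ∈ (θ t^c, θ s^r)` for `L = c + r`, which is why `L = c + r`. -/
theorem Mix.relC (hU : U.OK) (hϖ : U.ϖ = p) (ht : U.t = μ.pr n' μ.f0) (hr : U.r = d + 7) {v : Fin d → k}
    {i0 : Fin d} (hv : v i0 = 1)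
    (hC : ∀ w, U.j2 (μ.pr n' (MvPowerSeries.C w)) = U.j1 (μ.pr n' (MvPowerSeries.C w)))
    (hX : ∀ i, U.j2 (μ.pr n' (MvPowerSeries.X i)) = U.j1 (μ.pr n' (MvPowerSeries.X i)) +
      U.j1 (μ.pr n' (MvPowerSeries.C (WittVector.teichmuller p (v i)))) * U.s)
    (g1 : μ.Good md1 T1 T1' 𝔣1 𝔞1 n' m k0 S1) (g2 : μ.Good md2 T2 T2' 𝔣2 𝔞2 n' m k0 S2) (hP : Prim 𝔣1 𝔣2)
    {M : ℕ} (hV : VAt md1.m md2.m (U.c + U.r) T1 T1' T2 T2' v i0 (p ^ k0) M) (hk : k0 ≤ m)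
    (hM : M ≤ p ^ (m - k0)) {γ1 : S1.M} {γ2 : S2.M}
    (hγ : (γ1 = S1.π S1.α ^ 2 ∧ γ2 = S2.π S2.α ^ 2) ∨ T1 = 0) : U.RelC γ1 γ2 := by
  intro 𝒪 _ θ a b hc
  have hp := mc_p_zero hU hϖ θ
  have hpos : ∀ e : ℕ, 0 < p ^ e := fun e => pow_pos (Fact.out : p.Prime).pos e
  have hc' : Compat (algebraMap _ S1.D) (algebraMap _ S2.D) U.j1 U.j2 θ (a.comp S1.π.toRingHom)
      (b.comp S2.π.toRingHom) :=
    ⟨fun r => (hc.1 r).trans (congrArg a (S1.π.commutes r).symm),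
      fun r => (hc.2 r).trans (congrArg b (S2.π.commutes r).symm)⟩
  obtain ⟨h1, h2⟩ := nil_of_compat hU hc' (g1.prim g2 hP)
  obtain ⟨ε1, e1, -, r1⟩ := g1.real _ (a.comp S1.π.toRingHom) hp
  obtain ⟨ε2, e2, -, r2⟩ := g2.real _ (b.comp S2.π.toRingHom) hp
  obtain ⟨u1, t1, t1'⟩ := r1 a fun _ => rfl
  obtain ⟨u2, t2, t2'⟩ := r2 b fun _ => rfl
  obtain ⟨F, hF⟩ := exists_frob hp m
  simp only [← hc'.1, ← hc'.2, ← hF, ← ht] at e1 e2 u1 u2 h1 h2
  have x1 : ∀ i, F (ε1 (md1.m.x i)) = θ (U.j1 (μ.pr n' (MvPowerSeries.X i))) := fun i => by rw [← e1, md1.hX]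
  have x2 : ∀ i, F (ε2 (md2.m.x i)) = θ (U.j2 (μ.pr n' (MvPowerSeries.X i))) := fun i => by rw [← e2, md2.hX]
  have c1 : ∀ x, F (ε1 (algebraMap k _ x)) =
      θ (U.j1 (μ.pr n' (MvPowerSeries.C (WittVector.teichmuller p x)))) := fun x => by
    rw [← e1, md1.hC, WittVector.teichmuller_coeff_zero]
  have c2 : ∀ x, ε2 (algebraMap k _ x) = ε1 (algebraMap k _ x) := fun x => by
    obtain ⟨z, rfl⟩ := IsAlgClosed.exists_pow_nat_eq x (hpos m)
    rw [map_pow, map_pow, map_pow, map_pow, ← hF, ← hF, c1, ← hC, ← e2, md2.hC, WittVector.teichmuller_coeff_zero]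
  let _ : Algebra k 𝒪 := (ε1.comp (algebraMap k _)).toAlgebra
  have hXm : ∀ i, μ.pr n' (MvPowerSeries.X i) ∈ maximalIdeal (μ.R n') := fun i =>
    μ.max_eq n' ▸ Ideal.subset_span ⟨i, rfl⟩
  have key := hV 𝒪 ⟨ε1, fun _ => rfl⟩ ⟨ε2, c2⟩
    (fun i => IsNilpotent.of_pow (m := p ^ m) (by rw [← hF]; exact x1 i ▸ (h2 _ (hXm i)).1))
    (fun i => IsNilpotent.of_pow (m := p ^ m) (by rw [← hF]; exact x2 i ▸ (h2 _ (hXm i)).2))
    ((d + 5) * p ^ (m - k0))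
  have hκ : ∀ y : 𝒪, (y ^ p ^ k0) ^ p ^ (m - k0) = F y := fun y => by
    rw [hF, ← pow_mul, ← pow_add, Nat.add_sub_cancel' hk]
  have hκ' : ∀ (y : 𝒪) (L : ℕ), (y ^ (L * p ^ k0)) ^ p ^ (m - k0) = F y ^ L := fun y L => by
    rw [pow_mul, hκ, map_pow]
  have hs : F (ε1 (md1.m.x i0) - ε2 (md2.m.x i0)) = -θ U.s := by
    rw [map_sub, x1, x2, hX, hv]
    simp
  set J := Ideal.span {a γ1 * b γ2} ⊔ (lev U.s U.tO U.c 1 U.r).map θ with hJ
  have j1 : θ (U.j1 U.t) ^ U.c ∈ J := by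
    rw [← map_pow, ← one_mul U.c]
    exact Ideal.mem_sup_right (Ideal.mem_map_of_mem _ (Ideal.subset_span (Or.inl rfl)))
  have j2 : θ U.s ^ U.r ∈ J := by
    rw [← map_pow]
    exact Ideal.mem_sup_right (Ideal.mem_map_of_mem _ (Ideal.subset_span (Or.inr rfl)))
  have hbr : br (gens (⟨ε1, fun _ => rfl⟩ : md1.m.E →ₐ[k] 𝒪) ⟨ε2, c2⟩ v i0 (U.c + U.r) (p ^ k0) T1 T1' T2 T2')
      (p ^ (m - k0)) ≤ J := by
    rw [br, idl, Ideal.span_le]
    rintro _ ⟨i, rfl⟩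
    refine Fin.addCases (fun i => ?_) (fun i => ?_) i
    · have : F (ε1 (md1.m.x i) - ε2 (md2.m.x i) -
          ε1 (algebraMap k _ (v i)) * (ε1 (md1.m.x i0) - ε2 (md2.m.x i0))) = 0 := by
        rw [map_sub, map_mul, hs, map_sub, x1, x2, hX, c1, map_add, map_mul]
        ring
      simp only [gens, Fin.append_left, hκ]
      exact this.symm ▸ J.zero_mem
    · simp only [gens, Fin.append_right]
      fin_cases i
      · obtain ⟨e, he⟩ := Ideal.mem_span_singleton'.1 u1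
        change (ε1 _ ^ (_ * _)) ^ _ ∈ J
        rw [hκ', ← he, mul_pow, pow_add (θ _)]
        exact J.mul_mem_left _ (J.mul_mem_right _ j1)
      · obtain ⟨e, he⟩ := Ideal.mem_span_singleton'.1 u2
        obtain ⟨e', he'⟩ := Ideal.mem_span_singleton'.1 (neg_mem (h1 U.t))
        change (ε2 _ ^ (_ * _)) ^ _ ∈ J
        rw [hκ', ← he, mul_pow, show θ (U.j2 U.t) = θ (U.j1 U.t) + e' * θ U.s by rw [he']; ring]
        refine J.mul_mem_left _ (J.add_pow_mem_of_pow_mem_of_le j1 ?_ (Nat.le_succ _))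
        rw [mul_pow]
        exact J.mul_mem_left _ j2
      · change (ε1 _ * ε2 _) ^ _ ∈ J
        rcases hγ with ⟨rfl, rfl⟩ | rfl
        · rw [mul_pow]
          refine Ideal.mem_sup_left ?_
          rw [← Ideal.span_singleton_mul_span_singleton, ← map_pow, ← map_pow]
          exact Ideal.mul_mem_mul t1 t2
        · rw [map_zero, zero_mul, zero_pow (hpos _).ne']
          exact J.zero_mem
      · exact t1'.symm ▸ J.zero_mem
      · exact t2'.symm ▸ J.zero_mem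
  have k2 := hbr (idl_pow_le_br (Nat.succ_pos _) _ _ (Ideal.pow_le_pow_right (Nat.le_succ _) key))
  have k3 := J.mul_mem_left ((-1) ^ (d + 6) * ((ε1 (md1.m.x i0) - ε2 (md2.m.x i0)) ^ p ^ k0) ^ (p ^ (m - k0) - M)) k2
  change _ * ((ε1 _ - ε2 _) ^ _) ^ _ ∈ J at k3
  rw [mul_assoc, ← pow_add, show p ^ (m - k0) - M + ((d + 5) * p ^ (m - k0) + M) = p ^ (m - k0) * (d + 6) by
    zify [hM]; ring, pow_mul, hκ, hs, ← mul_pow, neg_one_mul, neg_neg] at k3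
  rwa [hr, map_pow]

end Crest.Agent.R188
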