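import Crest.Agent.R188.RL
import Crest.Agent.R188.Avoid
import Crest.Agent.R188.Th

/-!
# rid 188, file `MixR`: the rings `R j` and the translation

Prefix helper lemmas with `mr_`.
-/

set_option autoImplicit false

open IsLocalRing Crest.Agent.R183

namespace Crest.Agent.R188

variable {p : ℕ} [Fact p.Prime] {k : Type} [Field k] [CharP k p] [IsAlgClosed k] {d : ℕ}

theorem mr_res {A K : Type} [CommRing A] [IsLocalRing A] [Field K] (f : A →+* K) (hf : Function.Surjective f) :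
    Nonempty (ResidueField A ≃+* K) := by
  have := IsLocalHom.of_surjective f hf
  refine ⟨RingEquiv.ofBijective (ResidueField.lift f) ⟨RingHom.injective _, fun y => ?_⟩⟩
  obtain ⟨a, rfl⟩ := hf y
  exact ⟨residue A a, rfl⟩

theorem mr_comap {A B : Type} [CommRing A] [CommRing B] [IsLocalRing A] [IsLocalRing B] (f : A →+* B)
    [h : IsLocalHom f] (hf : f.Flat) (I : Ideal A) : (I.map f).comap f = I := by
  algebraize [f]
  have : IsLocalHom (algebraMap A B) := h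
  have : Module.FaithfullyFlat A B := Module.FaithfullyFlat.of_flat_of_isLocalHom
  exact Ideal.comap_map_eq_self_of_faithfullyFlat I

theorem mr_idl_cons {A : Type} [CommRing A] {d : ℕ} (a : A) (x : Fin d → A) :
    idl (Fin.cons a x : Fin (d + 1) → A) = Ideal.span {a} ⊔ idl x := by
  rw [idl, Fin.range_cons, Ideal.span_insert, idl]

theorem mr_idlLt_cons {A : Type} [CommRing A] {d : ℕ} (a : A) (x : Fin d → A) (j : Fin d) :
    idlLt (Fin.cons a x : Fin (d + 1) → A) j.succ = idlLt x j ⊔ Ideal.span {a} := by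
  rw [idlLt, idlLt, ← Ideal.span_union]
  congr 1
  ext y
  constructor
  · rintro ⟨i, hi, rfl⟩
    induction i using Fin.cases with
    | zero => exact Or.inr rfl
    | succ i => exact Or.inl ⟨i, Fin.succ_lt_succ_iff.1 hi, rfl⟩
  · rintro (⟨i, hi, rfl⟩ | rfl)
    · exact ⟨i.succ, Fin.succ_lt_succ_iff.2 hi, rfl⟩
    · exact ⟨0, Fin.succ_pos j, rfl⟩

theorem mr_reg_quot {A : Type} [CommRing A] {d : ℕ} {a : A} {x : Fin d → A}
    (h : Reg (Fin.cons a x : Fin (d + 1) → A) A) :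
    Reg (fun i => Ideal.Quotient.mk (Ideal.span {a}) (x i)) (A ⧸ Ideal.span {a}) := by
  rw [rg2_reg_self] at h ⊢
  intro j w hw
  obtain ⟨w, rfl⟩ := Ideal.Quotient.mk_surjective w
  have := h j.succ w
  rw [mr_idlLt_cons, Fin.cons_succ] at this
  rw [rg2_idlLt_map] at hw ⊢
  rw [← map_mul] at hw
  rw [Ideal.mem_quotient_iff_mem_sup] at hw ⊢
  exact this hw

theorem mr_fg {A : Type} [CommRing A] {d : ℕ} (x : Fin d → A) : (idl x).FG :=
  Submodule.fg_span (Set.finite_range x)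

theorem mr_local {A : Type} [CommRing A] [IsLocalRing A] {a : A} (ha : a ∈ maximalIdeal A) :
    IsLocalRing (A ⧸ Ideal.span {a}) := by
  have : Nontrivial (A ⧸ Ideal.span {a}) := Ideal.Quotient.nontrivial_iff.2 fun h =>
    (maximalIdeal.isMaximal A).ne_top (top_le_iff.1 (h ▸ (Ideal.span_singleton_le_iff_mem _).2 ha))
  exact IsLocalRing.of_surjective' (Ideal.Quotient.mk _) Ideal.Quotient.mk_surjective

theorem mr_cc {C : Type} [CommRing C] {d : ℕ} {g : MvPowerSeries (Fin d) C}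
    (hg : g ∈ idl (MvPowerSeries.X : Fin d → MvPowerSeries (Fin d) C)) : MvPowerSeries.constantCoeff g = 0 :=
  (ln_idl_le (I := RingHom.ker MvPowerSeries.constantCoeff) fun i => MvPowerSeries.constantCoeff_X i) hg

/-- The Frobenius as a ring homomorphism in a ring where `p = 0`. -/
theorem exists_frob {O : Type} [CommRing O] (h : (p : O) = 0) (m : ℕ) : ∃ F : O →+* O, ∀ y, F y = y ^ p ^ m := by
  rcases subsingleton_or_nontrivial O with hO | hO
  · exact ⟨RingHom.id O, fun y => Subsingleton.elim _ _⟩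
  · have : CharP O p := (CharP.charP_iff_prime_eq_zero Fact.out).2 h
    exact ⟨iterateFrobenius O p m, fun y => rfl⟩

namespace Mix

variable (μ : Mix p k d)

theorem φ_pow_sub (j : ℕ) (g : AW p k d) : (μ.Δ.φ ^ j) g - g ^ p ^ j ∈ Ideal.span {(p : AW p k d)} := by
  rw [← Ideal.Quotient.eq, map_pow]
  have hp : Ideal.Quotient.mk (Ideal.span {(p : AW p k d)}) (p : AW p k d) = 0 :=
    Ideal.Quotient.eq_zero_iff_mem.2 (Ideal.mem_span_singleton_self _)
  induction j generalizing g with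
  | zero => simp
  | succ j ih =>
    rw [pow_succ, RingHom.mul_def, RingHom.comp_apply, ih, μ.Δ.spec, map_add, map_mul, hp, zero_mul, add_zero,
      map_pow, ← pow_mul, ← pow_succ']

theorem φ_pow_mem {g : AW p k d} (hg : g ∈ idl (MvPowerSeries.X : Fin d → AW p k d)) (j : ℕ) :
    (μ.Δ.φ ^ j) g ∈ br (MvPowerSeries.X : Fin d → AW p k d) (p ^ j) := by
  have h := Ideal.mem_map_of_mem (μ.Δ.φ ^ j) hg
  rw [idl_map] at h
  simp only [μ.hb.φ_pow_X] at h
  exact h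

theorem φ_ξ (j m : ℕ) : (μ.Δ.φ ^ m) (μ.ξ j) = μ.ξ (j + m) := by
  rw [ξ, ξ, map_sub, map_natCast, add_comm, pow_add, RingHom.mul_def, RingHom.comp_apply]

theorem ξ_zero : μ.ξ 0 = p - μ.f0 := by
  simp [ξ]

theorem mr_mem (j : ℕ) : (μ.Δ.φ ^ j) μ.f0 ∈ idl (MvPowerSeries.X : Fin d → AW p k d) :=
  (br_le_idl_pow _ _).trans (Ideal.pow_le_self (pow_pos (Fact.out : p.Prime).pos j).ne') (μ.φ_pow_mem μ.f0_mem j)

theorem mr_ξ (j : ℕ) : μ.pr j (μ.ξ j) = 0 := Ideal.Quotient.eq_zero_iff_mem.2 (Ideal.mem_span_singleton_self _)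

theorem mr_loc (j : ℕ) : IsLocalHom (μ.pr j) := IsLocalHom.of_surjective _ Ideal.Quotient.mk_surjective

theorem max_le (j : ℕ) :
    maximalIdeal (AW p k d) ≤ Ideal.span {μ.ξ j} ⊔ idl (MvPowerSeries.X : Fin d → AW p k d) := by
  rw [← μ.hb.max, mr_idl_cons]
  refine sup_le ((Ideal.span_singleton_le_iff_mem _).2 ?_) le_sup_right
  have e : (p : AW p k d) = μ.ξ j + (μ.Δ.φ ^ j) μ.f0 := by rw [ξ, sub_add_cancel]
  rw [e]
  exact Submodule.add_mem_sup (Ideal.mem_span_singleton_self _) (μ.mr_mem j)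

theorem max_eq (j : ℕ) : idl (fun i => μ.pr j (MvPowerSeries.X i)) = maximalIdeal (μ.R j) := by
  rw [← idl_map, ← map_maximalIdeal_of_surjective (μ.pr j) Ideal.Quotient.mk_surjective]
  refine le_antisymm (Ideal.map_mono μ.idl_le) ((Ideal.map_mono (μ.max_le j)).trans ?_)
  rw [Ideal.map_sup, Ideal.map_quotient_self, bot_sup_eq]

include μ in
theorem noeth : IsNoetherianRing (AW p k d) := μ.hb.rb.noeth

include μ in
theorem algClosed : IsAlgClosed (ResidueField (AW p k d)) := by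
  have _ := μ.f0
  obtain ⟨e⟩ := mr_res ((WittVector.constantCoeff : WittVector p k →+* k).comp
    (MvPowerSeries.constantCoeff : AW p k d →+* _)) fun y =>
      ⟨MvPowerSeries.C (WittVector.teichmuller p y), by simp⟩
  exact IsAlgClosed.of_ringEquiv k _ e.symm

include μ in
theorem regL : RegL (AW p k d) (d + 1) := ⟨_, μ.hb.rb.reg, μ.hb.max⟩

/-- `ξ j, X` is a system of parameters of `A`, hence regular (`Reg.of_sop`, `regL_quot` or `mxs_reg_quot`). -/
theorem reg_X (j : ℕ) : Reg (fun i => μ.pr j (MvPowerSeries.X i)) (μ.R j) := by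
  have := μ.noeth
  refine mr_reg_quot (Reg.of_sop μ.hb.rb.reg (fun i => ?_) fun i => Ideal.le_radical ?_)
  · induction i using Fin.cases with
    | zero => exact μ.ξ_mem j
    | succ i => exact μ.idl_le (ln_mem_idl _ i)
  · rw [mr_idl_cons]
    exact μ.max_le j (μ.hb.max ▸ ln_mem_idl _ i)

theorem cls (j : ℕ) : Cls (μ.R j) d := by
  have := μ.noeth
  have := μ.hb.cpl
  have := μ.algClosed
  refine ⟨inferInstance, ⟨_, μ.reg_X j, μ.max_eq j⟩, complete_quot _, ?_⟩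
  obtain ⟨e⟩ := mr_res ((residue (μ.R j)).comp (μ.pr j))
    (residue_surjective.comp Ideal.Quotient.mk_surjective)
  exact IsAlgClosed.of_ringEquiv _ _ e

include μ in
theorem mr_regp [IsLocalRing (AW p k d ⧸ Ideal.span {(p : AW p k d)})] :
    RegL (AW p k d ⧸ Ideal.span {(p : AW p k d)}) d := by
  refine ⟨_, mr_reg_quot μ.hb.rb.reg, ?_⟩
  rw [← idl_map, ← map_maximalIdeal_of_surjective (Ideal.Quotient.mk _) Ideal.Quotient.mk_surjective, ← μ.hb.max,
    mr_idl_cons, Ideal.map_sup, Ideal.map_quotient_self, bot_sup_eq]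

include μ in
theorem mr_prime : (Ideal.span {(p : AW p k d)}).IsPrime := by
  have := μ.noeth
  have := mr_local μ.p_mem
  have := μ.mr_regp.isDomain
  exact (Ideal.Quotient.isDomain_iff_prime _).1 this

/-- If `p = ξ g` then `ξ` is `p` times a unit (`p` is prime in `A`, `ξ` is not a unit), so `f0^(p^j) ∈ (p)`. -/
theorem p_ne (j : ℕ) : (p : μ.R j) ≠ 0 := by
  intro h
  rw [← map_natCast (μ.pr j), Ideal.Quotient.eq_zero_iff_mem, Ideal.mem_span_singleton'] at h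
  obtain ⟨g, hg⟩ := h
  have hP := μ.mr_prime
  rcases hP.mem_or_mem (show g * μ.ξ j ∈ _ by rw [hg]; exact Ideal.mem_span_singleton_self _) with h | h
  · obtain ⟨g', rfl⟩ := Ideal.mem_span_singleton'.1 h
    have h1 : g' * μ.ξ j - 1 = 0 := μ.Δ.tf _ (by linear_combination hg)
    exact μ.ξ_mem j (IsUnit.of_mul_eq_one_right g' (sub_eq_zero.1 h1))
  · refine μ.f0_ne (hP.mem_of_pow_mem (p ^ j) ?_)
    have e : μ.f0 ^ p ^ j = p - μ.ξ j - ((μ.Δ.φ ^ j) μ.f0 - μ.f0 ^ p ^ j) := by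
      rw [ξ]
      ring
    rw [e]
    exact sub_mem (sub_mem (Ideal.mem_span_singleton_self _) h) (μ.φ_pow_sub j _)

/-- `φ^j f0 = f0^(p^j) + p g` with `g ∈ 𝔪` (look at constant coefficients), so `p (1 - g) = f0^(p^j)`. -/
theorem p_mem_span (j : ℕ) : (p : μ.R j) ∈ Ideal.span {μ.pr j μ.f0 ^ p ^ j} := by
  obtain ⟨g, hg⟩ := Ideal.mem_span_singleton'.1 (μ.φ_pow_sub j μ.f0)
  have h1 : g ∈ maximalIdeal (AW p k d) := by
    have h2 := congrArg MvPowerSeries.constantCoeff hg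
    rw [map_sub, mr_cc (μ.mr_mem j), map_pow, mr_cc μ.f0_mem, zero_pow (pow_pos (Fact.out : p.Prime).pos j).ne',
      sub_zero, map_mul, map_natCast] at h2
    rw [mem_maximalIdeal, mem_nonunits_iff, MvPowerSeries.isUnit_iff_constantCoeff,
      WittVector.eq_zero_of_p_mul_eq_zero _ h2]
    exact not_isUnit_zero
  obtain ⟨u, hu⟩ := (isUnit_one_sub_self_of_mem_nonunits g h1).exists_left_inv
  refine Ideal.mem_span_singleton'.2 ⟨μ.pr j u, ?_⟩
  have e : (p : AW p k d) = u * μ.f0 ^ p ^ j + u * μ.ξ j := by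
    rw [ξ]
    linear_combination (-p : AW p k d) * hu - u * hg
  rw [← map_natCast (μ.pr j) p, e, map_add, map_mul, map_mul, μ.mr_ξ, mul_zero, add_zero, map_pow]

theorem dim_pf : ringKrullDim (AW p k d ⧸ Ideal.span {(p : AW p k d), μ.f0}) < d := by
  have := μ.noeth
  have := mr_local μ.p_mem
  have := μ.mr_regp.isDomain
  have h1 := μ.mr_regp.dim
  have h2 : Ideal.Quotient.mk (Ideal.span {(p : AW p k d)}) μ.f0 ≠ 0 := fun h =>
    μ.f0_ne (Ideal.Quotient.eq_zero_iff_mem.1 h)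
  cases d with
  | zero =>
    have h3 := μ.f0_mem
    rw [idl, Set.range_eq_empty, Ideal.span_empty, Ideal.mem_bot] at h3
    exact absurd (by rw [h3, map_zero]) h2
  | succ e =>
    rw [lt_succ_iff_le, ← dim_map_of_surj (Ideal.Quotient.mk (Ideal.span {(p : AW p k (e + 1))}))
      Ideal.Quotient.mk_surjective (by rw [Ideal.mk_ker]; exact Ideal.span_mono (by simp)),
      Ideal.span_insert, Ideal.map_sup, Ideal.map_quotient_self, bot_sup_eq, Ideal.map_span, Set.image_singleton]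
    exact gw_dim_quot h1.le h2

theorem mr_pow_le (m : ℕ) :
    ∃ c : ℕ, maximalIdeal (AW p k d) ^ c ≤ (maximalIdeal (AW p k d)).map (μ.Δ.φ ^ m) := by
  refine Ideal.exists_pow_le_of_le_radical_of_fg ?_ (μ.hb.max ▸ mr_fg _)
  conv_lhs => rw [← μ.hb.max]
  refine ln_idl_le fun i => ?_
  induction i using Fin.cases with
  | zero =>
    have h := Ideal.mem_map_of_mem (μ.Δ.φ ^ m) μ.p_mem
    rw [map_natCast] at h
    exact Ideal.le_radical h
  | succ i =>
    have h := Ideal.mem_map_of_mem (μ.Δ.φ ^ m) (μ.idl_le (ln_mem_idl _ i))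
    rw [μ.hb.φ_pow_X] at h
    exact ⟨_, h⟩

theorem φ_finite (m : ℕ) : (μ.Δ.φ ^ m).Finite := by
  have := μ.noeth
  have := μ.hb.cpl
  have := μ.hb.φ_pow_local m
  obtain ⟨c, hc⟩ := μ.mr_pow_le m
  exact finite_of_complete _ (μ.hb.φ_pow_res m) hc

theorem max_pow_le (m : ℕ) :
    ∃ c : ℕ, maximalIdeal (AW p k d) ^ c ≤ (maximalIdeal (AW p k d)).map (μ.Δ.φ ^ m) := by
  exact μ.mr_pow_le m

/-- `φ^m` is finite and flat (`basis_of_reg`, `Reg.pow`), so extended ideals contract to themselves. -/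
theorem mem_of_φ (m : ℕ) {I : Ideal (AW p k d)} {b : AW p k d} (h : (μ.Δ.φ ^ m) b ∈ I.map (μ.Δ.φ ^ m)) :
    b ∈ I := by
  have := μ.noeth
  have := μ.hb.φ_pow_local m
  have h1 := μ.hb.rb.reg.pow (a := (Fin.cons 1 fun _ => p ^ m : Fin (d + 1) → ℕ)) fun i => by
    induction i using Fin.cases with
    | zero => exact one_pos
    | succ i => exact pow_pos (Fact.out : p.Prime).pos m
  have h2 := (basis_of_reg (μ.Δ.φ ^ m) (μ.φ_finite m) μ.hb.max (by
    convert h1 using 2 with i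
    induction i using Fin.cases with
    | zero => simp
    | succ i => simpa using μ.hb.φ_pow_X m i)).1
  rw [← mr_comap (μ.Δ.φ ^ m) h2 I]
  exact h

/-- The transition map; `basis_of_reg` with `X^(p^m)` regular on `R e`. -/
theorem exists_tr {j m e : ℕ} (h : j + m = e) : ∃ τ : μ.R j →+* μ.R e,
    (∀ g, τ (μ.pr j g) = μ.pr e ((μ.Δ.φ ^ m) g)) ∧ IsLocalHom τ ∧ τ.Finite ∧ τ.Flat ∧
    (∃ c : ℕ, maximalIdeal (μ.R e) ^ c ≤ (maximalIdeal (μ.R j)).map τ) ∧
    ∃ (κ : ℕ) (b : Fin κ → μ.R e), 0 < κ ∧ (∀ y, ∃ c : Fin κ → μ.R j, y = ∑ i, τ (c i) * b i) ∧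
      ∀ c : Fin κ → μ.R j, ∑ i, τ (c i) * b i = 0 → c = 0 := by
  subst h
  have := (μ.cls j).noeth
  have := μ.mr_loc j
  have := μ.mr_loc (j + m)
  have := μ.hb.φ_pow_local m
  obtain ⟨τ, hτ⟩ : ∃ τ : μ.R j →+* μ.R (j + m), ∀ g, τ (μ.pr j g) = μ.pr (j + m) ((μ.Δ.φ ^ m) g) :=
    ⟨Ideal.Quotient.lift _ ((μ.pr (j + m)).comp (μ.Δ.φ ^ m)) fun a ha => by
      obtain ⟨b, rfl⟩ := Ideal.mem_span_singleton'.1 ha
      rw [RingHom.comp_apply, map_mul, μ.φ_ξ, map_mul, μ.mr_ξ, mul_zero], fun g => rfl⟩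
  have hf : τ.Finite := by
    refine RingHom.Finite.of_comp_finite (f := μ.pr j) ?_
    rw [show τ.comp (μ.pr j) = (μ.pr (j + m)).comp (μ.Δ.φ ^ m) from RingHom.ext hτ]
    exact (RingHom.Finite.of_surjective _ Ideal.Quotient.mk_surjective).comp (μ.φ_finite m)
  have hX : ∀ i, τ (μ.pr j (MvPowerSeries.X i)) = μ.pr (j + m) (MvPowerSeries.X i) ^ p ^ m := fun i => by
    rw [hτ, μ.hb.φ_pow_X, map_pow]
  obtain ⟨h1, h2⟩ := basis_of_reg τ hf (μ.max_eq j) (by
    simp only [hX]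
    exact (μ.reg_X (j + m)).pow fun _ => pow_pos (Fact.out : p.Prime).pos m)
  refine ⟨τ, hτ, ⟨fun a ha => ?_⟩, hf, h1, ?_, h2⟩
  · obtain ⟨g, rfl⟩ := Ideal.Quotient.mk_surjective a
    rw [hτ] at ha
    exact (isUnit_of_map_unit _ _ (isUnit_of_map_unit _ _ ha)).map _
  · refine Ideal.exists_pow_le_of_le_radical_of_fg ?_ (μ.max_eq (j + m) ▸ mr_fg _)
    rw [← μ.max_eq, ← μ.max_eq]
    exact ln_idl_le fun i => ⟨p ^ m, hX i ▸ Ideal.mem_map_of_mem τ (ln_mem_idl _ i)⟩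

/-- `Λ = R n' / p`, `exists_transl` with `N = 2 r - 1` and the Teichmüller lifts of `v`.  `τ0` kills `p`, and
`τ0 f0 = j f0 + s g` (`ker_ev`), so `τ0 (f0^(p^n')) = 0`; hence `τ0` factors through `Λ`. -/
theorem exists_setup (n' : ℕ) {c r : ℕ} (hc : 0 < c) (hr : 0 < r) (h1 : 4 * c ≤ p ^ n') (h2 : 2 * r - 1 ≤ p ^ n')
    (v : Fin d → k) : ∃ U : Setup (μ.R n'), U.OK ∧ U.ϖ = p ∧ U.t = μ.pr n' μ.f0 ∧ U.c = c ∧ U.r = r ∧
      (∀ w, U.j2 (μ.pr n' (MvPowerSeries.C w)) = U.j1 (μ.pr n' (MvPowerSeries.C w))) ∧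
      ∀ i, U.j2 (μ.pr n' (MvPowerSeries.X i)) = U.j1 (μ.pr n' (MvPowerSeries.X i)) +
        U.j1 (μ.pr n' (MvPowerSeries.C (WittVector.teichmuller p (v i)))) * U.s := by
  have := μ.mr_loc n'
  have hpm : (p : μ.R n') ∈ maximalIdeal (μ.R n') := by
    rw [← map_natCast (μ.pr n') p]
    exact map_nonunit _ _ μ.p_mem
  obtain ⟨Λ, _, _, ρ, hs, hk⟩ : ∃ (Λ : Type) (_ : CommRing Λ) (_ : Nontrivial Λ) (ρ : μ.R n' →+* Λ),
      Function.Surjective ρ ∧ ∀ x, ρ x = 0 ↔ x ∈ Ideal.span {(p : μ.R n')} :=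
    ⟨_, _, (mr_local hpm).toNontrivial, Ideal.Quotient.mk _, Ideal.Quotient.mk_surjective,
      fun x => Ideal.Quotient.eq_zero_iff_mem⟩
  have : IsAdicComplete (maximalIdeal (WittVector p k)) (WittVector p k) := by
    rw [(WittVector.irreducible p).maximalIdeal_eq]
    infer_instance
  have hρ : Function.Surjective (ρ.comp (μ.pr n')) := hs.comp Ideal.Quotient.mk_surjective
  obtain ⟨O, _, j, ev, s, τ0, hT, hC, hX, hev, -⟩ := exists_transl (ρ.comp (μ.pr n')) hρ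
    (show 0 < 2 * r - 1 by omega) fun i => WittVector.teichmuller p (v i)
  have hp0 : (p : Λ) = 0 := by
    rw [← map_natCast ρ p]
    exact (hk _).2 (Ideal.mem_span_singleton_self _)
  have hpO : (p : O) = 0 := by rw [← map_natCast j p, hp0, map_zero]
  obtain ⟨g, hg⟩ := Ideal.mem_span_singleton'.1 (μ.φ_pow_sub n' μ.f0)
  have e : μ.ξ n' = (1 - g) * p - μ.f0 ^ p ^ n' := by
    rw [ξ]
    linear_combination hg
  have h3 : ρ (μ.pr n' μ.f0) ^ p ^ n' = 0 := by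
    have h := congrArg (ρ.comp (μ.pr n')) e
    rw [map_sub, map_mul, map_natCast, hp0, mul_zero, zero_sub, map_pow, RingHom.comp_apply, μ.mr_ξ, map_zero] at h
    exact neg_eq_zero.1 h.symm
  have h4 : τ0 (μ.ξ n') = 0 := by
    obtain ⟨F, hF⟩ := exists_frob hpO n'
    obtain ⟨a, ha⟩ := Ideal.mem_span_singleton'.1 ((hT.ker_ev (τ0 μ.f0 - j (ρ (μ.pr n' μ.f0)))).1 (by
      rw [map_sub, hev, hT.ev_j, RingHom.comp_apply, sub_self]))
    rw [e, map_sub, map_mul, map_natCast, hpO, mul_zero, zero_sub, map_pow, neg_eq_zero,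
      ← sub_add_cancel (τ0 μ.f0) (j (ρ (μ.pr n' μ.f0))), ← ha, ← hF, map_add, map_mul, hF s, hF (j _), ← map_pow, h3,
      map_zero, pow_eq_zero_of_le h2 hT.nil, mul_zero, add_zero]
  have hker : RingHom.ker (ρ.comp (μ.pr n')) ≤ RingHom.ker τ0 := fun y hy => by
    obtain ⟨a, ha⟩ := Ideal.mem_span_singleton'.1 ((hk _).1 hy)
    obtain ⟨a, rfl⟩ := Ideal.Quotient.mk_surjective a
    rw [← map_natCast (μ.pr n') p, ← map_mul, Ideal.Quotient.eq, Ideal.mem_span_singleton'] at ha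
    obtain ⟨b, hb⟩ := ha
    rw [RingHom.mem_ker, show y = a * p - b * μ.ξ n' by linear_combination hb, map_sub, map_mul, map_mul, h4,
      map_natCast, hpO, mul_zero, mul_zero, sub_zero]
  obtain ⟨τ, hτ⟩ : ∃ τ : Λ →+* O, ∀ g, τ (ρ (μ.pr n' g)) = τ0 g :=
    ⟨(ρ.comp (μ.pr n')).liftOfSurjective hρ ⟨τ0, hker⟩,
      fun g => (ρ.comp (μ.pr n')).liftOfSurjective_comp_apply hρ ⟨τ0, hker⟩ g⟩
  refine ⟨{ Λ := Λ, O := O, ρ := ρ, j := j, τ := τ, ev := ev, ϖ := p, t := μ.pr n' μ.f0, s := s, c := c, r := r },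
    ⟨hs, hk, hpm, hc, hr, hT, fun l => ?_,
      Or.inr ⟨μ.p_ne n', map_nonunit _ _ (μ.idl_le μ.f0_mem), ?_⟩⟩, rfl, rfl, rfl, rfl,
    fun w => (hτ _).trans (hC w), fun i => (hτ _).trans (hX i)⟩
  · obtain ⟨y, rfl⟩ := hρ l
    exact (congrArg ev (hτ y)).trans (hev y)
  · exact Ideal.span_singleton_le_span_singleton.2 (pow_dvd_pow _ h1) (μ.p_mem_span n')

end Mix

end Crest.Agent.R188
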