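import Crest.Agent.R188.VC
import Crest.Agent.R188.Cnt

/-!
# rid 188, file `Two`: two approximating varieties of small dimension; covers

Prefix helper lemmas with `tw_`.
-/

set_option autoImplicit false

open IsLocalRing Crest.Agent.R183

namespace Crest.Agent.R188

variable {k : Type} [Field k] {d : ℕ}

section tw

variable {K : Type} [Field K] (V : ValuationSubring K)

theorem tw_le_one {x : K} (h : x ∈ V) : V.valuation x ≤ 1 := (V.valuation_le_one_iff x).2 h

theorem tw_add_pow {x y : K} {C : ℕ} {γ : V.ValueGroup} (hx : V.valuation x ^ C ≤ γ)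
    (hy : V.valuation y ^ C ≤ γ) : V.valuation (x + y) ^ C ≤ γ := by
  rcases le_total (V.valuation x) (V.valuation y) with h | h
  · exact (pow_le_pow_left₀ zero_le (V.valuation.map_add_le h le_rfl) C).trans hy
  · exact (pow_le_pow_left₀ zero_le (V.valuation.map_add_le le_rfl h) C).trans hx

theorem tw_pow_le_span {B : Type} [CommRing B] (f : B →+* K) (hf : ∀ y, f y ∈ V) {C : ℕ} (hC : 0 < C)
    {γ : V.ValueGroup} {s : Set B} (h : ∀ y ∈ s, V.valuation (f y) ^ C ≤ γ) {y : B} (hy : y ∈ Ideal.span s) :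
    V.valuation (f y) ^ C ≤ γ := by
  induction hy using Submodule.span_induction with
  | mem x hx => exact h x hx
  | zero => simp [hC.ne']
  | add x y _ _ hx hy => rw [map_add]; exact tw_add_pow V hx hy
  | smul a x _ hx =>
    rw [smul_eq_mul, map_mul, map_mul, mul_pow]
    exact (mul_le_of_le_one_left' (pow_le_one' (tw_le_one V (hf a)) C)).trans hx

theorem tw_pow_le_pow {B : Type} [CommRing B] (f : B →+* K) (hf : ∀ y, f y ∈ V) {C : ℕ}
    {γ : V.ValueGroup} {I : Ideal B} (h : ∀ y ∈ I, V.valuation (f y) ^ C ≤ γ) (m : ℕ) {y : B} (hy : y ∈ I ^ m) :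
    V.valuation (f y) ^ C ≤ γ ^ m := by
  induction m generalizing y with
  | zero => rw [pow_zero]; exact pow_le_one' (tw_le_one V (hf y)) C
  | succ m ih =>
    rw [pow_succ] at hy
    refine Submodule.mul_induction_on hy (fun a ha b hb => ?_) (fun a b ha hb => ?_)
    · rw [map_mul, map_mul, mul_pow, pow_succ]
      exact mul_le_mul' (ih ha) (h b hb)
    · rw [map_add]; exact tw_add_pow V ha hb

theorem tw_le_pow {B : Type} [CommRing B] (f : B →+* K) (hf : ∀ y, f y ∈ V) {C : ℕ} (hC : 0 < C)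
    {γ : V.ValueGroup} {I : Ideal B} (h : ∀ y ∈ I, V.valuation (f y) ^ C ≤ γ) (n : ℕ) {y : B}
    (hy : y ∈ I ^ (C * n)) : V.valuation (f y) ≤ γ ^ n := by
  have h1 := tw_pow_le_pow V f hf h (C * n) hy
  rw [mul_comm, pow_mul] at h1
  exact (pow_le_pow_iff_left₀ zero_le zero_le hC.ne').1 h1

theorem tw_eval_mem {σ : Type} (φ : k →+* K) (hφ : ∀ c, φ c ∈ V) (u : σ → K) (hu : ∀ i, u i ∈ V)
    (P : MvPolynomial σ k) : MvPolynomial.eval₂ φ u P ∈ V := by
  induction P using MvPolynomial.induction_on with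
  | C a => rw [MvPolynomial.eval₂_C]; exact hφ a
  | add p q hp hq => rw [MvPolynomial.eval₂_add]; exact add_mem hp hq
  | mul_X p i hp => rw [MvPolynomial.eval₂_mul, MvPolynomial.eval₂_X]; exact mul_mem hp (hu i)

theorem tw_eval_sub {σ : Type} (φ : k →+* K) (hφ : ∀ c, φ c ∈ V) (u w : σ → K) (hu : ∀ i, u i ∈ V)
    (hw : ∀ i, w i ∈ V) (h : ∀ i, V.valuation (u i - w i) < 1) (P : MvPolynomial σ k) :
    V.valuation (MvPolynomial.eval₂ φ u P - MvPolynomial.eval₂ φ w P) < 1 := by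
  induction P using MvPolynomial.induction_on with
  | C a => simp
  | add p q hp hq =>
    rw [MvPolynomial.eval₂_add, MvPolynomial.eval₂_add, add_sub_add_comm]
    exact V.valuation.map_add_lt hp hq
  | mul_X p i hp =>
    rw [MvPolynomial.eval₂_mul, MvPolynomial.eval₂_X, MvPolynomial.eval₂_mul, MvPolynomial.eval₂_X]
    have e : MvPolynomial.eval₂ φ u p * u i - MvPolynomial.eval₂ φ w p * w i =
        (MvPolynomial.eval₂ φ u p - MvPolynomial.eval₂ φ w p) * u i + MvPolynomial.eval₂ φ w p * (u i - w i) := by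
      ring
    rw [e]
    refine V.valuation.map_add_lt ?_ ?_
    · rw [map_mul]
      exact (mul_le_of_le_one_right' (tw_le_one V (hu i))).trans_lt hp
    · rw [map_mul]
      exact (mul_le_of_le_one_left' (tw_le_one V (tw_eval_mem V φ hφ w hw p))).trans_lt (h i)

theorem tw_unit (φ : k →+* K) (hφ : ∀ c, φ c ∈ V) {c : k} (hc : c ≠ 0) : V.valuation (φ c) = 1 := by
  have h1 : V.valuation (φ c) * V.valuation (φ c⁻¹) = 1 := by
    rw [← map_mul, ← map_mul, mul_inv_cancel₀ hc, map_one, map_one]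
  refine le_antisymm (tw_le_one V (hφ c)) ?_
  calc (1 : V.ValueGroup) = V.valuation (φ c) * V.valuation (φ c⁻¹) := h1.symm
    _ ≤ V.valuation (φ c) := mul_le_of_le_one_right' (tw_le_one V (hφ _))

theorem tw_hom_smul (φ : k →+* K) (s : K) (u : Fin d → K) {P : MvPolynomial (Fin d) k} {e : ℕ}
    (hP : P.IsHomogeneous e) :
    MvPolynomial.eval₂ φ (fun i => s * u i) P = s ^ e * MvPolynomial.eval₂ φ u P := by
  rw [MvPolynomial.eval₂_eq', MvPolynomial.eval₂_eq', Finset.mul_sum]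
  refine Finset.sum_congr rfl fun m hm => ?_
  have hd : ∑ i, m i = e := by
    by_contra hne
    exact (MvPolynomial.mem_support_iff.1 hm) (hP.coeff_eq_zero (by rwa [Finsupp.degree_eq_sum]))
  simp_rw [mul_pow]
  rw [Finset.prod_mul_distrib, Finset.prod_pow_eq_pow_sum, hd]
  ring

theorem tw_low (φ : k →+* K) (hφ : ∀ c, φ c ∈ V) (Ψ : MvPolynomial (Fin d) k) (D : ℕ)
    (hlow : ∀ e < D, MvPolynomial.homogeneousComponent e Ψ = 0) (hD : D ≤ Ψ.totalDegree) (w : Fin d → k)
    (hw : MvPolynomial.eval w (MvPolynomial.homogeneousComponent D Ψ) ≠ 0) {s : K} (hs : s ≠ 0)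
    (hs1 : V.valuation s < 1) (z : Fin d → K) (hz : ∀ i, V.valuation (z i - φ (w i) * s) < V.valuation s) :
    V.valuation (MvPolynomial.eval₂ φ z Ψ) = V.valuation s ^ D := by
  classical
  have hs0 : 0 < V.valuation s := by
    rw [zero_lt_iff]; exact (Valuation.ne_zero_iff _).2 hs
  set u : Fin d → K := fun i => z i / s with hu
  have hzu : z = fun i => s * u i := by
    funext i; simp only [hu]; field_simp
  have h1 : ∀ i, V.valuation (u i - φ (w i)) < 1 := by
    intro i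
    have e : u i - φ (w i) = (z i - φ (w i) * s) / s := by
      simp only [hu]; field_simp
    rw [e, map_div₀, div_lt_one₀ hs0]
    exact hz i
  have hum : ∀ i, u i ∈ V := by
    intro i
    have : u i = (u i - φ (w i)) + φ (w i) := by ring
    rw [this]
    exact add_mem (V.mem_of_valuation_le_one _ (h1 i).le) (hφ _)
  have hmain : V.valuation (MvPolynomial.eval₂ φ u (MvPolynomial.homogeneousComponent D Ψ)) = 1 := by
    have h2 := tw_eval_sub V φ hφ u (fun i => φ (w i)) hum (fun i => hφ _) h1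
      (MvPolynomial.homogeneousComponent D Ψ)
    have h3 : MvPolynomial.eval₂ φ (fun i => φ (w i)) (MvPolynomial.homogeneousComponent D Ψ) =
        φ (MvPolynomial.eval w (MvPolynomial.homogeneousComponent D Ψ)) := by
      rw [MvPolynomial.eval₂_comp]; rfl
    rw [h3] at h2
    have h4 := tw_unit V φ hφ hw
    rw [← h4] at h2
    rw [V.valuation.map_eq_of_sub_lt h2, h4]
  have hterm : ∀ e, V.valuation (MvPolynomial.eval₂ φ z (MvPolynomial.homogeneousComponent e Ψ)) =
      V.valuation s ^ e * V.valuation (MvPolynomial.eval₂ φ u (MvPolynomial.homogeneousComponent e Ψ)) := by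
    intro e
    rw [hzu, tw_hom_smul φ s u (MvPolynomial.homogeneousComponent_isHomogeneous e Ψ), map_mul, map_pow]
  have hD' : V.valuation (MvPolynomial.eval₂ φ z (MvPolynomial.homogeneousComponent D Ψ)) =
      V.valuation s ^ D := by
    rw [hterm, hmain, mul_one]
  conv_lhs => rw [← MvPolynomial.sum_homogeneousComponent Ψ]
  rw [MvPolynomial.eval₂_sum, V.valuation.map_sum_eq_of_lt (j := D) (Finset.mem_range.2 (by omega)), hD']
  intro e he
  rw [hD']
  have hne : e ≠ D := by simpa using (Finset.mem_sdiff.1 he).2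
  rcases lt_or_gt_of_ne hne with hlt | hlt
  · rw [hlow e hlt, MvPolynomial.eval₂_zero, map_zero]
    exact pow_pos hs0 D
  · rw [hterm]
    exact (mul_le_of_le_one_right' (tw_le_one V (tw_eval_mem V φ hφ u hum _))).trans_lt
      (pow_lt_pow_right_of_lt_one₀ hs0 hs1 hlt)

theorem tw_comp {m : Mdl k d} {n : ℕ} (b : Fin n → m.E) (f : m.E →+* K) :
    f.comp (MvPolynomial.aeval b : MvPolynomial (Fin n) k →ₐ[k] m.E).toRingHom =
      MvPolynomial.eval₂Hom (f.comp (algebraMap k m.E)) fun j => f (b j) := by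
  refine MvPolynomial.ringHom_ext (fun c => ?_) (fun j => ?_)
  · simp
  · simp

theorem tw_root [IsAlgClosed K] {m : Mdl k d} {n : ℕ} (pd : PD m n) (f : m.E →+* K) (hf : ∀ y, f y ∈ V)
    (hb : ∀ j, V.valuation (f (pd.b j)) < 1) (s : K) (i : Fin d)
    (h : V.valuation (f (pd.val i)) < V.valuation s ^ pd.N) :
    ∃ ξ ∈ V, Polynomial.eval₂ (MvPolynomial.eval₂Hom (f.comp (algebraMap k m.E)) fun j => f (pd.b j)) ξ
      (pd.G i) = 0 ∧ V.valuation (f (m.x i) - ξ) < V.valuation s := by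
  set g : MvPolynomial (Fin n) k →+* K :=
    MvPolynomial.eval₂Hom (f.comp (algebraMap k m.E)) fun j => f (pd.b j) with hg
  have hφ : ∀ c, (f.comp (algebraMap k m.E)) c ∈ V := fun c => hf _
  obtain ⟨ξ, hξ, h0, h1⟩ := exists_root_near V ((pd.G i).map g) pd.pos
    (fun j => by
      rw [Polynomial.coeff_map]
      exact tw_eval_mem V _ hφ _ (fun j => hf _) _)
    (Polynomial.natDegree_map_le.trans (pd.deg i))
    (by
      rw [Polynomial.coeff_map]
      have h2 := tw_eval_sub V _ hφ (fun j => f (pd.b j)) (fun _ => 0) (fun j => hf _) (fun _ => zero_mem _)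
        (fun j => by simpa using hb j) ((pd.G i).coeff pd.N)
      have h3 : MvPolynomial.eval₂ (f.comp (algebraMap k m.E)) (fun _ : Fin n => (0 : K))
          ((pd.G i).coeff pd.N) = 1 := by
        rw [MvPolynomial.eval₂_zero'_apply, pd.lead i, map_one]
      rw [h3, ← V.valuation.map_one] at h2
      rw [← V.valuation.map_one]
      exact V.valuation.map_eq_of_sub_lt h2)
    (f (m.x i)) s
    (by
      rw [Polynomial.eval_map, hg, ← tw_comp, ← Polynomial.hom_eval₂]
      exact h)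
  exact ⟨ξ, hξ, by rw [← Polynomial.eval_map]; exact h0, h1⟩

theorem tw_app {B : Type} [CommRing B] (f : B →+* K) (hf : ∀ y, f y ∈ V) {n C κ : ℕ} (hC : 0 < C)
    {b : Fin n → B} {γ δ : V.ValueGroup} (hδ : δ ≠ 0) (hb : ∀ j, V.valuation (f (b j)) ^ C ≤ γ)
    (hκ : γ ^ κ < δ) {a1 a2 a3 y : B} (h1 : V.valuation (f a1) < δ) (h2 : V.valuation (f a2) < δ)
    (h3 : V.valuation (f a3) < δ) (hy : y ∈ Ideal.span {a1, a2, a3} ⊔ idl b ^ (C * κ)) :
    V.valuation (f y) < δ := by
  refine val_lt_of_mem_sup V f (fun y hy => val_lt_of_mem_span V f hf hδ ?_ hy)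
    (fun y hy => (val_le_of_mem_idl_pow V f hf hC hb κ hy).trans_lt hκ) hy
  rintro y (rfl | rfl | rfl)
  exacts [h1, h2, h3]

end tw

/-- Take `Ψ`, `N` from `exists_rel` and `Φ` the lowest nonzero homogeneous component, of degree `D < N`.  At a point
choose roots `x̃ i`, `ỹ i ∈ V` with `v (x i - x̃ i) < v s0` (`exists_root_near`).  With `O = V` (a `k`-algebra through
`f1`), `x̃ - ỹ = s0 (w + small)`, so `v (Ψ (x̃ - ỹ)) = v s0 ^ D`, while `exists_rel` gives `≤ v s0 ^ N`. -/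
theorem two_pd {m1 m2 : Mdl k d} {n1 n2 : ℕ} (pd1 : PD m1 n1) (pd2 : PD m2 n2) (h : n1 + n2 < d) {C : ℕ}
    (hC : 0 < C) : ∃ (D : ℕ) (Φ : MvPolynomial (Fin d) k), Φ ≠ 0 ∧ Φ.IsHomogeneous D ∧
      ∀ (K : Type) [Field K] [IsAlgClosed K] (V : ValuationSubring K) (f1 : m1.E →+* K) (f2 : m2.E →+* K) (s0 : K)
        (w : Fin d → k), (∀ c, f1 (algebraMap k _ c) = f2 (algebraMap k _ c)) → MvPolynomial.eval w Φ ≠ 0 →
        (∀ y, f1 y ∈ V) → (∀ y, f2 y ∈ V) → s0 ≠ 0 → V.valuation s0 < 1 →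
        (∀ j, V.valuation (f1 (pd1.b j)) ^ C ≤ V.valuation s0) →
        (∀ j, V.valuation (f2 (pd2.b j)) ^ C ≤ V.valuation s0) →
        (∀ i, V.valuation (f1 (m1.x i) - f2 (m2.x i) - f1 (algebraMap k _ (w i)) * s0) < V.valuation s0) →
        (∀ i, V.valuation (f1 (pd1.val i)) < V.valuation s0 ^ pd1.N) →
        (∀ i, V.valuation (f2 (pd2.val i)) < V.valuation s0 ^ pd2.N) → False := by
  classical
  obtain ⟨N, Ψ, hΨ, hN, H⟩ := exists_rel pd1.G pd2.G pd1.deg pd1.lead pd2.deg pd2.lead h C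
  have hex : ∃ e, MvPolynomial.homogeneousComponent e Ψ ≠ 0 := by
    by_contra hne
    push Not at hne
    apply hΨ
    rw [← MvPolynomial.sum_homogeneousComponent Ψ]
    exact Finset.sum_eq_zero fun e _ => hne e
  have hD : Nat.find hex ≤ Ψ.totalDegree := by
    by_contra hlt
    exact Nat.find_spec hex (MvPolynomial.homogeneousComponent_eq_zero _ _ (not_le.1 hlt))
  refine ⟨Nat.find hex, MvPolynomial.homogeneousComponent (Nat.find hex) Ψ, Nat.find_spec hex,
    MvPolynomial.homogeneousComponent_isHomogeneous _ _, ?_⟩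
  intro K _ _ V f1 f2 s0 w h12 hw hf1 hf2 hs hs1 hb1 hb2 hx hv1 hv2
  have hs0 : 0 < V.valuation s0 := by
    rw [zero_lt_iff]; exact (Valuation.ne_zero_iff _).2 hs
  have hlt : ∀ {a : V.ValueGroup}, a ^ C ≤ V.valuation s0 → a < 1 := by
    intro a ha
    by_contra hge
    exact absurd (ha.trans_lt hs1) (not_lt.2 (one_le_pow₀ (not_lt.1 hge)))
  choose ξ hξ hξ0 hξ1 using fun i => tw_root V pd1 f1 hf1 (fun j => hlt (hb1 j)) s0 i (hv1 i)
  choose ζ hζ hζ0 hζ1 using fun i => tw_root V pd2 f2 hf2 (fun j => hlt (hb2 j)) s0 i (hv2 i)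
  set φ : k →+* K := f1.comp (algebraMap k m1.E) with hφd
  have hφ2 : f2.comp (algebraMap k m2.E) = φ := RingHom.ext fun c => (h12 c).symm
  rw [hφ2] at hζ0
  have hφ : ∀ c, φ c ∈ V := fun c => hf1 _
  let _ : Algebra k V := (φ.codRestrict V hφ).toAlgebra
  have hcomp : ∀ {σ : Type} (b : σ → V), V.subtype.comp
      (MvPolynomial.aeval b : MvPolynomial σ k →ₐ[k] V).toRingHom =
        MvPolynomial.eval₂Hom φ fun j => (b j : K) := by
    intro σ b
    refine MvPolynomial.ringHom_ext (fun c => ?_) (fun j => ?_)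
    · simp only [AlgHom.toRingHom_eq_coe, RingHom.coe_comp, RingHom.coe_coe, Function.comp_apply,
        MvPolynomial.algHom_C, MvPolynomial.coe_eval₂Hom, MvPolynomial.eval₂_C]
      rfl
    · simp
  have key := H V (fun j => ⟨f1 (pd1.b j), hf1 _⟩) (fun j => ⟨f2 (pd2.b j), hf2 _⟩) (fun i => ⟨ξ i, hξ i⟩)
    (fun i => ⟨ζ i, hζ i⟩)
    (fun i => by
      apply V.subtype_injective
      rw [Polynomial.hom_eval₂, hcomp, map_zero]
      exact hξ0 i)
    (fun i => by
      apply V.subtype_injective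
      rw [Polynomial.hom_eval₂, hcomp, map_zero]
      exact hζ0 i)
  have hle := tw_le_pow V V.subtype (fun y => y.2) hC (γ := V.valuation s0) (fun y hy => by
    rw [idl, idl, ← Ideal.span_union] at hy
    refine tw_pow_le_span V V.subtype (fun y => y.2) hC ?_ hy
    rintro y (⟨j, rfl⟩ | ⟨j, rfl⟩)
    exacts [hb1 j, hb2 j]) N key
  have hval := RingHom.congr_fun (hcomp fun i => (⟨ξ i, hξ i⟩ - ⟨ζ i, hζ i⟩ : V)) Ψ
  have heq := tw_low V φ hφ Ψ (Nat.find hex) (fun e he => not_not.1 (Nat.find_min hex he)) hD w hw hs hs1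
    (fun i => ξ i - ζ i) (fun i => by
      have e : ξ i - ζ i - φ (w i) * s0 = (f1 (m1.x i) - f2 (m2.x i) - f1 (algebraMap k _ (w i)) * s0) -
          (f1 (m1.x i) - ξ i) + (f2 (m2.x i) - ζ i) := by
        simp only [hφd, RingHom.comp_apply]; ring
      rw [e]
      exact V.valuation.map_add_lt (V.valuation.map_sub_lt (hx i) (hξ1 i)) (hζ1 i))
  have hfin : V.valuation s0 ^ Nat.find hex ≤ V.valuation s0 ^ N := by
    rw [← heq]
    refine le_of_eq_of_le ?_ hle
    congr 1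
    exact hval.symm
  exact absurd hfin (not_le.2 (pow_lt_pow_right_of_lt_one₀ hs0 hs1 (by omega)))

/-- The base elements are as small as the coordinates and `U`. -/
theorem PD.val_b {m : Mdl k d} {n : ℕ} (pd : PD m n) {K : Type} [Field K] (V : ValuationSubring K)
    (f : m.E →+* K) (hf : ∀ y, f y ∈ V) {C : ℕ} (hC : 0 < C) {γ : V.ValueGroup}
    (hx : ∀ i, V.valuation (f (m.x i)) ^ C ≤ γ) (hU : V.valuation (f m.U) ^ C ≤ γ) (j : Fin n) :
    V.valuation (f (pd.b j)) ^ C ≤ γ := by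
  have h := pd.hb j
  rw [idl, ← Ideal.span_union] at h
  refine tw_pow_le_span V f hf hC ?_ h
  rintro y (⟨i, rfl⟩ | rfl)
  exacts [hx i, hU]

variable {m : Mdl k d} {n L : ℕ} {σ1 σ2 : m.E}

/-- Take `K = C (N + 1)`, `κ = N`. -/
theorem cov_of_appW0 (h : AppW m n L 0 σ1 σ2) : Cov m n L σ1 σ2 := by
  obtain ⟨N, H⟩ := h
  intro C hC
  obtain ⟨pd, hN, hpd⟩ := H (C * (N + 1))
  refine ⟨[pd], N, ?_⟩
  intro K _ V f s0 hf hs hs1 hx hU hL h1 h2
  have hs0 : 0 < V.valuation s0 := by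
    rw [zero_lt_iff]; exact (Valuation.ne_zero_iff _).2 hs
  refine ⟨pd, List.mem_singleton_self _, fun i => ?_⟩
  have hy := hpd i
  rw [pow_zero, one_mul, zero_add] at hy
  have hpos : 0 < N := hN ▸ pd.pos
  rw [hN]
  refine tw_app V f hf hC (pow_pos hs0 N).ne' (pd.val_b V f hf hC hx hU)
    (pow_lt_pow_right_of_lt_one₀ hs0 hs1 (Nat.lt_succ_self N)) ?_ h1 h2 hy
  rw [map_pow, map_pow, pow_mul]
  exact pow_lt_pow_left₀ hL zero_le hpos.ne'

/-- With `NA`, `NB` the two degrees: if `v U < v s0 ^ NB` use the second datum, otherwise divide by `v U ^ c`;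
`κ = c NB + NA + NB`, `K = C (κ + 1)`. -/
theorem cov_of_two {c : ℕ} (h : AppW m n L c σ1 σ2) (h' : AppU m n σ1 σ2) : Cov m n L σ1 σ2 := by
  obtain ⟨NA, H⟩ := h
  obtain ⟨NB, H'⟩ := h'
  intro C hC
  obtain ⟨pd, hN, hpd⟩ := H (C * (c * NB + NA + NB + 1))
  obtain ⟨pd', hN', hpd'⟩ := H' (C * (c * NB + NA + NB + 1))
  refine ⟨[pd, pd'], c * NB + NA + NB, ?_⟩
  intro K _ V f s0 hf hs hs1 hx hU hL h1 h2
  have hs0 : 0 < V.valuation s0 := by
    rw [zero_lt_iff]; exact (Valuation.ne_zero_iff _).2 hs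
  have hκ : V.valuation s0 ^ (c * NB + NA + NB + 1) < V.valuation s0 ^ (c * NB + NA + NB) :=
    pow_lt_pow_right_of_lt_one₀ hs0 hs1 (Nat.lt_succ_self _)
  by_cases hc : V.valuation (f m.U) < V.valuation s0 ^ NB
  · refine ⟨pd', by simp, fun i => ?_⟩
    have hle : V.valuation s0 ^ (c * NB + NA + NB) ≤ V.valuation s0 ^ NB :=
      pow_le_pow_right_of_le_one' hs1.le (by omega)
    rw [hN']
    exact tw_app V f hf hC (pow_pos hs0 NB).ne' (pd'.val_b V f hf hC hx hU) (hκ.trans_le hle) hc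
      (h1.trans_le hle) (h2.trans_le hle) (hpd' i)
  · refine ⟨pd, by simp, fun i => ?_⟩
    have hge : V.valuation s0 ^ NB ≤ V.valuation (f m.U) := not_lt.1 hc
    have hU0 : 0 < V.valuation (f m.U) ^ c := pow_pos ((pow_pos hs0 NB).trans_le hge) c
    have hle : V.valuation s0 ^ (c * NB + NA + NB) ≤ V.valuation (f m.U) ^ c * V.valuation s0 ^ NA :=
      calc V.valuation s0 ^ (c * NB + NA + NB) ≤ V.valuation s0 ^ (NB * c + NA) :=
            pow_le_pow_right_of_le_one' hs1.le (by rw [mul_comm]; omega)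
        _ = (V.valuation s0 ^ NB) ^ c * V.valuation s0 ^ NA := by rw [pow_add, pow_mul]
        _ ≤ _ := mul_le_mul' (pow_le_pow_left₀ zero_le hge c) le_rfl
    have hpos : 0 < NA := hN ▸ pd.pos
    have key := tw_app V f hf hC (mul_pos hU0 (pow_pos hs0 NA)).ne' (pd.val_b V f hf hC hx hU)
      (hκ.trans_le hle) (by
        rw [map_pow, map_pow, pow_add, pow_mul]
        exact mul_lt_mul_of_pos_left (pow_lt_pow_left₀ hL zero_le hpos.ne') hU0)
      (h1.trans_le hle) (h2.trans_le hle) (hpd i)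
    rw [map_mul, map_mul, map_pow, map_pow] at key
    rw [hN]
    exact lt_of_mul_lt_mul_left key hU0.le

/-- `η` is a unit at the point (`v U < 1` because `v U ^ C ≤ v s0 < 1`), so `v U ^ c < v s0 ^ κ`; take
`κ = (c + 1) N`. -/
theorem cov_of_U (h : AppU m n σ1 σ2) {c : ℕ} {η : m.E} (hη : η - 1 ∈ Ideal.span {m.U})
    (hc : m.U ^ c * η ∈ Ideal.span {σ1, σ2}) : Cov m n L σ1 σ2 := by
  obtain ⟨N, H⟩ := h
  intro C hC
  obtain ⟨pd, hN, hpd⟩ := H (C * (N + 1))
  refine ⟨[pd], (c + 1) * N, ?_⟩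
  intro K _ V f s0 hf hs hs1 hx hU _ h1 h2
  have hs0 : 0 < V.valuation s0 := by
    rw [zero_lt_iff]; exact (Valuation.ne_zero_iff _).2 hs
  refine ⟨pd, List.mem_singleton_self _, fun i => ?_⟩
  have hU1 : V.valuation (f m.U) < 1 := by
    by_contra hge
    exact absurd (hU.trans_lt hs1) (not_lt.2 (one_le_pow₀ (not_lt.1 hge)))
  have hη1 : V.valuation (f η) = 1 := by
    have h3 : V.valuation (f (η - 1)) < 1 :=
      val_lt_of_mem_span V f hf one_ne_zero (by rintro y rfl; exact hU1) hη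
    rw [map_sub, map_one, ← V.valuation.map_one] at h3
    rw [V.valuation.map_eq_of_sub_lt h3, map_one]
  have h4 : V.valuation (f (m.U ^ c * η)) < V.valuation s0 ^ ((c + 1) * N) := by
    refine val_lt_of_mem_span V f hf (pow_pos hs0 _).ne' ?_ hc
    rintro y (rfl | rfl)
    exacts [h1, h2]
  rw [map_mul, map_mul, hη1, mul_one, map_pow, map_pow] at h4
  have hle : V.valuation s0 ^ ((c + 1) * N) ≤ V.valuation s0 ^ N :=
    pow_le_pow_right_of_le_one' hs1.le (by rw [add_mul]; omega)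
  have hUN : V.valuation (f m.U) < V.valuation s0 ^ N := by
    by_contra hge
    have h5 : (V.valuation s0 ^ N) ^ c ≤ V.valuation (f m.U) ^ c := pow_le_pow_left₀ zero_le (not_lt.1 hge) c
    rw [← pow_mul] at h5
    have h6 : V.valuation s0 ^ ((c + 1) * N) ≤ V.valuation s0 ^ (N * c) :=
      pow_le_pow_right_of_le_one' hs1.le (by rw [add_mul, mul_comm]; omega)
    exact absurd (h4.trans_le h6) (not_lt.2 h5)
  rw [hN]
  exact tw_app V f hf hC (pow_pos hs0 N).ne' (pd.val_b V f hf hC hx hU)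
    (pow_lt_pow_right_of_lt_one₀ hs0 hs1 (Nat.lt_succ_self N)) hUN (h1.trans_le hle) (h2.trans_le hle) (hpd i)

end Crest.Agent.R188
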