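import Crest.Agent.R188.EnvW
import Crest.Agent.R188.Two

/-!
# rid 188, file `SideC`: primes that contain `p`; the side for vanishing

Prefix helper lemmas with `sc_`.
-/

set_option autoImplicit false
set_option linter.unusedSectionVars false

open IsLocalRing Crest.Agent.R183

namespace Crest.Agent.R188

variable {p : ℕ} [Fact p.Prime] {k : Type} [Field k] [CharP k p] [IsAlgClosed k] {d : ℕ} (μ : Mix p k d)

/-- `φ_pow_sub`. -/
theorem Mix.map_ψ_le_iff {n' : ℕ} (𝔭 : Ideal (μ.R n')) [𝔭.IsPrime] (hp : (p : μ.R n') ∈ 𝔭) (I : Ideal (AW p k d)) :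
    I.map (μ.ψ n') ≤ 𝔭 ↔ I ≤ 𝔭.comap (μ.pr n') := by
  rw [Ideal.map_le_iff_le_comap]
  have key : ∀ g, g ∈ 𝔭.comap (μ.ψ n') ↔ g ∈ 𝔭.comap (μ.pr n') := fun g => by
    rw [Ideal.mem_comap, Ideal.mem_comap]
    obtain ⟨c, hc⟩ := Ideal.mem_span_singleton'.1 (μ.φ_pow_sub n' g)
    have e : μ.ψ n' g = μ.pr n' g ^ p ^ n' + μ.pr n' c * p := by
      have e1 : (μ.Δ.φ ^ n') g = g ^ p ^ n' + c * p := by rw [hc]; ring
      rw [Mix.ψ, RingHom.comp_apply, e1, map_add, map_mul, map_pow, map_natCast]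
    rw [e, Ideal.add_mem_iff_left _ (Ideal.mul_mem_left _ _ hp),
      Ideal.IsPrime.pow_mem_iff_mem inferInstance _ (pow_pos (Fact.out : p.Prime).pos n')]
  exact ⟨fun h g hg => (key g).1 (h hg), fun h g hg => (key g).2 (h hg)⟩

theorem Mix.ξ_mem_of {P : Ideal (AW p k d)} (hp : (p : AW p k d) ∈ P) (hf : μ.f0 ∈ P) (n' : ℕ) : μ.ξ n' ∈ P := by
  have h1 : (μ.Δ.φ ^ n') μ.f0 - μ.f0 ^ p ^ n' ∈ P :=
    (Ideal.span_singleton_le_iff_mem _).2 hp (μ.φ_pow_sub n' μ.f0)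
  have h2 : μ.f0 ^ p ^ n' ∈ P := Ideal.pow_mem_of_mem _ hf _ (pow_pos (Fact.out : p.Prime).pos n')
  have h3 := add_mem h1 h2
  rw [sub_add_cancel] at h3
  exact sub_mem hp h3

theorem sc_zero_mem {R : Type} [CommRing R] {I : Ideal R} {y : R} (h : y = 0) : y ∈ I := h ▸ I.zero_mem

theorem sc_kil_of_le {R : Type} [CommRing R] {I : Ideal R} {M : Type} [AddCommGroup M] [Module R M]
    (h : I ≤ Module.annihilator R M) : Kil I M :=
  ⟨1, fun y hy w => Module.mem_annihilator.1 (h (by rwa [pow_one] at hy)) w⟩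

theorem Mix.sc_ker {P : Ideal (AW p k d)} (hp : (p : AW p k d) ∈ P) (hf : μ.f0 ∈ P) (n' : ℕ) :
    RingHom.ker (μ.pr n') ≤ P := by
  rw [Ideal.mk_ker, Ideal.span_singleton_le_iff_mem]
  exact μ.ξ_mem_of hp hf n'

theorem Mix.sc_prime (P : Ideal (AW p k d)) [P.IsPrime] (hp : (p : AW p k d) ∈ P) (hf : μ.f0 ∈ P) (n' : ℕ) :
    (P.map (μ.pr n')).IsPrime :=
  Ideal.map_isPrime_of_surjective Ideal.Quotient.mk_surjective (μ.sc_ker hp hf n')

theorem Mix.sc_p_mem {I : Ideal (AW p k d)} (hp : (p : AW p k d) ∈ I) (n' : ℕ) :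
    (p : μ.R n') ∈ I.map (μ.ψ n') := by
  have := Ideal.mem_map_of_mem (μ.ψ n') hp
  rwa [map_natCast] at this

theorem Mix.sc_le (P : Ideal (AW p k d)) [P.IsPrime] (hp : (p : AW p k d) ∈ P) (hf : μ.f0 ∈ P) (n' : ℕ) :
    P.map (μ.ψ n') ≤ P.map (μ.pr n') := by
  have := μ.sc_prime P hp hf n'
  have h1 : (p : μ.R n') ∈ P.map (μ.pr n') := by
    have := Ideal.mem_map_of_mem (μ.pr n') hp
    rwa [map_natCast] at this
  exact (μ.map_ψ_le_iff _ h1 P).2 Ideal.le_comap_map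
/-- `clPos_of_prime` with `P0 = P.map (pr n')`. -/
theorem Mix.clPos_K (P : Ideal (AW p k d)) [P.IsPrime] (hf : μ.f0 ∈ P) {𝔞 : Ideal (AW p k d)} (h𝔞 : 𝔞 ≤ P)
    (hp : (p : AW p k d) ∈ 𝔞) {a : ℕ}
    (other : ∀ 𝔭 : Ideal (AW p k d), 𝔭.IsPrime → 𝔞 ≤ 𝔭 → 𝔭 ≠ P → ringKrullDim (AW p k d ⧸ 𝔭) < a) (n' : ℕ) {M : Type}
    [AddCommGroup M] [Module (μ.R n') M] [Module.Finite (μ.R n') M] (hM : Kil (𝔞.map (μ.ψ n')) M) :
    ClPos (𝔞.map (μ.ψ n')) a M (μ.R n' ⧸ P.map (μ.ψ n')) := by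
  have := μ.noeth
  have hpP : (p : AW p k d) ∈ P := h𝔞 hp
  have hP0 := μ.sc_prime P hpP hf n'
  refine clPos_of_prime hM (sc_kil_of_le ?_) (P.map (μ.pr n')) hP0 (fun 𝔭 h𝔭 hle hne => ?_) ?_ fun 𝔭 h𝔭 hle => ?_
  · rw [Ideal.annihilator_quotient]
    exact Ideal.map_mono h𝔞
  · have h1 := (μ.map_ψ_le_iff 𝔭 (hle (μ.sc_p_mem hp n')) 𝔞).1 hle
    rw [av_dim_comap (μ.pr n') (RingHom.isIntegral_of_surjective _ Ideal.Quotient.mk_surjective)]
    refine other _ (Ideal.comap_isPrime _ _) h1 fun h => hne ?_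
    rw [← h, Ideal.map_comap_of_surjective _ Ideal.Quotient.mk_surjective]
  · rw [Ideal.annihilator_quotient]
    exact μ.sc_le P hpP hf n'
  · rw [Ideal.annihilator_quotient] at hle
    exact Ideal.map_le_iff_le_comap.2 ((μ.map_ψ_le_iff 𝔭 (hle (μ.sc_p_mem hpP n')) P).1 hle)

/-- `clVan_of_prime` with `P0 = P.map (pr n')`. -/
theorem Mix.clVan_K (P : Ideal (AW p k d)) [P.IsPrime] (hp : (p : AW p k d) ∈ P) (hf : μ.f0 ∈ P) {a : ℕ}
    (hd : ringKrullDim (AW p k d ⧸ P) ≤ a) (n' : ℕ) {M : Type} [AddCommGroup M] [Module (μ.R n') M]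
    [Module.Finite (μ.R n') M] (hM : Module.annihilator (μ.R n') M = P.map (μ.pr n')) :
    ClVan (P.map (μ.ψ n')) a M (μ.R n' ⧸ P.map (μ.ψ n')) := by
  have := μ.noeth
  have hP0 := μ.sc_prime P hp hf n'
  refine clVan_of_prime (sc_kil_of_le ?_) (sc_kil_of_le ?_) (P.map (μ.pr n')) hP0 (fun 𝔭 h𝔭 hle hne => ?_) hM.le
    fun 𝔭 _ hle => hM ▸ hle
  · rw [hM]
    exact μ.sc_le P hp hf n'
  · rw [Ideal.annihilator_quotient]
  · have h1 : P.map (μ.pr n') ≤ 𝔭 :=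
      Ideal.map_le_iff_le_comap.2 ((μ.map_ψ_le_iff 𝔭 (hle (μ.sc_p_mem hp n')) P).1 hle)
    refine dim_lt_of_lt (lt_of_le_of_ne h1 hne.symm) ?_
    rwa [dim_map_of_surj (μ.pr n') Ideal.Quotient.mk_surjective (μ.sc_ker hp hf n')]

/-- The model is `AMdl.of (A / P) mk _ 0 ⊥`; the cover is `cov_of_U` (`c = 1`, `η = 1`) with `AMdl.appU`.  The side is
`Side.of f _ (RingHom.id _) _ 1` where `f : R n' → A / P` is induced by `mk ∘ φ^m`, i.e. `g ↦ g^(p^m)` (finite by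
`φ_finite`); the realisation is `ε = a`. -/
theorem Mix.sideC (P : Ideal (AW p k d)) [P.IsPrime] (hp : (p : AW p k d) ∈ P) (hf : μ.f0 ∈ P) {a : ℕ}
    (hd : ringKrullDim (AW p k d ⧸ P) ≤ a) :
    ∃ md : AMdl p k d, md.a0 μ.f0 = 0 ∧ ∀ L : ℕ, μ.UVan md 0 P P P a L := by
  have hp' : (p : AW p k d ⧸ P) = 0 := by
    rw [← map_natCast (Ideal.Quotient.mk P), Ideal.Quotient.eq_zero_iff_mem]
    exact hp
  have hφ : ∀ (j : ℕ) (g : AW p k d), Ideal.Quotient.mk P ((μ.Δ.φ ^ j) g) = Ideal.Quotient.mk P g ^ p ^ j :=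
    fun j g => by
      rw [← map_pow, Ideal.Quotient.eq]
      exact (Ideal.span_singleton_le_iff_mem _).2 hp (μ.φ_pow_sub j g)
  have hpos : ∀ j : ℕ, p ^ j ≠ 0 := fun j => (pow_pos (Fact.out : p.Prime).pos j).ne'
  have h0 : ∀ g ∈ P, (AMdl.of (AW p k d ⧸ P) (Ideal.Quotient.mk P) hp' 0 ⊥).a0 g = 0 := fun g hg =>
    Ideal.Quotient.eq_zero_iff_mem.2 hg
  refine ⟨AMdl.of (AW p k d ⧸ P) (Ideal.Quotient.mk P) hp' 0 ⊥, h0 _ hf, fun L => ⟨fun g hg => ?_, ?_,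
    fun n' k0 => ⟨0, fun m _ => ?_⟩⟩⟩
  · rw [h0 g hg]
    exact zero_mem _
  · refine cov_of_U (c := 1) (η := 1) (AMdl.appU _ P hp (fun b hb => ?_) hd) ?_ ?_
    · rw [h0 b hb]
      exact zero_mem _
    · rw [sub_self]
      exact zero_mem _
    · rw [pow_one, mul_one]
      exact zero_mem _
  · obtain ⟨f, hfe⟩ : ∃ f : μ.R n' →+* AW p k d ⧸ P, ∀ g, f (μ.pr n' g) = Ideal.Quotient.mk P ((μ.Δ.φ ^ m) g) := by
      refine ⟨Ideal.Quotient.lift _ ((Ideal.Quotient.mk P).comp (μ.Δ.φ ^ m)) fun y hy => ?_, fun g => rfl⟩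
      obtain ⟨c, rfl⟩ := Ideal.mem_span_singleton'.1 hy
      rw [RingHom.comp_apply, hφ, map_mul, Ideal.Quotient.eq_zero_iff_mem.2 (μ.ξ_mem_of hp hf n'), mul_zero,
        zero_pow (hpos m)]
    have hfin : f.Finite := by
      refine RingHom.Finite.of_comp_finite (f := μ.pr n') ?_
      have e : f.comp (μ.pr n') = (Ideal.Quotient.mk P).comp (μ.Δ.φ ^ m) := RingHom.ext hfe
      rw [e]
      exact (RingHom.Finite.of_surjective _ Ideal.Quotient.mk_surjective).comp (μ.φ_finite m)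
    have hann : Module.annihilator (μ.R n') (Side.of f hfin (RingHom.id _) (RingHom.Finite.id _) 1).M =
        P.map (μ.pr n') := by
      ext r
      obtain ⟨g, rfl⟩ := Ideal.Quotient.mk_surjective r
      have h1 : μ.pr n' g ∈ P.map (μ.pr n') ↔ g ∈ P := by
        rw [← Ideal.mem_comap, Ideal.comap_map_of_surjective _ Ideal.Quotient.mk_surjective,
          ← RingHom.ker_eq_comap_bot, sup_eq_left.2 (μ.sc_ker hp hf n')]
      have h2 : f (μ.pr n' g) = 0 ↔ g ∈ P := by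
        rw [hfe, hφ, pow_eq_zero_iff (hpos m), Ideal.Quotient.eq_zero_iff_mem]
      refine Iff.trans ?_ (h2.trans h1.symm)
      rw [Module.mem_annihilator]
      constructor
      · intro h
        have h3 := h 1
        rwa [Algebra.smul_def, mul_one] at h3
      · intro h w
        have h3 : algebraMap (μ.R n') (Side.of f hfin (RingHom.id _) (RingHom.Finite.id _) 1).M (μ.pr n' g) = 0 := h
        rw [Algebra.smul_def, h3, zero_mul]
    refine ⟨Side.of f hfin (RingHom.id _) (RingHom.Finite.id _) 1, ⟨fun 𝒪 _ a' _ => ⟨a', fun g => ?_, fun y hy => ?_,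
      fun _ _ => ⟨?_, ?_, ?_⟩⟩, fun g hg => ?_, sc_kil_of_le ?_⟩, μ.clVan_K P hp hf hd n' hann⟩
    · exact (map_pow a' _ _).symm.trans (congrArg a' ((hfe g).trans (hφ m g)).symm)
    · have h1 : y = 0 := hy
      subst h1
      exact sc_zero_mem (map_zero a')
    · exact sc_zero_mem ((congrArg (· ^ p ^ m) (map_zero a')).trans (zero_pow (hpos m)))
    · exact sc_zero_mem ((congrArg (· ^ p ^ (m - k0)) (map_zero a')).trans (zero_pow (hpos _)))
    · exact (congrArg (· ^ p ^ (m - k0)) (map_zero a')).trans (zero_pow (hpos _))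
    · refine (hfe _).trans ?_
      rw [hφ, hφ, Ideal.Quotient.eq_zero_iff_mem.2 hg, zero_pow (hpos _), zero_pow (hpos _)]
      rfl
    · rw [hann]
      exact μ.sc_le P hp hf n'

end Crest.Agent.R188
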