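import Crest.Agent.R188.EnvW
import Crest.Agent.R188.Two

/-!
# rid 188, file `SideF1`: the envelope of a prime that does not contain `p`; its covers

Prefix helper lemmas with `f1_`.
-/

set_option autoImplicit false
set_option linter.unusedSectionVars false

open IsLocalRing Crest.Agent.R183

namespace Crest.Agent.R188

variable {p : ℕ} [Fact p.Prime] {k : Type} [Field k] [CharP k p] [IsAlgClosed k] {d : ℕ} (μ : Mix p k d)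

theorem f1_anti {A : Type} [CommRing A] {I J : Ideal A} (h : I ≤ J) :
    ringKrullDim (A ⧸ J) ≤ ringKrullDim (A ⧸ I) :=
  ringKrullDim_le_of_surjective (Ideal.Quotient.factor h) (Ideal.Quotient.factor_surjective h)

theorem f1_le_col {A : Type} [CommRing A] (𝔟 : Ideal A) (y : A) : 𝔟 ≤ col 𝔟 y :=
  fun _ hb => mem_col.2 (𝔟.mul_mem_left _ hb)

theorem f1_z {A : Type} [CommRing A] [IsNoetherianRing A] [IsLocalRing A] {I J : Ideal A} {m : ℕ}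
    (hI : ringKrullDim (A ⧸ I) ≤ (m + 1 : ℕ)) (hJ : ringKrullDim (A ⧸ (J ⊔ I)) ≤ m) :
    ∃ z ∈ J, z = 1 ∨ ∃ (t : Fin m → A) (c : ℕ), z ∈ maximalIdeal A ∧ (∀ j, t j ∈ maximalIdeal A) ∧
      maximalIdeal A ^ c ≤ I ⊔ idl (Fin.cons z t : Fin (m + 1) → _) := by
  by_cases hT : J = ⊤
  · exact ⟨1, hT ▸ Submodule.mem_top, .inl rfl⟩
  obtain ⟨f, hf, h⟩ := avoid_many J (fun _ : Unit => I) (fun _ => m + 1) (fun _ => hI) 1
  have e : idl f = Ideal.span {f 0} := by rw [idl, Set.range_unique]; rfl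
  have h1 : ringKrullDim (A ⧸ (I ⊔ Ideal.span {f 0})) ≤ m := dim_le_of_primes fun 𝔭 hp hle => by
    by_cases h2 : J ≤ 𝔭
    · exact (f1_anti (sup_le h2 (le_sup_left.trans hle))).trans hJ
    · obtain ⟨e', h3, h4⟩ := h () 𝔭 hp (e ▸ hle) h2
      exact h3.trans (by exact_mod_cast (by omega : e' ≤ m))
  obtain ⟨t, c, ht, hc⟩ := exists_sop_mod h1 le_sup_right
  exact ⟨f 0, hf 0, .inr ⟨t, c, le_maximalIdeal hT (hf 0), ht, by rwa [av_idl_cons, ← sup_assoc]⟩⟩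

theorem f1_data {A : Type} [CommRing A] [IsNoetherianRing A] [IsLocalRing A] {𝔣 P 𝔵 : Ideal A} [P.IsPrime]
    {ϖ : A} {a : ℕ} (hϖ : ϖ ∈ maximalIdeal A) (hle : 𝔣 ≤ P) (h𝔵 : maximalIdeal A ≤ 𝔣 ⊔ 𝔵)
    (hP : ringKrullDim (A ⧸ P) = a) (hdim : ringKrullDim (A ⧸ (𝔣 ⊔ Ideal.span {ϖ})) < a) :
    ∃ (h w : A) (n m : ℕ) (t : Fin n → A) (t' : Fin m → A), h ∈ 𝔵 ∧ w ∈ 𝔵 ∧ (∀ j, t j ∈ 𝔵) ∧ (∀ j, t' j ∈ 𝔵) ∧
      h ∉ P ∧ (∃ N : ℕ, P ^ N ≤ col 𝔣 h) ∧ h * w ∈ 𝔣 ∧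
      (∃ c : ℕ, n + 1 = a ∧ maximalIdeal A ^ c ≤ 𝔣 ⊔ Ideal.span {ϖ} ⊔ idl t) ∧
      ((a = 1 ∧ ∃ N : ℕ, ϖ ^ N ∈ 𝔣 ⊔ Ideal.span {h, w}) ∨ ∃ N c : ℕ, m + 2 = a ∧
        maximalIdeal A ^ c ≤ col (𝔣 ⊔ Ideal.span {h, w}) (ϖ ^ N) ⊔ Ideal.span {ϖ} ⊔ idl t') ∧
      ∃ (N : ℕ) (z : A), ϖ ^ N * z ∈ 𝔣 ⊔ Ideal.span {h, w} ∧
        (z = 1 ∨ ∃ (n : ℕ) (t : Fin n → A) (c : ℕ), n + 2 = a ∧ z ∈ maximalIdeal A ∧
          (∀ j, t j ∈ maximalIdeal A) ∧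
          maximalIdeal A ^ c ≤ 𝔣 ⊔ Ideal.span {ϖ} ⊔ idl (Fin.cons z t : Fin (n + 1) → _)) := by
  have hϖ' := (Ideal.span_singleton_le_iff_mem _).2 hϖ
  have hne : ∀ I : Ideal A, I ≠ ⊤ → I ⊔ Ideal.span {ϖ} ≠ ⊤ := fun I hI h =>
    (maximalIdeal.isMaximal A).ne_top (top_le_iff.1 (h ▸ sup_le (le_maximalIdeal hI) hϖ'))
  rcases a with _ | n
  · exact absurd hdim (av_nonneg (hne _ fun h => ‹P.IsPrime›.ne_top (top_le_iff.1 (h ▸ hle))))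
  obtain ⟨h, w, N0, h1, h2, h3, h4, h5, h6⟩ := exists_hw (𝔵 := 𝔵) hle (dim_le_succ hϖ hdim) hP.not_lt
    fun 𝔭 _ a1 a2 => (f1_anti (sup_le a1 (hϖ'.trans (h𝔵.trans (sup_le a1 a2))))).trans_lt hdim
  have hd := lt_succ_iff_le.1 hdim
  obtain ⟨t, c, ht, hc⟩ := exists_sop_mod hd (h𝔵.trans (sup_le_sup_right le_sup_left _))
  obtain ⟨N, hN⟩ := dim_sat _ ϖ (lt_succ_iff_le.1 h6)
  rcases n with _ | m
  · have hT : col (𝔣 ⊔ Ideal.span {h, w}) (ϖ ^ N) = ⊤ := by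
      by_contra hT
      exact av_nonneg (hne _ hT) hN
    have h7 : ϖ ^ N * 1 ∈ 𝔣 ⊔ Ideal.span {h, w} := mem_col.1 (hT ▸ Submodule.mem_top)
    exact ⟨h, w, 0, 0, t, t, h1, h2, ht, ht, h3, ⟨N0, h4⟩, h5, ⟨c, rfl, hc⟩,
      .inl ⟨rfl, N, by rwa [mul_one] at h7⟩, N, 1, h7, .inl rfl⟩
  · have hd' := lt_succ_iff_le.1 hN
    have hf : 𝔣 ≤ col (𝔣 ⊔ Ideal.span {h, w}) (ϖ ^ N) := le_sup_left.trans (f1_le_col _ _)
    obtain ⟨t', c', ht', hc'⟩ := exists_sop_mod hd' (h𝔵.trans (sup_le_sup_right (hf.trans le_sup_left) _))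
    obtain ⟨z, hz, hz'⟩ := f1_z (J := col (𝔣 ⊔ Ideal.span {h, w}) (ϖ ^ N)) hd
      ((f1_anti (sup_le_sup_left le_sup_right _)).trans hd')
    exact ⟨h, w, m + 1, m, t, t', h1, h2, ht, ht', h3, ⟨N0, h4⟩, h5, ⟨c, rfl, hc⟩, .inr ⟨N, c', rfl, hc'⟩,
      N, z, mem_col.1 hz, hz'.imp_right fun ⟨t, c, h⟩ => ⟨m, t, c, rfl, h⟩⟩

/-- Let `𝔣 = (ξ 0, f)`; `dim A / 𝔣 ≤ a` (`dim_le_succ`) and `0 < a`.  Get `h, w` from `exists_hw` (`𝔵 = idl X`,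
`max_le`), `t` from `exists_sop_mod`, `N` from `dim_sat` for `𝔟 = 𝔣 ⊔ (h, w)`.  If `a = 1` then `col 𝔟 (p^N) = ⊤`.
If `a = n + 2` get `t'` from `exists_sop_mod`, and `z` from `avoid_many` (one element of `col 𝔟 (p^N) ⊓ 𝔪`, for the
ideal `𝔣 ⊔ (p)`).  Take `V = Fin 3 ⊕ Fin (a-1) ⊕ Fin (a-2)` with `g = (f0, h, w; t; t')` (do the two cases apart). -/
theorem Mix.exists_FD (P : Ideal (AW p k d)) [P.IsPrime] (hξ : μ.ξ 0 ∈ P) (hp : (p : AW p k d) ∉ P) {a c : ℕ}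
    (hac : a + c = d) (hP : ringKrullDim (AW p k d ⧸ P) = a) (f : Fin c → AW p k d)
    (hf : ∀ l, f l ∈ P ∧ f l ∈ idl (MvPowerSeries.X : Fin d → AW p k d))
    (hdim : ringKrullDim (AW p k d ⧸ (Ideal.span {μ.ξ 0} ⊔ idl f ⊔ Ideal.span {(p : AW p k d)})) < a) :
    ∃ (E : MEnv p k d) (vT vT' : E.V), E.𝔣 = Ideal.span {μ.ξ 0} ⊔ idl f ∧ μ.FD E P a vT vT' := by
  have := μ.noeth
  have hle : Ideal.span {μ.ξ 0} ⊔ idl f ≤ P :=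
    sup_le ((Ideal.span_singleton_le_iff_mem _).2 hξ) (ln_idl_le fun l => (hf l).1)
  obtain ⟨h, w, n, m, t, t', h1, h2, h3, h4, h5, h6, h7, ⟨c1, h8⟩, h9, h10⟩ :=
    f1_data (𝔵 := idl MvPowerSeries.X) μ.p_mem hle
      ((μ.max_le 0).trans (sup_le_sup_right le_sup_left _)) hP hdim
  rw [μ.ξ_zero] at *
  let E : MEnv p k d :=
    { V := Option (Option (Option (Fin n ⊕ Fin m)))
      u0 := none
      c := c
      f := f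
      g := fun o => o.elim μ.f0 fun o => o.elim h fun o => o.elim w (Sum.elim t t')
      f_mem := fun l => (hf l).2
      g_mem := by
        rintro (_ | _ | _ | j | j)
        exacts [μ.f0_mem, h1, h2, h3 j, h4 j] }
  exact ⟨E, some none, some (some none), rfl, rfl, hac, ‹_›, hp, hle, hP.le, h5, h6, h7,
    ⟨n, fun j => some (some (some (.inl j))), c1, h8⟩,
    h9.imp_right fun ⟨N, c2, h⟩ => ⟨m, fun j => some (some (some (.inr j))), N, c2, h⟩, h10⟩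

variable {μ} {E : MEnv p k d} {P : Ideal (AW p k d)} {a : ℕ} {vT vT' : E.V}

theorem Mix.FD.dim_pf (h : μ.FD E P a vT vT') :
    ringKrullDim (AW p k d ⧸ (E.𝔣 ⊔ Ideal.span {(p : AW p k d)})) < a := by
  have := μ.noeth
  obtain ⟨n, ι, c, rfl, hc⟩ := h.par
  exact lt_succ_iff_le.2 (dim_le_of_pow_le (fun j => μ.idl_le (E.g_mem _)) hc)

theorem Mix.FD.dimf (h : μ.FD E P a vT vT') : ringKrullDim (AW p k d ⧸ E.𝔣) ≤ a := by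
  have := μ.noeth
  exact dim_le_succ μ.p_mem h.dim_pf

theorem Mix.FD.near (h : μ.FD E P a vT vT') : Near P P (col E.𝔣 (E.g vT)) a := by
  exact ⟨h.prime, le_rfl, h.dim,
    fun y hy => (h.prime.mem_or_mem (h.le (mem_col.1 hy))).resolve_left h.h_not, h.pow⟩

/-- `appW` with `N = 0`, `cov_of_appW0`. -/
theorem Mix.FD.cov_full (h : μ.FD E P a vT vT') (L : ℕ) : ∃ n0 : ℕ, ∀ n ≥ n0,
    Cov (μ.mdl E n).m a L (μ.q E n (E.xv vT')) (μ.q E n (E.xv vT')) := by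
  obtain ⟨n, ι, c, rfl, hc⟩ := h.par
  obtain ⟨n0, c', h0, h1⟩ := μ.appW E ι vT' vT' 0 (hc.trans (sup_le_sup_right (sup_le_sup_right
    (le_sup_left.trans (f1_le_col _ _)) _) _)) L
  obtain rfl := h0 rfl
  exact ⟨n0, fun n hn => cov_of_appW0 (h1 n hn)⟩

/-- `AMdl.appU` with `𝔟 = 𝔣 ⊔ (p)` (`mdl_hf`).  If `a = 1` use `key_z` with `z = 1` and `cov_of_U`; otherwise `appW` and
`cov_of_two`. -/
theorem Mix.FD.cov_cut (h : μ.FD E P a vT vT') (L : ℕ) : ∃ n0 : ℕ, ∀ n ≥ n0,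
    Cov (μ.mdl E n).m (a - 1) L (μ.q E n (E.xv vT)) (μ.q E n (E.xv vT')) := by
  have hU : ∀ n, AppU (μ.mdl E n).m (a - 1) (μ.q E n (E.xv vT)) (μ.q E n (E.xv vT')) := fun n => by
    have h1 := h.dim_pf
    obtain ⟨m, -, -, rfl, -⟩ := h.par
    exact (μ.mdl E n).appU _ (Ideal.mem_sup_right (Ideal.mem_span_singleton_self _))
      (fun b hb => Ideal.span_mono (by simp) (μ.mdl_hf E n hb)) (lt_succ_iff_le.1 h1)
  rcases h.cut with ⟨-, N, hN⟩ | ⟨m, ι, N, c, rfl, hc⟩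
  · obtain ⟨n0, c, z, h1, h2⟩ := E.key_z (Δ := μ.Δ) vT vT' (N := N) (z := 1) (by rwa [mul_one])
    refine ⟨n0, fun n hn => cov_of_U (hU n) (c := c) (η := μ.q E n z) ?_ ?_⟩
    · rw [map_one, one_pow] at h1
      obtain ⟨x, y, e⟩ := Ideal.mem_span_pair.1 h1
      rw [← map_one (μ.q E n), ← map_sub, ← e, map_add, map_mul, map_mul, nw_q_p, mul_zero, zero_add]
      exact Ideal.mul_mem_left _ _ (Ideal.mem_span_singleton_self _)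
    · rw [μ.mdl_U, ← map_pow, ← map_mul]
      obtain ⟨x, hx, y, hy, e⟩ := Submodule.mem_sup.1 h2
      rw [← e, map_add, (μ.q_eq_zero E).2 ((sup_le_sup_left (E.Ir_mono hn) _ : E.Ik μ.Δ n0 ≤ E.Ik μ.Δ n) hx),
        zero_add]
      obtain ⟨u, v, rfl⟩ := Ideal.mem_span_pair.1 hy
      rw [map_add, map_mul, map_mul]
      exact Ideal.mem_span_pair.2 ⟨_, _, rfl⟩
  · obtain ⟨n0, c', -, h1⟩ := μ.appW E ι vT vT' N hc L
    exact ⟨n0, fun n hn => cov_of_two (h1 n hn) (hU n)⟩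

end Crest.Agent.R188
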