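import Crest.Agent.R188.EnvI
import Crest.Agent.R188.EnvG

/-!
# rid 188, file `SideF2`: the class of `M*`

Prefix helper lemmas with `f2_`.
-/

set_option autoImplicit false
set_option linter.unusedSectionVars false

open IsLocalRing Crest.Agent.R183

namespace Crest.Agent.R188

theorem f2_abs {R M : Type} [CommRing R] [IsNoetherianRing R] [CommRing M] [Algebra R M] [Module.Finite R M]
    {I 𝔮 : Ideal R} {N : ℕ} (hI : I ^ N ≤ 𝔮) (hkill : ∀ b ∈ 𝔮, algebraMap R M b = 0) {ι : Type} [Fintype ι]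
    (v : ι → M) (g1 g2 : R) (hgen : ∀ y : M, ∃ c : ι → R, algebraMap R M g1 * y = ∑ x, algebraMap R M (c x) * v x)
    (hind : ∀ c : ι → R, ∑ x, algebraMap R M (c x) * v x = 0 → ∀ x, g2 * c x ∈ 𝔮) (φ : AddFn R I)
    (h : ∀ Q : Ideal R, Q.IsPrime → I ≤ Q → g1 * g2 ∈ Q → φ.φ (R ⧸ Q) = 0) :
    φ.φ M = (Fintype.card ι : ℕ) * φ.φ (R ⧸ 𝔮) := by
  have hq : Kil I (R ⧸ 𝔮) := ⟨N, fun y hy w => by
    obtain ⟨w, rfl⟩ := Ideal.Quotient.mk_surjective w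
    exact Ideal.Quotient.eq_zero_iff_mem.2 (Ideal.mul_mem_right w _ (hI hy))⟩
  have hM : Kil I M := ⟨N, fun y hy w => by rw [Algebra.smul_def, hkill y (hI hy), zero_mul]⟩
  let l : ι → (R ⧸ 𝔮) →ₗ[R] M := fun x => 𝔮.liftQ (LinearMap.toSpanSingleton R M (v x)) fun b hb => by
    rw [LinearMap.mem_ker, LinearMap.toSpanSingleton_apply, Algebra.smul_def, hkill b hb, zero_mul]
  let L : (ι → R ⧸ 𝔮) →ₗ[R] M := ∑ x, l x ∘ₗ LinearMap.proj x
  have hL : ∀ c : ι → R, L (fun x => Ideal.Quotient.mk 𝔮 (c x)) = ∑ x, algebraMap R M (c x) * v x := fun c => by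
    rw [LinearMap.sum_apply]
    exact Finset.sum_congr rfl fun x _ => Algebra.smul_def (c x) (v x)
  rw [← φ.pi hq ι]
  refine (φ.eq_of_isog (dv_kil_pi hq ι) hM L (g1 * g2) 1 (fun w hw => ?_) (fun y => ?_) h).symm
  · choose c hc using fun x => Ideal.Quotient.mk_surjective (w x)
    obtain rfl : w = fun x => Ideal.Quotient.mk 𝔮 (c x) := funext fun x => (hc x).symm
    rw [hL] at hw
    funext x
    have h1 : g1 * g2 * c x ∈ 𝔮 := by
      rw [mul_assoc]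
      exact Ideal.mul_mem_left _ _ (hind c hw x)
    rw [pow_one]
    exact Ideal.Quotient.eq_zero_iff_mem.2 h1
  · obtain ⟨c, hc⟩ := hgen y
    rw [pow_one, mul_comm, mul_smul, Algebra.smul_def g1, hc, ← hL]
    exact Submodule.smul_mem _ _ (LinearMap.mem_range_self _ _)

theorem f2_side {R D M : Type} [CommRing R] [IsNoetherianRing R] [CommRing D] [CommRing M] (f : R →+* D)
    (hf : f.Finite) (π : D →+* M) (hπ : π.Finite) (α : D) {I 𝔮 : Ideal R} {N : ℕ} (hI : I ^ N ≤ 𝔮)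
    (hkill : ∀ b ∈ 𝔮, π (f b) = 0) {ι : Type} [Fintype ι] (v : ι → M) (g1 g2 : R)
    (hgen : ∀ y : M, ∃ c : ι → R, π (f g1) * y = ∑ x, π (f (c x)) * v x)
    (hind : ∀ c : ι → R, ∑ x, π (f (c x)) * v x = 0 → ∀ x, g2 * c x ∈ 𝔮) (φ : AddFn R I)
    (h : ∀ Q : Ideal R, Q.IsPrime → I ≤ Q → g1 * g2 ∈ Q → φ.φ (R ⧸ Q) = 0) :
    φ.φ (Side.of f hf π hπ α).M = (Fintype.card ι : ℕ) * φ.φ (R ⧸ 𝔮) :=
  f2_abs (M := (Side.of f hf π hπ α).M) hI hkill v g1 g2 hgen hind φ h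

theorem f2_dim {A B : Type} [CommRing A] [IsNoetherianRing A] [CommRing B] (ψ : A →+* B) (hψ : ψ.Finite) {P : Ideal A}
    (hP : P.IsPrime) {a : ℕ} (hd : ringKrullDim (A ⧸ P) ≤ a) {y : A} (hy : y ∉ P) {Q : Ideal B} (hQ : Q.IsPrime)
    (hle : P.map ψ ≤ Q) (hyQ : ψ y ∈ Q) : ringKrullDim (B ⧸ Q) < a := by
  rw [av_dim_comap ψ hψ.to_isIntegral]
  have hlt : P < Q.comap ψ := lt_of_le_of_ne (Ideal.map_le_iff_le_comap.1 hle) fun e => hy (e ▸ hyQ)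
  exact dim_lt_of_lt hlt hd

theorem f2_pow {D : Type} [CommRing D] {J : Ideal D} {w : D} (hw : ∀ y, w * y ∈ J → y ∈ J) (n : ℕ) :
    ∀ y, w ^ n * y ∈ J → y ∈ J := by
  induction n with
  | zero => intro y hy; rwa [pow_zero, one_mul] at hy
  | succ n ih =>
    intro y hy
    rw [pow_succ, mul_assoc] at hy
    exact hw y (ih _ hy)

variable {p : ℕ} [Fact p.Prime] {k : Type} [Field k] [CharP k p] [IsAlgClosed k] {d : ℕ} {μ : Mix p k d}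
  {E : MEnv p k d} {P : Ideal (AW p k d)} {a : ℕ} {vT vT' : E.V}

theorem Mix.FD.u_reg (h : μ.FD E P a vT vT') (e : ℕ) (b : E.D μ.Δ e) (hb : E.π μ.Δ e E.u * b = 0) : b = 0 := by
  obtain ⟨n, ι, c, hn, hc⟩ := h.par
  exact E.u_reg μ.hb (n := n) (by rw [hn, h.hac]) (fun j => μ.idl_le (E.g_mem _)) hc e b hb

theorem Mix.FD.ker_le (h : μ.FD E P a vT vT') (e : ℕ) (b : AW p k d) (hb : E.σ μ.Δ e ((μ.Δ.φ ^ e) b) = 0) :
    b ∈ P := by
  obtain ⟨n, ι, c, hn, hc⟩ := h.par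
  exact h.le (μ.ker_le E (n := n) (by rw [hn, h.hac]) ι hc e hb)

/-- `key_z`; `z' = π z' - u^(p^e - c) * (…)` is congruent to `σ z ^ p^n` modulo `u`; `z_reg`, `reg_mod_pow`. -/
theorem Mix.FD.exists_z (h : μ.FD E P a vT vT') : ∃ c e0 : ℕ, ∀ e ≥ e0, ∃ z : E.D μ.Δ e,
    E.π μ.Δ e E.u ^ c * z ∈ Ideal.span {E.π μ.Δ e (E.xv vT), E.π μ.Δ e (E.xv vT')} ∧
    ∀ (q : ℕ) (y : E.D μ.Δ e), z * y ∈ Ideal.span {E.π μ.Δ e E.u ^ q} → y ∈ Ideal.span {E.π μ.Δ e E.u ^ q} := by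
  obtain ⟨N, z0, hz0, hreg⟩ := h.zreg
  obtain ⟨n, c, z', h1, h2⟩ := E.key_z (Δ := μ.Δ) vT vT' hz0
  refine ⟨c, max n c, fun e he => ?_⟩
  have hne : n ≤ e := (le_max_left _ _).trans he
  have hce : c < p ^ e := lt_of_le_of_lt ((le_max_right _ _).trans he) (Nat.lt_pow_self (Fact.out : p.Prime).one_lt)
  obtain ⟨r, hr⟩ : ∃ r, p ^ e = c + (r + 1) := ⟨p ^ e - c - 1, by omega⟩
  obtain ⟨i1, hi1, s, hs, e1⟩ := Submodule.mem_sup.1 h2
  obtain ⟨i2, hi2, i3, hi3, rfl⟩ := Submodule.mem_sup.1 hi1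
  obtain ⟨w, rfl⟩ := Ideal.mem_span_singleton'.1 hi2
  have e2 := congrArg (E.π μ.Δ e) e1
  rw [map_add, map_add, E.π_Ir hne hi3, add_zero, map_mul, map_mul, map_natCast, E.p_eq μ.Δ e, map_pow, hr] at e2
  refine ⟨E.π μ.Δ e z' - E.π μ.Δ e E.u ^ (r + 1) * E.π μ.Δ e w, ?_, fun q y hy => ?_⟩
  · have e3 : E.π μ.Δ e E.u ^ c * (E.π μ.Δ e z' - E.π μ.Δ e E.u ^ (r + 1) * E.π μ.Δ e w) = E.π μ.Δ e s := by
      rw [mul_sub, ← e2]
      ring
    have h3 := Ideal.mem_map_of_mem (E.π μ.Δ e) hs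
    rw [Ideal.map_span, Set.image_pair] at h3
    rw [e3]
    exact h3
  · refine reg_mod_pow (h.u_reg e) (fun y hy => ?_) q y hy
    have hU : E.π μ.Δ e E.u ∈ Ideal.span {E.π μ.Δ e E.u} := Ideal.mem_span_singleton_self _
    have h3 : E.π μ.Δ e z' - E.σ μ.Δ e z0 ^ p ^ n ∈ Ideal.span {E.π μ.Δ e E.u} := by
      have h4 := Ideal.mem_map_of_mem (E.π μ.Δ e) h1
      rw [Ideal.map_span, Set.image_pair, map_sub, map_pow, map_natCast] at h4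
      refine (Ideal.span_le.2 ?_ : _ ≤ Ideal.span {E.π μ.Δ e E.u}) h4
      rintro _ (rfl | rfl)
      · exact E.p_mem_u e
      · exact hU
    have h5 : E.σ μ.Δ e z0 ^ p ^ n * y ∈ Ideal.span {E.π μ.Δ e E.u} := by
      have e4 : E.σ μ.Δ e z0 ^ p ^ n * y = (E.π μ.Δ e z' - E.π μ.Δ e E.u ^ (r + 1) * E.π μ.Δ e w) * y -
          (E.π μ.Δ e z' - E.σ μ.Δ e z0 ^ p ^ n) * y + E.π μ.Δ e E.u * (E.π μ.Δ e E.u ^ r * E.π μ.Δ e w * y) := by
        ring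
      rw [e4]
      exact add_mem (sub_mem hy (Ideal.mul_mem_right _ _ h3)) (Ideal.mul_mem_right _ _ hU)
    refine f2_pow (fun y hy => ?_) _ y h5
    rcases hreg with rfl | ⟨n2, t, c2, hn2, hz, ht, hc2⟩
    · rwa [map_one, one_mul] at hy
    · exact E.z_reg μ.hb (n := n2) (by rw [hn2, h.hac]) hz ht hc2 e y hy

/-- Let `𝔮' = (col 𝔣 h) R'`; it kills `M` (`xv_pow`, `σ_φ_eq_zero`).  The monomials give an `R'`-linear map
`(monomials → R' / 𝔮') → M`.  Its cokernel is killed by a power of `p` (`gen`), its kernel by `ψ h` (`indep`).  Use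
`AddFn.eq_of_isog` with `g = p * ψ h = ψ (p h)`, `AddFn.pi`; primes over `P R' + (g)` have dimension `< a`
(`dim_map_le_of_finite`, `ψ_finite`, `dim_lt_of_primes`, `dim_lt_of_lt`). -/
theorem Mix.FD.cls (h : μ.FD E P a vT vT') {n' m e : ℕ} {f : μ.R n' →+* E.D μ.Δ e} (hf : μ.Alg E n' m f) {M : Type}
    [CommRing M] (π : E.D μ.Δ e →+* M) (hπ : π.Finite) (α : E.D μ.Δ e) {J : ℕ}
    (hker : ∀ y, π y = 0 ↔ E.π μ.Δ e (E.xv vT) ^ p ^ e * y = 0)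
    (hcok : ∀ y, ∃ z, π ((p : E.D μ.Δ e) ^ J) * y = π z) :
    ∃ κ : ℕ, 0 < κ ∧ ∀ φ : AddFn (μ.R n') (P.map (μ.ψ n')), φ.Low a →
      φ.φ (Side.of f hf.fin π hπ α).M = κ * φ.φ (μ.R n' ⧸ (col E.𝔣 (E.g vT)).map (μ.ψ n')) := by
  classical
  have := μ.noeth
  have := (μ.cls n').noeth
  have he := hf.he
  have hq : ∀ j, 0 < p ^ j := fun j => pow_pos (Fact.out : p.Prime).pos j
  have : Nonempty ((Fin d → Fin (p ^ m)) × (E.V → Fin (p ^ e))) := ⟨(fun _ => ⟨0, hq m⟩, fun _ => ⟨0, hq e⟩)⟩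
  obtain ⟨N, hN⟩ := h.pow
  obtain ⟨n, ι, c0, hn, hc0⟩ := h.par
  obtain ⟨c, hc⟩ := μ.gen E (e := e) (j := m) (by omega)
  refine ⟨Fintype.card ((Fin d → Fin (p ^ m)) × (E.V → Fin (p ^ e))), Fintype.card_pos, fun φ hφ => ?_⟩
  refine f2_side f hf.fin π hπ α (N := N) (by rw [← Ideal.map_pow]; exact Ideal.map_mono hN) (fun b hb => ?_)
    (fun x => π (μ.mon E e m x)) ((p : μ.R n') ^ (c + J)) (μ.ψ n' (E.g vT)) (fun y => ?_) (fun w hw x => ?_) φ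
    fun Q hQ hle hg => hφ Q hQ hle ?_
  · refine (Ideal.map_le_iff_le_comap.2 fun b hb => ?_ : _ ≤ RingHom.ker (π.comp f)) hb
    rw [Ideal.mem_comap, RingHom.mem_ker, RingHom.comp_apply, hf.ψ, hker, E.xv_pow μ.hb, ← map_mul, ← map_mul]
    exact E.σ_φ_eq_zero μ.hb e (mem_col.1 hb)
  · obtain ⟨z, hz⟩ := hcok y
    obtain ⟨cs, hcs⟩ := hc z
    refine ⟨fun x => μ.pr n' (cs x), ?_⟩
    rw [map_pow, map_natCast, pow_add, map_mul, mul_assoc, hz, ← map_mul, hcs, map_sum]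
    exact Finset.sum_congr rfl fun x _ => by rw [map_mul, hf.eq]
  · choose cs hcs using fun x => Ideal.Quotient.mk_surjective (I := Ideal.span {μ.ξ n'}) (w x)
    have h1 : π (∑ x, E.σ μ.Δ e ((μ.Δ.φ ^ m) (cs x)) * μ.mon E e m x) = 0 := by
      rw [← hw, map_sum]
      exact Finset.sum_congr rfl fun x _ => by rw [map_mul, ← hf.eq, ← hcs x]
    have e1 : (μ.Δ.φ ^ e) (E.g vT) = (μ.Δ.φ ^ m) ((μ.Δ.φ ^ n') (E.g vT)) := by
      rw [← he, add_comm, pow_add, RingHom.mul_def, RingHom.comp_apply]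
    rw [hker, E.xv_pow μ.hb, Finset.mul_sum, e1] at h1
    have h2 := μ.indep E (n := n) (by rw [hn, h.hac]) ι hc0 he (fun x => (μ.Δ.φ ^ n') (E.g vT) * cs x) (by
      rw [← h1]
      exact Finset.sum_congr rfl fun x _ => by rw [map_mul, map_mul, mul_assoc]) x
    have h3 := Ideal.mem_map_of_mem (μ.pr n') h2
    rw [Ideal.map_map, map_mul] at h3
    rw [← hcs x]
    exact Ideal.map_mono (fun y hy => mem_col.2 (Ideal.mul_mem_left _ _ hy)) h3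
  · rcases hQ.mem_or_mem hg with h1 | h1
    · refine f2_dim _ (μ.ψ_finite n') h.prime h.dim h.p_not hQ hle ?_
      rw [map_natCast]
      exact hQ.mem_of_pow_mem _ h1
    · exact f2_dim _ (μ.ψ_finite n') h.prime h.dim h.h_not hQ hle h1

end Crest.Agent.R188
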