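import Crest.Agent.R188.SideF1
import Crest.Agent.R188.SideF2

/-!
# rid 188, file `SideF3`: the family of sides for a prime that does not contain `p`

Prefix helper lemmas with `f3_`.
-/

set_option autoImplicit false
set_option linter.unusedSectionVars false

open IsLocalRing Crest.Agent.R183

namespace Crest.Agent.R188

variable {p : ℕ} [Fact p.Prime] {k : Type} [Field k] [CharP k p] [IsAlgClosed k] {d : ℕ} {μ : Mix p k d}
  {E : MEnv p k d} {P : Ideal (AW p k d)} {a : ℕ} {vT vT' : E.V}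

theorem f3_zero (h : μ.FD E P a vT vT') (e : ℕ) :
    (E.π μ.Δ e (E.xv vT) * E.π μ.Δ e (E.xv vT')) ^ p ^ e = 0 := by
  rw [mul_pow, E.xv_pow μ.hb, E.xv_pow μ.hb, ← map_mul, ← map_mul]
  exact E.σ_φ_eq_zero μ.hb e h.hw

theorem f3_preg (h : μ.FD E P a vT vT') (e : ℕ) (y : E.D μ.Δ e) (hy : (p : E.D μ.Δ e) * y = 0) : y = 0 := by
  rw [E.p_eq μ.Δ e] at hy
  generalize p ^ e = q at hy
  induction q with
  | zero => simpa using hy
  | succ q ih =>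
    rw [pow_succ', mul_assoc] at hy
    exact ih (h.u_reg e _ hy)

/-- `nil_div` for `b = π j (T T')`: `b^(p^j) = σ (φ^j (h w)) = 0` (`xv_pow`), and `tr b = (T T')^(p^(e-j))`
(`tr_inl`). -/
theorem Mix.FD.nil (h : μ.FD E P a vT vT') (j N : ℕ) : ∃ e0 : ℕ, ∀ e ≥ e0,
    (E.π μ.Δ e (E.xv vT) * E.π μ.Δ e (E.xv vT')) ^ p ^ (e - j) ∈ Ideal.span {(p : E.D μ.Δ e) ^ N} := by
  obtain ⟨j0, hj0⟩ := E.nil_div μ.hb h.u_reg j N
  refine ⟨j + j0, fun e he => ?_⟩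
  have hje : j ≤ e := by omega
  have h1 := hj0 j _ (f3_zero h j) e hje he
  rwa [map_mul, E.tr_inl μ.hb hje, E.tr_inl μ.hb hje, ← mul_pow] at h1

/-- Let `k1` come from `nz`, `c, e0` from `exists_z`; `j = n' + k0 + k1 + 2`, `J = p^j`, `N = J + 2 c + 1`, `e = n' + m`,
`q = p^e`, `s = p^(e-j)`, `ϖ = p = u^q` (`p_eq`).  Take `M` from `exists_mstar` and `α = T^(2 s)`.  `Good` by `Alg.good`
(`4 s ≤ p^(m-k0)`).  The sandwich modulo `p`: if `π y = p y'` and `T^s y' = π z` then `κ = T^s y - p z` is killed by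
`T^q`, so `T^s κ ∈ (p)` by `mul_mem_of_kill`.  `p` is regular on `R n'` (`p_ne`, `RegL.isDomain`).  Then `Alg.depth`,
`nz` with `Alg.map_max`, and `cls`. -/
theorem Mix.FD.fam (h : μ.FD E P a vT vT') (n n' k0 : ℕ) : ∃ m0 : ℕ, ∀ m ≥ m0, ∃ S : Side (μ.R n'),
    μ.Good (μ.mdl E n) (μ.q E n (E.xv vT)) (μ.q E n (E.xv vT')) E.𝔣 P n' m k0 S ∧
    μ.GoodPos P (col E.𝔣 (E.g vT)) a n' S ∧
    ClVan (P.map (μ.ψ n')) a S.M (μ.R n' ⧸ (col E.𝔣 (E.g vT)).map (μ.ψ n')) := by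
  have hp2 : 2 ≤ p := (Fact.out : p.Prime).two_le
  have := h.prime
  obtain ⟨k1, hk1⟩ := μ.nz E P (fun hP => h.p_not (hP ▸ μ.p_mem)) vT h.h_not h.ker_le
  obtain ⟨c, e0, hz⟩ := h.exists_z
  obtain ⟨j, hj⟩ : ∃ j, j = n' + k0 + k1 + 2 := ⟨_, rfl⟩
  obtain ⟨e1, hnil⟩ := h.nil j (p ^ j + 2 * c + 1)
  refine ⟨e0 + e1 + j + n, fun m hm => ?_⟩
  obtain ⟨e, he⟩ : ∃ e, n' + m = e := ⟨_, rfl⟩
  obtain ⟨f, hf⟩ := Mix.exists_alg h.hE he
  obtain ⟨z, hz1, hz2⟩ := hz e (by omega)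
  have hn1 := hnil e (by omega)
  have hje : j ≤ e := by omega
  set T := E.π μ.Δ e (E.xv vT) with hT
  set T' := E.π μ.Δ e (E.xv vT') with hT'
  obtain ⟨s, hs⟩ : ∃ s, s = p ^ (e - j) := ⟨_, rfl⟩
  have hs4 : 4 * s ≤ p ^ (m - k0) := by
    calc 4 * s ≤ p ^ 2 * p ^ (e - j) := by
          rw [hs]
          exact Nat.mul_le_mul_right _ (Nat.pow_le_pow_left hp2 2)
      _ = p ^ (2 + (e - j)) := (pow_add _ _ _).symm
      _ ≤ _ := Nat.pow_le_pow_right (by omega) (by omega)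
  have hsq : s ≤ p ^ e := hs ▸ Nat.pow_le_pow_right (by omega) (by omega)
  rw [← hs] at hn1
  obtain ⟨M, _, π, hπ, hreg, hker, hcok, hT1, hT2⟩ := exists_mstar (p : E.D μ.Δ e) T T' (f3_preg h e)
    (q := p ^ e) (s := s) (J := p ^ j) (N := p ^ j + 2 * c + 1)
    (by rw [hs, ← pow_add, Nat.sub_add_cancel hje]) (by omega) (f3_zero h e) hn1
  obtain ⟨κ, hκ, hcls⟩ := h.cls hf π hπ (T ^ (2 * s)) hker hcok
  have hα : (T ^ (2 * s)) ^ 2 = T ^ (4 * s) := by ring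
  refine ⟨Side.of f hf.fin π hπ (T ^ (2 * s)), ?_, ⟨Or.inr ⟨⟨fun y => ?_, fun y hy => ?_⟩, ?_, ?_, ?_⟩,
    hf.depth h.hac h.dimf π hπ _, ?_, fun φ hφ h0 => ?_⟩, fun φ hφ h0 => ?_⟩
  · refine hf.good h.hE (by omega) _ _ π hπ _ (fun 𝒪 _ a' hp => ⟨?_, ?_⟩) ?_
    · obtain ⟨r, hr⟩ := Nat.exists_eq_add_of_le hs4
      rw [hα, hr, pow_add, map_pow, map_pow]
      exact Ideal.mul_mem_right _ _ (Ideal.mem_span_singleton_self _)
    · obtain ⟨r, hr⟩ := Nat.exists_eq_add_of_le (show s ≤ p ^ (m - k0) by omega)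
      obtain ⟨y, hy⟩ := Ideal.mem_span_singleton'.1 hT1
      rw [hr, pow_add, ← map_pow, ← map_pow, ← hy, map_mul, map_natCast, map_natCast, hp, mul_zero, zero_mul]
    · obtain ⟨N, hN⟩ := h.pow
      refine ⟨N, fun b hb => (hker _).2 ?_⟩
      rw [hT, E.xv_pow μ.hb, ← map_mul, ← map_mul]
      exact E.σ_φ_eq_zero μ.hb e (mem_col.1 (hN hb))
  · obtain ⟨w, hw⟩ := hT2 y
    refine ⟨T ^ s * w, ?_⟩
    have : π (T ^ (2 * s)) * (show M from y) - π (T ^ s * w) = 0 := by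
      rw [map_mul, ← hw, two_mul, pow_add, map_mul, mul_assoc, sub_self]
    exact this ▸ Ideal.zero_mem _
  · have hy' : π y ∈ Ideal.span {π (f p)} := hy
    change T ^ (2 * s) * (show E.D μ.Δ e from y) ∈ Ideal.span {f p}
    rw [map_natCast] at hy' ⊢
    obtain ⟨y', hy'⟩ := Ideal.mem_span_singleton'.1 hy'
    obtain ⟨w, hw⟩ := hT2 y'
    have h1 : T ^ p ^ e * (T ^ s * (show E.D μ.Δ e from y) - p * w) = 0 := by
      refine (hker _).1 ?_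
      rw [map_sub, map_mul, map_mul, ← hw, ← hy']
      ring
    have h2 := mul_mem_of_kill (h.u_reg e) hsq (N := p ^ j + 2 * c + 1) (by omega) (hz2 _) hz1
      (by rwa [← E.p_eq μ.Δ e]) h1
    rw [← E.p_eq μ.Δ e] at h2
    have h3 : T ^ (2 * s) * (show E.D μ.Δ e from y) =
        T ^ s * (T ^ s * (show E.D μ.Δ e from y) - p * w) + T ^ s * w * p := by ring
    rw [h3]
    exact Ideal.add_mem _ h2 (Ideal.mul_mem_left _ _ (Ideal.mem_span_singleton_self _))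
  · have := (μ.cls n').noeth
    have := (μ.cls n').reg.isDomain
    exact fun r hr => (mul_eq_zero.1 hr).resolve_left (μ.p_ne n')
  · intro y hy
    rw [Algebra.smul_def, map_natCast] at hy
    exact f3_preg h e y hy
  · intro y hy
    rw [Algebra.smul_def, map_natCast] at hy
    refine hreg y ?_
    rw [map_natCast]
    exact hy
  · have h1 : (T ^ (2 * s)) ^ 2 ∉ (maximalIdeal (μ.R n')).map f := by
      rw [hf.map_max, hα, hs]
      exact hk1 n' m e j he (by omega) hje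
    exact h1
  · rw [hcls φ hφ] at h0
    exact pos_of_mul_pos_left (by rwa [mul_comm] at h0) (Int.natCast_nonneg κ)
  · rw [hcls φ hφ] at h0
    exact (mul_eq_zero.1 h0).resolve_left (by exact_mod_cast hκ.ne')

theorem Mix.FD.upos_uvan (h : μ.FD E P a vT vT') (L : ℕ) : ∃ n0 : ℕ, ∀ n ≥ n0,
    μ.UPos (μ.mdl E n) (μ.q E n (E.xv vT)) (μ.q E n (E.xv vT')) E.𝔣 P (col E.𝔣 (E.g vT)) a L ∧
    μ.UVan (μ.mdl E n) (μ.q E n (E.xv vT')) E.𝔣 P (col E.𝔣 (E.g vT)) a L := by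
  obtain ⟨n1, h1⟩ := h.cov_full L
  obtain ⟨n2, h2⟩ := h.cov_cut L
  refine ⟨n1 + n2, fun n hn => ?_⟩
  have hf : ∀ g ∈ E.𝔣, (μ.mdl E n).a0 g ∈ Ideal.span {(μ.mdl E n).m.U} := fun g hg =>
    μ.mdl_hf E n (Ideal.mem_sup_left hg)
  refine ⟨⟨hf, h1 n (by omega), h2 n (by omega), 0, fun n' _ k0 => ?_⟩, hf, h1 n (by omega), fun n' k0 => ?_⟩
  · obtain ⟨m0, hm0⟩ := h.fam n n' k0
    refine ⟨m0, fun m hm => ?_⟩
    obtain ⟨S, g1, g2, -⟩ := hm0 m hm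
    exact ⟨S, g1, g2⟩
  · obtain ⟨m0, hm0⟩ := h.fam n n' k0
    refine ⟨m0, fun m hm => ?_⟩
    obtain ⟨S, g1, -, g3⟩ := hm0 m hm
    exact ⟨S, g1.zero, g3⟩

end Crest.Agent.R188
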