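import Crest.Agent.R188.Defs
import Crest.Agent.R183.Len
import Crest.Agent.R183.Kos

/-!
# rid 188, file `Sq`: subquotient lengths and the long exact sequence of virtual homology

Prefix helper lemmas with `sq_`.
-/

set_option autoImplicit false

open IsLocalRing Crest.Agent.R183

namespace Crest.Agent.R188

variable {S : Type} [CommRing S] {n n' : ℕ} {P P' P'' : Type} [AddCommGroup P] [Module S P]
  [AddCommGroup P'] [Module S P'] [AddCommGroup P''] [Module S P'']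

theorem sq_key (f : P' →ₗ[S] P) (A : Submodule S P') (B : Submodule S P) :
    sql S A (B.comap f) = Module.length S (A.map (B.mkQ ∘ₗ f)) := by
  have h1 : (B.comap f).submoduleOf A = LinearMap.ker ((B.mkQ ∘ₗ f) ∘ₗ A.subtype) := by
    rw [LinearMap.ker_comp, LinearMap.ker_comp, Submodule.ker_mkQ]
    rfl
  have h2 : LinearMap.range ((B.mkQ ∘ₗ f) ∘ₗ A.subtype) = A.map (B.mkQ ∘ₗ f) := by
    rw [LinearMap.range_comp, Submodule.range_subtype]
  rw [sql, h1, ← h2]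
  exact (LinearMap.quotKerEquivRange _).length_eq

theorem sq_eq (A B : Submodule S P) : sql S A B = Module.length S (A.map B.mkQ) :=
  sq_key LinearMap.id A B

theorem sq_map (f : P' →ₗ[S] P) (A : Submodule S P') (B : Submodule S P) :
    sql S (A.map f) B = sql S A (B.comap f) := by
  rw [sq_eq, sq_key, Submodule.map_comp]

theorem sql_eq_zero_iff (A B : Submodule S P) : sql S A B = 0 ↔ A ≤ B := by
  rw [sql, Module.length_eq_zero_iff, Submodule.Quotient.subsingleton_iff, Submodule.submoduleOf_eq_top]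

/-- `A / (A ⊓ C)` has the submodule `(A ⊓ B) / (A ⊓ C)` with quotient `A / (A ⊓ B)`. -/
theorem sql_add (A : Submodule S P) {B C : Submodule S P} (h : C ≤ B) :
    sql S A C = sql S A B + sql S (A ⊓ B) C := by
  have h1 := colen_eq_add (Λ := S) (U := C.submoduleOf A) (V := B.submoduleOf A) (Submodule.comap_mono h)
  have h2 : sql S (A ⊓ B) C = sql S (B.submoduleOf A) (C.submoduleOf A) := by
    rw [← Submodule.map_comap_subtype, sq_map]
    rfl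
  rw [h2, add_comm]
  exact h1

theorem sql_mono {A A' B B' : Submodule S P} (hA : A ≤ A') (hB : B' ≤ B) : sql S A B ≤ sql S A' B' := by
  refine le_trans ?_ (le_of_eq_of_le (sql_add A hB).symm ?_ : sql S A B + sql S (A ⊓ B) B' ≤ _)
  · exact le_self_add
  · rw [sq_eq, sq_eq]
    exact Module.length_le_of_injective (Submodule.inclusion (Submodule.map_mono hA))
      (Submodule.inclusion_injective _)

theorem sql_map (f : P' →ₗ[S] P) (A : Submodule S P') (B : Submodule S P) :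
    sql S (A.map f) B = sql S A (B.comap f) := by
  exact sq_map f A B

theorem sql_sup (A B : Submodule S P) : sql S (A ⊔ B) B = sql S A B := by
  rw [sq_eq, sq_eq, Submodule.map_sup, Submodule.mkQ_map_self, sup_bot_eq]

theorem sql_congr (A : Submodule S P) {B B' : Submodule S P} (h : A ⊓ B = A ⊓ B') : sql S A B = sql S A B' := by
  have : B.submoduleOf A = B'.submoduleOf A := by
    ext x
    have h1 : (x : P) ∈ A ⊓ B ↔ (x : P) ∈ A ⊓ B' := by rw [h]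
    simpa [Submodule.submoduleOf] using h1
  rw [sql, sql, this]

theorem sql_top (B : Submodule S P) : sql S ⊤ B = colen S B := by
  rw [sq_eq, Submodule.map_top, Submodule.range_mkQ]
  exact Submodule.topEquiv.length_eq

theorem sq_one (W : Submodule S P') (a : P' →ₗ[S] P) {A B : Submodule S P} (h1 : ∀ w ∈ W, a w ∈ A)
    (h2 : ∀ z ∈ A, ∃ w ∈ W, z - a w ∈ B) : sql S A B = sql S W (B.comap a) := by
  rw [← sql_map, ← sql_sup A, ← sql_sup (W.map a)]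
  congr 1
  refine le_antisymm (sup_le (fun z hz => ?_) le_sup_right) (sup_le_sup_right ?_ _)
  · obtain ⟨w, hw, hz⟩ := h2 z hz
    exact Submodule.mem_sup.2 ⟨_, ⟨w, hw, rfl⟩, _, hz, by simp⟩
  · rintro _ ⟨w, hw, rfl⟩
    exact h1 w hw

theorem sq_pp (C : Cx S n P) (i : ℕ) (x : P) : C.p i (C.p i x) = C.p i x := by
  rw [← Module.End.mul_apply, C.p_mul, if_pos rfl]

theorem sq_DD (C : Cx S n P) (x : P) : C.D (C.D x) = 0 := by
  rw [← Module.End.mul_apply, C.D_sq, LinearMap.zero_apply]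

theorem sq_Dp_succ (C : Cx S n P) (i : ℕ) (x : P) : C.D (C.p (i + 1) x) = C.p i (C.D x) := by
  rw [← Module.End.mul_apply, C.D_p, Module.End.mul_apply]

theorem sq_Dp_zero (C : Cx S n P) (x : P) : C.D (C.p 0 x) = 0 := by
  rw [← Module.End.mul_apply, C.D_p0, LinearMap.zero_apply]

theorem sq_Dp (C : Cx S n P) {T : Submodule S P} (hT : ∀ i, ∀ x ∈ T, C.p i x ∈ T) {x : P} (hx : C.D x ∈ T)
    (i : ℕ) : C.D (C.p i x) ∈ T := by
  cases i with
  | zero => rw [sq_Dp_zero]; exact T.zero_mem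
  | succ i => rw [sq_Dp_succ]; exact hT _ _ hx

theorem VCx.mem_Z (V : VCx S n P) (i : ℕ) (x : P) : x ∈ V.Z i ↔ V.C.p i x = x ∧ V.C.D x ∈ V.T3 := by
  rfl

theorem VCx.mem_N (V : VCx S n P) (x : P) : x ∈ V.N ↔ ∃ y, x - V.C.D y ∈ V.T1 := by
  rw [VCx.N, Submodule.mem_sup]
  constructor
  · rintro ⟨_, ⟨y, rfl⟩, t, ht, rfl⟩
    exact ⟨y, by simpa using ht⟩
  · rintro ⟨y, hy⟩
    exact ⟨_, ⟨y, rfl⟩, _, hy, by simp⟩

/-- `ks_p_zero`. -/
theorem VCx.h_gt (V : VCx S n P) {i : ℕ} (hi : n < i) : V.h i = 0 := by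
  rw [VCx.h, sql_eq_zero_iff]
  intro x hx
  rw [← ((V.mem_Z i x).1 hx).1, ks_p_zero V.C hi]
  exact V.N.zero_mem

theorem hon_ok (C : Cx S n P) : (hon C).OK := by
  refine ⟨le_rfl, le_rfl, ?_, ?_, ?_, ?_, ?_, ?_, fun x hx => ⟨x, by simp, hx⟩, fun x _ hx => hx⟩ <;>
    simp [hon]

/-- A map that induces a bijection on virtual homology. -/
theorem h_eq_of_map (V : VCx S n P) (V' : VCx S n' P') (g : P →ₗ[S] P') (i : ℕ)
    (hZ : ∀ x ∈ V.Z i, g x ∈ V'.Z i) (hs : ∀ z ∈ V'.Z i, ∃ x ∈ V.Z i, z - g x ∈ V'.N)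
    (hN : ∀ x ∈ V.Z i, g x ∈ V'.N ↔ x ∈ V.N) : V.h i = V'.h i := by
  rw [VCx.h, VCx.h, sq_one (V.Z i) g hZ hs]
  refine sql_congr _ ?_
  ext x
  exact and_congr_right fun hx => (hN x hx).symm

/-- Passing to a quotient. -/
theorem h_eq_of_surj (V : VCx S n P) (V' : VCx S n' P') (g : P →ₗ[S] P') (hg : Function.Surjective g)
    (hm : IsMap V.C V'.C g) (h1 : V'.T1.comap g = V.T1) (h3 : V'.T3.comap g = V.T3) (i : ℕ) :
    V.h i = V'.h i := by
  refine h_eq_of_map V V' g i (fun x hx => ?_) (fun z hz => ?_) fun x _ => ?_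
  · rw [VCx.mem_Z] at hx ⊢
    rw [← hm.1, ← hm.2, hx.1]
    exact ⟨rfl, (h3 ▸ hx.2 : V.C.D x ∈ V'.T3.comap g)⟩
  · obtain ⟨x, rfl⟩ := hg z
    rw [VCx.mem_Z] at hz
    refine ⟨V.C.p i x, ⟨sq_pp _ _ _, ?_⟩, by rw [hm.2, hz.1, sub_self]; exact V'.N.zero_mem⟩
    rw [← h3]
    change g (V.C.D (V.C.p i x)) ∈ V'.T3
    rw [hm.1, hm.2, hz.1]
    exact hz.2
  · rw [VCx.mem_N, VCx.mem_N]
    constructor
    · rintro ⟨y', hy⟩
      obtain ⟨y, rfl⟩ := hg y'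
      refine ⟨y, ?_⟩
      rw [← h1, Submodule.mem_comap, map_sub, hm.1]
      exact hy
    · rintro ⟨y, hy⟩
      refine ⟨g y, ?_⟩
      rw [← h1, Submodule.mem_comap, map_sub, hm.1] at hy
      exact hy

variable {V' : VCx S n P'} {V : VCx S n P} {V'' : VCx S n P''} {f : P' →ₗ[S] P} {g : P →ₗ[S] P''}

theorem VCx.OK.sq_pN (h : V.OK) {x : P} (hx : x ∈ V.N) (i : ℕ) : V.C.p i x ∈ V.N := by
  obtain ⟨y, hy⟩ := (V.mem_N x).1 hx
  refine (V.mem_N _).2 ⟨V.C.p (i + 1) y, ?_⟩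
  rw [sq_Dp_succ, ← map_sub]
  exact h.p1 _ _ hy

theorem sq_mem {T : Submodule S P} {T'' : Submodule S P''} (h : T''.comap g = LinearMap.range f ⊔ T) (x : P) :
    g x ∈ T'' ↔ ∃ w, x - f w ∈ T := by
  rw [← Submodule.mem_comap, h, Submodule.mem_sup]
  constructor
  · rintro ⟨_, ⟨y, rfl⟩, t, ht, rfl⟩
    exact ⟨y, by simpa using ht⟩
  · rintro ⟨y, hy⟩
    exact ⟨_, ⟨y, rfl⟩, _, hy, by simp⟩

theorem VSES.sq_g1 (h : VSES V' V V'' f g) (x : P) : g x ∈ V''.T1 ↔ ∃ w, x - f w ∈ V.T1 := sq_mem h.g1 x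

theorem VSES.sq_g2 (h : VSES V' V V'' f g) (x : P) : g x ∈ V''.T2 ↔ ∃ w, x - f w ∈ V.T2 := sq_mem h.g2 x

theorem VSES.sq_g3 (h : VSES V' V V'' f g) (x : P) : g x ∈ V''.T3 ↔ ∃ w, x - f w ∈ V.T3 := sq_mem h.g3 x

theorem VSES.sq_fZ (h : VSES V' V V'' f g) {i : ℕ} {w : P'} (hw : w ∈ V'.Z i) : f w ∈ V.Z i := by
  rw [VCx.mem_Z] at hw ⊢
  rw [← h.mf.1, ← h.mf.2, hw.1]
  exact ⟨rfl, (h.f3 ▸ hw.2 : V'.C.D w ∈ V.T3.comap f)⟩

theorem VSES.sq_gZ (h : VSES V' V V'' f g) {i : ℕ} {x : P} (hx : x ∈ V.Z i) : g x ∈ V''.Z i := by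
  rw [VCx.mem_Z] at hx ⊢
  rw [← h.mg.1, ← h.mg.2, hx.1]
  exact ⟨rfl, (h.sq_g3 _).2 ⟨0, by simpa using hx.2⟩⟩

theorem VSES.sq_fN (h : VSES V' V V'' f g) : V'.N ≤ V.N.comap f := by
  intro w hw
  obtain ⟨y, hy⟩ := (V'.mem_N _).1 hw
  refine (V.mem_N _).2 ⟨f y, ?_⟩
  rw [← h.mf.1, ← map_sub]
  exact (h.f1 ▸ hy : w - V'.C.D y ∈ V.T1.comap f)

theorem VSES.sq_gN (h : VSES V' V V'' f g) : V.N ≤ V''.N.comap g := by
  intro x hx
  obtain ⟨y, hy⟩ := (V.mem_N _).1 hx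
  refine (V''.mem_N _).2 ⟨g y, ?_⟩
  rw [← h.mg.1, ← map_sub]
  exact (h.sq_g1 _).2 ⟨0, by simpa using hy⟩

/-- Exactness in the middle.  If `g x ∈ N''`, then by `V2''` `x = D y + f w + t2`; project to degree `i`; then
`D' w ∈ T2'`, and `V1'` corrects `w` modulo `T1'` to a virtual cycle (project again). -/
theorem VSES.exact_mid (h : VSES V' V V'' f g) (i : ℕ) {x : P} (hx : x ∈ V.Z i) :
    g x ∈ V''.N ↔ ∃ w ∈ V'.Z i, x - f w ∈ V.N := by
  rw [VCx.mem_Z] at hx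
  constructor
  · intro hg
    have a1 : V''.C.D (g x) ∈ V''.T3 := by
      rw [← h.mg.1]
      exact (h.sq_g3 _).2 ⟨0, by simpa using hx.2⟩
    obtain ⟨_, ⟨y', rfl⟩, t, ht, e⟩ := Submodule.mem_sup.1 (h.ok''.V2 _ a1 hg)
    obtain ⟨y, rfl⟩ := h.surj y'
    obtain ⟨w, hw⟩ := (h.sq_g2 (x - V.C.D y)).1 (by rw [map_sub, h.mg.1, ← e]; simpa using ht)
    have a2 : V'.C.D w ∈ V'.T2 := by
      rw [← h.f2, Submodule.mem_comap, h.mf.1]
      have := V.T2.sub_mem (h.ok.le32 hx.2) (h.ok.D2 _ hw)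
      simpa [sq_DD] using this
    obtain ⟨w', b1, b2⟩ := h.ok'.V1 w a2
    refine ⟨V'.C.p i w', ⟨sq_pp _ _ _, sq_Dp _ h.ok'.p3 b2 i⟩, ?_⟩
    rw [h.mf.2, ← hx.1, ← map_sub]
    refine h.ok.sq_pN ((V.mem_N _).2 ⟨y, ?_⟩) i
    have b3 : f (w - w') ∈ V.T1 := (h.f1 ▸ b1 : w - w' ∈ V.T1.comap f)
    have := V.T1.add_mem (h.ok.le21 hw) b3
    convert this using 1
    rw [map_sub]
    abel
  · rintro ⟨w, -, hw⟩
    obtain ⟨y, hy⟩ := (V.mem_N _).1 hw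
    refine (V''.mem_N _).2 ⟨g y, ?_⟩
    rw [← h.mg.1, ← map_sub]
    refine (h.sq_g1 _).2 ⟨w, ?_⟩
    convert hy using 1
    abel

/-- `h' = ker + im f`, `h = im f + im g`, `h'' = im g + coker`, using `sql_add`, `sql_map`, `exact_mid`. -/
theorem VSES.add (h : VSES V' V V'' f g) (i : ℕ) :
    V.h i + kerL V' V f i + cokL V V'' g i = V'.h i + V''.h i := by
  have a1 : V'.h i = sql S (V'.Z i) (V.N.comap f) + kerL V' V f i := sql_add _ h.sq_fN
  have a2 : V.h i = sql S (V.Z i) (V''.N.comap g) + sql S (V'.Z i) (V.N.comap f) := by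
    rw [VCx.h, sql_add _ h.sq_gN]
    congr 1
    refine sq_one _ f (fun w hw => ⟨h.sq_fZ hw, ?_⟩) fun z hz => (h.exact_mid i hz.1).1 hz.2
    exact (h.exact_mid i (h.sq_fZ hw)).2 ⟨w, hw, by rw [sub_self]; exact V.N.zero_mem⟩
  have a3 : V''.h i = cokL V V'' g i + sql S (V.Z i) (V''.N.comap g) := by
    rw [VCx.h, sql_add _ (le_sup_right : V''.N ≤ (V.Z i).map g ⊔ V''.N)]
    congr 1
    refine sq_one _ g (fun w hw => ⟨h.sq_gZ hw, Submodule.mem_sup_left ⟨w, hw, rfl⟩⟩) fun z hz => ?_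
    obtain ⟨_, ⟨x, hx, rfl⟩, t, ht, rfl⟩ := Submodule.mem_sup.1 hz.2
    exact ⟨x, hx, by simpa using ht⟩
  rw [a1, a2, a3]
  abel

/-- The connecting map.  Let `W = {(x, w) : p (i+1) x = x, p' i w = w, D x - f w ∈ T3}`.  The maps
`(x, w) ↦ g x` onto `Z''(i+1) / (g Z + N'')` and `(x, w) ↦ w` onto `(Z' i ⊓ f⁻¹ N) / N'` are surjective with the
same kernel.  Surjectivity of the first: `D x ∈ g⁻¹ T3'' = range f + T3`.  Of the second: `f w = D y + t2` by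
`V2`, `D'' (g y) ∈ T2''`, `V1''` gives `y1 = y + f a + t1` with `D y1 = f w1 + t3`, and `w1 - w ∈ N'`.
Kernels: if `g x = g z + n''` then `x - z - D y = f a + t1`, so `f (w - D' a) ∈ T1`.  If `w ∈ N'` then
`w = D' a + t2'` by `V2'`, `D (x - f a) ∈ T2`, and `V1` gives a cycle `z ≡ x - f a` modulo `T1`. -/
theorem VSES.cok_succ (h : VSES V' V V'' f g) (i : ℕ) : cokL V V'' g (i + 1) = kerL V' V f i := by
  let W : Submodule S (P × P') :=
    (LinearMap.eqLocus (V.C.p (i + 1)) LinearMap.id).comap (LinearMap.fst S P P') ⊓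
      ((LinearMap.eqLocus (V'.C.p i) LinearMap.id).comap (LinearMap.snd S P P') ⊓
        V.T3.comap (V.C.D ∘ₗ LinearMap.fst S P P' - f ∘ₗ LinearMap.snd S P P'))
  have hW : ∀ u : P × P', u ∈ W ↔
      V.C.p (i + 1) u.1 = u.1 ∧ V'.C.p i u.2 = u.2 ∧ V.C.D u.1 - f u.2 ∈ V.T3 := fun u => Iff.rfl
  have hpW : ∀ (x : P) (w : P'), V.C.D x - f w ∈ V.T3 → (V.C.p (i + 1) x, V'.C.p i w) ∈ W := by
    intro x w hxw
    refine (hW _).2 ⟨sq_pp _ _ _, sq_pp _ _ _, ?_⟩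
    dsimp only
    rw [sq_Dp_succ, h.mf.2, ← map_sub]
    exact h.ok.p3 _ _ hxw
  have hD : ∀ u ∈ W, V'.C.D u.2 ∈ V'.T3 := by
    intro u hu
    rw [← h.f3, Submodule.mem_comap, h.mf.1]
    have := V.T3.neg_mem (h.ok.D3 _ ((hW u).1 hu).2.2)
    simpa [sq_DD] using this
  rw [cokL, kerL, sq_one W (g ∘ₗ LinearMap.fst S P P'), sq_one W (LinearMap.snd S P P')]
  · refine sql_congr _ ?_
    ext ⟨x, w⟩
    refine and_congr_right fun hu => ?_
    obtain ⟨a1, a2, a3⟩ := (hW _).1 hu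
    dsimp only at a1 a2 a3
    change g x ∈ (V.Z (i + 1)).map g ⊔ V''.N ↔ w ∈ V'.N
    constructor
    · intro hx
      obtain ⟨_, ⟨z, hz, rfl⟩, t, ht, e⟩ := Submodule.mem_sup.1 hx
      obtain ⟨y', hy⟩ := (V''.mem_N _).1 ht
      obtain ⟨y, rfl⟩ := h.surj y'
      obtain ⟨a, ha⟩ := (h.sq_g1 (x - z - V.C.D y)).1 (by
        rw [map_sub, map_sub, h.mg.1, ← e]; simpa using hy)
      refine (V'.mem_N _).2 ⟨a, ?_⟩
      rw [← h.f1, Submodule.mem_comap, map_sub, h.mf.1]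
      have b1 := h.ok.le21 (h.ok.le32 a3)
      have b2 := h.ok.le21 (h.ok.le32 ((V.mem_Z _ _).1 hz).2)
      have := V.T1.sub_mem (V.T1.add_mem (h.ok.D1 _ ha) b2) b1
      convert this using 1
      simp only [map_sub, sq_DD]
      abel
    · intro hw
      obtain ⟨_, ⟨a, rfl⟩, t, ht, e⟩ := Submodule.mem_sup.1 (h.ok'.V2 w (hD _ hu) hw)
      have b1 : f t ∈ V.T2 := (h.f2 ▸ ht : t ∈ V.T2.comap f)
      obtain ⟨z, b2, b3⟩ := h.ok.V1 (x - f a) (by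
        have := V.T2.add_mem (h.ok.le32 a3) b1
        convert this using 1
        rw [← e, map_sub, map_add, h.mf.1]
        abel)
      have b4 : g (x - z) ∈ V''.T1 := (h.sq_g1 _).2 ⟨a, by convert b2 using 1; abel⟩
      refine Submodule.mem_sup.2 ⟨_, ⟨V.C.p (i + 1) z, ⟨sq_pp _ _ _, sq_Dp _ h.ok.p3 b3 _⟩, rfl⟩,
        _, Submodule.mem_sup_right (h.ok''.p1 (i + 1) _ b4), ?_⟩
      rw [← h.mg.2, map_sub, a1, map_sub]
      abel
  · intro u hu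
    obtain ⟨-, a2, a3⟩ := (hW _).1 hu
    refine ⟨⟨a2, hD u hu⟩, (V.mem_N _).2 ⟨u.1, ?_⟩⟩
    have := V.T1.neg_mem (h.ok.le21 (h.ok.le32 a3))
    simpa using this
  · rintro w ⟨hw, hfw⟩
    have a1 := (V.mem_Z _ _).1 (h.sq_fZ hw)
    obtain ⟨_, ⟨y, rfl⟩, t, ht, e⟩ := Submodule.mem_sup.1 (h.ok.V2 _ a1.2 hfw)
    obtain ⟨y'', b1, b2⟩ := h.ok''.V1 (g y) (by
      rw [← h.mg.1]
      refine (h.sq_g2 _).2 ⟨w, ?_⟩
      rw [← e]
      simpa using ht)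
    obtain ⟨y1, rfl⟩ := h.surj y''
    rw [← map_sub] at b1
    rw [← h.mg.1] at b2
    obtain ⟨a, ha⟩ := (h.sq_g1 _).1 b1
    obtain ⟨w1, hw1⟩ := (h.sq_g3 _).1 b2
    refine ⟨_, hpW y1 w1 hw1, ?_⟩
    change w - V'.C.p i w1 ∈ V'.N
    rw [← ((V'.mem_Z _ _).1 hw).1, ← map_sub]
    refine h.ok'.sq_pN ((V'.mem_N _).2 ⟨a, ?_⟩) i
    rw [← h.f1, Submodule.mem_comap, map_sub, map_sub, h.mf.1, ← e]
    have := V.T1.add_mem (V.T1.add_mem (h.ok.le21 ht) (h.ok.le21 (h.ok.le32 hw1))) (h.ok.D1 _ ha)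
    convert this using 1
    simp only [map_sub]
    abel
  · intro u hu
    obtain ⟨a1, -, a3⟩ := (hW _).1 hu
    refine (V''.mem_Z _ _).2 ⟨?_, ?_⟩
    · change V''.C.p (i + 1) (g u.1) = g u.1
      rw [← h.mg.2, a1]
    · change V''.C.D (g u.1) ∈ V''.T3
      rw [← h.mg.1]
      exact (h.sq_g3 _).2 ⟨u.2, a3⟩
  · intro z hz
    obtain ⟨x, rfl⟩ := h.surj z
    obtain ⟨a1, a2⟩ := (V''.mem_Z _ _).1 hz
    rw [← h.mg.1] at a2
    obtain ⟨w, hw⟩ := (h.sq_g3 _).1 a2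
    refine ⟨_, hpW x w hw, ?_⟩
    change g x - g (V.C.p (i + 1) x) ∈ _
    rw [h.mg.2, a1, sub_self]
    exact Submodule.zero_mem _

/-- In degree `0` everything is a cycle (`D_p0`). -/
theorem VSES.cok_zero (h : VSES V' V V'' f g) : cokL V V'' g 0 = 0 := by
  rw [cokL, sql_eq_zero_iff]
  intro z hz
  obtain ⟨x, rfl⟩ := h.surj z
  refine Submodule.mem_sup_left ⟨V.C.p 0 x, ⟨sq_pp _ _ _, ?_⟩, ?_⟩
  · change V.C.D (V.C.p 0 x) ∈ V.T3
    rw [sq_Dp_zero]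
    exact V.T3.zero_mem
  · rw [h.mg.2, ((V''.mem_Z _ _).1 hz).1]

theorem kerL_le (V' : VCx S n P') (V : VCx S n P) (f : P' →ₗ[S] P) (i : ℕ) : kerL V' V f i ≤ V'.h i := by
  exact sql_mono inf_le_left le_rfl

theorem cokL_le (V : VCx S n P) (V'' : VCx S n P'') (g : P →ₗ[S] P'') (i : ℕ) : cokL V V'' g i ≤ V''.h i := by
  exact sql_mono le_rfl le_sup_right

theorem VSES.h_le (h : VSES V' V V'' f g) (i : ℕ) : V.h i ≤ V'.h i + V''.h i := by
  rw [← h.add i, add_assoc]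
  exact le_self_add

/-- The correction terms telescope; `kerL n = cokL (n+1) ≤ h'' (n+1) = 0`. -/
theorem VSES.chi_add (h : VSES V' V V'' f g) (h' : ∀ i, V'.h i ≠ ⊤) (h'' : ∀ i, V''.h i ≠ ⊤) :
    V.chi = V'.chi + V''.chi := by
  have hk : ∀ i, kerL V' V f i ≠ ⊤ := fun i => ne_top_of_le_ne_top (h' i) (kerL_le V' V f i)
  have hc : ∀ i, cokL V V'' g i ≠ ⊤ := fun i => ne_top_of_le_ne_top (h'' i) (cokL_le V V'' g i)
  have hh : ∀ i, V.h i ≠ ⊤ := fun i =>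
    ne_top_of_le_ne_top (WithTop.add_ne_top.2 ⟨h' i, h'' i⟩) (h.h_le i)
  have key : ∀ i, ((V.h i).toNat : ℤ) + (cokL V V'' g (i + 1)).toNat + (cokL V V'' g i).toNat =
      (V'.h i).toNat + (V''.h i).toNat := by
    intro i
    have := congrArg ENat.toNat (h.add i)
    have hne : V.h i + kerL V' V f i ≠ ⊤ := WithTop.add_ne_top.2 ⟨hh i, hk i⟩
    rw [ENat.toNat_add hne (hc i), ENat.toNat_add (hh i) (hk i),
      ENat.toNat_add (h' i) (h'' i), ← h.cok_succ] at this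
    exact_mod_cast this
  have tel : ∀ m : ℕ, ∑ i ∈ Finset.range m, (-1 : ℤ) ^ i *
      (((cokL V V'' g (i + 1)).toNat : ℤ) + (cokL V V'' g i).toNat) =
      -((-1) ^ m * (cokL V V'' g m).toNat) := by
    intro m
    induction m with
    | zero => simp [h.cok_zero]
    | succ m ih => rw [Finset.sum_range_succ, ih]; ring
  have h0 : cokL V V'' g (n + 1) = 0 :=
    le_antisymm ((cokL_le V V'' g _).trans (V''.h_gt (Nat.lt_succ_self n)).le) zero_le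
  have := tel (n + 1)
  rw [h0, ENat.toNat_zero, Nat.cast_zero, mul_zero, neg_zero] at this
  rw [VCx.chi, VCx.chi, VCx.chi, ← Finset.sum_add_distrib, ← add_zero (Finset.sum _ _), ← this,
    ← Finset.sum_add_distrib]
  refine Finset.sum_congr rfl fun i _ => ?_
  rw [← mul_add, ← mul_add, ← key i, add_assoc]

end Crest.Agent.R188
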