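import Crest.Agent.R188.Sq
import Crest.Agent.R188.Lift

/-!
# rid 188, file `Ten`: tensor products of matrix complexes

Prefix helper lemmas with `tn_`.
-/

set_option autoImplicit false

open IsLocalRing Crest.Agent.R183

namespace Crest.Agent.R188

open Matrix Kronecker

variable {O O' : Type} [CommRing O] [CommRing O'] {n n' m m' : ℕ}

theorem tn_D (F : MC O n) (G : MC O n') :
    (F.ten G).D = F.D ⊗ₖ (1 : Matrix G.ι G.ι O) + F.sgn ⊗ₖ G.D := rfl

theorem ten_map_D (F : MC O n) (G : MC O n') (f : O →+* O') :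
    (F.ten G).D.map f = ((F.map f).ten (G.map f)).D := by
  ext ⟨a1, a2⟩ ⟨b1, b2⟩
  simp only [tn_D, MC.sgn, Matrix.map_apply, Matrix.add_apply, Matrix.kroneckerMap_apply, Matrix.one_apply,
    Matrix.diagonal_apply, map_add, map_mul, apply_ite f, map_one, map_zero, map_pow, map_neg]
  rfl

theorem tn_sgn_chain {F : MC O n} {F' : MC O m} {Φ : Matrix F'.ι F.ι O} (h : IsChain F F' Φ) :
    F'.sgn * Φ = Φ * F.sgn := by
  ext a b
  simp only [MC.sgn, Matrix.mul_diagonal, Matrix.diagonal_mul]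
  by_cases h0 : Φ a b = 0
  · simp [h0]
  · rw [h.1 a b h0, mul_comm]

theorem tn_sgn_htp {F : MC O n} {F' : MC O m} {σ : Matrix F'.ι F.ι O}
    (h : ∀ a b, σ a b ≠ 0 → F'.deg a = F.deg b + 1) : F'.sgn * σ = -(σ * F.sgn) := by
  ext a b
  simp only [MC.sgn, Matrix.mul_diagonal, Matrix.diagonal_mul, Matrix.neg_apply]
  by_cases h0 : σ a b = 0
  · simp [h0]
  · rw [h a b h0]; ring

theorem tn_sgn_sq (F : MC O n) : F.sgn * F.sgn = 1 := by
  rw [MC.sgn, Matrix.diagonal_mul_diagonal, ← Matrix.diagonal_one]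
  congr 1
  funext a
  rw [← mul_pow]
  simp

theorem tn_neg_kron {α β γ δ : Type} (A : Matrix α β O) (B : Matrix γ δ O) : (-A) ⊗ₖ B = -(A ⊗ₖ B) := by
  ext a b
  simp

theorem tn_sub_kron {α β γ δ : Type} (A A' : Matrix α β O) (B : Matrix γ δ O) :
    (A - A') ⊗ₖ B = A ⊗ₖ B - A' ⊗ₖ B := by
  ext a b
  simp [sub_mul]

theorem tn_kron_sub {α β γ δ : Type} (A : Matrix α β O) (B B' : Matrix γ δ O) :
    A ⊗ₖ (B - B') = A ⊗ₖ B - A ⊗ₖ B' := by
  ext a b
  simp [mul_sub]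

theorem IsChain.ten {F : MC O n} {F' : MC O m} {G : MC O n'} {G' : MC O m'} {Φ : Matrix F'.ι F.ι O}
    {Ψ : Matrix G'.ι G.ι O} (h : IsChain F F' Φ) (h' : IsChain G G' Ψ) :
    IsChain (F.ten G) (F'.ten G') (Φ ⊗ₖ Ψ) := by
  refine ⟨?_, ?_⟩
  · rintro ⟨a1, a2⟩ ⟨b1, b2⟩ h0
    have h0' : Φ a1 b1 * Ψ a2 b2 ≠ 0 := h0
    have e1 := h.1 a1 b1 (left_ne_zero_of_mul h0')
    have e2 := h'.1 a2 b2 (right_ne_zero_of_mul h0')
    change F'.deg a1 + G'.deg a2 = F.deg b1 + G.deg b2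
    rw [e1, e2]
  · have key : (F'.D ⊗ₖ (1 : Matrix G'.ι G'.ι O) + F'.sgn ⊗ₖ G'.D) * (Φ ⊗ₖ Ψ) =
        (Φ ⊗ₖ Ψ) * (F.D ⊗ₖ (1 : Matrix G.ι G.ι O) + F.sgn ⊗ₖ G.D) := by
      rw [Matrix.add_mul, Matrix.mul_add, ← Matrix.mul_kronecker_mul, ← Matrix.mul_kronecker_mul,
        ← Matrix.mul_kronecker_mul, ← Matrix.mul_kronecker_mul, h.2, h'.2, tn_sgn_chain h, Matrix.one_mul,
        Matrix.mul_one]
    exact key

/-- Use `σ ⊗ Ψ` with `σ` of degree `+1` (`Htp.deg`; it anticommutes with `sgn`) and `(sgn * Φ') ⊗ σ'`. -/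
theorem Htp.ten {F : MC O n} {F' : MC O m} {G : MC O n'} {G' : MC O m'} {Φ Φ' : Matrix F'.ι F.ι O}
    {Ψ Ψ' : Matrix G'.ι G.ι O} (h1 : IsChain F F' Φ) (h2 : IsChain F F' Φ') (h3 : IsChain G G' Ψ)
    (h4 : IsChain G G' Ψ') (h : Htp F F' Φ Φ') (h' : Htp G G' Ψ Ψ') :
    Htp (F.ten G) (F'.ten G') (Φ ⊗ₖ Ψ) (Φ' ⊗ₖ Ψ') := by
  obtain ⟨σ, hσ, e⟩ := Htp.deg h1 h2 h
  obtain ⟨σ', e'⟩ := h'
  have _ := h4
  refine ⟨σ ⊗ₖ Ψ + (F'.sgn * Φ') ⊗ₖ σ', ?_⟩
  have k1 : (F'.D ⊗ₖ (1 : Matrix G'.ι G'.ι O) + F'.sgn ⊗ₖ G'.D) * (σ ⊗ₖ Ψ) +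
      (σ ⊗ₖ Ψ) * (F.D ⊗ₖ (1 : Matrix G.ι G.ι O) + F.sgn ⊗ₖ G.D) = (Φ - Φ') ⊗ₖ Ψ := by
    rw [Matrix.add_mul, Matrix.mul_add, ← Matrix.mul_kronecker_mul, ← Matrix.mul_kronecker_mul,
      ← Matrix.mul_kronecker_mul, ← Matrix.mul_kronecker_mul, h3.2, tn_sgn_htp hσ, Matrix.one_mul,
      Matrix.mul_one, e, Matrix.add_kronecker, tn_neg_kron]
    abel
  have k2 : (F'.D ⊗ₖ (1 : Matrix G'.ι G'.ι O) + F'.sgn ⊗ₖ G'.D) * ((F'.sgn * Φ') ⊗ₖ σ') +
      ((F'.sgn * Φ') ⊗ₖ σ') * (F.D ⊗ₖ (1 : Matrix G.ι G.ι O) + F.sgn ⊗ₖ G.D) = Φ' ⊗ₖ (Ψ - Ψ') := by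
    have a1 : F'.D * (F'.sgn * Φ') = -(F'.sgn * Φ' * F.D) := by
      rw [← Matrix.mul_assoc, F'.D_sgn, Matrix.neg_mul, Matrix.mul_assoc, h2.2, Matrix.mul_assoc]
    have a2 : F'.sgn * (F'.sgn * Φ') = Φ' := by
      rw [← Matrix.mul_assoc, tn_sgn_sq, Matrix.one_mul]
    have a3 : F'.sgn * Φ' * F.sgn = Φ' := by
      rw [Matrix.mul_assoc, ← tn_sgn_chain h2, a2]
    rw [Matrix.add_mul, Matrix.mul_add, ← Matrix.mul_kronecker_mul, ← Matrix.mul_kronecker_mul,
      ← Matrix.mul_kronecker_mul, ← Matrix.mul_kronecker_mul, a1, a2, a3, Matrix.one_mul,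
      Matrix.mul_one, e', Matrix.kronecker_add, tn_neg_kron]
    abel
  have key : Φ ⊗ₖ Ψ - Φ' ⊗ₖ Ψ' =
      (F'.D ⊗ₖ (1 : Matrix G'.ι G'.ι O) + F'.sgn ⊗ₖ G'.D) * (σ ⊗ₖ Ψ + (F'.sgn * Φ') ⊗ₖ σ') +
      (σ ⊗ₖ Ψ + (F'.sgn * Φ') ⊗ₖ σ') * (F.D ⊗ₖ (1 : Matrix G.ι G.ι O) + F.sgn ⊗ₖ G.D) := by
    rw [Matrix.mul_add (F'.D ⊗ₖ (1 : Matrix G'.ι G'.ι O) + F'.sgn ⊗ₖ G'.D), Matrix.add_mul (σ ⊗ₖ Ψ),
      add_add_add_comm, k1, k2, tn_sub_kron, tn_kron_sub]
    abel
  exact key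

theorem Act.exists_tenL {R0 X : Type} [CommRing R0] [CommRing X] {g : R0 →+* X} {j : R0 →+* O} {F : MC O n}
    (A : Act F g j) (G : MC O n') :
    ∃ A' : Act (F.ten G) g j, ∀ y, A'.L y = A.L y ⊗ₖ (1 : Matrix G.ι G.ι O) := by
  refine ⟨⟨fun y => A.L y ⊗ₖ (1 : Matrix G.ι G.ι O), fun y => (A.chain y).ten (IsChain.one G), fun y y' => ?_,
    fun y y' => ?_, fun r => ?_⟩, fun y => rfl⟩
  · have := Htp.ten (A.chain (y + y')) ((A.chain y).add (A.chain y')) (IsChain.one G) (IsChain.one G)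
      (A.add y y') (Htp.refl _)
    rw [Matrix.add_kronecker] at this
    exact this
  · have := Htp.ten (A.chain (y * y')) ((A.chain y).mul (A.chain y')) (IsChain.one G)
      ((IsChain.one G).mul (IsChain.one G)) (A.mul y y') (by rw [Matrix.mul_one]; exact Htp.refl _)
    rw [Matrix.mul_kronecker_mul] at this
    exact this
  · have := Htp.ten (A.chain (g r)) ((IsChain.one F).smul (j r)) (IsChain.one G) (IsChain.one G)
      (A.alg r) (Htp.refl _)
    rw [Matrix.smul_kronecker, Matrix.one_kronecker_one] at this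
    exact this

theorem Act.exists_tenR {R0 X : Type} [CommRing R0] [CommRing X] {g : R0 →+* X} {j : R0 →+* O} {G : MC O n'}
    (A : Act G g j) (F : MC O n) :
    ∃ A' : Act (F.ten G) g j, ∀ y, A'.L y = (1 : Matrix F.ι F.ι O) ⊗ₖ A.L y := by
  refine ⟨⟨fun y => (1 : Matrix F.ι F.ι O) ⊗ₖ A.L y, fun y => (IsChain.one F).ten (A.chain y), fun y y' => ?_,
    fun y y' => ?_, fun r => ?_⟩, fun y => rfl⟩
  · have := Htp.ten (IsChain.one F) (IsChain.one F) (A.chain (y + y')) ((A.chain y).add (A.chain y'))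
      (Htp.refl _) (A.add y y')
    rw [Matrix.kronecker_add] at this
    exact this
  · have := Htp.ten (IsChain.one F) ((IsChain.one F).mul (IsChain.one F)) (A.chain (y * y'))
      ((A.chain y).mul (A.chain y')) (by rw [Matrix.mul_one]; exact Htp.refl _) (A.mul y y')
    rw [Matrix.mul_kronecker_mul] at this
    exact this
  · have := Htp.ten (IsChain.one F) (IsChain.one F) (A.chain (g r)) ((IsChain.one G).smul (j r))
      (Htp.refl _) (A.alg r)
    rw [Matrix.kronecker_smul, Matrix.one_kronecker_one] at this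
    exact this

/-- The abstract comparison.  `g` is a surjective chain map, `q` a bounded second grading preserving `ker g`,
`D = D0 + D1` with `D0` of `q`-degree `0` and `D1` of `q`-degree `-1`, and `ker g` is `D0`-exact in every
`q`-degree.  Then `ker g` is acyclic (descending induction on the top `q`-degree), so `g` induces a bijection on
homology (`h_eq_of_map`): lift a cycle `z` to `w`, write `D w = D v` with `g v = 0`. -/
theorem h_eq_of_acyclic {S : Type} [CommRing S] {P P' : Type} [AddCommGroup P] [Module S P] [AddCommGroup P']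
    [Module S P'] (C : Cx S n P) (C' : Cx S n' P') (g : P →ₗ[S] P') (hg : Function.Surjective g)
    (hm : IsMap C C' g) (k : ℕ) (q : ℕ → Module.End S P) (D0 D1 : Module.End S P)
    (hq : ∀ x, ∑ j ∈ Finset.range (k + 1), q j x = x) (hqq : ∀ i j x, q i (q j x) = if i = j then q i x else 0)
    (hD : ∀ x, C.D x = D0 x + D1 x) (h0 : ∀ j x, q j (D0 x) = D0 (q j x))
    (h1 : ∀ j x, q j (D1 x) = D1 (q (j + 1) x)) (hqg : ∀ j x, g x = 0 → g (q j x) = 0)
    (hex : ∀ j x, g x = 0 → q j x = x → D0 x = 0 → ∃ v, g v = 0 ∧ q j v = v ∧ D0 v = x) (i : ℕ) :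
    (hon C).h i = (hon C').h i := by
  have hDD : ∀ x, C.D (C.D x) = 0 := fun x => by
    have := LinearMap.congr_fun C.D_sq x
    simpa using this
  have step : ∀ m : ℕ, ∀ x, g x = 0 → C.D x = 0 → (∀ j, m ≤ j → q j x = 0) → ∃ v, g v = 0 ∧ C.D v = x := by
    intro m
    induction m with
    | zero =>
      intro x _ _ hx
      refine ⟨0, map_zero _, ?_⟩
      rw [map_zero, ← hq x]
      exact (Finset.sum_eq_zero fun j _ => hx j (Nat.zero_le j)).symm
    | succ m ih =>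
      intro x hgx hDx hx
      have e0 : D0 (q m x) = 0 := by
        have e1 : q m (D0 x + D1 x) = 0 := by rw [← hD, hDx, map_zero]
        rw [map_add, h0, h1, hx (m + 1) le_rfl, map_zero, add_zero] at e1
        exact e1
      obtain ⟨v, hgv, hqv, hv⟩ := hex m (q m x) (hqg m x hgx) (by rw [hqq, if_pos rfl]) e0
      have hqv' : ∀ j, j ≠ m → q j v = 0 := fun j hj => by rw [← hqv, hqq, if_neg hj]
      obtain ⟨u, hgu, hu⟩ := ih (x - C.D v) (by rw [map_sub, hgx, hm.1, hgv, map_zero, sub_zero])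
        (by rw [map_sub, hDx, hDD, sub_zero]) (fun j hj => by
          rw [map_sub, hD, map_add, h0, h1, hqv' (j + 1) (by omega), map_zero, add_zero]
          rcases hj.eq_or_lt with rfl | hj
          · rw [hqv, hv, sub_self]
          · rw [hx j hj, hqv' j hj.ne', map_zero, sub_zero])
      exact ⟨u + v, by rw [map_add, hgu, hgv, add_zero], by rw [map_add, hu, sub_add_cancel]⟩
  have acyc : ∀ x, g x = 0 → C.D x = 0 → ∃ v, g v = 0 ∧ C.D v = x := fun x hgx hDx =>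
    step (k + 1) x hgx hDx fun j hj => by
      rw [← hq x, map_sum]
      refine Finset.sum_eq_zero fun l hl => ?_
      rw [hqq, if_neg]
      have := Finset.mem_range.1 hl
      omega
  have mZ : ∀ x, x ∈ (hon C).Z i ↔ C.p i x = x ∧ C.D x = 0 := fun x => by
    rw [VCx.mem_Z]; rfl
  have mZ' : ∀ x, x ∈ (hon C').Z i ↔ C'.p i x = x ∧ C'.D x = 0 := fun x => by
    rw [VCx.mem_Z]; rfl
  have mN : ∀ x, x ∈ (hon C).N ↔ ∃ y, x - C.D y = 0 := fun x => by
    rw [VCx.mem_N]; rfl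
  have mN' : ∀ x, x ∈ (hon C').N ↔ ∃ y, x - C'.D y = 0 := fun x => by
    rw [VCx.mem_N]; rfl
  refine h_eq_of_map (hon C) (hon C') g i (fun x hx => ?_) (fun z hz => ?_) (fun x hx => ?_)
  · rw [mZ] at hx
    rw [mZ', ← hm.2, ← hm.1, hx.1, hx.2, map_zero]
    exact ⟨rfl, rfl⟩
  · rw [mZ'] at hz
    obtain ⟨w, rfl⟩ := hg z
    obtain ⟨v, hgv, hv⟩ := acyc (C.D w) (by rw [hm.1, hz.2]) (hDD w)
    have hc : C.D (w - v) = 0 := by rw [map_sub, hv, sub_self]
    refine ⟨C.p i (w - v), ?_, ?_⟩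
    · rw [mZ]
      refine ⟨?_, ?_⟩
      · have := LinearMap.congr_fun (C.p_mul i i) (w - v)
        rw [if_pos rfl] at this
        exact this
      · rcases i with _ | i
        · exact LinearMap.congr_fun C.D_p0 (w - v)
        · have := LinearMap.congr_fun (C.D_p i) (w - v)
          rw [Module.End.mul_apply, Module.End.mul_apply, hc, map_zero] at this
          exact this
    · rw [hm.2, map_sub, hgv, sub_zero, hz.1, sub_self]
      exact Submodule.zero_mem _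
  · rw [mZ] at hx
    rw [mN, mN']
    constructor
    · rintro ⟨y', hy'⟩
      obtain ⟨y, rfl⟩ := hg y'
      obtain ⟨v, -, hv⟩ := acyc (x - C.D y) (by rw [map_sub, hm.1, hy']) (by rw [map_sub, hx.2, hDD, sub_zero])
      exact ⟨y + v, by rw [map_add, hv]; abel⟩
    · rintro ⟨y, hy⟩
      exact ⟨g y, by rw [← hm.1, ← map_sub, hy, map_zero]⟩

theorem tn_actL {α β : Type} [Fintype α] [Fintype β] [DecidableEq β] (A : Matrix α α O) (w : α × β → O)
    (a : α) (b : β) :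
    mact O (A ⊗ₖ (1 : Matrix β β O)) O w (a, b) = (A *ᵥ fun a' => w (a', b)) a := by
  simp only [mact_apply, Fintype.sum_prod_type, Matrix.kroneckerMap_apply, Matrix.one_apply, smul_eq_mul,
    Matrix.mulVec, dotProduct]
  refine Finset.sum_congr rfl fun a' _ => ?_
  simp

theorem tn_actR {β : Type} [Fintype β] (F : MC O n) (B : Matrix β β O) (w : F.ι × β → O)
    (a : F.ι) (b : β) :
    mact O (F.sgn ⊗ₖ B) O w (a, b) = (-1) ^ F.deg a * (B *ᵥ fun b' => w (a, b')) b := by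
  simp only [mact_apply, Fintype.sum_prod_type, Matrix.kroneckerMap_apply, MC.sgn, Matrix.diagonal_apply,
    smul_eq_mul, Matrix.mulVec, dotProduct, Finset.mul_sum]
  rw [Finset.sum_eq_single a]
  · simp [mul_assoc]
  · intro a' _ h
    simp [h.symm]
  · simp

theorem tn_act_add {α : Type} [Fintype α] (A B : Matrix α α O) (w : α → O) :
    mact O (A + B) O w = mact O A O w + mact O B O w := by
  ext a
  simp [mact_apply, add_mul, Finset.sum_add_distrib]

/-- `ε` only depends on the coordinates of degree `0`. -/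
theorem tn_eps_congr {F : MC O n} {N : Type} [AddCommGroup N] [Module O N] {ε : (F.ι → O) →ₗ[O] N}
    (hF : F.Res ε) {u u' : F.ι → O} (h : ∀ a, F.deg a = 0 → u a = u' a) : ε u = ε u' := by
  rw [← sub_eq_zero, ← map_sub]
  exact hF.ε0 _ fun a ha => by simp [h a ha]

theorem tn_exact {F : MC O n} {N : Type} [AddCommGroup N] [Module O N] {ε : (F.ι → O) →ₗ[O] N}
    (hF : F.Res ε) (w : F.ι → O) (h1 : F.D *ᵥ w = 0) (h2 : ε w = 0) : ∃ v, ε v = 0 ∧ F.D *ᵥ v = w := by
  obtain ⟨v, hv⟩ := hF.exact w h1 h2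
  refine ⟨fun a => if F.deg a = 0 then 0 else v a, hF.ε0 _ fun a ha => by simp [ha], ?_⟩
  rw [← hv]
  ext a
  simp only [Matrix.mulVec, dotProduct]
  refine Finset.sum_congr rfl fun b _ => ?_
  by_cases h0 : F.D a b = 0
  · simp [h0]
  · rw [if_neg (by rw [F.hD a b h0]; omega)]

theorem tn_D_prj (F : MC O n) (w : F.ι → O) (j : ℕ) (a : F.ι) :
    (F.D *ᵥ fun b => if F.deg b = j + 1 then w b else 0) a = if F.deg a = j then (F.D *ᵥ w) a else 0 := by
  simp only [Matrix.mulVec, dotProduct]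
  split_ifs with h
  · refine Finset.sum_congr rfl fun b _ => ?_
    by_cases h0 : F.D a b = 0
    · simp [h0]
    · rw [if_pos (by rw [F.hD a b h0, h])]
  · refine Finset.sum_eq_zero fun b _ => ?_
    by_cases h0 : F.D a b = 0
    · simp [h0]
    · rw [if_neg (by rw [F.hD a b h0]; omega), mul_zero]

theorem tn_prj_sum {ι : Type} (deg : ι → ℕ) (k : ℕ) (hk : ∀ a, deg a ≤ k) (x : ι → O) :
    ∑ j ∈ Finset.range (k + 1), prj O deg O j x = x := by
  ext a
  have := hk a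
  simp [Finset.sum_apply, prj_apply, Finset.sum_ite_eq, this]

theorem tn_prj_prj {ι : Type} (deg : ι → ℕ) (i j : ℕ) (x : ι → O) :
    prj O deg O i (prj O deg O j x) = if i = j then prj O deg O i x else 0 := by
  ext a
  by_cases h : i = j
  · subst h
    by_cases h' : deg a = i <;> simp [prj_apply, h']
  · by_cases h' : deg a = i
    · have : ¬ deg a = j := fun h'' => h (h'.symm.trans h'')
      simp [prj_apply, h, this]
    · simp [prj_apply, h, h']

/-- The complex of `F.ten G`, with the index type unfolded. -/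
def tn_cx (F : MC O n) (G : MC O n') : Cx O (n + n') (F.ι × G.ι → O) := (F.ten G).cx O O

/-- The map `w ↦ (b ↦ ε (w (·, b)))`. -/
def tn_gR {α β : Type} {N : Type} [AddCommGroup N] [Module O N] (ε : (α → O) →ₗ[O] N) :
    (α × β → O) →ₗ[O] (β → N) where
  toFun w b := ε fun a => w (a, b)
  map_add' w w' := by
    ext b
    rw [Pi.add_apply, ← map_add]
    rfl
  map_smul' c w := by
    ext b
    rw [RingHom.id_apply, Pi.smul_apply, ← map_smul]
    rfl

/-- The map `w ↦ (a ↦ ε (w (a, ·)))`. -/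
def tn_gL {α β : Type} {N : Type} [AddCommGroup N] [Module O N] (ε : (β → O) →ₗ[O] N) :
    (α × β → O) →ₗ[O] (α → N) where
  toFun w a := ε fun b => w (a, b)
  map_add' w w' := by
    ext b
    rw [Pi.add_apply, ← map_add]
    rfl
  map_smul' c w := by
    ext b
    rw [RingHom.id_apply, Pi.smul_apply, ← map_smul]
    rfl

theorem tn_gR_apply {α β : Type} {N : Type} [AddCommGroup N] [Module O N] (ε : (α → O) →ₗ[O] N)
    (w : α × β → O) (b : β) : tn_gR ε w b = ε fun a => w (a, b) := rfl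

theorem tn_gL_apply {α β : Type} {N : Type} [AddCommGroup N] [Module O N] (ε : (β → O) →ₗ[O] N)
    (w : α × β → O) (a : α) : tn_gL ε w a = ε fun b => w (a, b) := rfl

theorem tn_eps_sum {α β : Type} [Fintype β] {N : Type} [AddCommGroup N] [Module O N] (ε : (α → O) →ₗ[O] N)
    (c : β → O) (u : β → α → O) : ε (fun a => ∑ b, c b * u b a) = ∑ b, c b • ε (u b) := by
  have : (fun a => ∑ b, c b * u b a) = ∑ b, c b • u b := by
    ext a
    simp [Finset.sum_apply]
  rw [this, map_sum]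
  simp

/-- `g w b = ε (w (·, b))`, second grading `deg b`. -/
theorem tl_ten_right {F : MC O n} {N : Type} [AddCommGroup N] [Module O N] {ε : (F.ι → O) →ₗ[O] N}
    (hF : F.Res ε) (G : MC O n') (i : ℕ) : (F.ten G).tl O i = G.tl N i := by
  have hD : ∀ x : F.ι × G.ι → O, (tn_cx F G).D x =
      mact O (F.D ⊗ₖ (1 : Matrix G.ι G.ι O)) O x + mact O (F.sgn ⊗ₖ G.D) O x := fun x => tn_act_add _ _ x
  have h0 : ∀ (j : ℕ) (x : F.ι × G.ι → O),
      prj O (fun a : F.ι × G.ι => G.deg a.2) O j (mact O (F.D ⊗ₖ (1 : Matrix G.ι G.ι O)) O x) =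
      mact O (F.D ⊗ₖ (1 : Matrix G.ι G.ι O)) O (prj O (fun a : F.ι × G.ι => G.deg a.2) O j x) := by
    intro j x
    ext ⟨a, b⟩
    simp only [prj_apply, tn_actL]
    split_ifs with h
    · rfl
    · simp [Matrix.mulVec, dotProduct]
  have hqg : ∀ (j : ℕ) (x : F.ι × G.ι → O), tn_gR ε x = 0 →
      tn_gR ε (prj O (fun a : F.ι × G.ι => G.deg a.2) O j x) = 0 := by
    intro j x hx
    ext b
    have := congrFun hx b
    simp only [tn_gR_apply, prj_apply] at this ⊢
    split_ifs with h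
    · exact this
    · exact map_zero ε
  refine h_eq_of_acyclic (P := F.ι × G.ι → O) (tn_cx F G) (G.cx O N) (tn_gR ε) (fun z => ?_)
    ⟨fun x => ?_, fun j x => ?_⟩ n'
    (prj O (fun a : F.ι × G.ι => G.deg a.2) O) (mact O (F.D ⊗ₖ (1 : Matrix G.ι G.ι O)) O)
    (mact O (F.sgn ⊗ₖ G.D) O) (tn_prj_sum _ n' fun a => G.deg_le a.2) (tn_prj_prj _) hD h0
    (fun j x => ?_) hqg (fun j x hg hq hx => ?_) i
  · choose u hu using fun b => hF.surj (z b)
    exact ⟨fun a => u a.2 a.1, funext fun b => hu b⟩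
  · rw [hD, map_add]
    ext b
    have e1 : tn_gR ε (mact O (F.D ⊗ₖ (1 : Matrix G.ι G.ι O)) O x) b = 0 := by
      rw [tn_gR_apply]
      simp only [tn_actL]
      exact hF.εD _
    have e2 : tn_gR ε (mact O (F.sgn ⊗ₖ G.D) O x) b = ∑ b', G.D b b' • tn_gR ε x b' := by
      simp only [tn_gR_apply, tn_actR]
      rw [← tn_eps_sum]
      refine tn_eps_congr hF fun a ha => ?_
      rw [ha, pow_zero, one_mul]
      rfl
    rw [Pi.add_apply, e1, e2, zero_add]
    rfl
  · ext b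
    change ε (fun a => if F.deg a + G.deg b = j then x (a, b) else 0) =
      if G.deg b = j then ε (fun a => x (a, b)) else 0
    split_ifs with h
    · exact tn_eps_congr hF fun a ha => by rw [if_pos (by omega)]
    · exact hF.ε0 _ fun a ha => by rw [if_neg (by omega)]
  · ext ⟨a, b⟩
    simp only [prj_apply, tn_actR, tn_D_prj]
    split_ifs <;> simp
  · have h1 : ∀ b, ∃ v, ε v = 0 ∧ F.D *ᵥ v = fun a => x (a, b) := fun b =>
      tn_exact hF _ (funext fun a => by rw [← tn_actL, hx]; rfl) (congrFun hg b)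
    choose v hv1 hv2 using h1
    refine ⟨prj O (fun a : F.ι × G.ι => G.deg a.2) O j fun a => v a.2 a.1, hqg j _ (funext fun b => hv1 b),
      by rw [tn_prj_prj, if_pos rfl], ?_⟩
    rw [← h0, ← hq]
    congr 1
    ext ⟨a, b⟩
    rw [tn_actL]
    exact congrFun (hv2 b) a

/-- `g w a = ε (w (a, ·))`, second grading `deg a`. -/
theorem tl_ten_left {G : MC O n'} {N : Type} [AddCommGroup N] [Module O N] {ε : (G.ι → O) →ₗ[O] N}
    (hG : G.Res ε) (F : MC O n) (i : ℕ) : (F.ten G).tl O i = F.tl N i := by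
  have hD : ∀ x : F.ι × G.ι → O, (tn_cx F G).D x =
      mact O (F.sgn ⊗ₖ G.D) O x + mact O (F.D ⊗ₖ (1 : Matrix G.ι G.ι O)) O x := fun x =>
    (tn_act_add _ _ x).trans (add_comm _ _)
  have hs : ∀ a : F.ι, ((-1 : O) ^ F.deg a) * (-1) ^ F.deg a = 1 := fun a => by
    rw [← mul_pow]; simp
  have h0 : ∀ (j : ℕ) (x : F.ι × G.ι → O),
      prj O (fun a : F.ι × G.ι => F.deg a.1) O j (mact O (F.sgn ⊗ₖ G.D) O x) =
      mact O (F.sgn ⊗ₖ G.D) O (prj O (fun a : F.ι × G.ι => F.deg a.1) O j x) := by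
    intro j x
    ext ⟨a, b⟩
    simp only [prj_apply, tn_actR]
    split_ifs with h
    · rfl
    · simp [Matrix.mulVec, dotProduct]
  have hqg : ∀ (j : ℕ) (x : F.ι × G.ι → O), tn_gL ε x = 0 →
      tn_gL ε (prj O (fun a : F.ι × G.ι => F.deg a.1) O j x) = 0 := by
    intro j x hx
    ext a
    have := congrFun hx a
    simp only [tn_gL_apply, prj_apply] at this ⊢
    split_ifs with h
    · exact this
    · exact map_zero ε
  refine h_eq_of_acyclic (P := F.ι × G.ι → O) (tn_cx F G) (F.cx O N) (tn_gL ε) (fun z => ?_)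
    ⟨fun x => ?_, fun j x => ?_⟩ n
    (prj O (fun a : F.ι × G.ι => F.deg a.1) O) (mact O (F.sgn ⊗ₖ G.D) O)
    (mact O (F.D ⊗ₖ (1 : Matrix G.ι G.ι O)) O) (tn_prj_sum _ n fun a => F.deg_le a.1) (tn_prj_prj _) hD h0
    (fun j x => ?_) hqg (fun j x hg hq hx => ?_) i
  · choose u hu using fun a => hG.surj (z a)
    exact ⟨fun a => u a.1 a.2, funext fun a => hu a⟩
  · rw [hD, map_add]
    ext a
    have e1 : tn_gL ε (mact O (F.sgn ⊗ₖ G.D) O x) a = 0 := by
      rw [tn_gL_apply]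
      simp only [tn_actR]
      have := hG.εD fun b' => x (a, b')
      have e : (fun b => (-1 : O) ^ F.deg a * (G.D *ᵥ fun b' => x (a, b')) b) =
          ((-1 : O) ^ F.deg a) • (G.D *ᵥ fun b' => x (a, b')) := rfl
      rw [e, map_smul, this, smul_zero]
    have e2 : tn_gL ε (mact O (F.D ⊗ₖ (1 : Matrix G.ι G.ι O)) O x) a = ∑ a', F.D a a' • tn_gL ε x a' := by
      simp only [tn_gL_apply, tn_actL]
      rw [← tn_eps_sum]
      rfl
    rw [Pi.add_apply, e1, e2, zero_add]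
    rfl
  · ext a
    change ε (fun b => if F.deg a + G.deg b = j then x (a, b) else 0) =
      if F.deg a = j then ε (fun b => x (a, b)) else 0
    split_ifs with h
    · exact tn_eps_congr hG fun b hb => by rw [if_pos (by omega)]
    · exact hG.ε0 _ fun b hb => by rw [if_neg (by omega)]
  · ext ⟨a, b⟩
    simp only [prj_apply, tn_actL, tn_D_prj]
  · have h1 : ∀ a, ∃ v, ε v = 0 ∧ G.D *ᵥ v = fun b => x (a, b) := fun a =>
      tn_exact hG _ (funext fun b => by
        have := congrFun hx (a, b)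
        rw [tn_actR] at this
        have h2 := congrArg (fun t => (-1 : O) ^ F.deg a * t) this
        simp only [← mul_assoc, hs, one_mul, Pi.zero_apply, mul_zero] at h2
        exact h2) (congrFun hg a)
    choose v hv1 hv2 using h1
    refine ⟨prj O (fun a : F.ι × G.ι => F.deg a.1) O j fun a => (-1) ^ F.deg a.1 * v a.1 a.2,
      hqg j _ (funext fun a => ?_), by rw [tn_prj_prj, if_pos rfl], ?_⟩
    · have e : (fun b => (-1 : O) ^ F.deg a * v a b) = ((-1 : O) ^ F.deg a) • v a := rfl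
      change ε (fun b => (-1 : O) ^ F.deg a * v a b) = 0
      rw [e, map_smul, hv1, smul_zero]
    · rw [← h0, ← hq]
      congr 1
      ext ⟨a, b⟩
      rw [tn_actR]
      have e : (fun b => (-1 : O) ^ F.deg a * v a b) = ((-1 : O) ^ F.deg a) • v a := rfl
      change (-1 : O) ^ F.deg a * (G.D *ᵥ fun b => (-1 : O) ^ F.deg a * v a b) b = x (a, b)
      rw [e, Matrix.mulVec_smul, hv2, Pi.smul_apply, smul_eq_mul, ← mul_assoc, hs, one_mul]

end Crest.Agent.R188
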