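import Crest.Agent.R188.Bridge
import Crest.Agent.R188.Ten
import Crest.Agent.R188.ResEx
import Crest.Agent.R183.Grow

/-!
# rid 188, file `TorB`: basic properties of `tor` and `chi`

Prefix helper lemmas with `tb_`.
-/

set_option autoImplicit false

open IsLocalRing Crest.Agent.R183

namespace Crest.Agent.R188

open Matrix

variable {R : Type} [CommRing R] {d : ℕ} {M N : Type} [AddCommGroup M] [Module R M] [AddCommGroup N] [Module R N]

/-- Functoriality of `CategoryTheory.Tor` in both variables (`Functor.mapIso`, `LinearEquiv.toModuleIso`). -/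
theorem tor_congr {M' N' : Type} [AddCommGroup M'] [Module R M'] [AddCommGroup N'] [Module R N']
    (e : M ≃ₗ[R] M') (e' : N ≃ₗ[R] N') (i : ℕ) : tor R i M N = tor R i M' N' := by
  exact (((CategoryTheory.Tor (ModuleCat.{0} R) i).mapIso e.toModuleIso).app (ModuleCat.of R N) ≪≫
    ((CategoryTheory.Tor (ModuleCat.{0} R) i).obj (ModuleCat.of R M')).mapIso
      e'.toModuleIso).toLinearEquiv.length_eq

theorem chi_congr {M' N' : Type} [AddCommGroup M'] [Module R M'] [AddCommGroup N'] [Module R N']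
    (e : M ≃ₗ[R] M') (e' : N ≃ₗ[R] N') : chi R d M N = chi R d M' N' := by
  simp only [chi, tor_congr e e']

theorem tb_isMap {n : ℕ} (F : MC R n) (f : M →ₗ[R] N) :
    IsMap (F.cx R M) (F.cx R N) (f.compLeft F.ι) := by
  refine ⟨fun x => funext fun a => ?_, fun i x => funext fun a => ?_⟩
  · show f (∑ b, F.D a b • x b) = ∑ b, F.D a b • f (x b)
    simp only [map_sum, map_smul]
  · show f (if F.deg a = i then x a else 0) = if F.deg a = i then f (x a) else 0
    split_ifs
    · rfl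
    · exact map_zero f

/-- A short exact sequence of modules gives one of complexes. -/
theorem MC.ses {n : ℕ} (F : MC R n) {M' M'' : Type} [AddCommGroup M'] [Module R M'] [AddCommGroup M'']
    [Module R M''] (f : M' →ₗ[R] M) (g : M →ₗ[R] M'') (hf : Function.Injective f) (hg : Function.Surjective g)
    (h : Function.Exact f g) :
    VSES (hon (F.cx R M')) (hon (F.cx R M)) (hon (F.cx R M'')) (f.compLeft F.ι) (g.compLeft F.ι) := by
  have h1 : (⊥ : Submodule R (F.ι → M)).comap (f.compLeft F.ι) = ⊥ := by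
    rw [eq_bot_iff]
    intro x hx
    exact funext fun a => hf ((congrFun hx a).trans (map_zero f).symm)
  have h2 : (⊥ : Submodule R (F.ι → M'')).comap (g.compLeft F.ι) =
      LinearMap.range (f.compLeft F.ι) ⊔ ⊥ := by
    rw [sup_bot_eq]
    ext x
    constructor
    · intro hx
      choose w hw using fun a => (h (x a)).1 (congrFun hx a)
      exact ⟨w, funext hw⟩
    · rintro ⟨w, rfl⟩
      exact funext fun a => h.apply_apply_eq_zero (w a)
  refine ⟨hon_ok _, hon_ok _, hon_ok _, tb_isMap F f, tb_isMap F g, h1, h1, h1, fun z => ?_, h2, h2, h2⟩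
  choose w hw using fun a => hg (z a)
  exact ⟨w, funext hw⟩

theorem Kil.of_injective {I : Ideal R} (h : Kil I M) (f : N →ₗ[R] M) (hf : Function.Injective f) : Kil I N := by
  obtain ⟨c, h⟩ := h
  exact ⟨c, fun y hy w => hf (by rw [map_smul, h y hy, map_zero])⟩

theorem Kil.of_surjective {I : Ideal R} (h : Kil I M) (f : M →ₗ[R] N) (hf : Function.Surjective f) : Kil I N := by
  obtain ⟨c, h⟩ := h
  refine ⟨c, fun y hy w => ?_⟩
  obtain ⟨v, rfl⟩ := hf w
  rw [← map_smul, h y hy, map_zero]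

theorem Kil.quot {I J : Ideal R} {c : ℕ} (h : I ^ c ≤ J) : Kil I (R ⧸ J) := by
  refine ⟨c, fun y hy w => ?_⟩
  obtain ⟨v, rfl⟩ := Submodule.Quotient.mk_surjective J w
  rw [← Submodule.Quotient.mk_smul, Submodule.Quotient.mk_eq_zero]
  exact J.mul_mem_right v (h hy)

/-- `chi R d M R = length M` (`exists_res_free`). -/
theorem chi_self : chi R d M R = ((Module.length R M).toNat : ℤ) := by
  obtain ⟨F, ε, hF, hD, hdeg, ⟨e⟩⟩ := exists_res_free (R := R) (LinearEquiv.funUnique Unit R R) d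
  have hD' : ∀ w, (F.cx R M).D w = 0 := fun w => funext fun a => by
    show ∑ b, F.D a b • w b = 0
    simp [hD]
  have h0 : F.tl M 0 = Module.length R M := by
    have hZ : (hon (F.cx R M)).Z 0 = ⊤ := by
      rw [eq_top_iff]
      intro x _
      rw [VCx.mem_Z]
      exact ⟨funext fun a => if_pos (hdeg a), hD' x⟩
    have hN : (hon (F.cx R M)).N = ⊥ := by
      rw [eq_bot_iff]
      intro x hx
      obtain ⟨y, hy⟩ := (VCx.mem_N _ _).1 hx
      have hy' : x - (F.cx R M).D y = 0 := hy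
      rwa [hD', sub_zero] at hy'
    rw [MC.tl, VCx.h, hZ, hN, sql_top, ln_colen_bot]
    exact ((LinearEquiv.funCongrLeft R M e.symm).trans (LinearEquiv.funUnique Unit R M)).length_eq
  have h1 : ∀ i, F.tl M (i + 1) = 0 := fun i => by
    rw [MC.tl, VCx.h, sql_eq_zero_iff]
    intro x hx
    have h := ((VCx.mem_Z _ _ _).1 hx).1
    have : x = 0 := by
      rw [← h]
      exact funext fun a => if_neg (by rw [hdeg a]; omega)
    rw [this]
    exact Submodule.zero_mem _
  rw [chi, Finset.sum_range_succ']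
  simp only [tor_eq_tl hF, h0, h1]
  simp

variable [IsLocalRing R] [IsNoetherianRing R]

theorem Prim.symm {I J : Ideal R} (h : Prim I J) : Prim J I := by
  obtain ⟨c, h⟩ := h
  exact ⟨c, by rwa [sup_comm]⟩

theorem Prim.pow {I J : Ideal R} (h : Prim I J) (a b : ℕ) : Prim (I ^ a) (J ^ b) := by
  obtain ⟨c, h⟩ := h
  refine ⟨c * (a + b), ?_⟩
  rw [pow_mul]
  exact (Ideal.pow_right_mono h _).trans Ideal.sup_pow_add_le_pow_sup_pow

/-- Both sides are the homology of the tensor product of resolutions. -/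
theorem tor_symm (h : RegL R d) [Module.Finite R M] [Module.Finite R N] (i : ℕ) : tor R i M N = tor R i N M := by
  obtain ⟨F, ε, hF⟩ := exists_res h N
  obtain ⟨G, ε', hG⟩ := exists_res h M
  rw [tor_eq_tl hF, tor_eq_tl hG, ← tl_ten_left hG F, tl_ten_right hF G]

theorem chi_symm (h : RegL R d) [Module.Finite R M] [Module.Finite R N] : chi R d M N = chi R d N M := by
  simp only [chi, tor_symm (M := M) (N := N) h]

theorem tor_gt (h : RegL R d) [Module.Finite R N] {i : ℕ} (hi : d < i) : tor R i M N = 0 := by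
  obtain ⟨F, ε, hF⟩ := exists_res h N
  rw [tor_eq_tl hF]
  exact VCx.h_gt _ hi

/-- A power of `𝔪` maps cycles into boundaries: elements killing `M` act as zero, elements killing `N` are
null-homotopic on `F` (`htp_of_res` for `y • 1` and `0`). -/
theorem MC.Res.pow_kills {n : ℕ} {F : MC R n} {ε : (F.ι → R) →ₗ[R] N} (hF : F.Res ε) {I J : Ideal R}
    (hM : Kil I M) (hN : Kil J N) (hIJ : Prim I J) : ∃ c : ℕ, ∀ y ∈ maximalIdeal R ^ c, ∀ w : F.ι → M,
      (F.cx R M).D w = 0 → y • w ∈ LinearMap.range (F.cx R M).D := by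
  obtain ⟨a, ha⟩ := hM
  obtain ⟨b, hb⟩ := hN
  obtain ⟨c, hc⟩ := hIJ.pow a b
  refine ⟨c, fun y hy w hw => ?_⟩
  obtain ⟨u, hu, v, hv, rfl⟩ := Submodule.mem_sup.1 (hc hy)
  have h0 : IsChain F F 0 := ⟨fun _ _ h => absurd rfl h, by simp⟩
  obtain ⟨σ, hσ⟩ := htp_of_res hF ((IsChain.one F).smul v) h0 fun x => by
    rw [smul_mulVec, one_mulVec, zero_mulVec, map_smul, hb v hv, map_zero]
  have h1 : u • w = 0 := funext fun i => ha u hu (w i)
  have h2 : mact R (v • (1 : Matrix F.ι F.ι R) - 0) M w = v • w := by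
    ext i
    simp [mact_apply, one_apply]
  have h3 : mact R (F.D * σ + σ * F.D) M w = mact R (F.D * σ) M w + mact R (σ * F.D) M w := by
    ext i
    simp [mact_apply, add_smul, Finset.sum_add_distrib]
  have hw' : mact R F.D M w = 0 := hw
  rw [add_smul, h1, zero_add, ← h2, hσ, h3, mact_mul, mact_mul, hw', map_zero, add_zero]
  exact ⟨_, rfl⟩

theorem tor_ne_top (h : RegL R d) [Module.Finite R M] [Module.Finite R N] {I J : Ideal R} (hM : Kil I M)
    (hN : Kil J N) (hIJ : Prim I J) (i : ℕ) : tor R i M N ≠ ⊤ := by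
  obtain ⟨F, ε, hF⟩ := exists_res h N
  obtain ⟨c, hc⟩ := hF.pow_kills hM hN hIJ
  rw [tor_eq_tl hF]
  refine gw_ne_top (Q := (hon (F.cx R M)).Z i) (c := c) (Submodule.smul_le.2 fun y hy w _ => ?_)
  exact Submodule.mem_sup_left (hc y hy w.1 ((VCx.mem_Z _ _ _).1 w.2).2)

/-- Additivity in the first variable (`VSES.chi_add`). -/
theorem exists_chiL (h : RegL R d) [Module.Finite R N] {I J : Ideal R} (hN : Kil J N) (hIJ : Prim I J) :
    ∃ φ : AddFn R I, ∀ (M : Type) [AddCommGroup M] [Module R M], φ.φ M = chi R d M N := by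
  obtain ⟨F, ε, hF⟩ := exists_res h N
  refine ⟨⟨fun M _ _ => chi R d M N, fun M' M M'' _ _ _ _ _ _ _ f g hM hf hg hfg => ?_⟩, fun _ _ _ => rfl⟩
  have : Module.Finite R M' := Module.Finite.of_injective f hf
  have : Module.Finite R M'' := Module.Finite.of_surjective g hg
  simp only [chi, tor_eq_tl hF]
  refine (F.ses f g hf hg hfg).chi_add (fun i => ?_) fun i => ?_
  · have := tor_ne_top h (hM.of_injective f hf) hN hIJ i
    rwa [tor_eq_tl hF] at this
  · have := tor_ne_top h (hM.of_surjective g hg) hN hIJ i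
    rwa [tor_eq_tl hF] at this

/-- If `y ∈ 𝔪` is regular on `M` and `Tor_{i+1}(M / y, N) = 0` then `y` is injective and nilpotent on
`Tor_i(M, N)` (`VSES.cok_succ`, `MC.Res.pow_kills`). -/
theorem tor_step (h : RegL R d) [Module.Finite R M] [Module.Finite R N] {I J : Ideal R} (hM : Kil I M)
    (hN : Kil J N) (hIJ : Prim I J) {y : R} (hy : y ∈ maximalIdeal R) (hr : ∀ w : M, y • w = 0 → w = 0) {i : ℕ}
    (h0 : tor R (i + 1) (M ⧸ ism (Ideal.span {y}) M) N = 0) : tor R i M N = 0 := by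
  obtain ⟨F, ε, hF⟩ := exists_res h N
  obtain ⟨c, hc⟩ := hF.pow_kills hM hN hIJ
  have hs := F.ses (LinearMap.lsmul R M y) (ism (Ideal.span {y}) M).mkQ
    ((injective_iff_map_eq_zero _).2 hr) (Submodule.mkQ_surjective _) fun w => by
      rw [Submodule.mkQ_apply, Submodule.Quotient.mk_eq_zero, ln_mem_ism_span]
      rfl
  rw [tor_eq_tl hF] at h0 ⊢
  have h1 := cokL_le (hon (F.cx R M)) (hon (F.cx R (M ⧸ ism (Ideal.span {y}) M)))
    ((ism (Ideal.span {y}) M).mkQ.compLeft F.ι) (i + 1)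
  rw [hs.cok_succ, show (hon (F.cx R (M ⧸ ism (Ideal.span {y}) M))).h (i + 1) = 0 from h0,
    nonpos_iff_eq_zero, kerL, sql_eq_zero_iff] at h1
  have h2 : ∀ (k : ℕ), ∀ w ∈ (hon (F.cx R M)).Z i, y ^ k • w ∈ (hon (F.cx R M)).N →
      w ∈ (hon (F.cx R M)).N := by
    intro k
    induction k with
    | zero => intro w _ hw; rwa [pow_zero, one_smul] at hw
    | succ k ih =>
      intro w hw hw'
      rw [pow_succ', mul_smul] at hw'
      exact ih w hw (h1 ⟨Submodule.smul_mem _ _ hw, hw'⟩)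
  rw [MC.tl, VCx.h, sql_eq_zero_iff]
  intro w hw
  exact h2 c w hw (Submodule.mem_sup_left
    (hc _ (Ideal.pow_mem_pow hy c) w ((VCx.mem_Z _ _ _).1 hw).2))

omit [IsLocalRing R] [IsNoetherianRing R] in
theorem tb_idlLt_succ {a : ℕ} (y : Fin (a + 1) → R) (j : Fin a) :
    idlLt y j.succ = Ideal.span {y 0} ⊔ idlLt (fun i => y i.succ) j := by
  unfold idlLt
  rw [← Ideal.span_insert]
  congr 1
  ext r
  constructor
  · rintro ⟨i, hi, rfl⟩
    induction i using Fin.cases with
    | zero => exact Or.inl rfl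
    | succ i => exact Or.inr ⟨i, Fin.succ_lt_succ_iff.1 hi, rfl⟩
  · rintro (rfl | ⟨i, hi, rfl⟩)
    · exact ⟨0, Fin.succ_pos j, rfl⟩
    · exact ⟨i.succ, Fin.succ_lt_succ_iff.2 hi, rfl⟩

omit [IsLocalRing R] [IsNoetherianRing R] in
theorem tb_mem_quot (J : Ideal R) (U : Submodule R M) (w : M) :
    (Submodule.Quotient.mk w : M ⧸ U) ∈ ism J (M ⧸ U) ↔ w ∈ U ⊔ ism J M := by
  rw [← ln_map_ism_surj U.mkQ U.mkQ_surjective, ← Submodule.comap_map_mkQ]
  rfl

omit [IsLocalRing R] [IsNoetherianRing R] in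
theorem tb_reg_tail {a : ℕ} {y : Fin (a + 1) → R} (h : Reg y M) :
    Reg (fun i : Fin a => y i.succ) (M ⧸ ism (Ideal.span {y 0}) M) := by
  intro j w hw
  obtain ⟨w, rfl⟩ := Submodule.Quotient.mk_surjective _ w
  rw [← Submodule.Quotient.mk_smul] at hw
  rw [tb_mem_quot, ← ln_ism_sup, ← tb_idlLt_succ] at hw ⊢
  exact h _ _ hw

omit [IsLocalRing R] [IsNoetherianRing R] in
theorem tb_reg_head {a : ℕ} {y : Fin (a + 1) → R} (h : Reg y M) (w : M) (hw : y 0 • w = 0) : w = 0 := by
  have e : idlLt y 0 = ⊥ := by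
    unfold idlLt
    rw [Ideal.span_eq_bot]
    rintro _ ⟨i, hi, rfl⟩
    exact absurd hi (Fin.not_lt_zero i)
  have := h 0 w (by rw [hw]; exact Submodule.zero_mem _)
  rwa [e, ism, Submodule.bot_smul, Submodule.mem_bot] at this

theorem tb_desc (h : RegL R d) [Module.Finite R N] {I J : Ideal R} (hN : Kil J N) (hIJ : Prim I J) {b : ℕ}
    (base : ∀ (M : Type) [AddCommGroup M] [Module R M] [Module.Finite R M], Kil I M → ∀ i, d < i + b →
      tor R i M N = 0) (a : ℕ) :
    ∀ (M : Type) [AddCommGroup M] [Module R M] [Module.Finite R M], Kil I M → ∀ y : Fin a → R,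
      (∀ i, y i ∈ maximalIdeal R) → Reg y M → ∀ i, d < i + a + b → tor R i M N = 0 := by
  induction a with
  | zero => exact fun M _ _ _ hM _ _ _ i hi => base M hM i hi
  | succ a ih =>
    intro M _ _ _ hM y hy ry i hi
    exact tor_step h hM hN hIJ (hy 0) (tb_reg_head ry)
      (ih _ (hM.of_surjective _ (Submodule.mkQ_surjective _)) _ (fun i => hy _) (tb_reg_tail ry) _
        (by omega))

/-- Generalise to: `tor i M N = 0` whenever `d < i + a + b`; induct on `a` (dividing by `y 0`, or descending along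
`M / (y_{<j}) M`) with `tor_step`, then on `b` with `tor_symm`; start from `tor_gt`. -/
theorem tor_cm (h : RegL R d) [Module.Finite R M] [Module.Finite R N] {I J : Ideal R} (hM : Kil I M)
    (hN : Kil J N) (hIJ : Prim I J) {a b : ℕ} {y : Fin a → R} {z : Fin b → R} (hy : ∀ i, y i ∈ maximalIdeal R)
    (hz : ∀ i, z i ∈ maximalIdeal R) (ry : Reg y M) (rz : Reg z N) {i : ℕ} (hi : d < i + a + b) :
    tor R i M N = 0 := by
  refine tb_desc h hN hIJ (fun M' _ _ _ hM' i hi => ?_) a M hM y hy ry i hi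
  rw [tor_symm h]
  exact tb_desc (b := 0) h hM' hIJ.symm (fun N' _ _ _ _ i hi => tor_gt h hi) b N hN z hz rz i hi

end Crest.Agent.R188
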