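import Crest.Agent.R188.Defs2

/-!
# rid 188, file `VC`: the valuative criterion

Prefix helper lemmas with `vc_`.
-/

set_option autoImplicit false

open IsLocalRing Crest.Agent.R183

namespace Crest.Agent.R188

section vcaux

variable {B L : Type} [CommRing B] [CommRing L] (φ : B →+* L) (S : B) (I : Ideal B)

/-- The fractions `w / S^(M+1)` with `w ∈ I (I, S)^M`. -/
def vc_Q (x : L) : Prop := ∃ M : ℕ, ∃ w ∈ I * (I ⊔ Ideal.span {S}) ^ M, x * φ S ^ (M + 1) = φ w

theorem vc_up {M : ℕ} {w : B} (hw : w ∈ I * (I ⊔ Ideal.span {S}) ^ M) (N : ℕ) :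
    w * S ^ N ∈ I * (I ⊔ Ideal.span {S}) ^ (M + N) := by
  rw [pow_add, ← mul_assoc]
  exact Ideal.mul_mem_mul hw (Ideal.pow_mem_pow (Ideal.mem_sup_right (Ideal.mem_span_singleton_self S)) N)

variable {φ S I}

theorem vc_Q_zero : vc_Q φ S I 0 := ⟨0, 0, Ideal.zero_mem _, by simp⟩

theorem vc_Q_add {x y : L} (hx : vc_Q φ S I x) (hy : vc_Q φ S I y) : vc_Q φ S I (x + y) := by
  obtain ⟨M, w, hw, e⟩ := hx
  obtain ⟨N, w', hw', e'⟩ := hy
  refine ⟨M + N, w * S ^ N + w' * S ^ M, Ideal.add_mem _ (vc_up S I hw N) (add_comm N M ▸ vc_up S I hw' M), ?_⟩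
  rw [map_add, map_mul, map_mul, map_pow, map_pow, ← e, ← e']
  ring

theorem vc_Q_smul {x : L} (b : B) (hx : vc_Q φ S I x) : vc_Q φ S I (φ b * x) := by
  obtain ⟨M, w, hw, e⟩ := hx
  exact ⟨M, b * w, Ideal.mul_mem_left _ _ hw, by rw [map_mul, ← e, mul_assoc]⟩

theorem vc_Q_neg {x : L} (hx : vc_Q φ S I x) : vc_Q φ S I (-x) := by
  simpa using vc_Q_smul (-1) hx

theorem vc_Q_mul {x y : L} (hx : vc_Q φ S I x) (hy : vc_Q φ S I y) : vc_Q φ S I (x * y) := by
  obtain ⟨M, w, hw, e⟩ := hx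
  obtain ⟨N, w', hw', e'⟩ := hy
  refine ⟨M + N + 1, w * w', ?_, ?_⟩
  · have h1 : w' ∈ (I ⊔ Ideal.span {S}) ^ (N + 1) := by
      rw [pow_succ']
      exact Ideal.mul_mono_left le_sup_left hw'
    rw [add_assoc, pow_add, ← mul_assoc]
    exact Ideal.mul_mem_mul hw h1
  · rw [map_mul, ← e, ← e']
    ring

theorem vc_Q_prod {x y : L} {b b' : B} (hx : vc_Q φ S I (x - φ b)) (hy : vc_Q φ S I (y - φ b')) :
    vc_Q φ S I (x * y - φ (b * b')) := by
  have := vc_Q_add (vc_Q_add (vc_Q_smul b hy) (vc_Q_smul b' hx)) (vc_Q_mul hx hy)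
  convert this using 1
  rw [map_mul]; ring

theorem vc_Q_sum {x y : L} {b b' : B} (hx : vc_Q φ S I (x - φ b)) (hy : vc_Q φ S I (y - φ b')) :
    vc_Q φ S I (x + y - φ (b + b')) := by
  convert vc_Q_add hx hy using 1
  rw [map_add]; ring

variable (φ S I)

/-- The blow-up chart. -/
def vc_R : Subring L where
  carrier := {x | ∃ b, vc_Q φ S I (x - φ b)}
  mul_mem' := fun ⟨b, hb⟩ ⟨b', hb'⟩ => ⟨b * b', vc_Q_prod hb hb'⟩
  one_mem' := ⟨1, by simpa using vc_Q_zero⟩
  add_mem' := fun ⟨b, hb⟩ ⟨b', hb'⟩ => ⟨b + b', vc_Q_sum hb hb'⟩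
  zero_mem' := ⟨0, by simpa using vc_Q_zero⟩
  neg_mem' := fun ⟨b, hb⟩ => ⟨-b, by convert vc_Q_neg hb using 1; rw [map_neg]; ring⟩

theorem vc_mem_R (b : B) : φ b ∈ vc_R φ S I := ⟨b, by simpa using vc_Q_zero⟩

/-- The ideal of the chart generated by `Q` and `J`. -/
def vc_J (J : Ideal B) : Ideal (vc_R φ S I) where
  carrier := {x | ∃ m ∈ J, vc_Q φ S I (x.1 - φ m)}
  add_mem' := fun ⟨b, h, hb⟩ ⟨b', h', hb'⟩ => ⟨b + b', J.add_mem h h', vc_Q_sum hb hb'⟩
  zero_mem' := ⟨0, J.zero_mem, by simpa using vc_Q_zero⟩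
  smul_mem' := fun ⟨_, b, hb⟩ _ ⟨b', h', hb'⟩ => ⟨b * b', J.mul_mem_left _ h', vc_Q_prod hb hb'⟩

theorem vc_val {A : Type} [CommRing A] (J : Ideal A) (hJ : J ≠ ⊤) :
    ∃ (K : Type) (_ : Field K) (_ : IsAlgClosed K) (V : ValuationSubring K) (ι : A →+* K), (∀ y, ι y ∈ V) ∧
      (∀ y ∈ nonZeroDivisors A, ι y ≠ 0) ∧ ∀ y ∈ J, V.valuation (ι y) < 1 := by
  obtain ⟨𝔪, h𝔪, hle⟩ := J.exists_le_maximal hJ
  obtain ⟨𝔭, h𝔭, hp⟩ := Ideal.exists_minimalPrimes_le (I := (⊥ : Ideal A)) (J := 𝔪) bot_le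
  have : 𝔭.IsPrime := h𝔭.1.1
  let K := AlgebraicClosure (FractionRing (A ⧸ 𝔭))
  let ι : A →+* K := ((algebraMap (FractionRing (A ⧸ 𝔭)) K).comp (algebraMap (A ⧸ 𝔭) (FractionRing (A ⧸ 𝔭)))).comp
    (Ideal.Quotient.mk 𝔭)
  have hker : ∀ y, ι y = 0 → y ∈ 𝔭 := fun y hy => by
    have h1 := (map_eq_zero_iff _ (algebraMap (FractionRing (A ⧸ 𝔭)) K).injective).1 hy
    have h2 := (map_eq_zero_iff _ (IsFractionRing.injective (A ⧸ 𝔭) (FractionRing (A ⧸ 𝔭)))).1 h1
    exact Ideal.Quotient.eq_zero_iff_mem.1 h2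
  have hne : 𝔪.map ι.rangeRestrict ≠ ⊤ := by
    intro h
    have h1 := Ideal.comap_map_of_surjective ι.rangeRestrict ι.rangeRestrict_surjective 𝔪
    rw [h, Ideal.comap_top] at h1
    refine h𝔪.ne_top (top_le_iff.1 (h1.le.trans (sup_le le_rfl fun y hy => hp (hker y ?_))))
    exact congrArg Subtype.val (Ideal.mem_bot.1 (Ideal.mem_comap.1 hy))
  obtain ⟨V, hV1, hV2⟩ := Ideal.image_subset_nonunits_valuationSubring _ hne
  refine ⟨K, inferInstance, inferInstance, V, ι, fun y => hV1 ⟨y, rfl⟩, fun y hy h0 => ?_, fun y hy => ?_⟩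
  · exact Set.disjoint_left.1 (Ideal.disjoint_nonZeroDivisors_of_mem_minimalPrimes h𝔭) (hker y h0) hy
  · exact V.mem_nonunits_iff.1 (hV2 ⟨_, Ideal.mem_map_of_mem ι.rangeRestrict (hle hy), rfl⟩)

end vcaux


/-- Let `B'` be the subring of `Localization.Away S` generated by `B` and `β i = g i / S`.  Its elements are the
fractions `z / S^M` with `z ∈ (I ⊔ (S))^M`, and each is `b + ∑ β i * (element of B')`.  If the ideal `(β, μ)` of `B'`
is proper, take a maximal ideal `𝔪` above it and a minimal prime `𝔭 ≤ 𝔪` of `B'`; `S` is a non-zero-divisor of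
`B'`, so `S ∉ 𝔭` (`Ideal.disjoint_nonZeroDivisors_of_mem_minimalPrimes`).  Embed `B' / 𝔭` in an algebraically
closed field `K`; `Ideal.image_subset_nonunits_valuationSubring` gives `V`.  Otherwise `1 ∈ (β, μ)`; clear
denominators. -/
theorem vc {B : Type} [CommRing B] (S : B) {c e : ℕ} (g : Fin c → B) (μ : Fin e → B)
    (h : ∀ (K : Type) [Field K] [IsAlgClosed K] (V : ValuationSubring K) (f : B →+* K), (∀ y, f y ∈ V) →
      f S ≠ 0 → (∀ j, V.valuation (f (μ j)) < 1) → (∀ i, V.valuation (f (g i)) < V.valuation (f S)) → False) :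
    ∃ (M : ℕ) (η : B), η - 1 ∈ idl μ ∧ η * S ^ (M + 1) ∈ idl g * (idl g ⊔ Ideal.span {S}) ^ M := by
  let L := Localization.Away S
  let φ : B →+* L := algebraMap B L
  have hu : IsUnit (φ S) := IsLocalization.Away.algebraMap_isUnit S
  by_cases hJ : vc_J φ S (idl g) (idl μ) = ⊤
  · obtain ⟨m, hm, M, w, hw, e⟩ := (Ideal.eq_top_iff_one _).1 hJ
    have e' : φ ((1 - m) * S ^ (M + 1)) = φ w := by
      rw [← e, map_mul, map_sub, map_one, map_pow]
      rfl
    obtain ⟨⟨_, k, rfl⟩, hk⟩ := (IsLocalization.eq_iff_exists (Submonoid.powers S) L).1 e'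
    refine ⟨M + k, 1 - m, by simpa using hm, ?_⟩
    have h1 := vc_up S (idl g) hw k
    have h2 : (1 - m) * S ^ (M + k + 1) = w * S ^ k := by
      rw [mul_comm w]
      refine Eq.trans ?_ hk
      dsimp only
      ring
    rwa [h2]
  · exfalso
    obtain ⟨K, iK, aK, V, ι, h1, h2, h3⟩ := vc_val _ hJ
    let ψ : B →+* vc_R φ S (idl g) := φ.codRestrict _ (vc_mem_R φ S (idl g))
    have hS : ι (ψ S) ≠ 0 := by
      refine h2 _ (mem_nonZeroDivisors_iff_right.2 fun x hx => Subtype.ext ?_)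
      have : x.1 * φ S = 0 := congrArg Subtype.val hx
      exact (hu.mul_left_eq_zero).1 this
    refine h K V (ι.comp ψ) (fun y => h1 _) hS (fun j => h3 _ ?_) fun i => ?_
    · exact ⟨μ j, Ideal.subset_span ⟨j, rfl⟩, by
        change vc_Q φ S (idl g) (φ (μ j) - φ (μ j))
        rw [sub_self]; exact vc_Q_zero⟩
    · obtain ⟨u, hu'⟩ := hu.exists_right_inv
      have hq : vc_Q φ S (idl g) (φ (g i) * u - φ 0) := by
        refine ⟨0, g i, by rw [pow_zero, mul_one]; exact Ideal.subset_span ⟨i, rfl⟩, ?_⟩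
        rw [map_zero, sub_zero, zero_add, pow_one, mul_assoc, mul_comm u, hu', mul_one]
      let β : vc_R φ S (idl g) := ⟨φ (g i) * u, 0, hq⟩
      have hβ : V.valuation (ι β) < 1 := h3 β ⟨0, Ideal.zero_mem _, hq⟩
      have e : ψ (g i) = β * ψ S := Subtype.ext (by
        change φ (g i) = φ (g i) * u * φ S
        rw [mul_assoc, mul_comm u, hu', mul_one])
      rw [RingHom.comp_apply, RingHom.comp_apply, e, map_mul, map_mul]
      have h0 : 0 < V.valuation (ι (ψ S)) := zero_lt_iff.2 ((Valuation.ne_zero_iff _).2 hS)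
      calc _ < 1 * V.valuation (ι (ψ S)) := mul_lt_mul_of_pos_right hβ h0
        _ = _ := one_mul _
/-- `(I ⊔ (S))^(M+1) ≤ I (I ⊔ (S))^M`, then induct. -/
theorem pow_mem_of_int {O : Type} [CommRing O] {I : Ideal O} {S : O} {M : ℕ}
    (h : S ^ (M + 1) ∈ I * (I ⊔ Ideal.span {S}) ^ M) (n : ℕ) : S ^ (n + (M + 1)) ∈ I ^ (n + 1) := by
  obtain ⟨A, hA⟩ : ∃ A, A = I ⊔ Ideal.span {S} := ⟨_, rfl⟩
  rw [← hA] at h
  have hle : Ideal.span {S} ≤ A := by rw [hA]; exact le_sup_right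
  have hS : S ∈ A := hle (Ideal.mem_span_singleton_self S)
  have h1 : ∀ k, A ^ (k + 1) ≤ I * A ^ k ⊔ Ideal.span {S ^ (k + 1)} := by
    intro k
    induction k with
    | zero => rw [zero_add, pow_one, pow_one, pow_zero, mul_one]; exact hA.le
    | succ k ih =>
      have e : A ^ (k + 1 + 1) = I * A ^ (k + 1) ⊔ Ideal.span {S} * A ^ (k + 1) := by
        rw [pow_succ' A (k + 1), ← Ideal.sup_mul, ← hA]
      rw [e]
      refine sup_le le_sup_left ((Ideal.mul_mono_right ih).trans ?_)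
      rw [Ideal.mul_sup, Ideal.span_singleton_mul_span_singleton, ← pow_succ']
      refine sup_le_sup_right ?_ _
      rw [mul_left_comm, pow_succ' A k]
      exact Ideal.mul_mono_right (Ideal.mul_mono_left hle)
  have h2 : A ^ (M + 1) ≤ I * A ^ M :=
    (h1 M).trans (sup_le le_rfl ((Ideal.span_singleton_le_iff_mem _).2 h))
  have h3 : ∀ n, A ^ (n + (M + 1)) ≤ I ^ (n + 1) * A ^ M := by
    intro n
    induction n with
    | zero => rw [zero_add, zero_add, pow_one]; exact h2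
    | succ n ih =>
      calc A ^ (n + 1 + (M + 1)) = A ^ (n + (M + 1)) * A := by rw [← pow_succ, add_right_comm]
        _ ≤ I ^ (n + 1) * A ^ M * A := Ideal.mul_mono_left ih
        _ = I ^ (n + 1) * A ^ (M + 1) := by rw [mul_assoc, ← pow_succ]
        _ ≤ I ^ (n + 1) * (I * A ^ M) := Ideal.mul_mono_right h2
        _ = _ := by rw [← mul_assoc, ← pow_succ]
  have h4 : I ^ (n + 1) * A ^ M ≤ I ^ (n + 1) := Ideal.mul_le_left
  exact h4 (h3 n (Ideal.pow_mem_pow hS _))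

section val

variable {K : Type} [Field K] (V : ValuationSubring K) {B : Type} [CommRing B] (f : B →+* K)

/-- The elements of valuation `≤ γ` form an ideal. -/
theorem val_le_of_mem_span (hf : ∀ y, f y ∈ V) {s : Set B} {γ : V.ValueGroup}
    (h : ∀ y ∈ s, V.valuation (f y) ≤ γ) {y : B} (hy : y ∈ Ideal.span s) : V.valuation (f y) ≤ γ := by
  induction hy using Submodule.span_induction with
  | mem x hx => exact h x hx
  | zero => simp
  | add x y _ _ hx hy => rw [map_add]; exact V.valuation.map_add_le hx hy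
  | smul a x _ hx =>
    rw [smul_eq_mul, map_mul, map_mul]
    calc _ ≤ 1 * γ := mul_le_mul' ((V.valuation_le_one_iff _).2 (hf a)) hx
      _ = γ := one_mul γ
theorem val_lt_of_mem_span (hf : ∀ y, f y ∈ V) {s : Set B} {γ : V.ValueGroup} (hγ : γ ≠ 0)
    (h : ∀ y ∈ s, V.valuation (f y) < γ) {y : B} (hy : y ∈ Ideal.span s) : V.valuation (f y) < γ := by
  induction hy using Submodule.span_induction with
  | mem x hx => exact h x hx
  | zero => rw [map_zero, map_zero]; exact zero_lt_iff.2 hγ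
  | add x y _ _ hx hy => rw [map_add]; exact V.valuation.map_add_lt hx hy
  | smul a x _ hx =>
    rw [smul_eq_mul, map_mul, map_mul]
    calc _ ≤ 1 * V.valuation (f x) := mul_le_mul' ((V.valuation_le_one_iff _).2 (hf a)) le_rfl
      _ = _ := one_mul _
      _ < γ := hx
theorem val_lt_of_mem_sup {I J : Ideal B} {γ : V.ValueGroup} (hI : ∀ y ∈ I, V.valuation (f y) < γ)
    (hJ : ∀ y ∈ J, V.valuation (f y) < γ) {y : B} (hy : y ∈ I ⊔ J) : V.valuation (f y) < γ := by
  obtain ⟨a, ha, b, hb, rfl⟩ := Submodule.mem_sup.1 hy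
  rw [map_add]
  exact V.valuation.map_add_lt (hI a ha) (hJ b hb)
theorem val_le_of_mem_pow (hf : ∀ y, f y ∈ V) {I : Ideal B} {γ : V.ValueGroup}
    (hI : ∀ y ∈ I, V.valuation (f y) ≤ γ) (n : ℕ) {y : B} (hy : y ∈ I ^ n) : V.valuation (f y) ≤ γ ^ n := by
  induction n generalizing y with
  | zero => rw [pow_zero]; exact (V.valuation_le_one_iff _).2 (hf y)
  | succ n ih =>
    rw [pow_succ] at hy
    refine Submodule.mul_induction_on hy (fun a ha b hb => ?_) fun a b ha hb => ?_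
    · rw [map_mul, map_mul, pow_succ]
      exact mul_le_mul' (ih ha) (hI b hb)
    · rw [map_add]; exact V.valuation.map_add_le ha hb
/-- If all generators satisfy `v^C ≤ γ` then `I^(C n)` has valuation `≤ γ^n` (take the largest generator). -/
theorem val_le_of_mem_idl_pow (hf : ∀ y, f y ∈ V) {m : ℕ} {b : Fin m → B} {γ : V.ValueGroup} {C : ℕ} (hC : 0 < C)
    (hb : ∀ j, V.valuation (f (b j)) ^ C ≤ γ) (n : ℕ) {y : B} (hy : y ∈ idl b ^ (C * n)) :
    V.valuation (f y) ≤ γ ^ n := by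
  obtain ⟨δ, h1, h2⟩ : ∃ δ : V.ValueGroup, (∀ j, V.valuation (f (b j)) ≤ δ) ∧ δ ^ C ≤ γ := by
    rcases isEmpty_or_nonempty (Fin m) with hm | hm
    · exact ⟨0, fun j => hm.elim j, by rw [zero_pow hC.ne']; exact zero_le⟩
    · obtain ⟨j, hj⟩ := Finite.exists_max fun j => V.valuation (f (b j))
      exact ⟨_, hj, hb j⟩
  have h3 := val_le_of_mem_pow V f hf (I := idl b) (γ := δ)
    (fun y hy => val_le_of_mem_span V f hf (by rintro _ ⟨j, rfl⟩; exact h1 j) hy) _ hy
  rw [pow_mul] at h3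
  exact h3.trans (pow_le_pow_left' h2 n)
/-- Factor `G` over `K`; the roots are integral over `V` because the leading coefficient is a unit. -/
theorem exists_root_near [IsAlgClosed K] (G : Polynomial K) {N : ℕ} (hN : 0 < N) (hG : ∀ i, G.coeff i ∈ V)
    (hd : G.natDegree ≤ N) (hl : V.valuation (G.coeff N) = 1) (x s : K)
    (h : V.valuation (G.eval x) < V.valuation s ^ N) :
    ∃ ξ ∈ V, G.eval ξ = 0 ∧ V.valuation (x - ξ) < V.valuation s := by
  have hc : G.coeff N ≠ 0 := fun h0 => by simp [h0] at hl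
  have hdeg : G.natDegree = N := le_antisymm hd (Polynomial.le_natDegree_of_ne_zero hc)
  have hG0 : G ≠ 0 := fun h0 => hc (by simp [h0])
  have hs := IsAlgClosed.splits G
  have hlc : G.leadingCoeff = G.coeff N := by rw [Polynomial.leadingCoeff, hdeg]
  obtain ⟨ξ, hξ, hlt⟩ : ∃ ξ ∈ G.roots, V.valuation (x - ξ) < V.valuation s := by
    by_contra hh
    push Not at hh
    refine absurd h (not_lt.2 ?_)
    rw [hs.eval_eq_prod_roots, map_mul, hlc, hl, one_mul, map_multiset_prod, Multiset.map_map, ← hdeg,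
      hs.natDegree_eq_card_roots, ← Multiset.card_map (V.valuation ∘ fun a => x - a)]
    refine Multiset.pow_card_le_prod fun y hy => ?_
    obtain ⟨a, ha, rfl⟩ := Multiset.mem_map.1 hy
    exact hh a ha
  have hr : G.eval ξ = 0 := (Polynomial.mem_roots hG0).1 hξ
  refine ⟨ξ, ?_, hr, hlt⟩
  by_contra hn
  have h1 : 1 < V.valuation ξ := not_le.1 fun h' => hn ((V.valuation_le_one_iff _).1 h')
  have h0 : V.valuation ξ ≠ 0 := (zero_lt_one.trans h1).ne'
  rw [Polynomial.eval_eq_sum_range, hdeg, Finset.sum_range_succ] at hr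
  have h2 : V.valuation (∑ i ∈ Finset.range N, G.coeff i * ξ ^ i) < V.valuation ξ ^ N := by
    refine V.valuation.map_sum_lt (pow_ne_zero _ h0) fun i hi => ?_
    rw [map_mul, map_pow]
    calc _ ≤ 1 * V.valuation ξ ^ i := mul_le_mul' ((V.valuation_le_one_iff _).2 (hG i)) le_rfl
      _ = _ := one_mul _
      _ < _ := pow_lt_pow_right₀ h1 (Finset.mem_range.1 hi)
  rw [eq_neg_of_add_eq_zero_left hr, Valuation.map_neg, map_mul, map_pow, hl, one_mul] at h2
  exact lt_irrefl _ h2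
end val

end Crest.Agent.R188
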